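import Vale.Agent.P251.G.Bundle

/-!
# P251, part G: Grassmannians and Thom spaces (projection model)

For a finite index type `I` and `n : ℕ`:
* `IsProj n P` : `P` is a hermitian projection of rank (trace) `n`;
* `Gr n I` : the compact space of these;
* `Th n I` : pairs `(P, v)` with `P *ᵥ v = v`, the total space of the tautological bundle (an object of
  `LC` through `LC.of (Th n I)`: the Thom space without its base point);
* `nsq v = ∑ ‖v i‖²`, the proper function used for all properness arguments;
* `Th.hom` : construction of `LC`-morphisms into `Th n I`.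
-/

open CategoryTheory MonoidalCategory Filter Topology OnePoint Matrix

namespace Vale.Agent.P251.G

section nsq

variable {I J : Type} [Fintype I] [Fintype J]

theorem nsq_comp_equiv (e : J ≃ I) (v : I → ℂ) : nsq (v ∘ e) = nsq v :=
  Equiv.sum_comp e fun i => Complex.normSq (v i)

/-- If `uᴴ * u` fixes `v`, then `u` preserves the norm of `v`. -/
theorem nsq_mulVec {u : Matrix J I ℂ} {v : I → ℂ} (h : (uᴴ * u) *ᵥ v = v) :
    nsq (u *ᵥ v) = nsq v := by
  have h1 : ((nsq (u *ᵥ v) : ℝ) : ℂ) = ((nsq v : ℝ) : ℂ) := by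
    rw [nsq_eq_dotProduct, nsq_eq_dotProduct, star_mulVec, ← dotProduct_mulVec, mulVec_mulVec, h]
  exact_mod_cast h1

/-- the norm tends to infinity exactly when we leave every compact set -/
theorem cocompact_vec : cocompact (I → ℂ) = comap (nsq : (I → ℂ) → ℝ) atTop := by
  apply le_antisymm
  · rw [← tendsto_iff_comap]
    refine tendsto_atTop_mono norm_sq_le_nsq ?_
    exact (tendsto_pow_atTop two_ne_zero).comp tendsto_norm_cocompact_atTop
  · intro s hs
    rw [mem_cocompact] at hs
    obtain ⟨t, ht, hts⟩ := hs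
    rw [mem_comap]
    obtain ⟨B, hB⟩ := (ht.image continuous_nsq).bddAbove
    refine ⟨Set.Ioi B, Ioi_mem_atTop B, fun x hx => hts fun hxt => ?_⟩
    exact absurd (hB ⟨x, hxt, rfl⟩) (not_le.mpr hx)

theorem isCompact_nsq_le (r : ℝ) : IsCompact {v : I → ℂ | nsq v ≤ r} := by
  have h1 : IsClosed {v : I → ℂ | nsq v ≤ r} := isClosed_le continuous_nsq continuous_const
  refine IsCompact.of_isClosed_subset (isCompact_closedBall (0 : I → ℂ) (Real.sqrt r)) h1 ?_
  intro v hv
  rw [mem_closedBall_zero_iff]
  exact Real.le_sqrt_of_sq_le ((norm_sq_le_nsq v).trans hv)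

end nsq

/-- Hermitian projections of rank `n`. -/
structure IsProj {I : Type} [Fintype I] (n : ℕ) (P : Matrix I I ℂ) : Prop where
  idem : P * P = P
  herm : Pᴴ = P
  trace : P.trace = n

section IsProj

variable {I J : Type} [Fintype I] [Fintype J] {n m : ℕ} {P : Matrix I I ℂ}

theorem IsProj.diag_eq (h : IsProj n P) (i : I) : P i i = ((nsq (P i) : ℝ) : ℂ) := by
  have h1 : (P * Pᴴ) i i = P i i := by rw [h.herm, h.idem]
  rw [← h1, Matrix.mul_apply, nsq_eq_dotProduct, dotProduct]
  refine Finset.sum_congr rfl fun j _ => ?_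
  rw [conjTranspose_apply, Pi.star_apply, mul_comm]

theorem IsProj.nsq_row_le (h : IsProj n P) (i : I) : nsq (P i) ≤ 1 := by
  have h1 : ‖P i i‖ = nsq (P i) := by
    rw [h.diag_eq i, Complex.norm_real, Real.norm_of_nonneg (nsq_nonneg _)]
  have h2 := normSq_le_nsq (P i) i
  rw [Complex.normSq_eq_norm_sq, h1] at h2
  have h3 := nsq_nonneg (P i)
  by_contra hc
  push Not at hc
  nlinarith

theorem IsProj.norm_le (h : IsProj n P) (i j : I) : ‖P i j‖ ≤ 1 := by
  have h1 := (normSq_le_nsq (P i) j).trans (h.nsq_row_le i)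
  rw [Complex.normSq_eq_norm_sq] at h1
  have h2 := norm_nonneg (P i j)
  nlinarith

theorem isClosed_isProj (n : ℕ) (I : Type) [Fintype I] :
    IsClosed {P : Matrix I I ℂ | IsProj n P} := by
  have h : {P : Matrix I I ℂ | IsProj n P} =
      {P : Matrix I I ℂ | P * P = P} ∩ {P : Matrix I I ℂ | Pᴴ = P} ∩
        {P : Matrix I I ℂ | P.trace = n} := by
    ext P
    exact ⟨fun h => ⟨⟨h.idem, h.herm⟩, h.trace⟩, fun h => ⟨h.1.1, h.1.2, h.2⟩⟩
  rw [h]
  refine ((isClosed_eq ?_ ?_).inter (isClosed_eq ?_ ?_)).inter (isClosed_eq ?_ ?_)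
  · fun_prop
  · fun_prop
  · fun_prop
  · fun_prop
  · fun_prop
  · fun_prop

theorem isCompact_isProj (n : ℕ) (I : Type) [Fintype I] :
    IsCompact {P : Matrix I I ℂ | IsProj n P} := by
  have h1 : IsCompact {P : I → I → ℂ | ∀ i, P i ∈ {v : I → ℂ | ∀ j, v j ∈ Metric.closedBall 0 1}} :=
    isCompact_pi_infinite fun i => isCompact_pi_infinite fun j => isCompact_closedBall (0 : ℂ) 1
  refine IsCompact.of_isClosed_subset h1 (isClosed_isProj n I) ?_
  intro P hP i j
  rw [mem_closedBall_zero_iff]
  exact hP.norm_le i j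

/-- conjugation by a partial isometry whose initial space contains the image of `P` -/
theorem IsProj.conj (h : IsProj n P) {u : Matrix J I ℂ} (hu : uᴴ * u * P = P) :
    IsProj n (u * P * uᴴ) where
  idem := by
    calc u * P * uᴴ * (u * P * uᴴ) = u * (P * (uᴴ * u * P)) * uᴴ := by
          simp only [Matrix.mul_assoc]
      _ = _ := by rw [hu, h.idem]
  herm := by
    rw [conjTranspose_mul, conjTranspose_mul, conjTranspose_conjTranspose, h.herm,
      Matrix.mul_assoc]
  trace := by
    rw [trace_mul_comm, ← Matrix.mul_assoc, hu, h.trace]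

theorem IsProj.conj_mulVec (h : IsProj n P) {u : Matrix J I ℂ} (hu : uᴴ * u * P = P) {v : I → ℂ}
    (hv : P *ᵥ v = v) : (u * P * uᴴ) *ᵥ (u *ᵥ v) = u *ᵥ v := by
  have h2 : P * (uᴴ * u) = P := by
    have := congrArg conjTranspose hu
    rwa [conjTranspose_mul, conjTranspose_mul, conjTranspose_conjTranspose, h.herm] at this
  rw [mulVec_mulVec, Matrix.mul_assoc, Matrix.mul_assoc, h2, ← mulVec_mulVec, hv]

theorem IsProj.one [DecidableEq I] : IsProj (Fintype.card I) (1 : Matrix I I ℂ) where
  idem := Matrix.mul_one 1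
  herm := conjTranspose_one
  trace := by simp

theorem IsProj.zero : IsProj 0 (0 : Matrix I I ℂ) where
  idem := Matrix.mul_zero 0
  herm := conjTranspose_zero
  trace := by simp

theorem IsProj.fromBlocks {Q : Matrix J J ℂ} (h : IsProj n P) (h' : IsProj m Q) :
    IsProj (n + m) (Matrix.fromBlocks P 0 0 Q) where
  idem := by
    rw [fromBlocks_multiply]
    simp [h.idem, h'.idem]
  herm := by
    rw [fromBlocks_conjTranspose, h.herm, h'.herm]
    simp
  trace := by
    have h1 : (Matrix.fromBlocks P 0 0 Q).trace = P.trace + Q.trace := by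
      simp [Matrix.trace]
    rw [h1, h.trace, h'.trace]
    push_cast
    rfl

end IsProj

/-- The Grassmannian of `n`-dimensional subspaces of `ℂ^I`: hermitian projections of rank `n`. -/
def Gr (n : ℕ) (I : Type) [Fintype I] : Type := {P : Matrix I I ℂ // IsProj n P}

/-- The total space of the tautological bundle over `Gr n I`. -/
def Th (n : ℕ) (I : Type) [Fintype I] : Type :=
  {x : Matrix I I ℂ × (I → ℂ) // IsProj n x.1 ∧ x.1 *ᵥ x.2 = x.2}

section instances

variable (n : ℕ) (I : Type) [Fintype I]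

instance : TopologicalSpace (Gr n I) := inferInstanceAs (TopologicalSpace (Subtype _))
instance : TopologicalSpace (Th n I) := inferInstanceAs (TopologicalSpace (Subtype _))
instance : T2Space (Gr n I) := inferInstanceAs (T2Space (Subtype _))
instance : T2Space (Th n I) := inferInstanceAs (T2Space (Subtype _))

instance : CompactSpace (Gr n I) := isCompact_iff_compactSpace.mp (isCompact_isProj n I)

instance : LocallyCompactSpace (Matrix I I ℂ) :=
  inferInstanceAs (LocallyCompactSpace (I → I → ℂ))

theorem isClosed_th : IsClosed {x : Matrix I I ℂ × (I → ℂ) | IsProj n x.1 ∧ x.1 *ᵥ x.2 = x.2} :=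
  ((isClosed_isProj n I).preimage continuous_fst).inter (isClosed_eq (by fun_prop) (by fun_prop))

instance : LocallyCompactSpace (Th n I) :=
  (isClosed_th n I).isClosedEmbedding_subtypeVal.locallyCompactSpace

end instances

section Gr

variable {n : ℕ} {I : Type} [Fintype I]

/-- the projection -/
def Gr.P (x : Gr n I) : Matrix I I ℂ := x.1

theorem Gr.isProj (x : Gr n I) : IsProj n x.P := x.2

@[ext] theorem Gr.ext {x y : Gr n I} (h : x.P = y.P) : x = y := Subtype.ext h

@[fun_prop] theorem Gr.continuous_P : Continuous (Gr.P : Gr n I → _) := continuous_subtype_val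

/-- constructor of points of `Th n I` -/
def Th.mk (P : Matrix I I ℂ) (v : I → ℂ) (h : IsProj n P) (hv : P *ᵥ v = v) : Th n I :=
  ⟨(P, v), h, hv⟩

/-- the projection -/
def Th.P (x : Th n I) : Matrix I I ℂ := x.1.1
/-- the vector -/
def Th.v (x : Th n I) : I → ℂ := x.1.2

@[simp] theorem Th.mk_P (P : Matrix I I ℂ) (v : I → ℂ) (h : IsProj n P) (hv : P *ᵥ v = v) :
    (Th.mk P v h hv).P = P := rfl
@[simp] theorem Th.mk_v (P : Matrix I I ℂ) (v : I → ℂ) (h : IsProj n P) (hv : P *ᵥ v = v) :
    (Th.mk P v h hv).v = v := rfl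

theorem Th.isProj (x : Th n I) : IsProj n x.P := x.2.1
theorem Th.P_mulVec (x : Th n I) : x.P *ᵥ x.v = x.v := x.2.2

@[ext] theorem Th.ext {x y : Th n I} (h : x.P = y.P) (h' : x.v = y.v) : x = y :=
  Subtype.ext (Prod.ext h h')

@[fun_prop] theorem Th.continuous_P : Continuous (Th.P : Th n I → _) :=
  continuous_fst.comp continuous_subtype_val
@[fun_prop] theorem Th.continuous_v : Continuous (Th.v : Th n I → _) :=
  continuous_snd.comp continuous_subtype_val

/-- the bundle projection `Th n I → Gr n I` -/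
def Th.gr (x : Th n I) : Gr n I := ⟨x.P, x.isProj⟩

@[fun_prop] theorem Th.continuous_gr : Continuous (Th.gr : Th n I → Gr n I) :=
  Th.continuous_P.subtype_mk _

/-- the zero section -/
def Gr.zero (x : Gr n I) : Th n I := ⟨(x.P, 0), x.isProj, mulVec_zero _⟩

@[fun_prop] theorem Gr.continuous_zero : Continuous (Gr.zero : Gr n I → Th n I) :=
  (Gr.continuous_P.prodMk continuous_const).subtype_mk _

theorem Th.cocompact_eq : cocompact (Th n I) = comap (fun x : Th n I => nsq x.v) atTop := by
  apply le_antisymm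
  · rw [← tendsto_iff_comap, tendsto_atTop]
    intro r
    have hK : IsCompact {x : Th n I | nsq x.v ≤ r} := by
      have h1 : IsCompact ({P : Matrix I I ℂ | IsProj n P} ×ˢ {v : I → ℂ | nsq v ≤ r}) :=
        (isCompact_isProj n I).prod (isCompact_nsq_le r)
      have h2 := (isClosed_th n I).isClosedEmbedding_subtypeVal.isCompact_preimage h1
      refine h2.of_isClosed_subset (isClosed_le (by fun_prop) continuous_const) ?_
      intro x hx
      exact ⟨Th.isProj x, hx⟩
    refine mem_of_superset hK.compl_mem_cocompact ?_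
    intro x hx
    simp only [Set.mem_compl_iff, Set.mem_ofPred_eq, not_le] at hx
    exact hx.le
  · intro s hs
    rw [mem_cocompact] at hs
    obtain ⟨t, ht, hts⟩ := hs
    rw [mem_comap]
    obtain ⟨B, hB⟩ := (ht.image (f := fun x : Th n I => nsq x.v) (by fun_prop)).bddAbove
    refine ⟨Set.Ioi B, Ioi_mem_atTop B, fun x hx => hts fun hxt => ?_⟩
    exact absurd (hB ⟨x, hxt, rfl⟩) (not_le.mpr hx)

theorem Th.tendsto_cocompact_iff {α : Type*} {l : Filter α} {f : α → Th n I} :
    Tendsto f l (cocompact (Th n I)) ↔ Tendsto (fun a => nsq (f a).v) l atTop := by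
  rw [Th.cocompact_eq, tendsto_comap_iff]
  rfl

theorem Th.tendsto_nsq : Tendsto (fun x : Th n I => nsq x.v) (cocompact (Th n I)) atTop :=
  Th.tendsto_cocompact_iff.mp tendsto_id

/-- Construction of morphisms into `Th n I`. -/
def Th.hom {X : LC} (P : X → Matrix I I ℂ) (v : X → I → ℂ) (hP : Continuous P)
    (hv : Continuous v) (h : ∀ x, IsProj n (P x)) (hPv : ∀ x, P x *ᵥ v x = v x)
    (hn : Tendsto (fun x => nsq (v x)) (cocompact X) atTop) : X ⟶ LC.of (Th n I) :=
  LC.ofProper (Y := LC.of (Th n I)) (fun x => Th.mk (P x) (v x) (h x) (hPv x))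
    ((hP.prodMk hv).subtype_mk _) (Th.tendsto_cocompact_iff.mpr hn)

@[simp] theorem Th.app_hom_coe {X : LC} (P : X → Matrix I I ℂ) (v : X → I → ℂ)
    (hP : Continuous P) (hv : Continuous v) (h : ∀ x, IsProj n (P x))
    (hPv : ∀ x, P x *ᵥ v x = v x)
    (hn : Tendsto (fun x => nsq (v x)) (cocompact X) atTop) (x : X) :
    LC.app (Th.hom P v hP hv h hPv hn) (x : OnePoint X) =
      (Th.mk (P x) (v x) (h x) (hPv x) : OnePoint (Th n I)) := rfl

end Gr

section filters

variable {X Y : Type} [TopologicalSpace X] [TopologicalSpace Y]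

theorem tendsto_fst_cocompact [CompactSpace Y] :
    Tendsto (Prod.fst : X × Y → X) (cocompact (X × Y)) (cocompact X) := by
  rw [← coprod_cocompact, cocompact_eq_bot (X := Y), coprod_bot]
  exact tendsto_comap

theorem tendsto_snd_cocompact [CompactSpace X] :
    Tendsto (Prod.snd : X × Y → Y) (cocompact (X × Y)) (cocompact Y) := by
  rw [← coprod_cocompact, cocompact_eq_bot (X := X), bot_coprod]
  exact tendsto_comap

/-- sums of proper nonnegative functions are proper on the product -/
theorem tendsto_add_cocompact {f : X → ℝ} {g : Y → ℝ} (hf : Tendsto f (cocompact X) atTop)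
    (hg : Tendsto g (cocompact Y) atTop) (hf0 : ∀ x, 0 ≤ f x) (hg0 : ∀ y, 0 ≤ g y) :
    Tendsto (fun p : X × Y => f p.1 + g p.2) (cocompact (X × Y)) atTop := by
  rw [← coprod_cocompact, Filter.coprod, tendsto_sup]
  constructor
  · exact tendsto_atTop_mono (fun p => le_add_of_nonneg_right (hg0 _)) (hf.comp tendsto_comap)
  · exact tendsto_atTop_mono (fun p => le_add_of_nonneg_left (hf0 _)) (hg.comp tendsto_comap)

end filters

section taut

variable (n : ℕ) (I : Type) [Fintype I]

/-- the tautological bundle -/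
def taut : Bun (Gr n I) I where
  P := Gr.P
  cont := Gr.continuous_P
  idem x := x.isProj.idem
  herm x := x.isProj.herm

theorem taut_isRank : (taut n I).IsRank n := fun x => x.isProj.trace

@[simp] theorem taut_P (x : Gr n I) : (taut n I).P x = x.P := rfl

/-- `Th n I` is the total space of the tautological bundle. -/
def tautHomeo : (taut n I).E ≃ₜ Th n I where
  toFun p := Th.mk (Bun.base p).P (Bun.vec p) (Bun.base p).isProj (Bun.P_vec p)
  invFun x := Bun.mkE _ x.gr x.v x.P_mulVec
  left_inv _ := rfl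
  right_inv _ := rfl
  continuous_toFun := ((Gr.continuous_P.comp Bun.continuous_base).prodMk
    Bun.continuous_vec).subtype_mk _
  continuous_invFun := Bun.continuous_mkE Th.continuous_gr Th.continuous_v _

variable {n I} {X : Type} [TopologicalSpace X]

/-- the classifying map of a bundle -/
def Bun.toGr (V : Bun X I) (h : V.IsRank n) : C(X, Gr n I) where
  toFun x := ⟨V.P x, V.idem x, V.herm x, h x⟩
  continuous_toFun := V.cont.subtype_mk _

@[simp] theorem Bun.toGr_P (V : Bun X I) (h : V.IsRank n) (x : X) : (V.toGr h x).P = V.P x := rfl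

end taut

end Vale.Agent.P251.G
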