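import Mathlib.Topology.Compactification.OnePoint.Basic
import Mathlib.Topology.Homotopy.Basic
import Mathlib.CategoryTheory.Monoidal.Braided.Basic
import Mathlib.CategoryTheory.Limits.Shapes.ZeroMorphisms

/-!
# P251, part G: the category `LC`

Objects: locally compact Hausdorff spaces (in `Type`).  A morphism `X ⟶ Y` is a pointed continuous
map of one-point compactifications `OnePoint X → OnePoint Y`.  The tensor product is the product of
spaces (this is the smash product of one-point compactifications), the unit is the point.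
-/

open CategoryTheory MonoidalCategory Filter Topology OnePoint

namespace Vale.Agent.P251.G

/-- A locally compact Hausdorff space. -/
structure LC where
  /-- the underlying type -/
  carrier : Type
  [top : TopologicalSpace carrier]
  [lcs : LocallyCompactSpace carrier]
  [t2 : T2Space carrier]

namespace LC

instance : CoeSort LC Type := ⟨LC.carrier⟩

attribute [instance] LC.top LC.lcs LC.t2

/-- the object of `LC` given by a locally compact Hausdorff space -/
abbrev of (X : Type) [TopologicalSpace X] [LocallyCompactSpace X] [T2Space X] : LC := ⟨X⟩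

/-- Morphisms: pointed continuous maps of one-point compactifications. -/
@[ext]
structure Hom (X Y : LC) where
  /-- the map of one-point compactifications -/
  toMap : C(OnePoint X, OnePoint Y)
  map_infty : toMap ∞ = ∞

instance : Category LC where
  Hom X Y := Hom X Y
  id X := ⟨ContinuousMap.id _, rfl⟩
  comp f g := ⟨g.toMap.comp f.toMap, by
    rw [ContinuousMap.comp_apply, f.map_infty, g.map_infty]⟩

/-- the underlying function of one-point compactifications of a morphism -/
def app {X Y : LC} (f : X ⟶ Y) : OnePoint X → OnePoint Y := fun x => Hom.toMap f x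

@[continuity, fun_prop]
theorem continuous_app {X Y : LC} (f : X ⟶ Y) : Continuous (app f) := (Hom.toMap f).continuous

@[simp] theorem app_infty {X Y : LC} (f : X ⟶ Y) : app f ∞ = ∞ := Hom.map_infty f

@[simp] theorem app_id (X : LC) (x : OnePoint X) : app (𝟙 X) x = x := rfl

@[simp] theorem app_comp {X Y Z : LC} (f : X ⟶ Y) (g : Y ⟶ Z) (x : OnePoint X) :
    app (f ≫ g) x = app g (app f x) := rfl

theorem toMap_apply {X Y : LC} (f : X ⟶ Y) (x : OnePoint X) : Hom.toMap f x = app f x := rfl

/-- Morphisms are determined by their values on points. -/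
@[ext (iff := false)]
theorem hom_ext {X Y : LC} {f g : X ⟶ Y} (h : ∀ x : X, app f (x : OnePoint X) = app g x) :
    f = g := by
  apply Hom.ext
  ext x
  induction x using OnePoint.rec with
  | infty => exact (Hom.map_infty f).trans (Hom.map_infty g).symm
  | coe x => exact h x

section constructors

variable {X Y Z : LC}

/-- A morphism from a function `X → OnePoint Y` that is continuous and tends to `∞` at infinity. -/
def mk' (f : X → OnePoint Y) (hf : Continuous f) (h : Tendsto f (cocompact X) (𝓝 ∞)) : X ⟶ Y :=
  ⟨OnePoint.continuousMapMk ⟨f, hf⟩ ∞ (by rwa [coclosedCompact_eq_cocompact]), rfl⟩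

@[simp] theorem app_mk'_coe (f : X → OnePoint Y) (hf : Continuous f)
    (h : Tendsto f (cocompact X) (𝓝 ∞)) (x : X) : app (mk' f hf h) (x : OnePoint X) = f x := rfl

/-- A proper continuous map gives a morphism. -/
def ofProper (f : X → Y) (hf : Continuous f) (h : Tendsto f (cocompact X) (cocompact Y)) : X ⟶ Y :=
  ⟨⟨OnePoint.map f, OnePoint.continuous_map hf (by
    rwa [coclosedCompact_eq_cocompact, coclosedCompact_eq_cocompact])⟩, rfl⟩

@[simp] theorem app_ofProper_coe (f : X → Y) (hf : Continuous f)
    (h : Tendsto f (cocompact X) (cocompact Y)) (x : X) :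
    app (ofProper f hf h) (x : OnePoint X) = (f x : OnePoint Y) := rfl

/-- A closed embedding gives a morphism. -/
def ofClosed (f : X → Y) (hf : IsClosedEmbedding f) : X ⟶ Y :=
  ofProper f hf.continuous hf.tendsto_cocompact

@[simp] theorem app_ofClosed_coe (f : X → Y) (hf : IsClosedEmbedding f) (x : X) :
    app (ofClosed f hf) (x : OnePoint X) = (f x : OnePoint Y) := rfl

/-- A map out of a compact space gives a morphism. -/
def ofCompact [CompactSpace X] (f : X → Y) (hf : Continuous f) : X ⟶ Y :=
  ofProper f hf (by rw [cocompact_eq_bot]; exact tendsto_bot)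

@[simp] theorem app_ofCompact_coe [CompactSpace X] (f : X → Y) (hf : Continuous f) (x : X) :
    app (ofCompact f hf) (x : OnePoint X) = (f x : OnePoint Y) := rfl

/-- A homeomorphism gives an isomorphism. -/
def ofHomeo (e : X ≃ₜ Y) : X ≅ Y where
  hom := ofClosed e e.isClosedEmbedding
  inv := ofClosed e.symm e.symm.isClosedEmbedding
  hom_inv_id := by ext x; simp
  inv_hom_id := by ext x; simp

@[simp] theorem app_ofHomeo_hom_coe (e : X ≃ₜ Y) (x : X) :
    app (ofHomeo e).hom (x : OnePoint X) = (e x : OnePoint Y) := rfl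

@[simp] theorem app_ofHomeo_inv_coe (e : X ≃ₜ Y) (y : Y) :
    app (ofHomeo e).inv (y : OnePoint Y) = (e.symm y : OnePoint X) := rfl

open scoped Classical in
/-- The collapse `OnePoint X → OnePoint U` of an open embedding `U → X`: as a function. -/
noncomputable def collapseFun (j : Y → X) (x : OnePoint X) : OnePoint Y :=
  if h : ∃ u, (j u : OnePoint X) = x then (h.choose : OnePoint Y) else ∞

theorem collapseFun_coe_of_injective {j : Y → X} (hj : Function.Injective j) (u : Y) :
    collapseFun j (j u : OnePoint X) = (u : OnePoint Y) := by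
  unfold collapseFun
  have h : ∃ v, (j v : OnePoint X) = (j u : OnePoint X) := ⟨u, rfl⟩
  rw [dif_pos h]
  congr 1
  apply hj
  exact OnePoint.coe_injective h.choose_spec

theorem collapseFun_of_notMem {j : Y → X} {x : X} (h : x ∉ Set.range j) :
    collapseFun j (x : OnePoint X) = ∞ := by
  unfold collapseFun
  rw [dif_neg]
  rintro ⟨u, hu⟩
  exact h ⟨u, OnePoint.coe_injective hu⟩

theorem collapseFun_infty (j : Y → X) : collapseFun j (∞ : OnePoint X) = ∞ := by
  unfold collapseFun
  rw [dif_neg]
  rintro ⟨u, hu⟩
  exact OnePoint.coe_ne_infty _ hu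

theorem continuous_collapseFun {j : Y → X} (hj : IsOpenEmbedding j) :
    Continuous (collapseFun j) := by
  have hJ : IsOpenEmbedding (fun u => (j u : OnePoint X)) :=
    OnePoint.isOpenEmbedding_coe.comp hj
  have key : ∀ K : Set Y, (collapseFun j) ⁻¹' ((↑) '' K) = (fun u => (j u : OnePoint X)) '' K := by
    intro K
    ext x
    constructor
    · rintro ⟨u, hu, hx⟩
      by_cases h : ∃ v, (j v : OnePoint X) = x
      · obtain ⟨v, rfl⟩ := h
        rw [collapseFun_coe_of_injective hj.injective] at hx
        exact ⟨v, by rwa [← OnePoint.coe_injective hx], rfl⟩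
      · exfalso
        unfold collapseFun at hx
        rw [dif_neg h] at hx
        exact OnePoint.coe_ne_infty _ hx
    · rintro ⟨u, hu, rfl⟩
      exact ⟨u, hu, (collapseFun_coe_of_injective hj.injective u).symm⟩
  refine continuous_def.mpr fun V hV => ?_
  by_cases hm : (∞ : OnePoint Y) ∈ V
  · rw [OnePoint.isOpen_iff_of_mem hm] at hV
    obtain ⟨-, hK⟩ := hV
    have h1 : V = ((↑) '' (((↑) : Y → OnePoint Y) ⁻¹' V)ᶜ)ᶜ := by
      ext y
      induction y using OnePoint.rec with
      | infty => simp [hm]
      | coe y => simp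
    rw [h1, Set.preimage_compl, key]
    exact (hK.image hJ.continuous).isClosed.isOpen_compl
  · have h1 : V = (↑) '' (((↑) : Y → OnePoint Y) ⁻¹' V) := by
      ext y
      induction y using OnePoint.rec with
      | infty => simp [hm]
      | coe y => simp
    rw [h1, key]
    exact hJ.isOpenMap _ (hV.preimage OnePoint.continuous_coe)

/-- The collapse morphism `X ⟶ U` of an open embedding `U → X`. -/
noncomputable def ofOpen (j : Y → X) (hj : IsOpenEmbedding j) : X ⟶ Y :=
  ⟨⟨collapseFun j, continuous_collapseFun hj⟩, collapseFun_infty j⟩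

theorem app_ofOpen (j : Y → X) (hj : IsOpenEmbedding j) (x : OnePoint X) :
    app (ofOpen j hj) x = collapseFun j x := rfl

@[simp] theorem app_ofOpen_coe (j : Y → X) (hj : IsOpenEmbedding j) (u : Y) :
    app (ofOpen j hj) (j u : OnePoint X) = (u : OnePoint Y) :=
  collapseFun_coe_of_injective hj.injective u

theorem app_ofOpen_of_notMem (j : Y → X) (hj : IsOpenEmbedding j) {x : X}
    (h : x ∉ Set.range j) : app (ofOpen j hj) (x : OnePoint X) = ∞ :=
  collapseFun_of_notMem h

end constructors

section zero

/-- The zero morphism: the constant map with value `∞`. -/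
instance : Limits.HasZeroMorphisms LC where
  zero X Y := ⟨⟨ContinuousMap.const _ ∞, rfl⟩⟩
  comp_zero := by intros; rfl
  zero_comp := by
    intro X Y Z f
    apply hom_ext
    intro x
    exact app_infty f

@[simp] theorem app_zero {X Y : LC} (x : OnePoint X) : app (0 : X ⟶ Y) x = ∞ := rfl

end zero

section smash

variable {X Y Z W : Type} [TopologicalSpace X] [TopologicalSpace Y]

/-- The canonical map `OnePoint X × OnePoint Y → OnePoint (X × Y)`. -/
def smash {X Y : Type} (x : OnePoint X) (y : OnePoint Y) : OnePoint (X × Y) :=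
  x.elim ∞ (fun x => y.elim ∞ (fun y => ((x, y) : X × Y)))

@[simp] theorem smash_coe_coe {X Y : Type} (x : X) (y : Y) :
    smash (x : OnePoint X) (y : OnePoint Y) = ((x, y) : X × Y) := rfl

@[simp] theorem smash_infty_left {X Y : Type} (y : OnePoint Y) :
    smash (∞ : OnePoint X) y = ∞ := rfl

@[simp] theorem smash_infty_right {X Y : Type} (x : OnePoint X) :
    smash x (∞ : OnePoint Y) = ∞ := by
  induction x using OnePoint.rec <;> rfl

theorem smash_eq_infty {X Y : Type} {x : OnePoint X} {y : OnePoint Y} :
    smash x y = ∞ ↔ x = ∞ ∨ y = ∞ := by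
  induction x using OnePoint.rec <;> induction y using OnePoint.rec <;> simp

theorem continuous_smash [T2Space X] [LocallyCompactSpace X] [T2Space Y]
    [LocallyCompactSpace Y] :
    Continuous (fun p : OnePoint X × OnePoint Y => smash p.1 p.2) := by
  let J : X × Y → OnePoint X × OnePoint Y := fun p => ((p.1 : OnePoint X), (p.2 : OnePoint Y))
  have hJ : IsOpenEmbedding J :=
    OnePoint.isOpenEmbedding_coe.prodMap OnePoint.isOpenEmbedding_coe
  have key : ∀ K : Set (X × Y),
      (fun p : OnePoint X × OnePoint Y => smash p.1 p.2) ⁻¹' ((↑) '' K) = J '' K := by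
    intro K
    ext ⟨x, y⟩
    constructor
    · rintro ⟨u, hu, hx⟩
      induction x using OnePoint.rec with
      | infty => exact absurd hx (OnePoint.coe_ne_infty _)
      | coe x =>
        induction y using OnePoint.rec with
        | infty => exact absurd hx (OnePoint.coe_ne_infty _)
        | coe y =>
          have := OnePoint.coe_injective hx
          subst this
          exact ⟨_, hu, rfl⟩
    · rintro ⟨⟨u, v⟩, hu, h⟩
      refine ⟨_, hu, ?_⟩
      simp only [J, Prod.mk.injEq] at h
      obtain ⟨rfl, rfl⟩ := h
      rfl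
  refine continuous_def.mpr fun V hV => ?_
  by_cases hm : (∞ : OnePoint (X × Y)) ∈ V
  · rw [OnePoint.isOpen_iff_of_mem hm] at hV
    obtain ⟨-, hK⟩ := hV
    have h1 : V = ((↑) '' (((↑) : X × Y → OnePoint (X × Y)) ⁻¹' V)ᶜ)ᶜ := by
      ext y
      induction y using OnePoint.rec with
      | infty => simp [hm]
      | coe y => simp
    rw [h1, Set.preimage_compl, key]
    exact (hK.image hJ.continuous).isClosed.isOpen_compl
  · have h1 : V = (↑) '' (((↑) : X × Y → OnePoint (X × Y)) ⁻¹' V) := by
      ext y
      induction y using OnePoint.rec with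
      | infty => simp [hm]
      | coe y => simp
    rw [h1, key]
    exact hJ.isOpenMap _ (hV.preimage OnePoint.continuous_coe)

theorem tendsto_of_continuous_prod [T2Space X] [LocallyCompactSpace X] [T2Space Y]
    [LocallyCompactSpace Y] {Z : Type*} [TopologicalSpace Z]
    (F : OnePoint X × OnePoint Y → Z) (hF : Continuous F) (z : Z)
    (h1 : ∀ b, F (∞, b) = z) (h2 : ∀ a, F (a, ∞) = z) :
    Tendsto (fun p : X × Y => F ((p.1 : OnePoint X), (p.2 : OnePoint Y)))
      (cocompact (X × Y)) (𝓝 z) := by
  let J : X × Y → OnePoint X × OnePoint Y := fun p => ((p.1 : OnePoint X), (p.2 : OnePoint Y))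
  have hJ : IsOpenEmbedding J :=
    OnePoint.isOpenEmbedding_coe.prodMap OnePoint.isOpenEmbedding_coe
  intro N hN
  obtain ⟨V, hVN, hV, hz⟩ := mem_nhds_iff.mp hN
  have hC : IsCompact (F ⁻¹' V)ᶜ := (hV.preimage hF).isClosed_compl.isCompact
  have hsub : (F ⁻¹' V)ᶜ ⊆ Set.range J := by
    rintro ⟨a, b⟩ hab
    induction a using OnePoint.rec with
    | infty => exact absurd (by simpa [h1] using hz) hab
    | coe a =>
      induction b using OnePoint.rec with
      | infty => exact absurd (by simpa [h2] using hz) hab
      | coe b => exact ⟨(a, b), rfl⟩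
  have hK : IsCompact (J ⁻¹' (F ⁻¹' V)ᶜ) :=
    (hJ.isInducing.isCompact_preimage_iff hsub).mpr hC
  rw [mem_map]
  refine mem_of_superset hK.compl_mem_cocompact ?_
  intro p hp
  simp only [Set.preimage_compl, compl_compl, Set.mem_preimage] at hp
  exact hVN hp

end smash

section tensor

variable {X Y Z W : LC}

/-- A pointed map out of the smash product. -/
def lift₂ (F : OnePoint X × OnePoint Y → OnePoint Z) (hF : Continuous F)
    (h1 : ∀ b, F (∞, b) = ∞) (h2 : ∀ a, F (a, ∞) = ∞) : LC.of (X × Y) ⟶ Z :=
  mk' (X := LC.of (X × Y)) (fun p : X × Y => F ((p.1 : OnePoint X), (p.2 : OnePoint Y)))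
    (hF.comp ((OnePoint.continuous_coe.comp continuous_fst).prodMk
      (OnePoint.continuous_coe.comp continuous_snd))) (tendsto_of_continuous_prod F hF ∞ h1 h2)

@[simp] theorem app_lift₂_coe (F : OnePoint X × OnePoint Y → OnePoint Z) (hF : Continuous F)
    (h1 : ∀ b, F (∞, b) = ∞) (h2 : ∀ a, F (a, ∞) = ∞) (x : X) (y : Y) :
    app (lift₂ F hF h1 h2) (((x, y) : X × Y) : OnePoint (X × Y)) = F (x, y) := rfl

theorem app_lift₂_smash (F : OnePoint X × OnePoint Y → OnePoint Z) (hF : Continuous F)
    (h1 : ∀ b, F (∞, b) = ∞) (h2 : ∀ a, F (a, ∞) = ∞) (a : OnePoint X) (b : OnePoint Y) :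
    app (lift₂ F hF h1 h2) (smash a b) = F (a, b) := by
  induction a using OnePoint.rec with
  | infty => rw [smash_infty_left, h1]; exact app_infty _
  | coe a =>
    induction b using OnePoint.rec with
    | infty => rw [smash_infty_right, h2]; exact app_infty _
    | coe b => rfl

/-- tensor product of morphisms -/
def tensorHom' (f : X ⟶ Y) (g : Z ⟶ W) : LC.of (X × Z) ⟶ LC.of (Y × W) :=
  lift₂ (Z := LC.of (Y × W)) (fun p => smash (app f p.1) (app g p.2))
    (continuous_smash.comp (((continuous_app f).comp continuous_fst).prodMk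
      ((continuous_app g).comp continuous_snd)))
    (by intro b; simp) (by intro a; simp)

theorem app_tensorHom'_coe (f : X ⟶ Y) (g : Z ⟶ W) (x : X) (z : Z) :
    app (tensorHom' f g) (((x, z) : X × Z) : OnePoint (X × Z)) =
      smash (app f x) (app g z) := rfl

instance : MonoidalCategoryStruct LC where
  tensorObj X Y := LC.of (X × Y)
  tensorUnit := LC.of Unit
  whiskerLeft X _ _ f := tensorHom' (𝟙 X) f
  whiskerRight f Z := tensorHom' f (𝟙 Z)
  tensorHom f g := tensorHom' f g
  associator X Y Z := ofHomeo (X := LC.of ((X × Y) × Z)) (Y := LC.of (X × (Y × Z)))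
    (Homeomorph.prodAssoc X Y Z)
  leftUnitor X := ofHomeo (X := LC.of (Unit × X)) (Homeomorph.punitProd X)
  rightUnitor X := ofHomeo (X := LC.of (X × Unit)) (Homeomorph.prodPUnit X)

theorem tensorObj_eq (X Y : LC) : X ⊗ Y = LC.of (X × Y) := rfl

theorem app_tensorHom_coe (f : X ⟶ Y) (g : Z ⟶ W) (x : X) (z : Z) :
    app (f ⊗ₘ g) (((x, z) : X × Z) : OnePoint (X × Z)) = smash (app f x) (app g z) := rfl

theorem app_tensorHom_smash (f : X ⟶ Y) (g : Z ⟶ W) (x : OnePoint X) (z : OnePoint Z) :
    app (f ⊗ₘ g) (smash x z) = smash (app f x) (app g z) :=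
  app_lift₂_smash _ _ _ _ x z

theorem app_whiskerLeft_smash (X : LC) {Z W : LC} (g : Z ⟶ W) (x : OnePoint X) (z : OnePoint Z) :
    app (X ◁ g) (smash x z) = smash x (app g z) :=
  app_lift₂_smash _ _ _ _ x z

theorem app_whiskerRight_smash {X Y : LC} (f : X ⟶ Y) (Z : LC) (x : OnePoint X) (z : OnePoint Z) :
    app (f ▷ Z) (smash x z) = smash (app f x) z :=
  app_lift₂_smash _ _ _ _ x z

theorem app_associator_smash (X Y Z : LC) (x : OnePoint X) (y : OnePoint Y) (z : OnePoint Z) :
    app (α_ X Y Z).hom (smash (smash x y) z) = smash x (smash y z) := by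
  induction x using OnePoint.rec with
  | infty => exact app_infty (α_ X Y Z).hom
  | coe x =>
    induction y using OnePoint.rec with
    | infty => exact app_infty (α_ X Y Z).hom
    | coe y =>
      induction z using OnePoint.rec with
      | infty => exact app_infty (α_ X Y Z).hom
      | coe z => rfl

theorem app_associator_inv_smash (X Y Z : LC) (x : OnePoint X) (y : OnePoint Y)
    (z : OnePoint Z) :
    app (α_ X Y Z).inv (smash x (smash y z)) = smash (smash x y) z := by
  induction x using OnePoint.rec with
  | infty => exact app_infty (α_ X Y Z).inv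
  | coe x =>
    induction y using OnePoint.rec with
    | infty => exact app_infty (α_ X Y Z).inv
    | coe y =>
      induction z using OnePoint.rec with
      | infty => exact app_infty (α_ X Y Z).inv
      | coe z => rfl

theorem app_leftUnitor_smash (X : LC) (x : OnePoint X) :
    app (λ_ X).hom (smash ((() : Unit) : OnePoint Unit) x) = x := by
  induction x using OnePoint.rec with
  | infty => exact app_infty (λ_ X).hom
  | coe x => rfl

theorem app_rightUnitor_smash (X : LC) (x : OnePoint X) :
    app (ρ_ X).hom (smash x ((() : Unit) : OnePoint Unit)) = x := by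
  induction x using OnePoint.rec with
  | infty => exact app_infty (ρ_ X).hom
  | coe x => rfl

/-- extensionality for maps out of a tensor product -/
theorem tensor_ext {f g : X ⊗ Y ⟶ Z}
    (h : ∀ (x : X) (y : Y), app f (smash (x : OnePoint X) (y : OnePoint Y)) =
      app g (smash (x : OnePoint X) (y : OnePoint Y))) : f = g := by
  apply hom_ext
  rintro ⟨x, y⟩
  exact h x y

theorem tensor_ext₃ {f g : (X ⊗ Y) ⊗ Z ⟶ W}
    (h : ∀ (x : X) (y : Y) (z : Z),
      app f (smash (smash (x : OnePoint X) (y : OnePoint Y)) (z : OnePoint Z)) =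
      app g (smash (smash (x : OnePoint X) (y : OnePoint Y)) (z : OnePoint Z))) : f = g := by
  apply hom_ext
  rintro ⟨⟨x, y⟩, z⟩
  exact h x y z

instance : MonoidalCategory LC where
  tensorHom_def f g := by
    apply tensor_ext; intro x y
    rw [app_tensorHom_smash, app_comp, app_whiskerRight_smash, app_whiskerLeft_smash]
  id_tensorHom_id X Y := by
    apply tensor_ext; intro x y
    rw [app_tensorHom_smash]; rfl
  tensorHom_comp_tensorHom f₁ f₂ g₁ g₂ := by
    apply tensor_ext; intro x y
    rw [app_comp, app_tensorHom_smash, app_tensorHom_smash, app_tensorHom_smash]; rfl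
  whiskerLeft_id X Y := by
    apply tensor_ext; intro x y
    rw [app_whiskerLeft_smash]; rfl
  id_whiskerRight X Y := by
    apply tensor_ext; intro x y
    rw [app_whiskerRight_smash]; rfl
  associator_naturality f₁ f₂ f₃ := by
    apply tensor_ext₃; intro x y z
    rw [app_comp, app_tensorHom_smash, app_tensorHom_smash, app_associator_smash, app_comp,
      app_associator_smash, app_tensorHom_smash, app_tensorHom_smash]
  leftUnitor_naturality f := by
    apply tensor_ext; rintro ⟨⟩ y
    rw [app_comp, app_whiskerLeft_smash, app_leftUnitor_smash, app_comp, app_leftUnitor_smash]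
  rightUnitor_naturality f := by
    apply tensor_ext; rintro y ⟨⟩
    rw [app_comp, app_whiskerRight_smash, app_rightUnitor_smash, app_comp, app_rightUnitor_smash]
  pentagon W X Y Z := by
    apply hom_ext; rintro ⟨⟨⟨w, x⟩, y⟩, z⟩; rfl
  triangle X Y := by
    apply hom_ext; rintro ⟨⟨x, ⟨⟩⟩, y⟩; rfl

/-- the swap `X × Y ≅ Y × X` -/
def swap (X Y : LC) : X ⊗ Y ≅ Y ⊗ X :=
  ofHomeo (X := LC.of (X × Y)) (Y := LC.of (Y × X)) (Homeomorph.prodComm X Y)

theorem app_swap_smash (X Y : LC) (x : OnePoint X) (y : OnePoint Y) :
    app (swap X Y).hom (smash x y) = smash y x := by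
  induction x using OnePoint.rec with
  | infty => exact (app_infty (swap X Y).hom).trans (smash_infty_right y).symm
  | coe x =>
    induction y using OnePoint.rec with
    | infty => exact app_infty (swap X Y).hom
    | coe y => rfl

instance : BraidedCategory LC where
  braiding X Y := swap X Y
  braiding_naturality_right X Y Z f := by
    apply tensor_ext; intro x y
    rw [app_comp, app_comp, app_whiskerLeft_smash, app_swap_smash, app_swap_smash,
      app_whiskerRight_smash]
  braiding_naturality_left f Z := by
    apply tensor_ext; intro x y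
    rw [app_comp, app_comp, app_whiskerRight_smash, app_swap_smash, app_swap_smash,
      app_whiskerLeft_smash]
  hexagon_forward X Y Z := by
    apply hom_ext; rintro ⟨⟨x, y⟩, z⟩; rfl
  hexagon_reverse X Y Z := by
    apply hom_ext; rintro ⟨x, ⟨y, z⟩⟩; rfl

theorem app_braiding_smash (X Y : LC) (x : OnePoint X) (y : OnePoint Y) :
    app (β_ X Y).hom (smash x y) = smash y x := app_swap_smash X Y x y

instance : SymmetricCategory LC where
  symmetry X Y := by
    apply hom_ext; rintro ⟨x, y⟩; rfl

end tensor

end LC

end Vale.Agent.P251.G
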