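import Vale.Agent.P251.G.CellThom

/-!
# Cells of Grassmannians

Sets of projection matrices: `prj n I` (rank `n`), `kil n I` (rank `n` on `I ⊕ Unit`, killing the
last basis vector), `fix n I` (rank `n` on `I ⊕ Unit`, fixing the last basis vector).
* `chain_kil`: `prj (n+1) (I ⊕ Unit)` is obtained from `kil (n+1) I` by attaching even cells of
  dimension at least `2 (|I| - n)`;
* `chain_fix`: `prj (n+1) (I ⊕ Unit)` is obtained from `fix (n+1) I` by attaching even cells of
  dimension at least `2 (n+1)`;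
* `chain_prj`: `prj n I` is obtained from `∅` by attaching even cells.
-/

open Set Filter Topology Matrix

namespace Vale.Agent.P251.G.Cell

/-- Even dimensions, at least `k`. -/
def evens (k : ℕ) : Set ℕ := {d | Even d ∧ k ≤ d}

theorem zero_mem_evens : (0 : ℕ) ∈ evens 0 := ⟨even_iff_two_dvd.2 (dvd_zero 2), le_rfl⟩

theorem evens_mono {k l : ℕ} (h : k ≤ l) : evens l ⊆ evens k := fun _ hd => ⟨hd.1, h.trans hd.2⟩

theorem evens_add (k r : ℕ) : (fun a => a + 2 * r) '' evens k ⊆ evens (k + 2 * r) := by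
  rintro _ ⟨a, ⟨ha, hk⟩, rfl⟩
  exact ⟨ha.add (even_two_mul r), by dsimp only; omega⟩

section proj

variable {I : Type} [Fintype I] {n : ℕ}

theorem IsProj.nonneg_rank [DecidableEq I] {P : Matrix I I ℂ} (h : IsProj n P) :
    n ≤ Fintype.card I := by
  have h1 := finrank_range h.idem h.trace
  have h2 := Submodule.finrank_le (LinearMap.range (Matrix.toLin' P))
  rw [h1, Module.finrank_fintype_fun_eq_card] at h2
  exact h2

/-- Adding an orthogonal line to a projection. -/
theorem isProj_add_line {P : Matrix I I ℂ} (h : IsProj n P) {u : I → ℂ} (hu : nsq u = 1)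
    (hPu : P *ᵥ u = 0) : IsProj (n + 1) (P + vecMulVec u (star u)) := by
  have hdot : star u ⬝ᵥ u = 1 := by rw [← nsq_eq_dotProduct, hu]; simp
  have huP : star u ᵥ* P = 0 := by
    have h1 := congrArg star hPu
    rw [star_mulVec, h.herm, star_zero] at h1
    exact h1
  refine ⟨?_, ?_, ?_⟩
  · rw [Matrix.mul_add, Matrix.add_mul, Matrix.add_mul, h.idem, mul_vecMulVec, hPu,
      vecMulVec_mul_vecMulVec, vecMulVec_mul, huP, hdot]
    simp
  · rw [conjTranspose_add, h.herm, conjTranspose_vecMulVec, star_star]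
  · rw [trace_add, h.trace, trace_vecMulVec, dotProduct_comm, hdot]
    push_cast; ring

/-- Removing a line from a projection. -/
theorem isProj_sub_line {P : Matrix I I ℂ} (h : IsProj (n + 1) P) {u : I → ℂ} (hu : nsq u = 1)
    (hPu : P *ᵥ u = u) : IsProj n (P - vecMulVec u (star u)) := by
  have hdot : star u ⬝ᵥ u = 1 := by rw [← nsq_eq_dotProduct, hu]; simp
  have huP : star u ᵥ* P = star u := by
    have h1 := congrArg star hPu
    rwa [star_mulVec, h.herm] at h1
  refine ⟨?_, ?_, ?_⟩
  · rw [Matrix.mul_sub, Matrix.sub_mul, Matrix.sub_mul, h.idem, mul_vecMulVec, hPu,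
      vecMulVec_mul_vecMulVec, vecMulVec_mul, huP, hdot]
    simp
  · rw [conjTranspose_sub, h.herm, conjTranspose_vecMulVec, star_star]
  · rw [trace_sub, h.trace, trace_vecMulVec, dotProduct_comm, hdot]
    push_cast; ring

theorem isProj_compl [DecidableEq I] {P : Matrix I I ℂ} (h : IsProj n P) :
    IsProj (Fintype.card I - n) (1 - P) := by
  have hle := IsProj.nonneg_rank h
  refine ⟨?_, ?_, ?_⟩
  · rw [Matrix.mul_sub, Matrix.mul_one, Matrix.sub_mul, Matrix.one_mul, h.idem, sub_self, sub_zero]
  · rw [conjTranspose_sub, conjTranspose_one, h.herm]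
  · rw [trace_sub, h.trace, trace_one, Nat.cast_sub hle]

end proj

section sets

variable (n : ℕ) (I : Type) [Fintype I]

/-- projections of rank `n` -/
def prj : Set (Matrix I I ℂ) := {P | IsProj n P}

/-- the last basis vector of `ℂ^(I ⊕ Unit)` -/
def eL : I ⊕ Unit → ℂ := Sum.elim 0 fun _ => 1

/-- projections of rank `n` killing the last basis vector -/
def kil : Set (Matrix (I ⊕ Unit) (I ⊕ Unit) ℂ) := {P | IsProj n P ∧ P *ᵥ eL I = 0}

/-- projections of rank `n` fixing the last basis vector -/
def fix : Set (Matrix (I ⊕ Unit) (I ⊕ Unit) ℂ) := {P | IsProj n P ∧ P *ᵥ eL I = eL I}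

/-- the extension by zero -/
def ext0 (P : Matrix I I ℂ) : Matrix (I ⊕ Unit) (I ⊕ Unit) ℂ := fromBlocks P 0 0 0

variable {n I}

theorem nsq_eL : nsq (eL I) = 1 := by
  rw [eL, nsq_elim]
  simp [nsq]

theorem ext0_mulVec (P : Matrix I I ℂ) (w : I → ℂ) (s : Unit → ℂ) :
    ext0 I P *ᵥ Sum.elim w s = Sum.elim (P *ᵥ w) 0 := by
  rw [ext0, fromBlocks_mulVec]
  simp

theorem IsProj.ext0 {P : Matrix I I ℂ} (h : IsProj n P) : IsProj n (ext0 I P) := by
  have := h.fromBlocks (J := Unit) (m := 0) IsProj.zero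
  simpa [Cell.ext0] using this

theorem isProj_of_ext0 {P : Matrix I I ℂ} (h : IsProj n (ext0 I P)) : IsProj n P := by
  refine ⟨?_, ?_, ?_⟩
  · have := h.idem
    rw [ext0, fromBlocks_multiply] at this
    simpa using (congrArg toBlocks₁₁ this)
  · have := h.herm
    rw [ext0, fromBlocks_conjTranspose] at this
    simpa using (congrArg toBlocks₁₁ this)
  · have := h.trace
    rw [ext0] at this
    simpa [Matrix.trace] using this

/-- a projection killing the last basis vector is an extension by zero -/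
theorem eq_ext0 {P : Matrix (I ⊕ Unit) (I ⊕ Unit) ℂ} (h : Pᴴ = P) (he : P *ᵥ eL I = 0) :
    P = ext0 I P.toBlocks₁₁ := by
  classical
  have h1 : ∀ i, P i (Sum.inr ()) = 0 := by
    intro i
    have := congrFun he i
    simpa [Matrix.mulVec, dotProduct, eL] using this
  have h2 : ∀ i, P (Sum.inr ()) i = 0 := by
    intro i
    have := congrFun (congrFun h (Sum.inr ())) i
    rw [conjTranspose_apply, h1] at this
    rw [← this]; simp
  ext i j
  rcases i with i | i <;> rcases j with j | j
  · rfl
  · exact h1 _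
  · exact h2 _
  · exact h1 _

/-- the vector spanning the additional line -/
noncomputable def lin (w : I → ℂ) : I ⊕ Unit → ℂ :=
  Sum.elim w fun _ => ((Real.sqrt (1 - nsq w) : ℝ) : ℂ)

theorem nsq_lin {w : I → ℂ} (hw : nsq w ≤ 1) : nsq (lin w) = 1 := by
  rw [lin, nsq_elim]
  have : nsq (fun _ : Unit => ((Real.sqrt (1 - nsq w) : ℝ) : ℂ)) = 1 - nsq w := by
    rw [nsq, Finset.univ_unique, Finset.sum_singleton, Complex.normSq_ofReal,
      Real.mul_self_sqrt (by linarith)]
  rw [this]; ring

theorem continuous_lin : Continuous (lin : (I → ℂ) → (I ⊕ Unit → ℂ)) := by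
  refine continuous_pi fun i => ?_
  rcases i with i | i
  · exact continuous_apply i
  · exact Complex.continuous_ofReal.comp (Real.continuous_sqrt.comp
      (continuous_const.sub continuous_nsq))

/-- the characteristic map -/
noncomputable def chr (y : Matrix I I ℂ) (w : I → ℂ) : Matrix (I ⊕ Unit) (I ⊕ Unit) ℂ :=
  ext0 I y + vecMulVec (lin w) (star (lin w))

theorem star_lin_dot_eL (w : I → ℂ) :
    star (lin w) ⬝ᵥ eL I = ((Real.sqrt (1 - nsq w) : ℝ) : ℂ) := by
  rw [lin, eL, dotProduct, Fintype.sum_sum_type]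
  simp

theorem chr_mulVec_eL (y : Matrix I I ℂ) (w : I → ℂ) :
    chr y w *ᵥ eL I = ((Real.sqrt (1 - nsq w) : ℝ) : ℂ) • lin w := by
  have h1 : ext0 I y *ᵥ eL I = 0 := by
    rw [eL, ext0_mulVec]
    ext i; rcases i with i | i <;> simp
  rw [chr, add_mulVec, h1, zero_add, vecMulVec_mulVec, star_lin_dot_eL]
  ext i
  simp [mul_comm]

theorem chr_isProj {y : Matrix I I ℂ} (hy : IsProj n y) {w : I → ℂ} (hw : nsq w ≤ 1)
    (hyw : y *ᵥ w = 0) : IsProj (n + 1) (chr y w) := by
  refine isProj_add_line (IsProj.ext0 hy) (nsq_lin hw) ?_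
  rw [lin, ext0_mulVec, hyw]
  ext i; rcases i with i | i <;> simp

theorem continuous_chr : Continuous fun p : Matrix I I ℂ × (I → ℂ) => chr p.1 p.2 := by
  unfold chr ext0
  have h1 : Continuous fun p : Matrix I I ℂ × (I → ℂ) => lin p.2 :=
    continuous_lin.comp continuous_snd
  refine Continuous.add ?_ ?_
  · exact continuous_fst.matrix_fromBlocks continuous_const continuous_const continuous_const
  · exact h1.matrix_vecMulVec h1.star

theorem chr_last (y : Matrix I I ℂ) {w : I → ℂ} (hw : nsq w ≤ 1) :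
    (chr y w *ᵥ eL I) (Sum.inr ()) = ((1 - nsq w : ℝ) : ℂ) := by
  rw [chr_mulVec_eL, Pi.smul_apply, lin, Sum.elim_inr, smul_eq_mul, ← Complex.ofReal_mul,
    Real.mul_self_sqrt (by linarith)]

theorem chr_inj {y y' : Matrix I I ℂ} {w w' : I → ℂ} (hw : nsq w < 1) (hw' : nsq w' < 1)
    (h : chr y w = chr y' w') : y = y' ∧ w = w' := by
  have h1 : ((1 - nsq w : ℝ) : ℂ) = ((1 - nsq w' : ℝ) : ℂ) := by
    rw [← chr_last y hw.le, ← chr_last y' hw'.le, h]
  have h2 : nsq w = nsq w' := by
    have := Complex.ofReal_injective h1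
    linarith
  have h3 : ((Real.sqrt (1 - nsq w) : ℝ) : ℂ) • lin w = ((Real.sqrt (1 - nsq w) : ℝ) : ℂ) • lin w' := by
    rw [← chr_mulVec_eL y w, h, chr_mulVec_eL, h2]
  have h4 : ((Real.sqrt (1 - nsq w) : ℝ) : ℂ) ≠ 0 := by
    rw [Ne, Complex.ofReal_eq_zero]
    exact (Real.sqrt_pos.2 (by linarith)).ne'
  have h5 : lin w = lin w' := smul_right_injective _ h4 h3
  have h6 : w = w' := by
    ext i
    exact congrFun h5 (Sum.inl i)
  subst h6
  refine ⟨?_, rfl⟩
  unfold chr at h
  have h7 := add_right_cancel h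
  simpa [ext0] using congrArg toBlocks₁₁ h7

theorem chr_surj {Q : Matrix (I ⊕ Unit) (I ⊕ Unit) ℂ} (hQ : IsProj (n + 1) Q)
    (h0 : Q *ᵥ eL I ≠ 0) :
    ∃ y w, IsProj n y ∧ y *ᵥ w = 0 ∧ nsq w < 1 ∧ chr y w = Q := by
  set q := Q *ᵥ eL I with hq
  have hc0 : 0 < nsq q := nsq_pos h0
  have hQq : Q *ᵥ q = q := by rw [hq, mulVec_mulVec, hQ.idem]
  -- the last coordinate of `q` is `nsq q`
  have hlast : q (Sum.inr ()) = ((nsq q : ℝ) : ℂ) := by
    have h1 : ((nsq q : ℝ) : ℂ) = star (eL I) ⬝ᵥ q := by
      rw [nsq_eq_dotProduct]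
      nth_rewrite 1 [hq]
      rw [star_mulVec, hQ.herm, ← dotProduct_mulVec, hQq]
    rw [h1, eL, dotProduct, Fintype.sum_sum_type]
    simp
  let s : ℝ := Real.sqrt (nsq q)
  have hs : 0 < s := Real.sqrt_pos.2 hc0
  have hs2 : s * s = nsq q := Real.mul_self_sqrt hc0.le
  have hsC : (s : ℂ) ≠ 0 := by rw [Ne, Complex.ofReal_eq_zero]; exact hs.ne'
  let u : I ⊕ Unit → ℂ := s⁻¹ • q
  have hu1 : nsq u = 1 := by
    rw [nsq_real_smul, inv_pow, pow_two, hs2, inv_mul_cancel₀ hc0.ne']
  have hQu : Q *ᵥ u = u := by rw [mulVec_smul, hQq]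
  have hulast : u (Sum.inr ()) = (s : ℂ) := by
    simp only [u, Pi.smul_apply]
    rw [hlast, ← hs2, Complex.real_smul]
    push_cast
    field_simp
  have hP' := isProj_sub_line hQ hu1 hQu
  have hstar : star u ⬝ᵥ eL I = (s : ℂ) := by
    rw [eL, dotProduct, Fintype.sum_sum_type]
    simp [hulast]
  have hPe : (Q - vecMulVec u (star u)) *ᵥ eL I = 0 := by
    rw [sub_mulVec, vecMulVec_mulVec, hstar, ← hq]
    ext i
    simp only [u, Pi.sub_apply, Pi.smul_apply, Pi.zero_apply, Complex.real_smul,
      MulOpposite.smul_eq_mul_unop, MulOpposite.unop_op]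
    push_cast
    field_simp
    ring
  have hPu : (Q - vecMulVec u (star u)) *ᵥ u = 0 := by
    have hdot : star u ⬝ᵥ u = 1 := by rw [← nsq_eq_dotProduct, hu1]; simp
    rw [sub_mulVec, vecMulVec_mulVec, hdot, hQu]
    simp
  have hblk := eq_ext0 hP'.herm hPe
  let w : I → ℂ := fun i => u (Sum.inl i)
  have huw : u = Sum.elim w fun _ => (s : ℂ) := by
    ext i
    rcases i with i | i
    · rfl
    · exact hulast
  have hnw : nsq w = 1 - nsq q := by
    have h1 := hu1
    rw [huw, nsq_elim] at h1
    have h2 : nsq (fun _ : Unit => (s : ℂ)) = nsq q := by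
      rw [nsq, Finset.univ_unique, Finset.sum_singleton, Complex.normSq_ofReal, hs2]
    rw [h2] at h1
    linarith
  have hlin : lin w = u := by
    rw [lin, huw]
    congr 1
    ext _
    rw [hnw]
    congr 2
    ring
  refine ⟨(Q - vecMulVec u (star u)).toBlocks₁₁, w, ?_, ?_, ?_, ?_⟩
  · rw [hblk] at hP'
    exact isProj_of_ext0 hP'
  · rw [hblk, huw, ext0_mulVec] at hPu
    ext i
    exact congrFun hPu (Sum.inl i)
  · rw [hnw]; linarith
  · rw [chr, ← hblk, hlin]
    exact sub_add_cancel _ _

end sets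

section chains

variable {I : Type} [Fintype I] [DecidableEq I] {n : ℕ}

/-- The relative cell structure of `prj (n+1) (I ⊕ Unit)` over `kil (n+1) I`. -/
theorem chain_kil_of {D : Set ℕ} (h : CellChain D ∅ (univ : Set (Gr n I))) :
    CellChain ((fun a => a + 2 * (Fintype.card I - n)) '' D) (kil (n + 1) I)
      (prj (n + 1) (I ⊕ Unit)) := by
  have key := h.discBundle (X := Matrix (I ⊕ Unit) (I ⊕ Unit) ℂ) (r := Fintype.card I - n)
    (Z := kil (n + 1) I) (fun y : Gr n I => 1 - y.P)
    (continuous_const.sub Gr.continuous_P).continuousOn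
    (fun y _ => (isProj_compl y.isProj).idem) (fun y _ => (isProj_compl y.isProj).trace)
    (fun q => chr q.1.P q.2)
    (continuous_chr.comp ((Gr.continuous_P.comp continuous_fst).prodMk
      continuous_snd)).continuousOn ?_ ?_ ?_
  · have e1 : kil (n + 1) I ∪ (fun q : Gr n I × (I → ℂ) => chr q.1.P q.2) ''
        discB (fun y : Gr n I => 1 - y.P) ∅ = kil (n + 1) I := by
      have : discB (fun y : Gr n I => 1 - y.P) ∅ = ∅ := by
        ext q; simp [discB]
      rw [this, image_empty, union_empty]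
    have e2 : kil (n + 1) I ∪ (fun q : Gr n I × (I → ℂ) => chr q.1.P q.2) ''
        discB (fun y : Gr n I => 1 - y.P) univ = prj (n + 1) (I ⊕ Unit) := by
      apply Subset.antisymm
      · rintro _ (hQ | ⟨⟨y, w⟩, ⟨-, hw, hn⟩, rfl⟩)
        · exact hQ.1
        · dsimp only at hw hn
          refine chr_isProj y.isProj hn ?_
          rw [sub_mulVec, one_mulVec] at hw
          exact sub_eq_self.1 hw
      · intro Q hQ
        by_cases h0 : Q *ᵥ eL I = 0
        · exact Or.inl ⟨hQ, h0⟩
        · obtain ⟨y, w, hy, hyw, hw, rfl⟩ := chr_surj hQ h0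
          refine Or.inr ⟨((⟨y, hy⟩ : Gr n I), w), ⟨mem_univ _, ?_, hw.le⟩, rfl⟩
          change (1 - y) *ᵥ w = w
          rw [sub_mulVec, one_mulVec, hyw, sub_zero]
    rwa [e1, e2] at key
  · rintro ⟨y, w⟩ ⟨-, hw, hn⟩
    dsimp only at hw hn
    have hyw : y.P *ᵥ w = 0 := by
      rw [sub_mulVec, one_mulVec] at hw
      exact sub_eq_self.1 hw
    refine ⟨chr_isProj y.isProj hn.le hyw, ?_⟩
    dsimp only
    rw [chr_mulVec_eL, hn]
    simp
  · rintro ⟨y, w⟩ ⟨-, hw, hn⟩ ⟨y', w'⟩ ⟨-, hw', hn'⟩ heq
    obtain ⟨h1, h2⟩ := chr_inj hn hn' heq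
    rw [Prod.mk.injEq]
    exact ⟨Gr.ext h1, h2⟩
  · rintro ⟨y, w⟩ ⟨-, hw, hn⟩ hZ
    dsimp only at hn
    have h1 := hZ.2
    dsimp only at h1
    have h2 := chr_last y.P hn.le
    rw [h1, Pi.zero_apply, eq_comm, Complex.ofReal_eq_zero] at h2
    linarith

omit [DecidableEq I] in
theorem gr_isEmbedding : IsEmbedding (Gr.P : Gr n I → Matrix I I ℂ) := IsEmbedding.subtypeVal

omit [DecidableEq I] in
theorem range_gr : range (Gr.P : Gr n I → Matrix I I ℂ) = prj n I := by
  ext P
  exact ⟨by rintro ⟨y, rfl⟩; exact y.isProj, fun h => ⟨⟨P, h⟩, rfl⟩⟩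

omit [DecidableEq I] in
/-- from sets of matrices to `Gr n I` -/
theorem chain_gr_of {D : Set ℕ} {A : Set (Matrix I I ℂ)} (h : CellChain D A (prj n I)) :
    CellChain D (Gr.P ⁻¹' A : Set (Gr n I)) univ := by
  have := h.preimage gr_isEmbedding (by rw [range_gr])
  rwa [← range_gr, preimage_range] at this

omit [DecidableEq I] in
/-- from `Gr n I` to sets of matrices -/
theorem chain_prj_of {D : Set ℕ} {A : Set (Gr n I)} (h : CellChain D A univ) :
    CellChain D (Gr.P '' A) (prj n I) := by
  have := h.image (f := Gr.P) Gr.continuous_P.continuousOn gr_isEmbedding.injective.injOn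
  rwa [image_univ, range_gr] at this

omit [DecidableEq I] in
/-- transport along a bijection of index types -/
theorem chain_prj_reindex {J : Type} [Fintype J] (e : I ≃ J) {D : Set ℕ}
    {A : Set (Matrix I I ℂ)} (h : CellChain D A (prj n I)) :
    CellChain D ((fun P => P.submatrix e.symm e.symm) '' A) (prj n J) := by
  have hc : Continuous fun P : Matrix I I ℂ => P.submatrix e.symm e.symm :=
    continuous_id.matrix_submatrix _ _
  have hi : Function.Injective fun P : Matrix I I ℂ => P.submatrix e.symm e.symm := by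
    intro P Q hPQ
    have := congrArg (fun R => R.submatrix e e) hPQ
    simpa using this
  have h1 := h.image hc.continuousOn hi.injOn
  convert h1 using 1
  ext Q
  constructor
  · intro hQ
    refine ⟨Q.submatrix e e, ⟨?_, ?_, ?_⟩, by simp⟩
    · rw [Matrix.submatrix_mul_equiv, hQ.idem]
    · rw [conjTranspose_submatrix, hQ.herm]
    · rw [Matrix.trace, ← hQ.trace, Matrix.trace]
      exact Equiv.sum_comp e fun j => Q j j
  · rintro ⟨P, hP, rfl⟩
    refine ⟨?_, ?_, ?_⟩
    · dsimp only; rw [Matrix.submatrix_mul_equiv, hP.idem]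
    · dsimp only; rw [conjTranspose_submatrix, hP.herm]
    · rw [← hP.trace, Matrix.trace, Matrix.trace]
      exact Equiv.sum_comp e.symm fun j => P j j

omit [DecidableEq I] in
theorem prj_zero_eq : prj 0 I = {0} := by
  classical
  ext P
  constructor
  · intro hP
    have h1 := finrank_range hP.idem hP.trace
    have h2 : LinearMap.range (Matrix.toLin' P) = ⊥ := Submodule.finrank_eq_zero.1 h1
    have h3 : Matrix.toLin' P = 0 := LinearMap.range_eq_bot.1 h2
    rw [mem_singleton_iff]
    exact (Matrix.toLin').injective (by rw [h3, map_zero])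
  · rintro rfl
    exact IsProj.zero

theorem prj_eq_empty (h : Fintype.card I < n) : prj n I = ∅ := by
  ext P
  simp only [mem_empty_iff_false, iff_false]
  intro hP
  have := IsProj.nonneg_rank hP
  omega

/-- Grassmannians have even cells (matrix version, by induction on the size). -/
theorem chain_prj_aux (m : ℕ) : ∀ (J : Type) [Fintype J] [DecidableEq J],
    Fintype.card J = m → ∀ n, CellChain (evens 0) ∅ (prj n J) := by
  induction m with
  | zero =>
    intro J _ _ hJ n
    cases n with
    | zero =>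
      rw [prj_zero_eq]
      have := cellStep_point (B := (∅ : Set (Matrix J J ℂ))) 0 (by simp)
      rw [insert_empty_eq] at this
      exact CellChain.single zero_mem_evens this
    | succ n =>
      rw [prj_eq_empty (by omega)]
      exact CellChain.refl _
  | succ m ih =>
    intro J _ _ hJ n
    cases n with
    | zero =>
      rw [prj_zero_eq]
      have := cellStep_point (B := (∅ : Set (Matrix J J ℂ))) 0 (by simp)
      rw [insert_empty_eq] at this
      exact CellChain.single zero_mem_evens this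
    | succ n =>
      have hcard : Fintype.card (Fin m ⊕ Unit) = Fintype.card J := by simp [hJ]
      let e : Fin m ⊕ Unit ≃ J := Fintype.equivOfCardEq hcard
      have h1 := ih (Fin m) (by simp) n
      have h2 := ih (Fin m) (by simp) (n + 1)
      -- the subspace
      have h3 : CellChain (evens 0) ∅ (kil (n + 1) (Fin m)) := by
        have h4 := h2.image (f := ext0 (Fin m)) ?_ ?_
        · rw [image_empty] at h4
          convert h4 using 1
          ext Q
          constructor
          · rintro ⟨hQ, hQe⟩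
            have h5 := eq_ext0 hQ.herm hQe
            refine ⟨Q.toBlocks₁₁, ?_, h5.symm⟩
            rw [h5] at hQ
            exact isProj_of_ext0 hQ
          · rintro ⟨P, hP, rfl⟩
            refine ⟨IsProj.ext0 hP, ?_⟩
            rw [eL, ext0_mulVec]
            ext i; rcases i with i | i <;> simp
        · exact (continuous_id.matrix_fromBlocks continuous_const continuous_const
            continuous_const).continuousOn
        · intro P _ Q _ hPQ
          simpa [ext0] using congrArg toBlocks₁₁ hPQ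
      have h1' : CellChain (evens 0) ∅ (univ : Set (Gr n (Fin m))) := by
        have := chain_gr_of h1
        rwa [preimage_empty] at this
      have h5 := (chain_kil_of h1').mono ((evens_add 0 _).trans (evens_mono (Nat.zero_le _)))
      have h6 := chain_prj_reindex e (h3.trans h5)
      rwa [image_empty] at h6

/-- Grassmannians have even cells. -/
theorem chain_prj (n : ℕ) (J : Type) [Fintype J] : CellChain (evens 0) ∅ (prj n J) := by
  classical
  exact chain_prj_aux _ J rfl n

/-- Grassmannians have even cells. -/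
theorem chain_gr (n : ℕ) (J : Type) [Fintype J] :
    CellChain (evens 0) ∅ (univ : Set (Gr n J)) := by
  have := chain_gr_of (chain_prj n J)
  rwa [preimage_empty] at this

/-- `prj (n+1) (I ⊕ Unit)` from `kil (n+1) I`: even cells of dimension at least `2 (|I| - n)`. -/
theorem chain_kil (n : ℕ) (I : Type) [Fintype I] :
    CellChain (evens (2 * (Fintype.card I - n))) (kil (n + 1) I) (prj (n + 1) (I ⊕ Unit)) := by
  classical
  have h := (chain_kil_of (chain_gr n I)).mono (evens_add 0 _)
  rwa [zero_add] at h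

/-- `prj (n+1) (I ⊕ Unit)` from `fix (n+1) I`: even cells of dimension at least `2 (n+1)`. -/
theorem chain_fix (n : ℕ) (I : Type) [Fintype I] :
    CellChain (evens (2 * (n + 1))) (fix (n + 1) I) (prj (n + 1) (I ⊕ Unit)) := by
  classical
  rcases lt_trichotomy n (Fintype.card I) with h | h | h
  · -- complement
    obtain ⟨k, hk⟩ : ∃ k, Fintype.card I = n + (k + 1) :=
      ⟨Fintype.card I - n - 1, by omega⟩
    have hcard : Fintype.card (I ⊕ Unit) = n + 1 + (k + 1) := by simp [hk]; ring
    have hk1 : Fintype.card (I ⊕ Unit) - (n + 1) = k + 1 := by rw [hcard]; omega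
    have hk2 : Fintype.card (I ⊕ Unit) - (k + 1) = n + 1 := by rw [hcard]; omega
    have h1 := chain_kil k I
    have h2 := h1.image (f := fun Q => 1 - Q) (continuous_const.sub continuous_id).continuousOn
      (fun P _ Q _ hPQ => sub_right_injective hPQ)
    have e1 : (fun Q => 1 - Q) '' prj (k + 1) (I ⊕ Unit) = prj (n + 1) (I ⊕ Unit) := by
      ext Q
      constructor
      · rintro ⟨P, hP, rfl⟩
        have := isProj_compl (P := P) hP
        rw [hk2] at this
        exact this
      · intro hQ
        have := isProj_compl (P := Q) hQ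
        rw [hk1] at this
        exact ⟨1 - Q, this, by simp⟩
    have e2 : (fun Q => 1 - Q) '' kil (k + 1) I = fix (n + 1) I := by
      ext Q
      constructor
      · rintro ⟨P, ⟨hP, hPe⟩, rfl⟩
        refine ⟨?_, ?_⟩
        · change (1 - P) ∈ prj (n + 1) (I ⊕ Unit)
          rw [← e1]; exact ⟨P, hP, rfl⟩
        · dsimp only
          rw [sub_mulVec, one_mulVec, hPe, sub_zero]
      · rintro ⟨hQ, hQe⟩
        refine ⟨1 - Q, ⟨?_, ?_⟩, by simp⟩
        · have := isProj_compl (P := Q) hQ
          rw [hk1] at this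
          exact this
        · rw [sub_mulVec, one_mulVec, hQe, sub_self]
    rw [e1, e2] at h2
    refine h2.mono (evens_mono ?_)
    omega
  · -- everything is the identity
    have e1 : ∀ Q ∈ prj (n + 1) (I ⊕ Unit), Q *ᵥ eL I = eL I := by
      intro Q hQ
      have h1 := isProj_compl (P := Q) hQ
      have hc : Fintype.card (I ⊕ Unit) - (n + 1) = 0 := by simp [h]
      rw [hc] at h1
      have h2 : (1 - Q) ∈ prj 0 (I ⊕ Unit) := h1
      rw [prj_zero_eq, mem_singleton_iff, sub_eq_zero] at h2
      rw [← h2, one_mulVec]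
    have e2 : fix (n + 1) I = prj (n + 1) (I ⊕ Unit) := by
      ext Q
      exact ⟨fun hQ => hQ.1, fun hQ => ⟨hQ, e1 Q hQ⟩⟩
    rw [e2]
    exact CellChain.refl _
  · have e1 : prj (n + 1) (I ⊕ Unit) = ∅ := prj_eq_empty (by simp; exact h)
    have e2 : fix (n + 1) I = ∅ := by
      apply Subset.antisymm _ (empty_subset _)
      rw [← e1]
      exact fun Q hQ => hQ.1
    rw [e1, e2]
    exact CellChain.refl _

end chains

end Vale.Agent.P251.G.Cell
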