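import Vale.Agent.P251.G.LC
import Mathlib.Topology.UnitInterval
import Mathlib.Topology.Algebra.Monoid
import Mathlib.Topology.MetricSpace.ProperSpace.Real
import Mathlib.Topology.Instances.NNReal.Lemmas
import Mathlib.CategoryTheory.Limits.Shapes.Pullback.IsPullback.Basic

/-!
# P251, part G: homotopy in `LC`

* `Homotopic f g`: there is `H : X ⊗ II ⟶ Y` with `incl 0 X ≫ H = f`, `incl 1 X ≫ H = g`;
  `homotopic_iff`: equivalent to Mathlib's `HomotopicRel` relative to `{∞}`.
* `HEquiv X Y`: homotopy equivalent objects.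
* `Cofib i`: homotopy extension property.
* `Sph n = (Fin n → ℝ)`, `HH = [0, ∞)`.
-/

open CategoryTheory MonoidalCategory Filter Topology OnePoint

namespace Vale.Agent.P251.G

namespace LC

section compactification

/-- A map of a compact space which is constant outside an open subset tends to that constant at
infinity of the open subset. -/
theorem tendsto_of_isOpenEmbedding {W K Z : Type*} [TopologicalSpace W] [TopologicalSpace K]
    [CompactSpace K] [TopologicalSpace Z] {J : W → K} (hJ : IsOpenEmbedding J)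
    {F : K → Z} (hF : Continuous F) {z : Z} (h : ∀ k, k ∉ Set.range J → F k = z) :
    Tendsto (fun w => F (J w)) (cocompact W) (𝓝 z) := by
  intro N hN
  obtain ⟨V, hVN, hV, hz⟩ := mem_nhds_iff.mp hN
  have hC : IsCompact (F ⁻¹' V)ᶜ := (hV.preimage hF).isClosed_compl.isCompact
  have hsub : (F ⁻¹' V)ᶜ ⊆ Set.range J := by
    intro k hk
    by_contra hk'
    apply hk
    rw [Set.mem_preimage, h k hk']
    exact hz
  have hK : IsCompact (J ⁻¹' (F ⁻¹' V)ᶜ) :=
    (hJ.isInducing.isCompact_preimage_iff hsub).mpr hC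
  rw [mem_map]
  refine mem_of_superset hK.compl_mem_cocompact ?_
  intro p hp
  simp only [Set.preimage_compl, compl_compl, Set.mem_preimage] at hp
  exact hVN hp

/-- A morphism out of `X` from a map of a compact space `K` containing `X` as an open subset. -/
def ofCompactification {X Y : LC} {K : Type*} [TopologicalSpace K] [CompactSpace K] (J : X → K)
    (hJ : IsOpenEmbedding J) (F : K → OnePoint Y) (hF : Continuous F)
    (h : ∀ k, k ∉ Set.range J → F k = ∞) : X ⟶ Y :=
  mk' (fun x => F (J x)) (hF.comp hJ.continuous) (tendsto_of_isOpenEmbedding hJ hF h)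

@[simp] theorem app_ofCompactification_coe {X Y : LC} {K : Type*} [TopologicalSpace K]
    [CompactSpace K] (J : X → K)
    (hJ : IsOpenEmbedding J) (F : K → OnePoint Y) (hF : Continuous F)
    (h : ∀ k, k ∉ Set.range J → F k = ∞) (x : X) :
    app (ofCompactification J hJ F hF h) (x : OnePoint X) = F (J x) := rfl

end compactification

/-- The unit interval as an object of `LC`. -/
abbrev II : LC := LC.of unitInterval

/-- A point of a space as a morphism from the unit. -/
def point {X : LC} (x : X) : 𝟙_ LC ⟶ X :=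
  ofCompact (X := LC.of Unit) (fun _ => x) continuous_const

/-- The inclusion `X ⟶ X ⊗ II` at time `t`. -/
def incl (t : unitInterval) (X : LC) : X ⟶ X ⊗ II := (ρ_ X).inv ≫ X ◁ point (X := II) t

theorem app_incl (t : unitInterval) (X : LC) (x : OnePoint X) :
    app (incl t X) x = smash x (t : OnePoint unitInterval) := by
  induction x using OnePoint.rec with
  | infty => exact app_infty _
  | coe x => rfl

/-- Homotopy of morphisms. -/
def Homotopic {X Y : LC} (f g : X ⟶ Y) : Prop :=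
  ∃ H : X ⊗ II ⟶ Y, incl 0 X ≫ H = f ∧ incl 1 X ≫ H = g

theorem homotopic_iff {X Y : LC} (f g : X ⟶ Y) :
    Homotopic f g ↔ (Hom.toMap f).HomotopicRel (Hom.toMap g) {∞} := by
  constructor
  · rintro ⟨H, h0, h1⟩
    refine ⟨⟨⟨⟨fun p => app H (smash p.2 (p.1 : OnePoint unitInterval)), ?_⟩, ?_, ?_⟩, ?_⟩⟩
    · exact (continuous_app H).comp (continuous_smash.comp
        (continuous_snd.prodMk (OnePoint.continuous_coe.comp continuous_fst)))
    · intro x
      change app H (smash x ((0 : unitInterval) : OnePoint unitInterval)) = app f x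
      rw [← h0, app_comp, app_incl]
    · intro x
      change app H (smash x ((1 : unitInterval) : OnePoint unitInterval)) = app g x
      rw [← h1, app_comp, app_incl]
    · intro t x hx
      obtain rfl : x = ∞ := hx
      change app H (smash ∞ (t : OnePoint unitInterval)) = app f ∞
      rw [smash_infty_left, app_infty f]
      exact app_infty H
  · rintro ⟨F⟩
    let J : X × unitInterval → unitInterval × OnePoint X := fun p => (p.2, (p.1 : OnePoint X))
    have hJ : IsOpenEmbedding J :=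
      (IsOpenEmbedding.id.prodMap OnePoint.isOpenEmbedding_coe).comp
        (Homeomorph.prodComm X unitInterval).isOpenEmbedding
    refine ⟨ofCompactification (X := LC.of (X × unitInterval)) J hJ (fun p => F p)
      (map_continuous F) ?_, ?_, ?_⟩
    · rintro ⟨t, x⟩ hk
      have hx : x = ∞ := by
        by_contra hx
        obtain ⟨y, rfl⟩ := OnePoint.ne_infty_iff_exists.mp hx
        exact hk ⟨(y, t), rfl⟩
      subst hx
      rw [F.eq_fst t (Set.mem_singleton _)]
      exact app_infty f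
    · ext x
      exact F.map_zero_left x
    · ext x
      exact F.map_one_left x

theorem Homotopic.refl {X Y : LC} (f : X ⟶ Y) : Homotopic f f :=
  (homotopic_iff f f).mpr (ContinuousMap.HomotopicRel.refl _)

theorem Homotopic.of_eq {X Y : LC} {f g : X ⟶ Y} (h : f = g) : Homotopic f g := by
  subst h; exact Homotopic.refl f

theorem Homotopic.symm {X Y : LC} {f g : X ⟶ Y} (h : Homotopic f g) : Homotopic g f :=
  (homotopic_iff _ _).mpr ((homotopic_iff _ _).mp h).symm

theorem Homotopic.trans {X Y : LC} {f g h : X ⟶ Y} (h₁ : Homotopic f g) (h₂ : Homotopic g h) :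
    Homotopic f h :=
  (homotopic_iff _ _).mpr (((homotopic_iff _ _).mp h₁).trans ((homotopic_iff _ _).mp h₂))

theorem homotopic_equivalence (X Y : LC) : Equivalence (Homotopic (X := X) (Y := Y)) :=
  ⟨Homotopic.refl, Homotopic.symm, Homotopic.trans⟩

@[reassoc]
theorem incl_naturality (t : unitInterval) {X Y : LC} (f : X ⟶ Y) :
    incl t X ≫ f ▷ II = f ≫ incl t Y := by
  ext x
  rw [app_comp, app_comp, app_incl, app_incl, app_whiskerRight_smash]

theorem Homotopic.comp_left {X Y Z : LC} (f : X ⟶ Y) {g h : Y ⟶ Z} (H : Homotopic g h) :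
    Homotopic (f ≫ g) (f ≫ h) := by
  obtain ⟨K, h0, h1⟩ := H
  refine ⟨f ▷ II ≫ K, ?_, ?_⟩
  · rw [incl_naturality_assoc, h0]
  · rw [incl_naturality_assoc, h1]

theorem Homotopic.comp_right {X Y Z : LC} {f g : X ⟶ Y} (H : Homotopic f g) (h : Y ⟶ Z) :
    Homotopic (f ≫ h) (g ≫ h) := by
  obtain ⟨K, h0, h1⟩ := H
  refine ⟨K ≫ h, ?_, ?_⟩
  · rw [← Category.assoc, h0]
  · rw [← Category.assoc, h1]

theorem Homotopic.comp {X Y Z : LC} {f g : X ⟶ Y} (H : Homotopic f g) {h k : Y ⟶ Z}
    (K : Homotopic h k) : Homotopic (f ≫ h) (g ≫ k) :=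
  (H.comp_right h).trans (Homotopic.comp_left g K)

theorem Homotopic.whiskerLeft (X : LC) {Y Z : LC} {f g : Y ⟶ Z} (H : Homotopic f g) :
    Homotopic (X ◁ f) (X ◁ g) := by
  obtain ⟨K, h0, h1⟩ := H
  have key : ∀ t : unitInterval,
      incl t (X ⊗ Y) ≫ (α_ X Y II).hom = X ◁ incl t Y := by
    intro t
    apply tensor_ext
    intro x y
    rw [app_comp, app_incl, app_associator_smash, app_whiskerLeft_smash, app_incl]
  refine ⟨(α_ X Y II).hom ≫ X ◁ K, ?_, ?_⟩
  · rw [← Category.assoc, key, ← MonoidalCategory.whiskerLeft_comp, h0]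
  · rw [← Category.assoc, key, ← MonoidalCategory.whiskerLeft_comp, h1]

theorem Homotopic.whiskerRight {Y Z : LC} {f g : Y ⟶ Z} (H : Homotopic f g) (X : LC) :
    Homotopic (f ▷ X) (g ▷ X) := by
  have h1 : ∀ k : Y ⟶ Z, k ▷ X = (β_ Y X).hom ≫ X ◁ k ≫ (β_ Z X).inv := by
    intro k
    rw [← Category.assoc, ← BraidedCategory.braiding_naturality_left, Category.assoc,
      Iso.hom_inv_id, Category.comp_id]
  rw [h1 f, h1 g]
  exact Homotopic.comp_left _ ((H.whiskerLeft X).comp_right _)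

theorem Homotopic.tensor {X Y Z W : LC} {f g : X ⟶ Y} (H : Homotopic f g) {h k : Z ⟶ W}
    (K : Homotopic h k) : Homotopic (f ⊗ₘ h) (g ⊗ₘ k) := by
  rw [MonoidalCategory.tensorHom_def, MonoidalCategory.tensorHom_def]
  exact (H.whiskerRight Z).comp (K.whiskerLeft Y)

/-- Homotopy equivalent objects. -/
def HEquiv (X Y : LC) : Prop :=
  ∃ (f : X ⟶ Y) (g : Y ⟶ X), Homotopic (f ≫ g) (𝟙 X) ∧ Homotopic (g ≫ f) (𝟙 Y)

/-- Morphisms which are homotopy equivalences. -/
def IsHEquiv {X Y : LC} (f : X ⟶ Y) : Prop :=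
  ∃ g : Y ⟶ X, Homotopic (f ≫ g) (𝟙 X) ∧ Homotopic (g ≫ f) (𝟙 Y)

/-- Cofibrations: the homotopy extension property. -/
def Cofib {A B : LC} (i : A ⟶ B) : Prop :=
  ∀ (Z : LC) (f : B ⟶ Z) (H : A ⊗ II ⟶ Z), incl 0 A ≫ H = i ≫ f →
    ∃ K : B ⊗ II ⟶ Z, incl 0 B ≫ K = f ∧ i ▷ II ≫ K = H

/-- The sphere `Sⁿ`: the one-point compactification of `ℝⁿ`. -/
abbrev Sph (n : ℕ) : LC := LC.of (Fin n → ℝ)

/-- The line: its one-point compactification is the circle. -/
abbrev RR : LC := LC.of ℝ

/-- The half line `[0, ∞)`: its one-point compactification is the interval pointed at one end. -/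
abbrev HH : LC := LC.of NNReal

end LC

/-! ## The homotopy category -/

/-- The homotopy category of `LC`. -/
structure HLC where
  /-- the underlying object -/
  obj : LC

namespace HLC

/-- the setoid of homotopy on morphisms -/
def setoid (X Y : LC) : Setoid (X ⟶ Y) := ⟨LC.Homotopic, LC.homotopic_equivalence X Y⟩

instance : Category HLC where
  Hom X Y := Quotient (setoid X.obj Y.obj)
  id X := Quotient.mk _ (𝟙 X.obj)
  comp f g := Quotient.map₂ (· ≫ ·) (fun _ _ h _ _ k => LC.Homotopic.comp h k) f g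
  id_comp := by rintro X Y ⟨f⟩; exact congrArg (Quotient.mk _) (Category.id_comp f)
  comp_id := by rintro X Y ⟨f⟩; exact congrArg (Quotient.mk _) (Category.comp_id f)
  assoc := by
    rintro X Y Z W ⟨f⟩ ⟨g⟩ ⟨h⟩; exact congrArg (Quotient.mk _) (Category.assoc f g h)

/-- the projection functor `LC ⥤ HLC` -/
def proj : LC ⥤ HLC where
  obj X := ⟨X⟩
  map f := Quotient.mk _ f
  map_id _ := rfl
  map_comp _ _ := rfl

theorem proj_map_surjective {X Y : HLC} (f : X ⟶ Y) :
    ∃ g : X.obj ⟶ Y.obj, proj.map g = f := Quotient.exists_rep f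

theorem proj_map_eq_iff {X Y : LC} (f g : X ⟶ Y) :
    proj.map f = proj.map g ↔ LC.Homotopic f g :=
  ⟨fun h => Quotient.exact h, fun h => Quotient.sound h⟩

theorem sound {X Y : LC} {f g : X ⟶ Y} (h : LC.Homotopic f g) : proj.map f = proj.map g :=
  Quotient.sound h

/-- the image of an isomorphism -/
def mapIso' {X Y : LC} (e : X ≅ Y) : (⟨X⟩ : HLC) ≅ ⟨Y⟩ := proj.mapIso e

instance : MonoidalCategoryStruct HLC where
  tensorObj X Y := ⟨X.obj ⊗ Y.obj⟩
  tensorUnit := ⟨𝟙_ LC⟩
  whiskerLeft X _ _ f := Quotient.map (X.obj ◁ ·) (fun _ _ h => LC.Homotopic.whiskerLeft X.obj h) f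
  whiskerRight f Z := Quotient.map (· ▷ Z.obj) (fun _ _ h => LC.Homotopic.whiskerRight h Z.obj) f
  tensorHom f g := Quotient.map₂ (· ⊗ₘ ·) (fun _ _ h _ _ k => LC.Homotopic.tensor h k) f g
  associator X Y Z := proj.mapIso (α_ X.obj Y.obj Z.obj)
  leftUnitor X := proj.mapIso (λ_ X.obj)
  rightUnitor X := proj.mapIso (ρ_ X.obj)

theorem proj_tensorHom {X Y Z W : LC} (f : X ⟶ Y) (g : Z ⟶ W) :
    proj.map (f ⊗ₘ g) = (proj.map f ⊗ₘ proj.map g : (⟨X⟩ : HLC) ⊗ ⟨Z⟩ ⟶ (⟨Y⟩ : HLC) ⊗ ⟨W⟩) := rfl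

instance : MonoidalCategory HLC where
  tensorHom_def := by
    rintro X₁ Y₁ X₂ Y₂ ⟨f⟩ ⟨g⟩
    exact congrArg (Quotient.mk _) (MonoidalCategory.tensorHom_def f g)
  id_tensorHom_id X Y := congrArg (Quotient.mk _) (MonoidalCategory.id_tensorHom_id X.obj Y.obj)
  tensorHom_comp_tensorHom := by
    rintro X₁ Y₁ Z₁ X₂ Y₂ Z₂ ⟨f₁⟩ ⟨f₂⟩ ⟨g₁⟩ ⟨g₂⟩
    exact congrArg (Quotient.mk _) (MonoidalCategory.tensorHom_comp_tensorHom f₁ f₂ g₁ g₂)
  whiskerLeft_id X Y := congrArg (Quotient.mk _) (MonoidalCategory.whiskerLeft_id X.obj Y.obj)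
  id_whiskerRight X Y := congrArg (Quotient.mk _) (MonoidalCategory.id_whiskerRight X.obj Y.obj)
  associator_naturality := by
    rintro X₁ X₂ X₃ Y₁ Y₂ Y₃ ⟨f₁⟩ ⟨f₂⟩ ⟨f₃⟩
    exact congrArg (Quotient.mk _) (MonoidalCategory.associator_naturality f₁ f₂ f₃)
  leftUnitor_naturality := by
    rintro X Y ⟨f⟩
    exact congrArg (Quotient.mk _) (MonoidalCategory.leftUnitor_naturality f)
  rightUnitor_naturality := by
    rintro X Y ⟨f⟩
    exact congrArg (Quotient.mk _) (MonoidalCategory.rightUnitor_naturality f)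
  pentagon W X Y Z :=
    congrArg (Quotient.mk _) (MonoidalCategory.pentagon W.obj X.obj Y.obj Z.obj)
  triangle X Y := congrArg (Quotient.mk _) (MonoidalCategory.triangle X.obj Y.obj)

instance : BraidedCategory HLC where
  braiding X Y := proj.mapIso (β_ X.obj Y.obj)
  braiding_naturality_right := by
    rintro X Y Z ⟨f⟩
    exact congrArg (Quotient.mk _) (BraidedCategory.braiding_naturality_right X.obj f)
  braiding_naturality_left := by
    rintro X Y ⟨f⟩ Z
    exact congrArg (Quotient.mk _) (BraidedCategory.braiding_naturality_left f Z.obj)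
  hexagon_forward X Y Z :=
    congrArg (Quotient.mk _) (BraidedCategory.hexagon_forward X.obj Y.obj Z.obj)
  hexagon_reverse X Y Z :=
    congrArg (Quotient.mk _) (BraidedCategory.hexagon_reverse X.obj Y.obj Z.obj)

instance : SymmetricCategory HLC where
  symmetry X Y := congrArg (Quotient.mk _) (SymmetricCategory.symmetry X.obj Y.obj)

/-- the projection is a monoidal functor -/
instance : proj.Monoidal :=
  Functor.CoreMonoidal.toMonoidal
    { εIso := Iso.refl (proj.obj (𝟙_ LC))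
      μIso := fun X Y => Iso.refl (proj.obj (X ⊗ Y))
      μIso_hom_natural_left := fun {X Y} f Z =>
        (Category.comp_id (X := proj.obj (X ⊗ Z)) (Y := proj.obj (Y ⊗ Z)) (proj.map (f ▷ Z))).trans
          (Category.id_comp (X := proj.obj (X ⊗ Z)) (Y := proj.obj (Y ⊗ Z))
            (proj.map (f ▷ Z))).symm
      μIso_hom_natural_right := fun {X Y} Z f =>
        (Category.comp_id (X := proj.obj (Z ⊗ X)) (Y := proj.obj (Z ⊗ Y)) (proj.map (Z ◁ f))).trans
          (Category.id_comp (X := proj.obj (Z ⊗ X)) (Y := proj.obj (Z ⊗ Y))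
            (proj.map (Z ◁ f))).symm
      associativity := fun X Y Z => by
        have h : (𝟙 (X ⊗ Y)) ▷ Z ≫ 𝟙 ((X ⊗ Y) ⊗ Z) ≫ (α_ X Y Z).hom =
            (α_ X Y Z).hom ≫ X ◁ 𝟙 (Y ⊗ Z) ≫ 𝟙 (X ⊗ Y ⊗ Z) := by simp
        exact congrArg (Quotient.mk (setoid ((X ⊗ Y) ⊗ Z) (X ⊗ Y ⊗ Z))) h
      left_unitality := fun X => by
        have h : (λ_ X).hom = (𝟙 (𝟙_ LC)) ▷ X ≫ 𝟙 (𝟙_ LC ⊗ X) ≫ (λ_ X).hom := by simp
        exact congrArg (Quotient.mk (setoid (𝟙_ LC ⊗ X) X)) h
      right_unitality := fun X => by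
        have h : (ρ_ X).hom = X ◁ (𝟙 (𝟙_ LC)) ≫ 𝟙 (X ⊗ 𝟙_ LC) ≫ (ρ_ X).hom := by simp
        exact congrArg (Quotient.mk (setoid (X ⊗ 𝟙_ LC) X)) h }

end HLC

end Vale.Agent.P251.G
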