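import Vale.Agent.P251.G.Gr
import Vale.Agent.P251.G.Homotopy

/-!
# P251, part G (G08): isometries and direct sums on Thom spaces `Th n I`

* `Th.map u hu : Th n I ⟶ Th n J` for an isometry `u : Matrix J I ℂ` (`uᴴ * u = 1`), functorial;
* `Th.reindex e` for a bijection of index types; `permMat e` the permutation matrix;
* `Th.homotopic` : homotopies of maps into `Th n J`;
* `Th.sum : Th n I ⊗ Th m J ⟶ Th k (I ⊕ J)` for `n + m = k`, strictly natural for isometries,
  strictly associative, commutative and unital up to the obvious bijections of index types.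
* `Th.incl : ℂ^I ⟶ Th (card I) I` (at `P = 1`).
-/

set_option linter.unusedSectionVars false

open CategoryTheory MonoidalCategory Filter Topology OnePoint Matrix

noncomputable section

namespace Vale.Agent.P251.G

open LC

variable {I J K L : Type} [Fintype I] [Fintype J] [Fintype K] [Fintype L] {n m k l : ℕ}

/-! ### Isometries -/

section isom

variable [DecidableEq I] [DecidableEq J] [DecidableEq K]

theorem isom_mul {u : Matrix J I ℂ} {w : Matrix K J ℂ} (hw : wᴴ * w = 1) (hu : uᴴ * u = 1) :
    (w * u)ᴴ * (w * u) = 1 := by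
  rw [conjTranspose_mul, Matrix.mul_assoc, ← Matrix.mul_assoc wᴴ, hw, Matrix.one_mul, hu]

theorem isom_one : (1 : Matrix I I ℂ)ᴴ * (1 : Matrix I I ℂ) = 1 := by simp

/-- the matrix of an injective map of index types: `e_i ↦ e_{f i}` -/
def injMat (f : I → J) : Matrix J I ℂ := Matrix.of fun j i => if j = f i then 1 else 0

theorem injMat_apply (f : I → J) (j : J) (i : I) : injMat f j i = if j = f i then 1 else 0 := rfl

theorem injMat_isom {f : I → J} (hf : Function.Injective f) :
    (injMat f)ᴴ * injMat f = (1 : Matrix I I ℂ) := by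
  ext i i'
  rw [Matrix.mul_apply, Matrix.one_apply]
  simp only [conjTranspose_apply, injMat_apply, apply_ite star, star_one, star_zero]
  simp only [ite_mul, one_mul, zero_mul, Finset.sum_ite_eq', Finset.mem_univ, if_true]
  by_cases h : i = i'
  · subst h; simp
  · rw [if_neg h, if_neg fun h' => h (hf h')]

theorem injMat_comp (f : I → J) (g : J → K) :
    injMat g * injMat f = (injMat (g ∘ f) : Matrix K I ℂ) := by
  ext a i
  rw [Matrix.mul_apply]
  simp only [injMat_apply, mul_ite, mul_one, mul_zero, Finset.sum_ite_eq', Finset.mem_univ,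
    if_true]
  rfl

theorem injMat_id : injMat (id : I → I) = (1 : Matrix I I ℂ) := by
  ext i i'
  rw [injMat_apply, Matrix.one_apply]
  rfl

theorem injMat_mulVec (f : I → J) (hf : Function.Injective f) (v : I → ℂ) (i : I) :
    (injMat f *ᵥ v) (f i) = v i := by
  simp only [mulVec, dotProduct, injMat_apply]
  rw [Finset.sum_eq_single i]
  · simp
  · intro b _ hb
    rw [if_neg fun h => hb (hf h).symm, zero_mul]
  · intro h; exact absurd (Finset.mem_univ i) h

theorem injMat_mulVec_of_notMem (f : I → J) (v : I → ℂ) (j : J) (hj : j ∉ Set.range f) :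
    (injMat f *ᵥ v) j = 0 := by
  simp only [mulVec, dotProduct, injMat_apply]
  refine Finset.sum_eq_zero fun i _ => ?_
  rw [if_neg fun h => hj ⟨i, h.symm⟩, zero_mul]

theorem injMat_equiv_mulVec (e : I ≃ J) (v : I → ℂ) : injMat e *ᵥ v = v ∘ e.symm := by
  ext j
  obtain ⟨i, rfl⟩ := e.surjective j
  rw [injMat_mulVec e e.injective]
  simp

theorem injMat_equiv_mul (e : I ≃ J) (M : Matrix I K ℂ) :
    injMat e * M = M.submatrix e.symm id := by
  ext j k
  obtain ⟨i, rfl⟩ := e.surjective j
  rw [Matrix.mul_apply]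
  simp only [injMat_apply, submatrix_apply, Equiv.symm_apply_apply, id]
  rw [Finset.sum_eq_single i]
  · simp
  · intro b _ hb
    rw [if_neg fun h => hb (e.injective h).symm, zero_mul]
  · intro h; exact absurd (Finset.mem_univ i) h

theorem injMat_equiv_conjTranspose (e : I ≃ J) : (injMat e)ᴴ = injMat e.symm := by
  ext i j
  simp only [conjTranspose_apply, injMat_apply, apply_ite star, star_one, star_zero]
  congr 1
  rw [eq_iff_iff, Equiv.eq_symm_apply]
  exact eq_comm

theorem injMat_equiv_conj (e : I ≃ J) (M : Matrix I I ℂ) :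
    injMat e * M * (injMat e)ᴴ = M.submatrix e.symm e.symm := by
  have h : M.submatrix e.symm id * (injMat e)ᴴ = M.submatrix e.symm e.symm := by
    have h2 := congrArg conjTranspose (injMat_equiv_mul e (M.submatrix e.symm id)ᴴ)
    rw [conjTranspose_mul, conjTranspose_conjTranspose] at h2
    rw [h2]
    ext a b
    simp [conjTranspose_apply]
  rw [injMat_equiv_mul, h]

theorem injMat_mul_apply {f : I → J} (hf : Function.Injective f) (M : Matrix I K ℂ) (i : I)
    (k : K) : (injMat f * M) (f i) k = M i k := by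
  rw [Matrix.mul_apply]
  simp only [injMat_apply]
  rw [Finset.sum_eq_single i]
  · simp
  · intro b _ hb
    rw [if_neg fun h => hb (hf h).symm, zero_mul]
  · intro h; exact absurd (Finset.mem_univ i) h

theorem injMat_mul_apply_of_notMem {f : I → J} (M : Matrix I K ℂ) (j : J)
    (hj : j ∉ Set.range f) (k : K) : (injMat f * M) j k = 0 := by
  rw [Matrix.mul_apply]
  simp only [injMat_apply]
  refine Finset.sum_eq_zero fun i _ => ?_
  rw [if_neg fun h => hj ⟨i, h.symm⟩, zero_mul]

theorem mul_injMat_conjTranspose_apply {f : I → J} (hf : Function.Injective f)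
    (M : Matrix K I ℂ) (i : I) (k : K) : (M * (injMat f)ᴴ) k (f i) = M k i := by
  have h := congrArg star (injMat_mul_apply hf Mᴴ i k)
  rw [← conjTranspose_apply, conjTranspose_mul, conjTranspose_conjTranspose] at h
  rw [h, conjTranspose_apply, star_star]

theorem mul_injMat_conjTranspose_apply_of_notMem {f : I → J}
    (M : Matrix K I ℂ) (j : J) (hj : j ∉ Set.range f) (k : K) :
    (M * (injMat f)ᴴ) k j = 0 := by
  have h := congrArg star (injMat_mul_apply_of_notMem Mᴴ j hj k)
  rw [← conjTranspose_apply, conjTranspose_mul, conjTranspose_conjTranspose, star_zero] at h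
  exact h

theorem injMat_inl_mulVec (v : I → ℂ) :
    injMat (Sum.inl : I → I ⊕ J) *ᵥ v = Sum.elim v 0 := by
  ext j
  rcases j with i | j
  · exact injMat_mulVec _ Sum.inl_injective v i
  · exact injMat_mulVec_of_notMem _ v _ (by rintro ⟨i, hi⟩; cases hi)

theorem injMat_inr_mulVec (v : J → ℂ) :
    injMat (Sum.inr : J → I ⊕ J) *ᵥ v = Sum.elim (0 : I → ℂ) v := by
  ext j
  rcases j with i | j
  · exact injMat_mulVec_of_notMem _ v _ (by rintro ⟨i, hi⟩; cases hi)
  · exact injMat_mulVec _ Sum.inr_injective v j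

theorem injMat_inl_conj (M : Matrix I I ℂ) :
    injMat (Sum.inl : I → I ⊕ J) * M * (injMat (Sum.inl : I → I ⊕ J))ᴴ =
      Matrix.fromBlocks M 0 0 0 := by
  have hr : ∀ j : J, (Sum.inr j : I ⊕ J) ∉ Set.range (Sum.inl : I → I ⊕ J) := by
    rintro j ⟨i, hi⟩; cases hi
  ext (i | i) (j | j)
  · rw [mul_injMat_conjTranspose_apply Sum.inl_injective, injMat_mul_apply Sum.inl_injective]
    rfl
  · rw [mul_injMat_conjTranspose_apply_of_notMem _ _ (hr j)]
    rfl
  · rw [mul_injMat_conjTranspose_apply Sum.inl_injective, injMat_mul_apply_of_notMem _ _ (hr i)]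
    rfl
  · rw [mul_injMat_conjTranspose_apply_of_notMem _ _ (hr j)]
    rfl

theorem injMat_inr_conj (M : Matrix J J ℂ) :
    injMat (Sum.inr : J → I ⊕ J) * M * (injMat (Sum.inr : J → I ⊕ J))ᴴ =
      Matrix.fromBlocks 0 0 0 M := by
  have hr : ∀ i : I, (Sum.inl i : I ⊕ J) ∉ Set.range (Sum.inr : J → I ⊕ J) := by
    rintro j ⟨i, hi⟩; cases hi
  ext (i | i) (j | j)
  · rw [mul_injMat_conjTranspose_apply_of_notMem _ _ (hr j)]
    rfl
  · rw [mul_injMat_conjTranspose_apply Sum.inr_injective, injMat_mul_apply_of_notMem _ _ (hr i)]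
    rfl
  · rw [mul_injMat_conjTranspose_apply_of_notMem _ _ (hr j)]
    rfl
  · rw [mul_injMat_conjTranspose_apply Sum.inr_injective, injMat_mul_apply Sum.inr_injective]
    rfl

theorem isom_fromBlocks {u : Matrix K I ℂ} {w : Matrix L J ℂ}
    (hu : uᴴ * u = 1) (hw : wᴴ * w = 1) :
    (Matrix.fromBlocks u 0 0 w)ᴴ * (Matrix.fromBlocks u 0 0 w) = 1 := by
  rw [fromBlocks_conjTranspose, fromBlocks_multiply]
  simp [hu, hw, fromBlocks_one]

end isom

namespace Th

/-! ### Homotopies into `Th n J` -/

/-- a criterion for homotopy -/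
theorem homotopic_of {X Y : LC} {f g : X ⟶ Y} (H : X × unitInterval → Y) (hH : Continuous H)
    (hp : Tendsto H (cocompact (X × unitInterval)) (cocompact Y))
    (h0 : ∀ x : X, app f (x : OnePoint X) = (H (x, 0) : OnePoint Y))
    (h1 : ∀ x : X, app g (x : OnePoint X) = (H (x, 1) : OnePoint Y)) : Homotopic f g := by
  refine ⟨LC.ofProper (X := LC.of (X × unitInterval)) H hH hp, ?_, ?_⟩
  · apply LC.hom_ext; intro x
    rw [app_comp, app_incl, h0]
    rfl
  · apply LC.hom_ext; intro x
    rw [app_comp, app_incl, h1]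
    rfl

/-- Construction of homotopies of maps into `Th n J`. -/
theorem homotopic {X : LC} {f g : X ⟶ LC.of (Th n J)}
    (P : X × unitInterval → Matrix J J ℂ) (v : X × unitInterval → J → ℂ) (hP : Continuous P)
    (hv : Continuous v) (h : ∀ x, IsProj n (P x)) (hPv : ∀ x, P x *ᵥ v x = v x)
    (hn : Tendsto (fun x => nsq (v x)) (cocompact (X × unitInterval)) atTop)
    (h0 : ∀ x : X, app f (x : OnePoint X) =
      (Th.mk (P (x, 0)) (v (x, 0)) (h _) (hPv _) : OnePoint (Th n J)))
    (h1 : ∀ x : X, app g (x : OnePoint X) =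
      (Th.mk (P (x, 1)) (v (x, 1)) (h _) (hPv _) : OnePoint (Th n J))) : Homotopic f g :=
  homotopic_of (Y := LC.of (Th n J)) (fun p => Th.mk (P p) (v p) (h p) (hPv p))
    ((hP.prodMk hv).subtype_mk _) (Th.tendsto_cocompact_iff.mpr hn) h0 h1

/-! ### Functoriality for isometries -/

section map

variable [DecidableEq I] [DecidableEq J] [DecidableEq K]

theorem nsq_isom {u : Matrix J I ℂ} (hu : uᴴ * u = 1) (v : I → ℂ) : nsq (u *ᵥ v) = nsq v :=
  nsq_mulVec (by rw [hu, one_mulVec])

/-- the action of an isometry on points -/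
def mapFun (u : Matrix J I ℂ) (hu : uᴴ * u = 1) (x : Th n I) : Th n J :=
  Th.mk (u * x.P * uᴴ) (u *ᵥ x.v) (x.isProj.conj (by rw [hu, Matrix.one_mul]))
    (x.isProj.conj_mulVec (by rw [hu, Matrix.one_mul]) x.P_mulVec)

@[simp] theorem mapFun_P (u : Matrix J I ℂ) (hu : uᴴ * u = 1) (x : Th n I) :
    (mapFun u hu x).P = u * x.P * uᴴ := rfl
@[simp] theorem mapFun_v (u : Matrix J I ℂ) (hu : uᴴ * u = 1) (x : Th n I) :
    (mapFun u hu x).v = u *ᵥ x.v := rfl

/-- functoriality of `Th n` for isometries -/
def map (u : Matrix J I ℂ) (hu : uᴴ * u = 1) : LC.of (Th n I) ⟶ LC.of (Th n J) :=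
  LC.ofProper (X := LC.of (Th n I)) (Y := LC.of (Th n J)) (mapFun u hu)
    (Continuous.subtype_mk ((by fun_prop : Continuous fun x : Th n I => u * x.P * uᴴ).prodMk
      (by fun_prop : Continuous fun x : Th n I => u *ᵥ x.v)) _)
    (by
      rw [Th.tendsto_cocompact_iff]
      simp only [mapFun_v, nsq_isom hu]
      exact Th.tendsto_nsq)

@[simp] theorem app_map_coe (u : Matrix J I ℂ) (hu : uᴴ * u = 1) (x : Th n I) :
    app (map u hu) (x : OnePoint (Th n I)) = (mapFun u hu x : OnePoint (Th n J)) := rfl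

theorem map_congr {u u' : Matrix J I ℂ} (h : u = u') (hu : uᴴ * u = 1) (hu' : u'ᴴ * u' = 1) :
    (map u hu : LC.of (Th n I) ⟶ LC.of (Th n J)) = map u' hu' := by
  subst h; rfl

theorem map_one : map (1 : Matrix I I ℂ) isom_one = 𝟙 (LC.of (Th n I)) := by
  apply LC.hom_ext; intro x
  rw [app_map_coe, app_id]
  congr 1
  ext1 <;> simp

theorem map_comp (u : Matrix J I ℂ) (hu : uᴴ * u = 1) (w : Matrix K J ℂ) (hw : wᴴ * w = 1) :
    map (n := n) u hu ≫ map w hw = map (w * u) (isom_mul hw hu) := by
  apply LC.hom_ext; intro x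
  rw [app_comp, app_map_coe, app_map_coe, app_map_coe]
  congr 1
  ext1
  · simp [Matrix.mul_assoc, conjTranspose_mul]
  · simp [mulVec_mulVec]

/-- the map induced by an injection of index types -/
abbrev inj (f : I → J) (hf : Function.Injective f) : LC.of (Th n I) ⟶ LC.of (Th n J) :=
  map (injMat f) (injMat_isom hf)

theorem inj_comp (f : I → J) (hf : Function.Injective f) (g : J → K) (hg : Function.Injective g) :
    inj (n := n) f hf ≫ inj g hg = inj (g ∘ f) (hg.comp hf) := by
  rw [inj, inj, map_comp]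
  exact map_congr (injMat_comp f g) _ _

theorem inj_id : inj (n := n) (id : I → I) Function.injective_id = 𝟙 _ := by
  rw [← map_one]
  exact map_congr injMat_id _ _

/-- change of the index type -/
def reindex (e : I ≃ J) : LC.of (Th n I) ≅ LC.of (Th n J) where
  hom := inj e e.injective
  inv := inj e.symm e.symm.injective
  hom_inv_id := by
    rw [inj_comp, ← inj_id]
    congr 1
    · ext x; simp
  inv_hom_id := by
    rw [inj_comp, ← inj_id]
    congr 1
    · ext x; simp

/-- homotopies from paths of isometries -/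
theorem map_homotopic (u : unitInterval → Matrix J I ℂ) (hc : Continuous u)
    (hu : ∀ t, (u t)ᴴ * u t = 1) :
    Homotopic (map (n := n) (u 0) (hu 0)) (map (u 1) (hu 1)) := by
  refine homotopic (X := LC.of (Th n I)) (fun p => u p.2 * p.1.P * (u p.2)ᴴ)
    (fun p => u p.2 *ᵥ p.1.v) ?_ ?_
    (fun p => p.1.isProj.conj (by rw [hu, Matrix.one_mul]))
    (fun p => p.1.isProj.conj_mulVec (by rw [hu, Matrix.one_mul]) p.1.P_mulVec) ?_ ?_ ?_
  · exact ((hc.comp continuous_snd).matrix_mul (Th.continuous_P.comp continuous_fst)).matrix_mul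
      (hc.comp continuous_snd).matrix_conjTranspose
  · exact (hc.comp continuous_snd).matrix_mulVec (Th.continuous_v.comp continuous_fst)
  · simp only [nsq_isom (hu _)]
    exact Th.tendsto_nsq.comp tendsto_fst_cocompact
  · intro x; rfl
  · intro x; rfl

end map

/-! ### Direct sums -/

section sum

/-- direct sum of points -/
def sumFun (h : n + m = k) (x : Th n I) (y : Th m J) : Th k (I ⊕ J) :=
  Th.mk (Matrix.fromBlocks x.P 0 0 y.P) (Sum.elim x.v y.v)
    (h ▸ IsProj.fromBlocks x.isProj y.isProj) (by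
      rw [fromBlocks_mulVec]
      simp only [zero_mulVec, add_zero, zero_add]
      congr 1
      · exact x.P_mulVec
      · exact y.P_mulVec)

@[simp] theorem sumFun_P (h : n + m = k) (x : Th n I) (y : Th m J) :
    (sumFun h x y).P = Matrix.fromBlocks x.P 0 0 y.P := rfl
@[simp] theorem sumFun_v (h : n + m = k) (x : Th n I) (y : Th m J) :
    (sumFun h x y).v = Sum.elim x.v y.v := rfl

theorem continuous_sumFun (h : n + m = k) :
    Continuous fun p : Th n I × Th m J => sumFun h p.1 p.2 := by
  refine Continuous.subtype_mk (Continuous.prodMk ?_ ?_) _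
  · exact (Th.continuous_P.comp continuous_fst).matrix_fromBlocks continuous_const
      continuous_const (Th.continuous_P.comp continuous_snd)
  · refine continuous_pi fun i => ?_
    rcases i with i | j
    · exact (continuous_apply i).comp (Th.continuous_v.comp continuous_fst)
    · exact (continuous_apply j).comp (Th.continuous_v.comp continuous_snd)

/-- the direct sum map -/
def sum (h : n + m = k) : LC.of (Th n I) ⊗ LC.of (Th m J) ⟶ LC.of (Th k (I ⊕ J)) :=
  LC.ofProper (X := LC.of (Th n I × Th m J)) (Y := LC.of (Th k (I ⊕ J)))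
    (fun p => sumFun h p.1 p.2) (continuous_sumFun h) (by
      rw [Th.tendsto_cocompact_iff]
      simp only [sumFun_v, nsq_elim]
      exact tendsto_add_cocompact Th.tendsto_nsq Th.tendsto_nsq (fun _ => nsq_nonneg _)
        (fun _ => nsq_nonneg _))

theorem app_sum_coe (h : n + m = k) (x : Th n I) (y : Th m J) :
    app (sum h) (((x, y) : Th n I × Th m J) : OnePoint (Th n I × Th m J)) =
      (sumFun h x y : OnePoint (Th k (I ⊕ J))) := rfl

@[simp] theorem app_sum_smash (h : n + m = k) (x : Th n I) (y : Th m J) :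
    app (sum h) (smash (x : OnePoint (Th n I)) (y : OnePoint (Th m J))) =
      (sumFun h x y : OnePoint (Th k (I ⊕ J))) := rfl

variable [DecidableEq I] [DecidableEq J] [DecidableEq K] [DecidableEq L]

/-- the direct sum is natural for isometries -/
theorem sum_naturality (h : n + m = k) (u : Matrix K I ℂ) (hu : uᴴ * u = 1)
    (w : Matrix L J ℂ) (hw : wᴴ * w = 1) :
    (map u hu ⊗ₘ map w hw) ≫ sum h = sum h ≫ map (Matrix.fromBlocks u 0 0 w)
      (isom_fromBlocks hu hw) := by
  apply tensor_ext
  intro x y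
  rw [app_comp, app_tensorHom_smash, app_map_coe, app_map_coe, app_sum_smash, app_comp,
    app_sum_smash, app_map_coe]
  congr 1
  ext1
  · simp [fromBlocks_multiply, fromBlocks_conjTranspose]
  · simp [fromBlocks_mulVec]

theorem sum_whiskerRight (h : n + m = k) (u : Matrix K I ℂ) (hu : uᴴ * u = 1) :
    (map u hu ▷ LC.of (Th m J)) ≫ sum h = sum h ≫ map (Matrix.fromBlocks u 0 0 1)
      (isom_fromBlocks hu isom_one) := by
  rw [← sum_naturality h u hu 1 isom_one, map_one, tensorHom_id]

theorem sum_whiskerLeft (h : n + m = k) (w : Matrix L J ℂ) (hw : wᴴ * w = 1) :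
    (LC.of (Th n I) ◁ map w hw) ≫ sum h = sum h ≫ map (Matrix.fromBlocks 1 0 0 w)
      (isom_fromBlocks isom_one hw) := by
  rw [← sum_naturality h 1 isom_one w hw, map_one, id_tensorHom]

theorem app_reindex_hom_coe (e : I ≃ J) (x : Th n I) :
    app (reindex e).hom (x : OnePoint (Th n I)) =
      (Th.mk (x.P.submatrix e.symm e.symm) (x.v ∘ e.symm)
        (by rw [← injMat_equiv_conj]
            exact x.isProj.conj (by rw [injMat_isom e.injective, Matrix.one_mul]))
        (by
          rw [submatrix_mulVec_equiv]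
          simp [Function.comp_assoc, x.P_mulVec]) : OnePoint (Th n J)) := by
  change app (inj e e.injective) _ = _
  rw [app_map_coe]
  congr 1
  ext1
  · exact injMat_equiv_conj e x.P
  · exact injMat_equiv_mulVec e x.v

/-- associativity of the direct sum -/
theorem sum_assoc {a b c ab bc abc : ℕ} (h1 : a + b = ab) (h2 : ab + c = abc) (h3 : b + c = bc)
    (h4 : a + bc = abc) :
    (sum h1 ▷ LC.of (Th c K)) ≫ sum h2 ≫ (reindex (Equiv.sumAssoc I J K)).hom =
      (α_ (LC.of (Th a I)) (LC.of (Th b J)) (LC.of (Th c K))).hom ≫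
        (LC.of (Th a I) ◁ sum h3) ≫ sum h4 := by
  apply tensor_ext₃
  intro x y z
  rw [app_comp, app_whiskerRight_smash, app_sum_smash, app_comp, app_sum_smash, app_comp,
    app_associator_smash, app_comp, app_whiskerLeft_smash, app_sum_smash, app_sum_smash,
    app_reindex_hom_coe]
  congr 1
  ext1
  · ext (i | i | i) (j | j | j) <;> rfl
  · ext (i | i | i) <;> rfl

/-- commutativity of the direct sum -/
theorem sum_comm (h : n + m = k) (h' : m + n = k) :
    sum h ≫ (reindex (Equiv.sumComm I J)).hom =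
      (β_ (LC.of (Th n I)) (LC.of (Th m J))).hom ≫ sum h' := by
  apply tensor_ext
  intro x y
  rw [app_comp, app_sum_smash, app_comp, app_braiding_smash, app_sum_smash, app_reindex_hom_coe]
  congr 1
  ext1
  · ext (i | i) (j | j) <;> rfl
  · ext (i | i) <;> rfl

/-- the unit: a point of `Th 0 I` -/
def zeroPt (I : Type) [Fintype I] : Th 0 I := Th.mk 0 0 IsProj.zero (by simp)

/-- `𝟙 ⟶ Th 0 I` -/
def unit (I : Type) [Fintype I] : 𝟙_ LC ⟶ LC.of (Th 0 I) := point (X := LC.of (Th 0 I)) (zeroPt I)

theorem app_unit (I : Type) [Fintype I] :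
    app (unit I) ((() : Unit) : OnePoint Unit) = (zeroPt I : OnePoint (Th 0 I)) := rfl

theorem unit_map (u : Matrix J I ℂ) (hu : uᴴ * u = 1) : unit I ≫ map u hu = unit J := by
  apply LC.hom_ext; rintro ⟨⟩
  rw [app_comp, app_unit, app_map_coe, app_unit]
  congr 1
  ext1
  · simp [zeroPt]
  · simp [zeroPt]

/-- left unit of the direct sum -/
theorem unit_sum (h : 0 + n = n) :
    (unit I ▷ LC.of (Th n J)) ≫ sum h =
      (λ_ (LC.of (Th n J))).hom ≫ inj (Sum.inr : J → I ⊕ J) Sum.inr_injective := by
  apply tensor_ext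
  rintro ⟨⟩ y
  rw [app_comp, app_whiskerRight_smash, app_unit, app_sum_smash, app_comp, app_leftUnitor_smash]
  change _ = app (map _ _) _
  rw [app_map_coe]
  congr 1
  ext1
  · exact (injMat_inr_conj _).symm
  · exact (injMat_inr_mulVec _).symm

/-- right unit of the direct sum -/
theorem sum_unit (h : n + 0 = n) :
    (LC.of (Th n I) ◁ unit J) ≫ sum h =
      (ρ_ (LC.of (Th n I))).hom ≫ inj (Sum.inl : I → I ⊕ J) Sum.inl_injective := by
  apply tensor_ext
  rintro x ⟨⟩
  rw [app_comp, app_whiskerLeft_smash, app_unit, app_sum_smash, app_comp, app_rightUnitor_smash]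
  change _ = app (map _ _) _
  rw [app_map_coe]
  congr 1
  ext1
  · exact (injMat_inl_conj _).symm
  · exact (injMat_inl_mulVec _).symm

end sum

/-! ### Vector spaces -/

section incl

/-- `ℂ^I` as an object of `LC` (an even sphere) -/
abbrev CC (I : Type) [Fintype I] : LC := LC.of (I → ℂ)

variable [DecidableEq I] [DecidableEq J] [DecidableEq K] [DecidableEq L]

/-- the action of isometries on vector spaces -/
def cmap (u : Matrix J I ℂ) (hu : uᴴ * u = 1) : CC I ⟶ CC J :=
  LC.ofProper (X := CC I) (Y := CC J) (fun v => u *ᵥ v) (by fun_prop) (by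
    rw [cocompact_vec, cocompact_vec, tendsto_comap_iff]
    have : (nsq ∘ fun v : I → ℂ => u *ᵥ v) = nsq := funext fun v => nsq_isom hu v
    rw [this]
    exact tendsto_comap)

@[simp] theorem app_cmap_coe (u : Matrix J I ℂ) (hu : uᴴ * u = 1) (v : I → ℂ) :
    app (cmap u hu) (v : OnePoint (I → ℂ)) = ((u *ᵥ v : J → ℂ) : OnePoint (J → ℂ)) := rfl

theorem cmap_congr {u u' : Matrix J I ℂ} (h : u = u') (hu : uᴴ * u = 1) (hu' : u'ᴴ * u' = 1) :
    cmap u hu = cmap u' hu' := by
  subst h; rfl

theorem cmap_one : cmap (1 : Matrix I I ℂ) isom_one = 𝟙 _ := by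
  apply LC.hom_ext; intro x
  rw [app_cmap_coe, one_mulVec]
  rfl

theorem cmap_comp (u : Matrix J I ℂ) (hu : uᴴ * u = 1) (w : Matrix K J ℂ) (hw : wᴴ * w = 1) :
    cmap u hu ≫ cmap w hw = cmap (w * u) (isom_mul hw hu) := by
  apply LC.hom_ext; intro x
  rw [app_comp, app_cmap_coe, app_cmap_coe, app_cmap_coe, mulVec_mulVec]

/-- homotopies from paths of isometries -/
theorem cmap_homotopic (u : unitInterval → Matrix J I ℂ) (hc : Continuous u)
    (hu : ∀ t, (u t)ᴴ * u t = 1) : Homotopic (cmap (u 0) (hu 0)) (cmap (u 1) (hu 1)) := by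
  refine homotopic_of (X := CC I) (Y := CC J) (fun p => u p.2 *ᵥ p.1)
    ((hc.comp continuous_snd).matrix_mulVec continuous_fst) ?_ ?_ ?_
  · rw [cocompact_vec, tendsto_comap_iff]
    have : (nsq ∘ fun p : (I → ℂ) × unitInterval => u p.2 *ᵥ p.1) = fun p => nsq p.1 :=
      funext fun p => nsq_isom (hu _) _
    rw [this]
    have h1 : Tendsto (nsq : (I → ℂ) → ℝ) (cocompact (I → ℂ)) atTop := by
      rw [cocompact_vec]
      exact tendsto_comap
    exact h1.comp (tendsto_fst_cocompact (X := I → ℂ) (Y := unitInterval))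
  · intro x; rfl
  · intro x; rfl

/-- `ℂ^I ⊗ ℂ^J ≅ ℂ^(I ⊕ J)` -/
def csum (I J : Type) [Fintype I] [Fintype J] : CC I ⊗ CC J ≅ CC (I ⊕ J) :=
  LC.ofHomeo (X := LC.of ((I → ℂ) × (J → ℂ))) (Y := CC (I ⊕ J))
    { toFun := fun p => Sum.elim p.1 p.2
      invFun := fun v => (fun i => v (Sum.inl i), fun j => v (Sum.inr j))
      left_inv := fun _ => rfl
      right_inv := fun v => by ext (i | i) <;> rfl
      continuous_toFun := by
        refine continuous_pi fun i => ?_
        rcases i with i | j
        · exact (continuous_apply i).comp continuous_fst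
        · exact (continuous_apply j).comp continuous_snd
      continuous_invFun := by fun_prop }

theorem app_csum_smash (v : I → ℂ) (w : J → ℂ) :
    app (csum I J).hom (smash (v : OnePoint (I → ℂ)) (w : OnePoint (J → ℂ))) =
      ((Sum.elim v w : I ⊕ J → ℂ) : OnePoint (I ⊕ J → ℂ)) := rfl

theorem csum_naturality (u : Matrix K I ℂ) (hu : uᴴ * u = 1)
    (w : Matrix L J ℂ) (hw : wᴴ * w = 1) :
    (cmap u hu ⊗ₘ cmap w hw) ≫ (csum K L).hom = (csum I J).hom ≫
      cmap (Matrix.fromBlocks u 0 0 w) (isom_fromBlocks hu hw) := by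
  apply tensor_ext
  intro x y
  rw [app_comp, app_tensorHom_smash, app_cmap_coe, app_cmap_coe, app_csum_smash, app_comp,
    app_csum_smash, app_cmap_coe]
  congr 1
  simp [fromBlocks_mulVec]

/-- the inclusion of the fibre `ℂ^I` at `P = 1` -/
def incl (I : Type) [Fintype I] [DecidableEq I] : CC I ⟶ LC.of (Th (Fintype.card I) I) :=
  Th.hom (X := CC I) (fun _ => 1) (fun v => v) continuous_const continuous_id
    (fun _ => IsProj.one) (fun _ => one_mulVec _) (by rw [cocompact_vec]; exact tendsto_comap)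

/-- the inclusion of the fibre `ℂ^I` at `P = 1`, cast free -/
def incl' (h : Fintype.card I = n) : CC I ⟶ LC.of (Th n I) :=
  Th.hom (X := CC I) (fun _ => 1) (fun v => v) continuous_const continuous_id
    (fun _ => h ▸ IsProj.one) (fun _ => one_mulVec _) (by rw [cocompact_vec]; exact tendsto_comap)

theorem app_incl'_coe (h : Fintype.card I = n) (v : I → ℂ) :
    app (incl' h) (v : OnePoint (I → ℂ)) =
      (Th.mk 1 v (h ▸ IsProj.one) (one_mulVec _) : OnePoint (Th n I)) := rfl

/-- the inclusions of vector spaces are compatible with direct sums -/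
theorem incl_sum (h1 : Fintype.card I = n) (h2 : Fintype.card J = m)
    (h3 : Fintype.card (I ⊕ J) = k) (h : n + m = k) :
    (incl' h1 ⊗ₘ incl' h2) ≫ sum h = (csum I J).hom ≫ incl' h3 := by
  apply tensor_ext
  intro x y
  rw [app_comp, app_tensorHom_smash, app_incl'_coe, app_incl'_coe, app_sum_smash, app_comp,
    app_csum_smash, app_incl'_coe]
  congr 1
  ext1
  · exact fromBlocks_one
  · rfl

/-- the inclusion is compatible with unitary matrices -/
theorem incl_map (h1 : Fintype.card I = n) (h2 : Fintype.card J = n) (u : Matrix J I ℂ)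
    (hu : uᴴ * u = 1) (hu' : u * uᴴ = 1) :
    incl' h1 ≫ map u hu = cmap u hu ≫ incl' h2 := by
  apply LC.hom_ext; intro x
  rw [app_comp, app_incl'_coe, app_map_coe, app_comp, app_cmap_coe, app_incl'_coe]
  congr 1
  ext1
  · simp [hu']
  · rfl

end incl

end Th

end Vale.Agent.P251.G
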