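import Vale.Agent.P251.G.Homotopy
import Mathlib.Topology.TietzeExtension
import Mathlib.Topology.UrysohnsLemma
import Mathlib.Analysis.SpecialFunctions.Exp
import Mathlib.Analysis.SpecialFunctions.Log.Basic

/-!
# P251, part G: pushouts in `LC`

* `homMk`: morphisms from pointed continuous maps of one-point compactifications.
* `ofPointed K k₀`: the object of `LC` given by a pointed compact Hausdorff space.
* `isPushout_of`: recognition criterion for pushouts along injective (closed) morphisms.
* `exists_pushout`: existence of pushouts along injective morphisms; `IsPushout` facts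
  (`injective_of_isPushout`, `bij_of_isPushout`).
* `compl i`, `quot i : B ⟶ compl i`: the complement of a closed embedding and the collapse.
* binary coproducts, mapping cones and the connecting morphism.
-/

open CategoryTheory MonoidalCategory Filter Topology OnePoint Limits

namespace Vale.Agent.P251.G

namespace LC

/-- A morphism from a pointed continuous map of one-point compactifications. -/
def homMk {X Y : LC} (f : OnePoint X → OnePoint Y) (hf : Continuous f) (h : f ∞ = ∞) : X ⟶ Y :=
  ⟨⟨f, hf⟩, h⟩

@[simp] theorem app_homMk {X Y : LC} (f : OnePoint X → OnePoint Y) (hf : Continuous f)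
    (h : f ∞ = ∞) (x : OnePoint X) : app (homMk f hf h) x = f x := rfl

theorem app_ext {X Y : LC} {f g : X ⟶ Y} (h : ∀ x : OnePoint X, app f x = app g x) : f = g :=
  hom_ext fun x => h x

theorem isClosedMap_app {X Y : LC} (f : X ⟶ Y) : IsClosedMap (app f) :=
  (continuous_app f).isClosedMap

theorem isClosedEmbedding_app {X Y : LC} (f : X ⟶ Y) (hf : Function.Injective (app f)) :
    IsClosedEmbedding (app f) :=
  (continuous_app f).isClosedEmbedding hf

section ofPointed

variable (K : Type) [TopologicalSpace K] [CompactSpace K] [T2Space K] (k₀ : K)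

/-- The object of `LC` given by a pointed compact Hausdorff space. -/
def ofPointed : LC :=
  haveI : LocallyCompactSpace {k : K // k ≠ k₀} :=
    (isOpen_compl_singleton (x := k₀)).locallyCompactSpace
  LC.of {k : K // k ≠ k₀}

/-- The one-point compactification of `ofPointed K k₀` is `K`. -/
noncomputable def ofPointedHomeo : OnePoint (ofPointed K k₀) ≃ₜ K :=
  OnePoint.equivOfIsEmbeddingOfRangeEq (X := {k : K // k ≠ k₀}) k₀ Subtype.val
    IsEmbedding.subtypeVal (by ext x; simp)

@[simp] theorem ofPointedHomeo_infty : ofPointedHomeo K k₀ ∞ = k₀ := rfl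

@[simp] theorem ofPointedHomeo_symm_base : (ofPointedHomeo K k₀).symm k₀ = ∞ := by
  rw [Homeomorph.symm_apply_eq]; rfl

variable {K k₀}

/-- A morphism into `ofPointed K k₀`. -/
noncomputable def toPointed {X : LC} (f : OnePoint X → K) (hf : Continuous f) (h : f ∞ = k₀) :
    X ⟶ ofPointed K k₀ :=
  homMk (fun x => (ofPointedHomeo K k₀).symm (f x))
    ((ofPointedHomeo K k₀).symm.continuous.comp hf) (by rw [h]; simp)

@[simp] theorem ofPointedHomeo_app_toPointed {X : LC} (f : OnePoint X → K) (hf : Continuous f)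
    (h : f ∞ = k₀) (x : OnePoint X) :
    ofPointedHomeo K k₀ (app (toPointed (k₀ := k₀) f hf h) x) = f x := by
  simp [toPointed]

/-- A morphism out of `ofPointed K k₀`. -/
noncomputable def fromPointed {X : LC} (f : K → OnePoint X) (hf : Continuous f) (h : f k₀ = ∞) :
    ofPointed K k₀ ⟶ X :=
  homMk (fun x => f (ofPointedHomeo K k₀ x)) (hf.comp (ofPointedHomeo K k₀).continuous) h

@[simp] theorem app_fromPointed {X : LC} (f : K → OnePoint X) (hf : Continuous f)
    (h : f k₀ = ∞) (x : OnePoint (ofPointed K k₀)) :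
    app (fromPointed f hf h) x = f (ofPointedHomeo K k₀ x) := rfl

end ofPointed

/-! ### Recognition of pushouts -/

section recognition

variable {A B C D : LC} {i : A ⟶ B} {f : A ⟶ C} {g : B ⟶ D} {j : C ⟶ D}

/-- The (topological) fact behind the recognition criterion. -/
theorem isQuotientMap_sum (hsurj : ∀ d : OnePoint D, (∃ b, app g b = d) ∨ ∃ c, app j c = d) :
    IsQuotientMap (Sum.elim (app g) (app j)) := by
  have hc : Continuous (Sum.elim (app g) (app j)) :=
    (continuous_app g).sumElim (continuous_app j)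
  refine IsClosedMap.isQuotientMap hc.isClosedMap hc ?_
  intro d
  rcases hsurj d with ⟨b, hb⟩ | ⟨c, hc⟩
  · exact ⟨Sum.inl b, hb⟩
  · exact ⟨Sum.inr c, hc⟩

/-- Recognition criterion, general form. -/
theorem isPushout_of' (w : i ≫ g = f ≫ j)
    (hsurj : ∀ d : OnePoint D, (∃ b, app g b = d) ∨ ∃ c, app j c = d)
    (hrel : ∀ (Z : LC) (h : B ⟶ Z) (k : C ⟶ Z), i ≫ h = f ≫ k →
      (∀ b b', app g b = app g b' → app h b = app h b') ∧
      (∀ b c, app g b = app j c → app h b = app k c) ∧
      (∀ c c', app j c = app j c' → app k c = app k c')) :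
    IsPushout i f g j := by
  classical
  have hq := isQuotientMap_sum hsurj
  have hdesc : ∀ s : PushoutCocone i f, ∃ m : D ⟶ s.pt, g ≫ m = s.inl ∧ j ≫ m = s.inr := by
    intro s
    obtain ⟨h1, h2, h3⟩ := hrel s.pt s.inl s.inr s.condition
    let F : OnePoint D → OnePoint s.pt := fun d =>
      Sum.elim (app s.inl) (app s.inr) (Function.surjInv hq.surjective d)
    have hF : ∀ x, F (Sum.elim (app g) (app j) x) = Sum.elim (app s.inl) (app s.inr) x := by
      intro x
      have hx := Function.surjInv_eq hq.surjective (Sum.elim (app g) (app j) x)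
      change Sum.elim (app s.inl) (app s.inr) (Function.surjInv hq.surjective _) = _
      generalize Function.surjInv hq.surjective (Sum.elim (app g) (app j) x) = y at hx ⊢
      rcases x with b | c <;> rcases y with b' | c'
      · exact h1 _ _ hx
      · exact (h2 _ _ hx.symm).symm
      · exact h2 _ _ hx
      · exact h3 _ _ hx
    have hFc : Continuous F := by
      rw [hq.continuous_iff]
      have : F ∘ (Sum.elim (app g) (app j)) = Sum.elim (app s.inl) (app s.inr) := funext hF
      rw [this]
      exact (continuous_app s.inl).sumElim (continuous_app s.inr)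
    have hF0 : F ∞ = ∞ := by
      have := hF (Sum.inl ∞)
      simpa using this
    refine ⟨homMk F hFc hF0, ?_, ?_⟩
    · apply app_ext; intro x
      exact hF (Sum.inl x)
    · apply app_ext; intro x
      exact hF (Sum.inr x)
  refine ⟨⟨w⟩, ⟨PushoutCocone.IsColimit.mk _ (fun s => (hdesc s).choose)
    (fun s => (hdesc s).choose_spec.1) (fun s => (hdesc s).choose_spec.2) ?_⟩⟩
  intro s m hm1 hm2
  obtain ⟨e1, e2⟩ := (hdesc s).choose_spec
  apply app_ext
  intro d
  rcases hsurj d with ⟨b, rfl⟩ | ⟨c, rfl⟩
  · rw [← app_comp, ← app_comp, hm1, e1]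
  · rw [← app_comp, ← app_comp, hm2, e2]

/-- Recognition criterion: a commutative square with `j` injective such that `g` induces a
bijection of the complements of the images of `i` and `j` is a pushout. -/
theorem isPushout_of (w : i ≫ g = f ≫ j) (hj : Function.Injective (app j))
    (hg : Set.BijOn (app g) (Set.range (app i))ᶜ (Set.range (app j))ᶜ) :
    IsPushout i f g j := by
  have hmem : ∀ b, app g b ∈ Set.range (app j) → b ∈ Set.range (app i) := by
    intro b hb
    by_contra hb'
    exact hg.mapsTo hb' hb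
  refine isPushout_of' w ?_ ?_
  · intro d
    by_cases hd : d ∈ Set.range (app j)
    · exact Or.inr hd
    · obtain ⟨b, -, hb⟩ := hg.surjOn hd
      exact Or.inl ⟨b, hb⟩
  · intro Z h k hk
    have hk' : ∀ a, app h (app i a) = app k (app f a) := fun a => by
      rw [← app_comp, ← app_comp, hk]
    have w' : ∀ a, app g (app i a) = app j (app f a) := fun a => by
      rw [← app_comp, ← app_comp, w]
    have h2 : ∀ b c, app g b = app j c → app h b = app k c := by
      intro b c hbc
      obtain ⟨a, rfl⟩ := hmem b ⟨c, hbc.symm⟩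
      rw [hk']
      congr 1
      apply hj
      rw [← w', hbc]
    refine ⟨?_, h2, ?_⟩
    · intro b b' hbb
      by_cases hb : app g b ∈ Set.range (app j)
      · obtain ⟨c, hc⟩ := hb
        rw [h2 b c hc.symm, h2 b' c (hbb.symm.trans hc.symm)]
      · have hb1 : b ∈ (Set.range (app i))ᶜ := by
          rintro ⟨a, rfl⟩
          exact hb ⟨app f a, (w' a).symm⟩
        have hb2 : b' ∈ (Set.range (app i))ᶜ := by
          rintro ⟨a, rfl⟩
          exact hb ⟨app f a, by rw [← w', ← hbb]⟩
        rw [hg.injOn hb1 hb2 hbb]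
    · intro c c' hcc
      rw [hj hcc]

end recognition

/-! ### Existence of pushouts along injective morphisms -/

section existence

variable {A B C : LC}

/-- The underlying type of the (one-point compactification of the) pushout. -/
inductive PO (i : A ⟶ B) (f : A ⟶ C) : Type
  /-- the points of `B` outside `A` -/
  | left (b : OnePoint B) (hb : b ∉ Set.range (app i)) : PO i f
  /-- the points of `C` -/
  | right (c : OnePoint C) : PO i f

open scoped Classical in
/-- the map `OnePoint B → PO i f` -/
noncomputable def poLeft (i : A ⟶ B) (f : A ⟶ C) (b : OnePoint B) : PO i f :=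
  if h : ∃ a, app i a = b then PO.right (app f h.choose)
  else PO.left b (fun h' => h (Set.mem_range.mp h'))

/-- the projection `OnePoint B ⊕ OnePoint C → PO i f` -/
noncomputable def poMap (i : A ⟶ B) (f : A ⟶ C) : OnePoint B ⊕ OnePoint C → PO i f :=
  Sum.elim (poLeft i f) PO.right

noncomputable instance (i : A ⟶ B) (f : A ⟶ C) : TopologicalSpace (PO i f) :=
  TopologicalSpace.coinduced (poMap i f) inferInstance

variable (i : A ⟶ B) (f : A ⟶ C)

theorem poLeft_of_notMem {b : OnePoint B} (h : b ∉ Set.range (app i)) :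
    poLeft i f b = PO.left b h :=
  dif_neg fun h' => h (Set.mem_range.mpr h')

theorem poLeft_app (hi : Function.Injective (app i)) (a : OnePoint A) :
    poLeft i f (app i a) = PO.right (app f a) := by
  have h : ∃ a', app i a' = app i a := ⟨a, rfl⟩
  have e : poLeft i f (app i a) = PO.right (app f h.choose) := dif_pos h
  rw [e, hi h.choose_spec]

theorem poMap_surjective : Function.Surjective (poMap i f) := by
  rintro (⟨b, hb⟩ | c)
  · exact ⟨Sum.inl b, poLeft_of_notMem i f hb⟩
  · exact ⟨Sum.inr c, rfl⟩

theorem isQuotientMap_poMap : IsQuotientMap (poMap i f) :=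
  ⟨⟨rfl⟩, poMap_surjective i f⟩

theorem continuous_poLeft : Continuous (poLeft i f) :=
  (isQuotientMap_poMap i f).continuous.comp continuous_inl

theorem continuous_poRight : Continuous (PO.right : OnePoint C → PO i f) :=
  (isQuotientMap_poMap i f).continuous.comp continuous_inr

instance : CompactSpace (PO i f) := by
  have := isCompact_range (isQuotientMap_poMap i f).continuous
  rw [(poMap_surjective i f).range_eq] at this
  exact ⟨this⟩

/-- continuous functions on the pushout -/
theorem exists_poFun (hi : Function.Injective (app i)) (u : C(OnePoint B, ℝ))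
    (v : C(OnePoint C, ℝ)) (huv : ∀ a, u (app i a) = v (app f a)) :
    ∃ φ : PO i f → ℝ, Continuous φ ∧ (∀ b, φ (poLeft i f b) = u b) ∧
      ∀ c, φ (PO.right c) = v c := by
  let φ : PO i f → ℝ := fun x => PO.casesOn x (fun b _ => u b) (fun c => v c)
  have h1 : ∀ b, φ (poLeft i f b) = u b := by
    intro b
    by_cases hb : b ∈ Set.range (app i)
    · obtain ⟨a, rfl⟩ := hb
      rw [poLeft_app i f hi, huv]
    · rw [poLeft_of_notMem i f hb]
  refine ⟨φ, ?_, h1, fun c => rfl⟩
  rw [(isQuotientMap_poMap i f).continuous_iff]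
  have : φ ∘ poMap i f = Sum.elim (fun b => u b) (fun c => v c) := by
    ext x
    rcases x with b | c
    · exact h1 b
    · rfl
  rw [this]
  exact u.continuous.sumElim v.continuous

theorem t2Space_PO (hi : Function.Injective (app i)) : T2Space (PO i f) := by
  have hcl := isClosedEmbedding_app i hi
  have key : ∀ x y : PO i f, x ≠ y → ∃ φ : PO i f → ℝ, Continuous φ ∧ φ x ≠ φ y := by
    have hinl : ∀ (b : OnePoint B) (hb : b ∉ Set.range (app i)) (y : PO i f),
        PO.left b hb ≠ y → ∃ φ : PO i f → ℝ, Continuous φ ∧ φ (PO.left b hb) ≠ φ y := by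
      intro b hb y hy
      have hb' : poLeft i f b = PO.left b hb := poLeft_of_notMem i f hb
      rcases y with ⟨b', hb2⟩ | c
      · have hne : b ≠ b' := by rintro rfl; exact hy rfl
        obtain ⟨u, hu0, hu1, -⟩ := exists_continuous_zero_one_of_isClosed
          (s := Set.range (app i) ∪ {b'}) (t := {b})
          (hcl.isClosed_range.union isClosed_singleton) isClosed_singleton
          (by
            rw [Set.disjoint_singleton_right]
            rintro (h | h)
            · exact hb h
            · exact hne h)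
        obtain ⟨φ, hφ, h1, h2⟩ := exists_poFun i f hi u 0
          (fun a => hu0 (Or.inl ⟨a, rfl⟩))
        refine ⟨φ, hφ, ?_⟩
        have e1 : φ (PO.left b hb) = 1 := by rw [← hb', h1]; exact hu1 rfl
        have e2 : φ (PO.left b' hb2) = 0 := by
          rw [← poLeft_of_notMem i f hb2, h1]; exact hu0 (Or.inr rfl)
        rw [e1, e2]; exact one_ne_zero
      · obtain ⟨u, hu0, hu1, -⟩ := exists_continuous_zero_one_of_isClosed
          (s := Set.range (app i)) (t := {b}) hcl.isClosed_range isClosed_singleton
          (by rw [Set.disjoint_singleton_right]; exact hb)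
        obtain ⟨φ, hφ, h1, h2⟩ := exists_poFun i f hi u 0 (fun a => hu0 ⟨a, rfl⟩)
        refine ⟨φ, hφ, ?_⟩
        have e1 : φ (PO.left b hb) = 1 := by rw [← hb', h1]; exact hu1 rfl
        rw [e1, h2]; exact one_ne_zero
    intro x y hxy
    rcases x with ⟨b, hb⟩ | c
    · exact hinl b hb y hxy
    · rcases y with ⟨b', hb'⟩ | c'
      · obtain ⟨φ, hφ, h⟩ := hinl b' hb' (PO.right c) hxy.symm
        exact ⟨φ, hφ, h.symm⟩
      · have hne : c ≠ c' := fun h => hxy (by rw [h])
        obtain ⟨v, hv0, hv1, hv⟩ := exists_continuous_zero_one_of_isClosed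
          (s := {c'}) (t := {c}) isClosed_singleton isClosed_singleton (by simpa using hne.symm)
        obtain ⟨u, hu⟩ := ContinuousMap.exists_extension hcl
          (⟨fun a => v (app f a), v.continuous.comp (continuous_app f)⟩ : C(OnePoint A, ℝ))
        obtain ⟨φ, hφ, h1, h2⟩ := exists_poFun i f hi u v
          (fun a => by
            have := DFunLike.congr_fun hu a
            exact this)
        refine ⟨φ, hφ, ?_⟩
        rw [h2, h2, hv1 rfl, hv0 rfl]; exact one_ne_zero
  refine ⟨fun x y hxy => ?_⟩
  obtain ⟨φ, hφ, h⟩ := key x y hxy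
  exact separated_by_continuous hφ h

/-- Pushouts along injective morphisms exist; the new morphism is again injective, and the
complements are in bijection. -/
theorem exists_pushout (hi : Function.Injective (app i)) :
    ∃ (D : LC) (g : B ⟶ D) (j : C ⟶ D), IsPushout i f g j ∧ Function.Injective (app j) ∧
      Set.BijOn (app g) (Set.range (app i))ᶜ (Set.range (app j))ᶜ := by
  have := t2Space_PO i f hi
  let k₀ : PO i f := PO.right ∞
  have hg0 : poLeft i f ∞ = k₀ := by
    have := poLeft_app i f hi ∞
    rwa [app_infty i, app_infty f] at this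
  let D := ofPointed (PO i f) k₀
  let e := ofPointedHomeo (PO i f) k₀
  let g : B ⟶ D := toPointed (poLeft i f) (continuous_poLeft i f) hg0
  let j : C ⟶ D := toPointed PO.right (continuous_poRight i f) rfl
  have eg : ∀ b, e (app g b) = poLeft i f b := fun b => ofPointedHomeo_app_toPointed _ _ _ b
  have ej : ∀ c, e (app j c) = PO.right c := fun c => ofPointedHomeo_app_toPointed _ _ _ c
  have w : i ≫ g = f ≫ j := by
    apply app_ext
    intro a
    apply e.injective
    rw [app_comp, app_comp, eg, ej, poLeft_app i f hi]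
  have hj : Function.Injective (app j) := by
    intro c c' h
    have := congrArg e h
    rw [ej, ej] at this
    injection this
  have hbij : Set.BijOn (app g) (Set.range (app i))ᶜ (Set.range (app j))ᶜ := by
    refine ⟨?_, ?_, ?_⟩
    · intro b hb
      rintro ⟨c, hc⟩
      have := congrArg e hc
      rw [ej, eg, poLeft_of_notMem i f hb] at this
      cases this
    · intro b hb b' hb' h
      have := congrArg e h
      rw [eg, eg, poLeft_of_notMem i f hb, poLeft_of_notMem i f hb'] at this
      injection this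
    · intro d hd
      rcases hd' : e d with ⟨b, hb⟩ | c
      · exact ⟨b, hb, e.injective (by rw [eg, poLeft_of_notMem i f hb, hd'])⟩
      · exact absurd ⟨c, e.injective (by rw [ej, hd'])⟩ hd
  exact ⟨D, g, j, isPushout_of w hj hbij, hj, hbij⟩

variable {i f}

/-- Any pushout along an injective morphism has the properties of `exists_pushout`. -/
theorem bij_of_isPushout {D : LC} {g : B ⟶ D} {j : C ⟶ D} (hi : Function.Injective (app i))
    (h : IsPushout i f g j) : Function.Injective (app j) ∧
      Set.BijOn (app g) (Set.range (app i))ᶜ (Set.range (app j))ᶜ := by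
  obtain ⟨D', g', j', h', hj', hb'⟩ := exists_pushout i f hi
  let e : D' ≅ D := h'.isoIsPushout _ _ h
  have e1 : g' ≫ e.hom = g := IsPushout.inl_isoIsPushout_hom _ _ h' h
  have e2 : j' ≫ e.hom = j := IsPushout.inr_isoIsPushout_hom _ _ h' h
  have hinj : Function.Injective (app e.hom) := by
    intro x y hxy
    have := congrArg (app e.inv) hxy
    rwa [← app_comp, ← app_comp, e.hom_inv_id, app_id, app_id] at this
  have hsurj : Function.Surjective (app e.hom) := fun y =>
    ⟨app e.inv y, by rw [← app_comp, e.inv_hom_id, app_id]⟩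
  have hg : app g = app e.hom ∘ app g' := by rw [← e1]; rfl
  have hj : app j = app e.hom ∘ app j' := by rw [← e2]; rfl
  refine ⟨?_, ?_⟩
  · rw [hj]; exact hinj.comp hj'
  · have h3 : (Set.range (app j))ᶜ = app e.hom '' (Set.range (app j'))ᶜ := by
      rw [hj, Set.range_comp, Set.image_compl_eq ⟨hinj, hsurj⟩]
    rw [hg, h3]
    exact Set.BijOn.comp (hinj.injOn.bijOn_image) hb'

theorem injective_of_isPushout {D : LC} {g : B ⟶ D} {j : C ⟶ D}
    (hi : Function.Injective (app i)) (h : IsPushout i f g j) : Function.Injective (app j) :=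
  (bij_of_isPushout hi h).1

/-- For a pushout along an injective morphism, every point is in the image. -/
theorem surj_of_isPushout {D : LC} {g : B ⟶ D} {j : C ⟶ D} (hi : Function.Injective (app i))
    (h : IsPushout i f g j) (d : OnePoint D) : (∃ b, app g b = d) ∨ ∃ c, app j c = d := by
  by_cases hd : d ∈ Set.range (app j)
  · exact Or.inr hd
  · obtain ⟨b, -, hb⟩ := (bij_of_isPushout hi h).2.surjOn hd
    exact Or.inl ⟨b, hb⟩

/-- characterisation of the points of `B` that go to the image of `C` -/
theorem eq_of_isPushout {D : LC} {g : B ⟶ D} {j : C ⟶ D} (hi : Function.Injective (app i))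
    (h : IsPushout i f g j) {b : OnePoint B} {c : OnePoint C} (hbc : app g b = app j c) :
    ∃ a, app i a = b ∧ app f a = c := by
  obtain ⟨hj, hb⟩ := bij_of_isPushout hi h
  have : b ∈ Set.range (app i) := by
    by_contra hb'
    exact hb.mapsTo hb' ⟨c, hbc.symm⟩
  obtain ⟨a, rfl⟩ := this
  refine ⟨a, rfl, hj ?_⟩
  rw [← hbc, ← app_comp, ← app_comp, h.w]

end existence

/-! ### Tensor products of pushouts -/

section tensor

theorem smash_inj {X Y : Type} {x x' : OnePoint X} {y y' : OnePoint Y}
    (h : smash x y = smash x' y') : (x = x' ∧ y = y') ∨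
      (smash x y = ∞ ∧ smash x' y' = ∞) := by
  induction x using OnePoint.rec with
  | infty => right; simp at h; exact ⟨by simp, h.symm ▸ by simp⟩
  | coe x =>
    induction y using OnePoint.rec with
    | infty => right; simp at h; exact ⟨by simp, h.symm ▸ by simp⟩
    | coe y =>
      induction x' using OnePoint.rec with
      | infty => exact absurd h (by simp)
      | coe x' =>
        induction y' using OnePoint.rec with
        | infty => exact absurd h (by simp)
        | coe y' =>
          left
          have := OnePoint.coe_injective h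
          simp only [Prod.mk.injEq] at this
          exact ⟨by rw [this.1], by rw [this.2]⟩

theorem exists_smash {X Y : Type} (z : OnePoint (X × Y)) :
    ∃ (x : OnePoint X) (y : OnePoint Y), smash x y = z := by
  induction z using OnePoint.rec with
  | infty => exact ⟨∞, ∞, rfl⟩
  | coe z => exact ⟨z.1, z.2, rfl⟩

variable {A B C D : LC} (X : LC) {i : A ⟶ B} {f : A ⟶ C} {g : B ⟶ D} {j : C ⟶ D}

theorem app_eq_infty_iff (hi : Function.Injective (app i)) (a : OnePoint A) :
    app i a = ∞ ↔ a = ∞ :=
  ⟨fun h => hi (h.trans (app_infty i).symm), fun h => by rw [h]; exact app_infty i⟩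

theorem injective_whiskerLeft (hi : Function.Injective (app i)) :
    Function.Injective (app (X ◁ i)) := by
  intro z z' h
  obtain ⟨x, a, rfl⟩ := exists_smash z
  obtain ⟨x', a', rfl⟩ := exists_smash z'
  rw [app_whiskerLeft_smash, app_whiskerLeft_smash] at h
  rcases smash_inj h with ⟨h1, h2⟩ | ⟨h1, h2⟩
  · rw [h1, hi h2]
  · rw [smash_eq_infty, app_eq_infty_iff hi, ← smash_eq_infty] at h1 h2
    rw [h1, h2]

theorem mem_range_whiskerLeft {x : OnePoint X} {b : OnePoint B}
    (h : smash x b ∈ Set.range (app (X ◁ i))) : smash x b = ∞ ∨ b ∈ Set.range (app i) := by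
  obtain ⟨z, hz⟩ := h
  obtain ⟨x', a, rfl⟩ := exists_smash z
  rw [app_whiskerLeft_smash] at hz
  rcases smash_inj hz with ⟨-, h2⟩ | ⟨-, h2⟩
  · exact Or.inr ⟨a, h2⟩
  · exact Or.inl h2

theorem infty_mem_range {A B : LC} (i : A ⟶ B) : ∞ ∈ Set.range (app i) := ⟨∞, app_infty i⟩

/-- The tensor product of a pushout (along an injective morphism) with an object. -/
theorem isPushout_whiskerLeft (hi : Function.Injective (app i)) (h : IsPushout i f g j) :
    IsPushout (X ◁ i) (X ◁ f) (X ◁ g) (X ◁ j) := by
  obtain ⟨hj, hb⟩ := bij_of_isPushout hi h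
  have w : X ◁ i ≫ X ◁ g = X ◁ f ≫ X ◁ j := by
    rw [← MonoidalCategory.whiskerLeft_comp, ← MonoidalCategory.whiskerLeft_comp, h.w]
  have hnot : ∀ (x : OnePoint X) (b : OnePoint B), smash x b ∉ Set.range (app (X ◁ i)) →
      x ≠ ∞ ∧ b ∉ Set.range (app i) := by
    intro x b hz
    refine ⟨?_, ?_⟩
    · rintro rfl
      exact hz ⟨∞, by rw [smash_infty_left]; exact app_infty _⟩
    · rintro ⟨a, rfl⟩
      exact hz ⟨smash x a, app_whiskerLeft_smash _ _ _ _⟩
  have hnot' : ∀ (x : OnePoint X) (b : OnePoint B), x ≠ ∞ → b ∉ Set.range (app i) →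
      smash x (app g b) ≠ ∞ := by
    intro x b hx hbr hz
    rcases smash_eq_infty.mp hz with h1 | h1
    · exact hx h1
    · exact hb.mapsTo hbr (h1 ▸ infty_mem_range j)
  refine isPushout_of w (injective_whiskerLeft X hj) ⟨?_, ?_, ?_⟩
  · intro z hz hz'
    obtain ⟨x, b, rfl⟩ := exists_smash z
    obtain ⟨hx, hbr⟩ := hnot x b hz
    rw [app_whiskerLeft_smash] at hz'
    rcases mem_range_whiskerLeft X hz' with h1 | h1
    · exact hnot' x b hx hbr h1
    · exact hb.mapsTo hbr h1
  · intro z hz z' hz' hzz
    obtain ⟨x, b, rfl⟩ := exists_smash z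
    obtain ⟨x', b', rfl⟩ := exists_smash z'
    obtain ⟨hx, hbr⟩ := hnot x b hz
    obtain ⟨hx', hbr'⟩ := hnot x' b' hz'
    rw [app_whiskerLeft_smash, app_whiskerLeft_smash] at hzz
    rcases smash_inj hzz with ⟨h1, h2⟩ | ⟨h1, -⟩
    · rw [h1, hb.injOn hbr hbr' h2]
    · exact absurd h1 (hnot' x b hx hbr)
  · intro z hz
    obtain ⟨x, d, rfl⟩ := exists_smash z
    have hd : d ∉ Set.range (app j) := by
      rintro ⟨c, rfl⟩
      exact hz ⟨smash x c, app_whiskerLeft_smash _ _ _ _⟩
    have hx : x ≠ ∞ := by
      rintro rfl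
      exact hz ⟨∞, by rw [smash_infty_left]; exact app_infty _⟩
    obtain ⟨b, hbr, rfl⟩ := hb.surjOn hd
    refine ⟨smash x b, ?_, app_whiskerLeft_smash _ _ _ _⟩
    intro hz'
    rcases mem_range_whiskerLeft X hz' with h1 | h1
    · rcases smash_eq_infty.mp h1 with h2 | h2
      · exact hx h2
      · exact hbr (h2 ▸ infty_mem_range i)
    · exact hbr h1

theorem isPushout_whiskerRight (hi : Function.Injective (app i)) (h : IsPushout i f g j) :
    IsPushout (i ▷ X) (f ▷ X) (g ▷ X) (j ▷ X) :=
  IsPushout.of_iso (isPushout_whiskerLeft X hi h) (β_ X A) (β_ X B) (β_ X C) (β_ X D)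
    (BraidedCategory.braiding_naturality_right X i)
    (BraidedCategory.braiding_naturality_right X f)
    (BraidedCategory.braiding_naturality_right X g)
    (BraidedCategory.braiding_naturality_right X j)

theorem injective_whiskerRight (hi : Function.Injective (app i)) :
    Function.Injective (app (i ▷ X)) := by
  have h1 : i ▷ X = (β_ A X).hom ≫ X ◁ i ≫ (β_ B X).inv := by
    rw [← Category.assoc, ← BraidedCategory.braiding_naturality_left, Category.assoc,
      Iso.hom_inv_id, Category.comp_id]
  have h2 : ∀ {P Q : LC} (e : P ≅ Q), Function.Injective (app e.hom) := by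
    intro P Q e x y hxy
    have := congrArg (app e.inv) hxy
    rwa [← app_comp, ← app_comp, e.hom_inv_id, app_id, app_id] at this
  rw [h1]
  exact (h2 (β_ B X).symm).comp ((injective_whiskerLeft X hi).comp (h2 (β_ A X)))

end tensor

/-! ### The zero object -/

section zero

theorem eq_infty_empty (x : OnePoint (LC.of Empty)) : x = ∞ := by
  induction x using OnePoint.rec with
  | infty => rfl
  | coe x => exact x.elim

theorem isZero_empty : IsZero (LC.of Empty) := by
  rw [IsZero.iff_id_eq_zero]
  apply hom_ext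
  intro x
  exact x.elim

instance : HasZeroObject LC := ⟨⟨_, isZero_empty⟩⟩

end zero

/-! ### Complements, collapses, cofibre squares -/

section complement

variable {A B : LC} (i : A ⟶ B)

theorem isOpen_compl_range : IsOpen {b : B | (b : OnePoint B) ∉ Set.range (app i)} := by
  have h : IsClosed (Set.range (app i)) := (isCompact_range (continuous_app i)).isClosed
  exact h.isOpen_compl.preimage OnePoint.continuous_coe

/-- The complement of the image of a morphism. -/
def compl : LC :=
  have : LocallyCompactSpace {b : B // (b : OnePoint B) ∉ Set.range (app i)} :=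
    (isOpen_compl_range i).locallyCompactSpace
  LC.of {b : B // (b : OnePoint B) ∉ Set.range (app i)}

/-- The collapse onto the complement. -/
noncomputable def quot : B ⟶ compl i :=
  ofOpen (Y := compl i) Subtype.val (isOpen_compl_range i).isOpenEmbedding_subtypeVal

theorem app_quot_of_notMem (b : B) (hb : (b : OnePoint B) ∉ Set.range (app i)) :
    app (quot i) (b : OnePoint B) =
      OnePoint.some (⟨b, hb⟩ : {b : B // (b : OnePoint B) ∉ Set.range (app i)}) :=
  app_ofOpen_coe (Y := compl i) Subtype.val _ ⟨b, hb⟩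

variable {i}

/-- Cofibre squares: the collapse onto (a copy of) the complement is the pushout. -/
theorem isPushout_collapse {U : LC} (u : U → B)
    (hu : IsOpenEmbedding u) (h : ∀ b : B, b ∈ Set.range u ↔ (b : OnePoint B) ∉ Set.range (app i))
    {Z : LC} (hZ : IsZero Z) (f : A ⟶ Z) (k : Z ⟶ U) : IsPushout i f (ofOpen u hu) k := by
  have hf : f = 0 := hZ.eq_of_tgt _ _
  have hk : k = 0 := hZ.eq_of_src _ _
  subst hf hk
  have hrange : ∀ x : OnePoint U, x ∈ Set.range (app (0 : Z ⟶ U)) ↔ x = ∞ := by
    intro x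
    constructor
    · rintro ⟨z, rfl⟩; rfl
    · rintro rfl; exact ⟨∞, rfl⟩
  have hout : ∀ b : OnePoint B, b ∉ Set.range (app i) → ∃ v : U, b = (u v : OnePoint B) := by
    intro b hb
    induction b using OnePoint.rec with
    | infty => exact absurd (infty_mem_range i) hb
    | coe b =>
      obtain ⟨v, hv⟩ := (h b).mpr hb
      exact ⟨v, by rw [hv]⟩
  have w : i ≫ ofOpen u hu = 0 ≫ (0 : Z ⟶ U) := by
    rw [zero_comp]
    apply app_ext
    intro a
    rw [app_comp, app_zero]
    by_contra hne
    generalize hb : app i a = b at hne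
    induction b using OnePoint.rec with
    | infty => exact hne (app_infty _)
    | coe b =>
      by_cases hb' : b ∈ Set.range u
      · exact (h b).mp hb' ⟨a, hb⟩
      · exact hne (app_ofOpen_of_notMem u hu hb')
  have hZinj : Function.Injective (app (0 : Z ⟶ U)) := by
    have hZ' : ∀ z : OnePoint Z, z = ∞ := by
      intro z
      have : (𝟙 Z : Z ⟶ Z) = 0 := hZ.eq_of_src _ _
      rw [← app_id Z z, this]; rfl
    intro z z' _
    rw [hZ' z, hZ' z']
  refine isPushout_of w hZinj ⟨?_, ?_, ?_⟩
  · intro b hb hb'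
    rw [hrange] at hb'
    obtain ⟨v, rfl⟩ := hout b hb
    rw [app_ofOpen_coe] at hb'
    exact OnePoint.coe_ne_infty _ hb'
  · intro b hb b' hb' hbb
    obtain ⟨v, rfl⟩ := hout b hb
    obtain ⟨v', rfl⟩ := hout b' hb'
    rw [app_ofOpen_coe, app_ofOpen_coe] at hbb
    rw [OnePoint.coe_injective hbb]
  · intro x hx
    have hx' : x ≠ ∞ := fun h' => hx ((hrange x).mpr h')
    obtain ⟨v, rfl⟩ := OnePoint.ne_infty_iff_exists.mp hx'
    exact ⟨(u v : OnePoint B), (h _).mp ⟨v, rfl⟩, app_ofOpen_coe u hu v⟩

theorem isPushout_quot {Z : LC} (hZ : IsZero Z) (f : A ⟶ Z)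
    (k : Z ⟶ compl i) : IsPushout i f (quot i) k :=
  isPushout_collapse (U := compl i) Subtype.val
    (isOpen_compl_range i).isOpenEmbedding_subtypeVal (fun b => by
      constructor
      · rintro ⟨v, rfl⟩; exact v.2
      · intro hb; exact ⟨⟨b, hb⟩, rfl⟩) hZ f k

theorem injective_app_ofClosed {Z Y : LC} (z : Z → Y) (hz : IsClosedEmbedding z) :
    Function.Injective (app (ofClosed z hz)) := by
  intro x y hxy
  induction x using OnePoint.rec with
  | infty =>
    induction y using OnePoint.rec with
    | infty => rfl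
    | coe y =>
      rw [app_infty, app_ofClosed_coe] at hxy
      exact absurd hxy.symm (OnePoint.coe_ne_infty _)
  | coe x =>
    induction y using OnePoint.rec with
    | infty =>
      rw [app_infty, app_ofClosed_coe] at hxy
      exact absurd hxy (OnePoint.coe_ne_infty _)
    | coe y =>
      rw [app_ofClosed_coe, app_ofClosed_coe] at hxy
      rw [hz.injective (OnePoint.coe_injective hxy)]

theorem coe_mem_range_app_ofClosed {Z Y : LC} (z : Z → Y) (hz : IsClosedEmbedding z) (y : Y) :
    (y : OnePoint Y) ∈ Set.range (app (ofClosed z hz)) ↔ y ∈ Set.range z := by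
  constructor
  · rintro ⟨x, hx⟩
    induction x using OnePoint.rec with
    | infty => rw [app_infty] at hx; exact absurd hx.symm (OnePoint.coe_ne_infty _)
    | coe x =>
      rw [app_ofClosed_coe] at hx
      exact ⟨x, OnePoint.coe_injective hx⟩
  · rintro ⟨x, rfl⟩
    exact ⟨(x : OnePoint Z), rfl⟩

/-- Closed subspace / open complement form of the cofibre square. -/
theorem isPushout_closed_open {Z Y U : LC} (z : Z → Y) (hz : IsClosedEmbedding z) (u : U → Y)
    (hu : IsOpenEmbedding u) (h : IsCompl (Set.range z) (Set.range u)) {E : LC} (hE : IsZero E)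
    (f : Z ⟶ E) (k : E ⟶ U) : IsPushout (ofClosed z hz) f (ofOpen u hu) k :=
  isPushout_collapse u hu (fun y => by
    rw [coe_mem_range_app_ofClosed]
    constructor
    · intro hy hy'
      exact Set.disjoint_left.mp h.disjoint hy' hy
    · intro hy
      have := h.codisjoint.top_le (Set.mem_univ y)
      rcases this with h1 | h1
      · exact absurd h1 hy
      · exact h1) hE f k

end complement

/-! ### Binary coproducts -/

section coproduct

instance locallyCompactSpace_sum {X Y : Type*} [TopologicalSpace X] [TopologicalSpace Y]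
    [LocallyCompactSpace X] [LocallyCompactSpace Y] : LocallyCompactSpace (X ⊕ Y) := by
  refine ⟨fun x n hn => ?_⟩
  rcases x with x | y
  · rw [nhds_inl, mem_map] at hn
    obtain ⟨s, hs, hsn, hsc⟩ := local_compact_nhds hn
    refine ⟨Sum.inl '' s, ?_, Set.image_subset_iff.mpr hsn, hsc.image continuous_inl⟩
    rw [nhds_inl]
    exact image_mem_map hs
  · rw [nhds_inr, mem_map] at hn
    obtain ⟨s, hs, hsn, hsc⟩ := local_compact_nhds hn
    refine ⟨Sum.inr '' s, ?_, Set.image_subset_iff.mpr hsn, hsc.image continuous_inr⟩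
    rw [nhds_inr]
    exact image_mem_map hs

variable (X Y : LC)

/-- the disjoint union -/
abbrev sum : LC := LC.of (X ⊕ Y)

/-- inclusion of the first summand -/
def sumInl : X ⟶ sum X Y := ofClosed (Y := sum X Y) Sum.inl IsClosedEmbedding.inl

/-- inclusion of the second summand -/
def sumInr : Y ⟶ sum X Y := ofClosed (Y := sum X Y) Sum.inr IsClosedEmbedding.inr

theorem isPushout_sum {Z : LC} (hZ : IsZero Z) (f : Z ⟶ X) (g : Z ⟶ Y) :
    IsPushout f g (sumInl X Y) (sumInr X Y) := by
  have hf : f = 0 := hZ.eq_of_src _ _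
  have hg : g = 0 := hZ.eq_of_src _ _
  subst hf hg
  refine isPushout_of (by rw [zero_comp, zero_comp]) (injective_app_ofClosed _ _) ⟨?_, ?_, ?_⟩
  · intro x hx hx'
    induction x using OnePoint.rec with
    | infty => exact hx (infty_mem_range _)
    | coe x =>
      obtain ⟨y, hy⟩ := (coe_mem_range_app_ofClosed (Y := sum X Y) Sum.inr
        IsClosedEmbedding.inr (Sum.inl x)).mp hx'
      cases hy
  · intro x _ x' _ h
    exact injective_app_ofClosed (Y := sum X Y) Sum.inl IsClosedEmbedding.inl h
  · intro s hs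
    induction s using OnePoint.rec with
    | infty => exact absurd (infty_mem_range _) hs
    | coe s =>
      rcases s with x | y
      · refine ⟨(x : OnePoint X), ?_, rfl⟩
        rintro ⟨z, hz⟩
        exact OnePoint.coe_ne_infty x hz.symm
      · exact absurd ⟨(y : OnePoint Y), rfl⟩ hs

/-- the morphism out of a disjoint union -/
noncomputable def sumDesc {X Y Z : LC} (f : X ⟶ Z) (g : Y ⟶ Z) : sum X Y ⟶ Z :=
  (isPushout_sum X Y isZero_empty 0 0).desc f g (by rw [zero_comp, zero_comp])

@[reassoc (attr := simp)]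
theorem sumInl_desc {X Y Z : LC} (f : X ⟶ Z) (g : Y ⟶ Z) : sumInl X Y ≫ sumDesc f g = f :=
  IsPushout.inl_desc _ _ _ _

@[reassoc (attr := simp)]
theorem sumInr_desc {X Y Z : LC} (f : X ⟶ Z) (g : Y ⟶ Z) : sumInr X Y ≫ sumDesc f g = g :=
  IsPushout.inr_desc _ _ _ _

theorem sum_hom_ext {X Y Z : LC} {f g : sum X Y ⟶ Z} (h1 : sumInl X Y ≫ f = sumInl X Y ≫ g)
    (h2 : sumInr X Y ≫ f = sumInr X Y ≫ g) : f = g :=
  (isPushout_sum X Y isZero_empty 0 0).hom_ext h1 h2

instance : HasBinaryCoproducts LC :=
  have : ∀ X Y : LC, HasColimit (pair X Y) := fun X Y =>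
    ⟨⟨⟨BinaryCofan.mk (sumInl X Y) (sumInr X Y), BinaryCofan.isColimitMk
      (fun s => sumDesc s.inl s.inr) (fun s => sumInl_desc _ _) (fun s => sumInr_desc _ _)
      (fun s m h1 h2 => sum_hom_ext (h1.trans (sumInl_desc (Z := s.pt) s.inl s.inr).symm)
        (h2.trans (sumInr_desc (Z := s.pt) s.inl s.inr).symm))⟩⟩⟩
  hasBinaryCoproducts_of_hasColimit_pair _

end coproduct

/-! ### Mapping cones -/

section cone

/-- The inclusion `X ⟶ X ⊗ [0, ∞)` at the finite end `0`. -/
def coneBase (X : LC) : X ⟶ X ⊗ HH := (ρ_ X).inv ≫ X ◁ point (X := HH) (0 : NNReal)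

theorem app_coneBase (X : LC) (x : OnePoint X) :
    app (coneBase X) x = smash x ((0 : NNReal) : OnePoint NNReal) := by
  induction x using OnePoint.rec with
  | infty => exact app_infty _
  | coe x => rfl

theorem injective_coneBase (X : LC) : Function.Injective (app (coneBase X)) := by
  intro x y h
  rw [app_coneBase, app_coneBase] at h
  rcases smash_inj h with ⟨h1, -⟩ | ⟨h1, h2⟩
  · exact h1
  · rw [smash_eq_infty] at h1 h2
    rcases h1 with h1 | h1
    · rcases h2 with h2 | h2
      · rw [h1, h2]
      · exact absurd h2 (OnePoint.coe_ne_infty _)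
    · exact absurd h1 (OnePoint.coe_ne_infty _)

@[reassoc]
theorem coneBase_naturality {X Y : LC} (f : X ⟶ Y) :
    coneBase X ≫ f ▷ HH = f ≫ coneBase Y := by
  apply app_ext
  intro x
  rw [app_comp, app_comp, app_coneBase, app_coneBase, app_whiskerRight_smash]

variable {X Y : LC} (f : X ⟶ Y)

/-- The mapping cone of `f` (its one-point compactification is the reduced mapping cone). -/
noncomputable def cone : LC := (exists_pushout (coneBase X) f (injective_coneBase X)).choose

/-- the map `X ⊗ [0, ∞) ⟶ cone f` -/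
noncomputable def coneInl : X ⊗ HH ⟶ cone f :=
  (exists_pushout (coneBase X) f (injective_coneBase X)).choose_spec.choose

/-- the inclusion `Y ⟶ cone f` -/
noncomputable def coneInr : Y ⟶ cone f :=
  (exists_pushout (coneBase X) f (injective_coneBase X)).choose_spec.choose_spec.choose

theorem isPushout_cone : IsPushout (coneBase X) f (coneInl f) (coneInr f) :=
  (exists_pushout (coneBase X) f (injective_coneBase X)).choose_spec.choose_spec.choose_spec.1

@[reassoc]
theorem cone_w : coneBase X ≫ coneInl f = f ≫ coneInr f := (isPushout_cone f).w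

theorem injective_coneInr : Function.Injective (app (coneInr f)) :=
  injective_of_isPushout (injective_coneBase X) (isPushout_cone f)

/-- the open embedding `exp : ℝ → [0, ∞)` -/
noncomputable def expHH (t : ℝ) : NNReal := ⟨Real.exp t, (Real.exp_pos t).le⟩

theorem isOpenEmbedding_expHH : IsOpenEmbedding expHH := by
  have h1 : IsOpenEmbedding ((↑) ∘ expHH : ℝ → ℝ) := Real.isOpenEmbedding_exp
  have h2 : Continuous expHH := Real.continuous_exp.subtype_mk _
  exact ⟨(IsEmbedding.of_comp h2 NNReal.continuous_coe h1.isEmbedding), by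
    have : Set.range expHH = {x : NNReal | 0 < x} := by
      ext x
      constructor
      · rintro ⟨t, rfl⟩
        exact Real.exp_pos t
      · intro hx
        exact ⟨Real.log x, NNReal.coe_injective (Real.exp_log hx)⟩
    rw [this]
    exact isOpen_lt continuous_const continuous_id⟩

theorem mem_range_expHH (x : NNReal) : x ∈ Set.range expHH ↔ x ≠ 0 := by
  constructor
  · rintro ⟨t, rfl⟩ h
    exact (Real.exp_pos t).ne' (congrArg NNReal.toReal h)
  · intro hx
    exact ⟨Real.log x, NNReal.coe_injective (Real.exp_log (NNReal.coe_pos.mpr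
      (pos_iff_ne_zero.mpr hx)))⟩

/-- The collapse `[0, ∞) ⟶ (0, ∞) ≅ ℝ`. -/
noncomputable def collHH : HH ⟶ RR := ofOpen (X := HH) (Y := RR) expHH isOpenEmbedding_expHH

theorem coneBase_collHH (X : LC) : coneBase X ≫ X ◁ collHH = 0 := by
  apply app_ext
  intro x
  rw [app_comp, app_coneBase, app_whiskerLeft_smash]
  have : app collHH ((0 : NNReal) : OnePoint NNReal) = ∞ :=
    app_ofOpen_of_notMem (X := HH) (Y := RR) expHH isOpenEmbedding_expHH
      (by rw [mem_range_expHH]; simp)
  rw [this, smash_infty_right]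
  rfl

/-- The connecting morphism of a mapping cone, with target the suspension `X ⊗ ℝ`. -/
noncomputable def coneConn : cone f ⟶ X ⊗ RR :=
  (isPushout_cone f).desc (X ◁ collHH) 0 (by rw [coneBase_collHH, comp_zero])

@[reassoc (attr := simp)]
theorem coneInl_conn : coneInl f ≫ coneConn f = X ◁ collHH := IsPushout.inl_desc _ _ _ _

@[reassoc (attr := simp)]
theorem coneInr_conn : coneInr f ≫ coneConn f = 0 := IsPushout.inr_desc _ _ _ _

theorem cone_hom_ext {Z : LC} {a b : cone f ⟶ Z} (h1 : coneInl f ≫ a = coneInl f ≫ b)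
    (h2 : coneInr f ≫ a = coneInr f ≫ b) : a = b :=
  (isPushout_cone f).hom_ext h1 h2

theorem whiskerLeft_collHH (X : LC) :
    X ◁ collHH = ofOpen (X := X ⊗ HH) (Y := X ⊗ RR) (Prod.map id expHH)
      (IsOpenEmbedding.id.prodMap isOpenEmbedding_expHH) := by
  apply tensor_ext
  intro x s
  by_cases hs : s ∈ Set.range expHH
  · obtain ⟨t, rfl⟩ := hs
    rw [app_whiskerLeft_smash]
    have h1 : app collHH ((expHH t : NNReal) : OnePoint NNReal) = (t : OnePoint ℝ) :=
      app_ofOpen_coe (X := HH) (Y := RR) expHH isOpenEmbedding_expHH t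
    rw [h1]
    exact (app_ofOpen_coe (X := X ⊗ HH) (Y := X ⊗ RR) (Prod.map id expHH)
      (IsOpenEmbedding.id.prodMap isOpenEmbedding_expHH) (x, t)).symm
  · rw [app_whiskerLeft_smash]
    have h1 : app collHH (s : OnePoint NNReal) = ∞ :=
      app_ofOpen_of_notMem (X := HH) (Y := RR) expHH isOpenEmbedding_expHH hs
    rw [h1, smash_infty_right]
    refine (app_ofOpen_of_notMem (X := X ⊗ HH) (Y := X ⊗ RR) (x := (x, s)) (Prod.map id expHH)
      (IsOpenEmbedding.id.prodMap isOpenEmbedding_expHH) ?_).symm
    rintro ⟨⟨x', t⟩, h⟩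
    exact hs ⟨t, congrArg Prod.snd h⟩

/-- `X ⟶ X ⊗ [0, ∞) ⟶ X ⊗ ℝ` is a cofibre square. -/
theorem isPushout_collHH {Z : LC} (hZ : IsZero Z) (k : X ⟶ Z) (l : Z ⟶ X ⊗ RR) :
    IsPushout (coneBase X) k (X ◁ collHH) l := by
  rw [whiskerLeft_collHH]
  refine isPushout_collapse _ _ ?_ hZ k l
  rintro ⟨x, s⟩
  constructor
  · rintro ⟨⟨x', t⟩, h⟩ ⟨y, hy⟩
    rw [app_coneBase] at hy
    have hs : s ≠ 0 := (mem_range_expHH s).mp ⟨t, congrArg Prod.snd h⟩
    rcases smash_inj (x' := (x : OnePoint X)) (y' := (s : OnePoint NNReal)) hy with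
      ⟨-, h2⟩ | ⟨-, h2⟩
    · exact hs (OnePoint.coe_injective h2).symm
    · exact OnePoint.coe_ne_infty _ h2
  · intro h
    have hs : s ≠ 0 := by
      rintro rfl
      exact h ⟨(x : OnePoint X), app_coneBase X x⟩
    obtain ⟨t, ht⟩ := (mem_range_expHH s).mpr hs
    exact ⟨(x, t), by simp [ht]⟩

/-- `Y ⟶ cone f ⟶ X ⊗ ℝ` is a cofibre square. -/
theorem isPushout_coneConn {Z : LC} (hZ : IsZero Z) (k : Y ⟶ Z) (l : Z ⟶ X ⊗ RR) :
    IsPushout (coneInr f) k (coneConn f) l := by
  have hl : l = 0 := hZ.eq_of_src _ _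
  have hk : k = 0 := hZ.eq_of_tgt _ _
  subst hl hk
  refine (IsPushout.of_left (h₁₁ := f) (v₁₁ := coneBase X) (h₂₁ := coneInl f) ?_ ?_
    (isPushout_cone f).flip).flip
  · rw [coneInl_conn, comp_zero]
    exact (isPushout_collHH hZ _ _).flip
  · rw [zero_comp, coneInr_conn]

/-- functoriality of the cone -/
noncomputable def coneMap {X' Y' : LC} {f : X ⟶ Y} {f' : X' ⟶ Y'} (a : X ⟶ X') (b : Y ⟶ Y')
    (w : f ≫ b = a ≫ f') : cone f ⟶ cone f' :=
  (isPushout_cone f).desc (a ▷ HH ≫ coneInl f') (b ≫ coneInr f') (by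
    rw [coneBase_naturality_assoc, cone_w, ← Category.assoc, ← Category.assoc, w])

@[reassoc (attr := simp)]
theorem coneInl_map {X' Y' : LC} {f : X ⟶ Y} {f' : X' ⟶ Y'} (a : X ⟶ X') (b : Y ⟶ Y')
    (w : f ≫ b = a ≫ f') : coneInl f ≫ coneMap a b w = a ▷ HH ≫ coneInl f' :=
  IsPushout.inl_desc _ _ _ _

@[reassoc (attr := simp)]
theorem coneInr_map {X' Y' : LC} {f : X ⟶ Y} {f' : X' ⟶ Y'} (a : X ⟶ X') (b : Y ⟶ Y')
    (w : f ≫ b = a ≫ f') : coneInr f ≫ coneMap a b w = b ≫ coneInr f' :=
  IsPushout.inr_desc _ _ _ _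

theorem coneMap_conn {X' Y' : LC} {f : X ⟶ Y} {f' : X' ⟶ Y'} (a : X ⟶ X') (b : Y ⟶ Y')
    (w : f ≫ b = a ≫ f') : coneMap a b w ≫ coneConn f' = coneConn f ≫ a ▷ RR := by
  apply cone_hom_ext
  · rw [coneInl_map_assoc, coneInl_conn, coneInl_conn_assoc,
      MonoidalCategory.whisker_exchange]
  · rw [coneInr_map_assoc, coneInr_conn, coneInr_conn_assoc, comp_zero, zero_comp]

end cone

end LC

end Vale.Agent.P251.G
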