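import Vale.Agent.P251.G.NDR
import Vale.Agent.P251.G.Pushout

/-!
# P251, part G: gluing

* identities, isomorphisms, composites and pushouts of cofibrations are cofibrations;
* `isPushout_cofMap`: the strict cofibre is the pushout along `A ⟶ 0`;
* `cofPushout`: a pushout square along `i` induces an isomorphism of the strict cofibres;
* `FC.pushout`, `FC.cof`: closure properties of finite cell spaces;
* `coneToCof`: the map from the mapping cone of a cofibration to its strict cofibre is a homotopy
  equivalence.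
-/

open CategoryTheory MonoidalCategory Filter Topology OnePoint Limits

namespace Vale.Agent.P251.G

namespace LC

section cofib

variable {A B C D : LC}

theorem cofib_of_isIso (i : A ⟶ B) [IsIso i] : Cofib i := by
  intro Z f H hfH
  refine ⟨(inv i) ▷ II ≫ H, ?_, ?_⟩
  · rw [incl_naturality_assoc, hfH, IsIso.inv_hom_id_assoc]
  · rw [← MonoidalCategory.comp_whiskerRight_assoc, IsIso.hom_inv_id,
      MonoidalCategory.id_whiskerRight, Category.id_comp]

theorem Cofib.comp {i : A ⟶ B} (hi : Cofib i) {j : B ⟶ C} (hj : Cofib j) : Cofib (i ≫ j) := by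
  intro Z f H hfH
  obtain ⟨K, k0, k1⟩ := hi Z (j ≫ f) H (by rw [hfH, Category.assoc])
  obtain ⟨L, l0, l1⟩ := hj Z f K k0
  exact ⟨L, l0, by rw [MonoidalCategory.comp_whiskerRight, Category.assoc, l1, k1]⟩

/-- pushouts of cofibrations are cofibrations -/
theorem Cofib.pushout {i : A ⟶ B} {f : A ⟶ C} {g : B ⟶ D} {j : C ⟶ D} (hi : Cofib i)
    (h : IsPushout i f g j) : Cofib j := by
  intro Z k H hkH
  have h2 : IsPushout (i ▷ II) (f ▷ II) (g ▷ II) (j ▷ II) :=
    isPushout_whiskerRight II hi.injective h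
  obtain ⟨K, k0, k1⟩ := hi Z (g ≫ k) (f ▷ II ≫ H) (by
    rw [incl_naturality_assoc, hkH, ← Category.assoc, ← h.w, Category.assoc])
  refine ⟨h2.desc K H k1, ?_, ?_⟩
  · apply h.hom_ext
    · rw [← incl_naturality_assoc, IsPushout.inl_desc, k0]
    · rw [← incl_naturality_assoc, IsPushout.inr_desc, hkH]
  · exact IsPushout.inr_desc _ _ _ _

/-- the zero morphism out of an empty space is a cofibration -/
theorem cofib_of_isEmpty {A B : LC} [IsEmpty A] (i : A ⟶ B) : Cofib i := by
  intro Z f H _
  refine ⟨B ◁ ofCompact (X := II) (Y := LC.of Unit) (fun _ => ()) continuous_const ≫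
    (ρ_ B).hom ≫ f, ?_, ?_⟩
  · rw [← Category.assoc, ← Category.assoc]
    have : (incl 0 B ≫ B ◁ ofCompact (X := II) (Y := LC.of Unit) (fun _ => ()) continuous_const) ≫
        (ρ_ B).hom = 𝟙 B := by
      apply hom_ext
      intro b
      rfl
    rw [this, Category.id_comp]
  · have : IsEmpty (A ⊗ II : LC) := inferInstanceAs (IsEmpty (A × unitInterval))
    rw [eq_zero_of_empty H]
    exact eq_zero_of_empty _

theorem cofib_coneBase (X : LC) : Cofib (coneBase X) := by
  unfold coneBase
  have h1 : Cofib (X ◁ point (X := HH) (0 : NNReal)) := cofib_point_zero.whiskerLeft X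
  exact h1.iso_comp (ρ_ X).symm

end cofib

section cofibre

variable {A B C D : LC}

/-- The strict cofibre is the pushout along the zero object. -/
theorem isPushout_cofMap (i : A ⟶ B) :
    IsPushout i (0 : A ⟶ LC.of Empty) (cofMap i) (0 : LC.of Empty ⟶ cof i) := by
  refine ⟨⟨by rw [comp_cofMap, zero_comp]⟩, ⟨PushoutCocone.IsColimit.mk _
    (fun s => cofDesc i s.inl (by rw [s.condition, zero_comp])) ?_ ?_ ?_⟩⟩
  · intro s
    exact cofMap_cofDesc _ _ _
  · intro s
    exact (eq_zero_of_empty (X := LC.of Empty) _).trans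
      (eq_zero_of_empty (X := LC.of Empty) _).symm
  · intro s m hm _
    rw [← cancel_epi (cofMap i), hm, cofMap_cofDesc]

/-- The isomorphism of strict cofibres induced by a pushout square. -/
noncomputable def cofPushout {i : A ⟶ B} {f : A ⟶ C} {g : B ⟶ D} {j : C ⟶ D}
    (h : IsPushout i f g j) : cof i ≅ cof j where
  hom := cofDesc i (g ≫ cofMap j) (by rw [← Category.assoc, h.w, Category.assoc, comp_cofMap,
    comp_zero])
  inv := cofDesc j (h.desc (cofMap i) 0 (by rw [comp_cofMap, comp_zero])) (IsPushout.inr_desc _ _ _ _)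
  hom_inv_id := by
    rw [← cancel_epi (cofMap i), cofMap_cofDesc_assoc, Category.assoc, cofMap_cofDesc,
      IsPushout.inl_desc, Category.comp_id]
  inv_hom_id := by
    rw [← cancel_epi (cofMap j), cofMap_cofDesc_assoc, Category.comp_id]
    apply h.hom_ext
    · rw [IsPushout.inl_desc_assoc, cofMap_cofDesc]
    · rw [IsPushout.inr_desc_assoc, zero_comp, comp_cofMap]

@[reassoc]
theorem cofMap_cofPushout {i : A ⟶ B} {f : A ⟶ C} {g : B ⟶ D} {j : C ⟶ D}
    (h : IsPushout i f g j) : cofMap i ≫ (cofPushout h).hom = g ≫ cofMap j :=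
  cofMap_cofDesc i (g ≫ cofMap j) (by rw [← Category.assoc, h.w, Category.assoc, comp_cofMap,
    comp_zero])

/-- Any pushout along a zero object is the strict cofibre. -/
noncomputable def cofIso {Z U : LC} {i : A ⟶ B} {k : A ⟶ Z} {q : B ⟶ U} {l : Z ⟶ U}
    (hZ : IsZero Z) (h : IsPushout i k q l) : cof i ≅ U where
  hom := cofDesc i q (by rw [h.w, hZ.eq_of_src l 0, comp_zero])
  inv := h.desc (cofMap i) 0 (by rw [comp_cofMap, comp_zero])
  hom_inv_id := by
    rw [← cancel_epi (cofMap i), cofMap_cofDesc_assoc, IsPushout.inl_desc, Category.comp_id]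
  inv_hom_id := by
    apply h.hom_ext
    · rw [IsPushout.inl_desc_assoc, cofMap_cofDesc, Category.comp_id]
    · exact hZ.eq_of_src _ _

@[reassoc]
theorem cofMap_cofIso {Z U : LC} {i : A ⟶ B} {k : A ⟶ Z} {q : B ⟶ U} {l : Z ⟶ U}
    (hZ : IsZero Z) (h : IsPushout i k q l) : cofMap i ≫ (cofIso hZ h).hom = q :=
  cofMap_cofDesc i q (by rw [h.w, hZ.eq_of_src l 0, comp_zero])

/-- The strict cofibre of a closed embedding with given open complement. -/
noncomputable def cofClosedOpen {Z Y U : LC} (z : Z → Y) (hz : IsClosedEmbedding z) (u : U → Y)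
    (hu : IsOpenEmbedding u) (h : IsCompl (Set.range z) (Set.range u)) :
    cof (ofClosed z hz) ≅ U :=
  cofIso isZero_empty (isPushout_closed_open z hz u hu h isZero_empty 0 0)

@[reassoc]
theorem cofMap_cofClosedOpen {Z Y U : LC} (z : Z → Y) (hz : IsClosedEmbedding z) (u : U → Y)
    (hu : IsOpenEmbedding u) (h : IsCompl (Set.range z) (Set.range u)) :
    cofMap (ofClosed z hz) ≫ (cofClosedOpen z hz u hu h).hom = ofOpen u hu :=
  cofMap_cofIso _ _

/-- The strict cofibre of the base inclusion of the cone is the suspension. -/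
noncomputable def cofConeBase (X : LC) : cof (coneBase X) ≅ X ⊗ RR :=
  cofIso isZero_empty (isPushout_collHH isZero_empty 0 0)

/-- The strict cofibre of `Y ⟶ cone f` is the suspension of `X`. -/
noncomputable def cofConeInr {X Y : LC} (f : X ⟶ Y) : cof (coneInr f) ≅ X ⊗ RR :=
  cofIso isZero_empty (isPushout_coneConn f isZero_empty 0 0)

theorem cofib_coneInr {X Y : LC} (f : X ⟶ Y) : Cofib (coneInr f) :=
  (cofib_coneBase X).pushout (isPushout_cone f)

theorem cofib_coneInl {i : A ⟶ B} (hi : Cofib i) : Cofib (coneInl i) :=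
  hi.pushout (isPushout_cone i).flip

theorem contr_tensor_HH (X : LC) : Contr (X ⊗ HH) :=
  (contr_HH.tensor X).of_hequiv (HEquiv.of_iso (β_ HH X))

/-- The map from the mapping cone of `i` to the strict cofibre of `i`. -/
noncomputable def coneToCof (i : A ⟶ B) : cone i ⟶ cof i :=
  (isPushout_cone i).desc 0 (cofMap i) (by rw [comp_zero, comp_cofMap])

@[reassoc (attr := simp)]
theorem coneInr_coneToCof (i : A ⟶ B) : coneInr i ≫ coneToCof i = cofMap i :=
  IsPushout.inr_desc _ _ _ _

@[reassoc (attr := simp)]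
theorem coneInl_coneToCof (i : A ⟶ B) : coneInl i ≫ coneToCof i = 0 :=
  IsPushout.inl_desc _ _ _ _

theorem IsHEquiv.comp {X Y Z : LC} {f : X ⟶ Y} {g : Y ⟶ Z} (hf : IsHEquiv f) (hg : IsHEquiv g) :
    IsHEquiv (f ≫ g) := by
  obtain ⟨f', h1, h2⟩ := hf
  obtain ⟨g', k1, k2⟩ := hg
  refine ⟨g' ≫ f', ?_, ?_⟩
  · have : (f ≫ g) ≫ g' ≫ f' = f ≫ (g ≫ g') ≫ f' := by simp only [Category.assoc]
    rw [this]
    exact ((Homotopic.comp_left f (k1.comp_right f')).trans
      (Homotopic.of_eq (by rw [Category.id_comp]))).trans h1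
  · have : (g' ≫ f') ≫ f ≫ g = g' ≫ (f' ≫ f) ≫ g := by simp only [Category.assoc]
    rw [this]
    exact ((Homotopic.comp_left g' (h2.comp_right g)).trans
      (Homotopic.of_eq (by rw [Category.id_comp]))).trans k2

/-- The map from the mapping cone of a cofibration to the strict cofibre is a homotopy
equivalence. -/
theorem isHEquiv_coneToCof {i : A ⟶ B} (hi : Cofib i) : IsHEquiv (coneToCof i) := by
  have h1 : IsHEquiv (cofMap (coneInl i)) :=
    isHEquiv_cofMap (cofib_coneInl hi) (contr_tensor_HH A)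
  have h2 : coneToCof i = cofMap (coneInl i) ≫ (cofPushout (isPushout_cone i).flip).inv := by
    rw [Iso.eq_comp_inv]
    apply cone_hom_ext
    · rw [coneInl_coneToCof_assoc, zero_comp, comp_cofMap]
    · rw [coneInr_coneToCof_assoc, cofMap_cofPushout]
  rw [h2]
  exact h1.comp (isHEquiv_of_iso _)

end cofibre

namespace FC

theorem line : FC RR := by
  refine (FC.sph 1).of_homeo (Y := LC.of ℝ) ?_
  exact Homeomorph.funUnique (Fin 1) ℝ

theorem halfLine : FC HH := FC.of_contr contr_HH

theorem susp {X : LC} (h : FC X) : FC (X ⊗ RR) := h.tensor FC.line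

/-- the mapping cone of a morphism of finite cell spaces -/
theorem cone {X Y : LC} (hX : FC X) (hY : FC Y) (f : X ⟶ Y) : FC (LC.cone f) :=
  FC.of_ext (cofib_coneInr f) hY (cofConeInr f) hX.susp

/-- the strict cofibre of a cofibration of finite cell spaces -/
theorem cof {A B : LC} {i : A ⟶ B} (hi : Cofib i) (hA : FC A) (hB : FC B) : FC (LC.cof i) :=
  (FC.cone hA hB i).hequiv (isHEquiv_coneToCof hi).hequiv

/-- Finite cell spaces are closed under pushouts along cofibrations. -/
theorem pushout {A B C D : LC} {i : A ⟶ B} {f : A ⟶ C} {g : B ⟶ D} {j : C ⟶ D} (hA : FC A)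
    (hB : FC B) (hC : FC C) (hi : Cofib i) (h : IsPushout i f g j) : FC D :=
  FC.of_ext (hi.pushout h) hC (cofPushout h).symm (FC.cof hi hA hB)

/-- closed-open decompositions -/
theorem of_closed_open {Z Y U : LC} (z : Z → Y) (hz : IsClosedEmbedding z) (u : U → Y)
    (hu : IsOpenEmbedding u) (h : IsCompl (Set.range z) (Set.range u)) (hi : Cofib (ofClosed z hz))
    (hZ : FC Z) (hU : FC U) : FC Y :=
  FC.of_ext hi hZ (cofClosedOpen z hz u hu h) hU

/-- the disjoint union of two finite cell spaces -/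
theorem sum {X Y : LC} (hX : FC X) (hY : FC Y) : FC (LC.sum X Y) :=
  FC.pushout (i := (0 : LC.of Empty ⟶ X)) (f := (0 : LC.of Empty ⟶ Y)) FC.empty hX hY
    (cofib_of_isEmpty _) (isPushout_sum X Y isZero_empty _ _)

end FC

end LC

end Vale.Agent.P251.G
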