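import Vale.Agent.P251.G.BundleMap
import Vale.Agent.P251.G.Homotopy

/-!
# P251, part G: sphere bundles, disc bundles, polar coordinates

For a bundle `V` over `X`: `Sph V` (unit sphere bundle), `Disc V` (closed unit disc bundle),
`polar : Sph V × [0,∞) → V.E`, the homeomorphism of the open disc bundle with the total space.
-/

open Matrix Filter Topology CategoryTheory MonoidalCategory

open scoped NNReal

namespace Vale.Agent.P251.G

variable {X Y Z : Type} [TopologicalSpace X] [TopologicalSpace Y] [TopologicalSpace Z]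
variable {ι κ μ : Type} [Fintype ι] [Fintype κ] [Fintype μ]

noncomputable section

namespace Bun

/-- the unit sphere bundle -/
def Sph (V : Bun X ι) : Type := {p : V.E // nsq (vec p) = 1}

/-- the closed unit disc bundle -/
def Disc (V : Bun X ι) : Type := {p : V.E // nsq (vec p) ≤ 1}

section instances

variable (V : Bun X ι)

instance : TopologicalSpace V.Sph := inferInstanceAs (TopologicalSpace (Subtype _))
instance : TopologicalSpace V.Disc := inferInstanceAs (TopologicalSpace (Subtype _))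
instance [T2Space X] : T2Space V.Sph := inferInstanceAs (T2Space (Subtype _))
instance [T2Space X] : T2Space V.Disc := inferInstanceAs (T2Space (Subtype _))

theorem isClosedEmbedding_Sph : IsClosedEmbedding (Subtype.val : V.Sph → V.E) :=
  IsClosed.isClosedEmbedding_subtypeVal
    (isClosed_eq (continuous_nsq.comp continuous_vec) continuous_const)

theorem isClosedEmbedding_Disc : IsClosedEmbedding (Subtype.val : V.Disc → V.E) :=
  IsClosed.isClosedEmbedding_subtypeVal
    (isClosed_le (continuous_nsq.comp continuous_vec) continuous_const)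

instance [LocallyCompactSpace X] : LocallyCompactSpace V.Sph :=
  V.isClosedEmbedding_Sph.locallyCompactSpace

instance [LocallyCompactSpace X] : LocallyCompactSpace V.Disc :=
  V.isClosedEmbedding_Disc.locallyCompactSpace

/-- The part of the total space over a compact set with bounded norm is compact. -/
theorem isCompact_le {K : Set X} (hK : IsCompact K) (r : ℝ) :
    IsCompact {p : V.E | base p ∈ K ∧ nsq (vec p) ≤ r} := by
  have h1 := V.isClosedEmbedding_val.isCompact_preimage
    (hK.prod (isCompact_closedBall (0 : ι → ℂ) (Real.sqrt r)))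
  have h2 : {p : V.E | base p ∈ K ∧ nsq (vec p) ≤ r} =
      (Subtype.val ⁻¹' (K ×ˢ Metric.closedBall (0 : ι → ℂ) (Real.sqrt r))) ∩
        {p : V.E | nsq (vec p) ≤ r} := by
    ext p
    constructor
    · rintro ⟨h1, h2⟩
      refine ⟨⟨h1, ?_⟩, h2⟩
      rw [mem_closedBall_zero_iff]
      exact Real.le_sqrt_of_sq_le ((norm_sq_le_nsq _).trans h2)
    · rintro ⟨h1, h2⟩
      exact ⟨h1.1, h2⟩
  rw [h2]
  exact h1.inter_right (isClosed_le (continuous_nsq.comp continuous_vec) continuous_const)

instance [CompactSpace X] : CompactSpace V.Sph := by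
  have h := V.isClosedEmbedding_Sph.isCompact_preimage (V.isCompact_le (isCompact_univ (X := X)) 1)
  have h2 : (Subtype.val : V.Sph → V.E) ⁻¹'
      {p : V.E | base p ∈ Set.univ ∧ nsq (vec p) ≤ 1} = Set.univ :=
    Set.eq_univ_iff_forall.mpr fun p => ⟨Set.mem_univ _, p.2.le⟩
  rw [h2] at h
  exact isCompact_univ_iff.mp h

instance [CompactSpace X] : CompactSpace V.Disc := by
  have h := V.isClosedEmbedding_Disc.isCompact_preimage (V.isCompact_le (isCompact_univ (X := X)) 1)
  have h2 : (Subtype.val : V.Disc → V.E) ⁻¹'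
      {p : V.E | base p ∈ Set.univ ∧ nsq (vec p) ≤ 1} = Set.univ :=
    Set.eq_univ_iff_forall.mpr fun p => ⟨Set.mem_univ _, p.2⟩
  rw [h2] at h
  exact isCompact_univ_iff.mp h

end instances

variable {V : Bun X ι}

/-- the base point of a unit vector -/
def Sph.base (s : V.Sph) : X := Bun.base s.1
/-- the vector of a point of the sphere bundle -/
def Sph.vec (s : V.Sph) : ι → ℂ := Bun.vec s.1
/-- the base point of a vector -/
def Disc.base (s : V.Disc) : X := Bun.base s.1
/-- the vector of a point of the disc bundle -/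
def Disc.vec (s : V.Disc) : ι → ℂ := Bun.vec s.1

theorem Sph.nsq_vec (s : V.Sph) : nsq s.vec = 1 := s.2
theorem Disc.nsq_vec_le (s : V.Disc) : nsq s.vec ≤ 1 := s.2
theorem Sph.P_vec (s : V.Sph) : V.P s.base *ᵥ s.vec = s.vec := Bun.P_vec s.1
theorem Disc.P_vec (s : V.Disc) : V.P s.base *ᵥ s.vec = s.vec := Bun.P_vec s.1

@[fun_prop] theorem Sph.continuous_base : Continuous (Sph.base : V.Sph → X) :=
  Bun.continuous_base.comp continuous_subtype_val
@[fun_prop] theorem Sph.continuous_vec : Continuous (Sph.vec : V.Sph → ι → ℂ) :=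
  Bun.continuous_vec.comp continuous_subtype_val
@[fun_prop] theorem Disc.continuous_base : Continuous (Disc.base : V.Disc → X) :=
  Bun.continuous_base.comp continuous_subtype_val
@[fun_prop] theorem Disc.continuous_vec : Continuous (Disc.vec : V.Disc → ι → ℂ) :=
  Bun.continuous_vec.comp continuous_subtype_val

theorem Sph.ext {s t : V.Sph} (h1 : s.base = t.base) (h2 : s.vec = t.vec) : s = t :=
  Subtype.ext (E_ext h1 h2)

theorem Disc.ext {s t : V.Disc} (h1 : s.base = t.base) (h2 : s.vec = t.vec) : s = t :=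
  Subtype.ext (E_ext h1 h2)

/-- constructor of unit vectors -/
def mkSph (V : Bun X ι) (x : X) (v : ι → ℂ) (h : V.P x *ᵥ v = v) (h' : nsq v = 1) : V.Sph :=
  ⟨V.mkE x v h, h'⟩

/-- constructor of points of the disc bundle -/
def mkDisc (V : Bun X ι) (x : X) (v : ι → ℂ) (h : V.P x *ᵥ v = v) (h' : nsq v ≤ 1) : V.Disc :=
  ⟨V.mkE x v h, h'⟩

@[simp] theorem base_mkSph (V : Bun X ι) (x : X) (v : ι → ℂ) (h h') :
    (V.mkSph x v h h').base = x := rfl
@[simp] theorem vec_mkSph (V : Bun X ι) (x : X) (v : ι → ℂ) (h h') :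
    (V.mkSph x v h h').vec = v := rfl
@[simp] theorem base_mkDisc (V : Bun X ι) (x : X) (v : ι → ℂ) (h h') :
    (V.mkDisc x v h h').base = x := rfl
@[simp] theorem vec_mkDisc (V : Bun X ι) (x : X) (v : ι → ℂ) (h h') :
    (V.mkDisc x v h h').vec = v := rfl

theorem continuous_Sph_iff {f : Z → V.Sph} :
    Continuous f ↔ Continuous (fun z => (f z).base) ∧ Continuous (fun z => (f z).vec) := by
  refine ⟨fun h => ⟨Sph.continuous_base.comp h, Sph.continuous_vec.comp h⟩, fun h => ?_⟩
  exact continuous_induced_rng.mpr (continuous_E_iff.mpr h)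

theorem continuous_Disc_iff {f : Z → V.Disc} :
    Continuous f ↔ Continuous (fun z => (f z).base) ∧ Continuous (fun z => (f z).vec) := by
  refine ⟨fun h => ⟨Disc.continuous_base.comp h, Disc.continuous_vec.comp h⟩, fun h => ?_⟩
  exact continuous_induced_rng.mpr (continuous_E_iff.mpr h)

/-- The total space leaves every compact set iff the base does or the norm tends to infinity;
criterion for properness. -/
theorem tendsto_cocompact_of {W : Type} [TopologicalSpace W] {f : W → V.E}
    (h : ∀ K : Set X, IsCompact K → ∀ r : ℝ, ∃ L : Set W, IsCompact L ∧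
      ∀ w, Bun.base (f w) ∈ K → nsq (Bun.vec (f w)) ≤ r → w ∈ L) :
    Tendsto f (cocompact W) (cocompact V.E) := by
  rw [Filter.hasBasis_cocompact.tendsto_iff Filter.hasBasis_cocompact]
  intro K hK
  obtain ⟨r, hr⟩ := (hK.image (continuous_nsq.comp continuous_vec)).bddAbove
  obtain ⟨L, hL, h'⟩ := h (Bun.base '' K) (hK.image continuous_base) r
  refine ⟨L, hL, fun w hw hwK => hw (h' w ⟨_, hwK, rfl⟩ (hr ⟨_, hwK, rfl⟩))⟩

/-! ### Polar coordinates -/

/-- polar coordinates `(s, t) ↦ t • s` -/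
def polar (V : Bun X ι) (q : V.Sph × ℝ≥0) : V.E :=
  V.mkE q.1.base ((q.2 : ℝ) • q.1.vec) (by
    rw [mulVec_smul, Sph.P_vec])

@[simp] theorem base_polar (q : V.Sph × ℝ≥0) : Bun.base (V.polar q) = q.1.base := rfl
@[simp] theorem vec_polar (q : V.Sph × ℝ≥0) : Bun.vec (V.polar q) = (q.2 : ℝ) • q.1.vec := rfl

theorem nsq_vec_polar (q : V.Sph × ℝ≥0) : nsq (Bun.vec (V.polar q)) = (q.2 : ℝ) ^ 2 := by
  rw [vec_polar, nsq_real_smul, q.1.nsq_vec, mul_one]

theorem continuous_polar (V : Bun X ι) : Continuous V.polar := by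
  refine continuous_mkE (Sph.continuous_base.comp continuous_fst) ?_ _
  exact (NNReal.continuous_coe.comp continuous_snd).smul (Sph.continuous_vec.comp continuous_fst)

theorem tendsto_polar (V : Bun X ι) :
    Tendsto V.polar (cocompact (V.Sph × ℝ≥0)) (cocompact V.E) := by
  refine tendsto_cocompact_of fun K hK r => ?_
  refine ⟨(Subtype.val ⁻¹' {p : V.E | Bun.base p ∈ K ∧ nsq (Bun.vec p) ≤ 1}) ×ˢ
    Set.Icc 0 (Real.sqrt r).toNNReal,
    (V.isClosedEmbedding_Sph.isCompact_preimage (V.isCompact_le hK 1)).prod isCompact_Icc, ?_⟩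
  rintro ⟨s, t⟩ h1 h2
  refine ⟨⟨h1, s.2.le⟩, ⟨bot_le, ?_⟩⟩
  rw [nsq_vec_polar] at h2
  have h3 : (t : ℝ) ≤ Real.sqrt r := Real.le_sqrt_of_sq_le h2
  exact NNReal.le_toNNReal_of_coe_le h3

/-- The length of a vector of the total space. -/
def len (p : V.E) : ℝ≥0 := ⟨Real.sqrt (nsq (Bun.vec p)), Real.sqrt_nonneg _⟩

@[fun_prop] theorem continuous_len : Continuous (len : V.E → ℝ≥0) :=
  (Real.continuous_sqrt.comp (continuous_nsq.comp Bun.continuous_vec)).subtype_mk _

theorem coe_len_sq (p : V.E) : (len p : ℝ) ^ 2 = nsq (Bun.vec p) :=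
  Real.sq_sqrt (nsq_nonneg _)

theorem len_eq_zero {p : V.E} : len p = 0 ↔ Bun.vec p = 0 := by
  rw [← nsq_eq_zero, ← coe_len_sq, sq_eq_zero_iff, NNReal.coe_eq_zero]

theorem len_pos {p : V.E} (h : Bun.vec p ≠ 0) : 0 < len p :=
  pos_iff_ne_zero.mpr fun h' => h (len_eq_zero.mp h')

/-- the direction of a nonzero vector -/
def dir (p : V.E) (h : Bun.vec p ≠ 0) : V.Sph :=
  V.mkSph (Bun.base p) ((len p : ℝ)⁻¹ • Bun.vec p) (by rw [mulVec_smul, Bun.P_vec]) (by
    rw [nsq_real_smul, ← coe_len_sq, inv_pow, inv_mul_cancel₀]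
    exact pow_ne_zero _ (NNReal.coe_ne_zero.mpr (len_pos h).ne'))

@[simp] theorem base_dir (p : V.E) (h : Bun.vec p ≠ 0) : (dir p h).base = Bun.base p := rfl
@[simp] theorem vec_dir (p : V.E) (h : Bun.vec p ≠ 0) :
    (dir p h).vec = (len p : ℝ)⁻¹ • Bun.vec p := rfl

theorem polar_dir (p : V.E) (h : Bun.vec p ≠ 0) : V.polar (dir p h, len p) = p := by
  refine E_ext rfl ?_
  rw [vec_polar, vec_dir, smul_smul, mul_inv_cancel₀ (NNReal.coe_ne_zero.mpr (len_pos h).ne'),
    one_smul]

theorem len_polar (q : V.Sph × ℝ≥0) : len (V.polar q) = q.2 := by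
  apply NNReal.coe_injective
  change Real.sqrt (nsq (Bun.vec (V.polar q))) = q.2
  rw [nsq_vec_polar, Real.sqrt_sq (NNReal.coe_nonneg _)]

theorem vec_polar_ne_zero {q : V.Sph × ℝ≥0} (h : q.2 ≠ 0) : Bun.vec (V.polar q) ≠ 0 := by
  intro h'
  rw [← len_eq_zero, len_polar] at h'
  exact h h'

theorem dir_polar {q : V.Sph × ℝ≥0} (h : q.2 ≠ 0) : dir (V.polar q) (vec_polar_ne_zero h) = q.1 := by
  refine Sph.ext rfl ?_
  rw [vec_dir, vec_polar, len_polar, smul_smul, inv_mul_cancel₀ (NNReal.coe_ne_zero.mpr h),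
    one_smul]

theorem polar_injOn {q q' : V.Sph × ℝ≥0} (h : q.2 ≠ 0) (e : V.polar q = V.polar q') : q = q' := by
  have h2 : q.2 = q'.2 := by rw [← len_polar q, e, len_polar]
  have h3 : q'.2 ≠ 0 := h2 ▸ h
  refine Prod.ext ?_ h2
  rw [← dir_polar h, ← dir_polar h3]
  congr 1

/-- the complement of the zero section in polar coordinates -/
def polarHomeo (V : Bun X ι) :
    {p : V.E // Bun.vec p ≠ 0} ≃ₜ V.Sph × {t : ℝ≥0 // t ≠ 0} where
  toFun p := (dir p.1 p.2, ⟨len p.1, (len_pos p.2).ne'⟩)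
  invFun q := ⟨V.polar (q.1, q.2.1), vec_polar_ne_zero q.2.2⟩
  left_inv p := Subtype.ext (polar_dir p.1 p.2)
  right_inv q := Prod.ext (dir_polar (q := (q.1, q.2.1)) q.2.2)
    (Subtype.ext (len_polar (q.1, q.2.1)))
  continuous_toFun := by
    refine Continuous.prodMk ?_ ?_
    · have h1 : Continuous fun p : {p : V.E // Bun.vec p ≠ 0} => Bun.base p.1 :=
        Bun.continuous_base.comp continuous_subtype_val
      refine continuous_Sph_iff.mpr ⟨h1, ?_⟩
      change Continuous fun p : {p : V.E // Bun.vec p ≠ 0} =>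
        (len p.1 : ℝ)⁻¹ • Bun.vec p.1
      have h2 : Continuous fun p : {p : V.E // Bun.vec p ≠ 0} => (len p.1 : ℝ) :=
        NNReal.continuous_coe.comp (continuous_len.comp continuous_subtype_val)
      have h3 : Continuous fun p : {p : V.E // Bun.vec p ≠ 0} => Bun.vec p.1 :=
        Bun.continuous_vec.comp continuous_subtype_val
      exact (h2.inv₀ fun p => NNReal.coe_ne_zero.mpr (len_pos p.2).ne').smul h3
    · exact (continuous_len.comp continuous_subtype_val).subtype_mk _
  continuous_invFun := (V.continuous_polar.comp (continuous_fst.prodMk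
    (continuous_subtype_val.comp continuous_snd))).subtype_mk _

/-! ### The open disc -/

/-- the open unit disc bundle -/
def OD (V : Bun X ι) : Type := {p : V.E // nsq (Bun.vec p) < 1}

instance (V : Bun X ι) : TopologicalSpace V.OD := inferInstanceAs (TopologicalSpace (Subtype _))

theorem isOpen_OD (V : Bun X ι) : IsOpen {p : V.E | nsq (Bun.vec p) < 1} :=
  isOpen_lt (continuous_nsq.comp Bun.continuous_vec) continuous_const

/-- rescaling a vector by a real number -/
def rsmul (c : ℝ) (p : V.E) : V.E :=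
  V.mkE (Bun.base p) (c • Bun.vec p) (by rw [mulVec_smul, Bun.P_vec])

@[simp] theorem base_rsmul (c : ℝ) (p : V.E) : Bun.base (rsmul c p) = Bun.base p := rfl
@[simp] theorem vec_rsmul (c : ℝ) (p : V.E) : Bun.vec (rsmul c p) = c • Bun.vec p := rfl

theorem nsq_rsmul (c : ℝ) (p : V.E) : nsq (Bun.vec (rsmul c p)) = c ^ 2 * nsq (Bun.vec p) :=
  nsq_real_smul _ _

theorem continuous_rsmul : Continuous fun q : ℝ × V.E => rsmul q.1 q.2 :=
  continuous_mkE (Bun.continuous_base.comp continuous_snd)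
    (continuous_fst.smul (Bun.continuous_vec.comp continuous_snd)) _

/-- the open disc bundle is homeomorphic to the total space -/
def discHomeo (V : Bun X ι) : V.OD ≃ₜ V.E where
  toFun p := rsmul (Real.sqrt (1 - nsq (Bun.vec p.1)))⁻¹ p.1
  invFun p := ⟨rsmul (Real.sqrt (1 + nsq (Bun.vec p)))⁻¹ p, by
    have h := nsq_nonneg (Bun.vec p)
    rw [nsq_rsmul, inv_pow, Real.sq_sqrt (by linarith), inv_mul_lt_iff₀ (by linarith)]
    linarith⟩
  left_inv p := by
    have h0 : 0 < 1 - nsq (Bun.vec p.1) := sub_pos.mpr p.2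
    have h1 : 1 + nsq (Bun.vec (rsmul (Real.sqrt (1 - nsq (Bun.vec p.1)))⁻¹ p.1)) =
        (1 - nsq (Bun.vec p.1))⁻¹ := by
      rw [nsq_rsmul, inv_pow, Real.sq_sqrt h0.le]
      field_simp
      ring
    refine Subtype.ext (E_ext rfl ?_)
    change (Real.sqrt (1 + nsq (Bun.vec (rsmul (Real.sqrt (1 - nsq (Bun.vec p.1)))⁻¹ p.1))))⁻¹ •
      ((Real.sqrt (1 - nsq (Bun.vec p.1)))⁻¹ • Bun.vec p.1) = Bun.vec p.1
    rw [h1, Real.sqrt_inv, inv_inv, smul_smul, mul_inv_cancel₀ (Real.sqrt_pos.mpr h0).ne',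
      one_smul]
  right_inv p := by
    have h0 : 0 < 1 + nsq (Bun.vec p) := by have := nsq_nonneg (Bun.vec p); linarith
    have h1 : 1 - nsq (Bun.vec (rsmul (Real.sqrt (1 + nsq (Bun.vec p)))⁻¹ p)) =
        (1 + nsq (Bun.vec p))⁻¹ := by
      rw [nsq_rsmul, inv_pow, Real.sq_sqrt h0.le]
      field_simp
      ring
    refine E_ext rfl ?_
    change (Real.sqrt (1 - nsq (Bun.vec (rsmul (Real.sqrt (1 + nsq (Bun.vec p)))⁻¹ p))))⁻¹ •
      ((Real.sqrt (1 + nsq (Bun.vec p)))⁻¹ • Bun.vec p) = Bun.vec p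
    rw [h1, Real.sqrt_inv, inv_inv, smul_smul, mul_inv_cancel₀ (Real.sqrt_pos.mpr h0).ne',
      one_smul]
  continuous_toFun := by
    refine continuous_rsmul.comp (Continuous.prodMk (Continuous.inv₀ ?_ ?_)
      continuous_subtype_val)
    · exact Real.continuous_sqrt.comp (continuous_const.sub (continuous_nsq.comp
        (Bun.continuous_vec.comp continuous_subtype_val)))
    · intro p; exact (Real.sqrt_pos.mpr (sub_pos.mpr p.2)).ne'
  continuous_invFun := by
    refine Continuous.subtype_mk (continuous_rsmul.comp (Continuous.prodMk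
      (Continuous.inv₀ ?_ ?_) continuous_id)) _
    · exact Real.continuous_sqrt.comp (continuous_const.add (continuous_nsq.comp
        Bun.continuous_vec))
    · intro p
      refine (Real.sqrt_pos.mpr ?_).ne'
      have := nsq_nonneg (Bun.vec p); linarith

/-! ### Morphisms in `LC` -/

section LC

variable [LocallyCompactSpace X] [T2Space X]

/-- the sphere bundle in `LC` -/
abbrev sph (V : Bun X ι) : LC := LC.of V.Sph
/-- the disc bundle in `LC` -/
abbrev disc (V : Bun X ι) : LC := LC.of V.Disc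
/-- the base in `LC` -/
abbrev bs (_ : Bun X ι) : LC := LC.of X

/-- the zero section as a morphism of `LC` -/
def zeroHom (V : Bun X ι) : V.bs ⟶ V.tot :=
  LC.ofClosed (X := V.bs) (Y := V.tot) V.zeroSec V.isClosedEmbedding_zeroSec

omit [LocallyCompactSpace X] [T2Space X] in
/-- the projection of the sphere bundle is proper -/
theorem Sph.tendsto_base (V : Bun X ι) :
    Tendsto (Sph.base : V.Sph → X) (cocompact V.Sph) (cocompact X) := by
  rw [Filter.hasBasis_cocompact.tendsto_iff Filter.hasBasis_cocompact]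
  intro K hK
  exact ⟨_, V.isClosedEmbedding_Sph.isCompact_preimage (V.isCompact_le hK 1),
    fun s hs hK' => hs ⟨hK', s.2.le⟩⟩

omit [LocallyCompactSpace X] [T2Space X] in
theorem Disc.tendsto_base (V : Bun X ι) :
    Tendsto (Disc.base : V.Disc → X) (cocompact V.Disc) (cocompact X) := by
  rw [Filter.hasBasis_cocompact.tendsto_iff Filter.hasBasis_cocompact]
  intro K hK
  exact ⟨_, V.isClosedEmbedding_Disc.isCompact_preimage (V.isCompact_le hK 1),
    fun s hs hK' => hs ⟨hK', s.2⟩⟩

/-- the projection of the sphere bundle -/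
def sphHom (V : Bun X ι) : V.sph ⟶ V.bs :=
  LC.ofProper (X := V.sph) (Y := V.bs) Sph.base Sph.continuous_base (Sph.tendsto_base V)

/-- the projection of the disc bundle -/
def discHom (V : Bun X ι) : V.disc ⟶ V.bs :=
  LC.ofProper (X := V.disc) (Y := V.bs) Disc.base Disc.continuous_base (Disc.tendsto_base V)

/-- polar coordinates as a morphism -/
def polarHom (V : Bun X ι) : V.sph ⊗ LC.HH ⟶ V.tot :=
  LC.ofProper (X := LC.of (V.Sph × ℝ≥0)) (Y := V.tot) V.polar V.continuous_polar V.tendsto_polar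

@[simp] theorem app_zeroHom_coe (V : Bun X ι) (x : X) :
    LC.app V.zeroHom (x : OnePoint X) = (V.zeroSec x : OnePoint V.E) := rfl

@[simp] theorem app_sphHom_coe (V : Bun X ι) (s : V.Sph) :
    LC.app V.sphHom (s : OnePoint V.Sph) = (s.base : OnePoint X) := rfl

@[simp] theorem app_discHom_coe (V : Bun X ι) (s : V.Disc) :
    LC.app V.discHom (s : OnePoint V.Disc) = (s.base : OnePoint X) := rfl

@[simp] theorem app_polarHom_coe (V : Bun X ι) (s : V.Sph) (t : ℝ≥0) :
    LC.app V.polarHom (((s, t) : V.Sph × ℝ≥0) : OnePoint (V.Sph × ℝ≥0)) =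
      (V.polar (s, t) : OnePoint V.E) := rfl

end LC

end Bun

end

end Vale.Agent.P251.G
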