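import Vale.Agent.P251.G.TPow
import Vale.Agent.P251.G.SphereBundle
import Mathlib.RingTheory.RootsOfUnity.Complex
import Mathlib.Analysis.Complex.Polynomial.Basic

/-!
# P251, part G: lens spaces

* `Lens p κ = ((taut 1 κ).tpow p).Sph`: pairs `(Q, u)`, `Q` a line in `ℂ^κ`, `u ∈ Q^{⊗p}` of norm one;
* `SS.lens p : SS κ → Lens p κ`, `x ↦ (line x, x^{⊗p})`: surjective for `p ≥ 1`, the fibres are
  the orbits of the group of `p`-th roots of unity.
-/

open Matrix Filter Topology CategoryTheory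

namespace Vale.Agent.P251.G

variable {X Y Z : Type} [TopologicalSpace X] [TopologicalSpace Y] [TopologicalSpace Z]
variable {ι κ μ : Type} [Fintype ι] [Fintype κ] [Fintype μ]

/-! ### Lens spaces -/

/-- The lens space `S(ℂ^κ)/μ_p`, realised as the unit sphere bundle of the `p`-th tensor power of
the tautological line bundle over the projective space of `ℂ^κ`. -/
abbrev Lens (p : ℕ) (κ : Type) [Fintype κ] : Type := ((taut 1 κ).tpow p).Sph

namespace Lens

variable {p : ℕ}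

/-- the line -/
def Q (y : Lens p κ) : Gr 1 κ := Bun.Sph.base y

/-- the unit vector of the `p`-th tensor power of the line -/
def u (y : Lens p κ) : (Fin p → κ) → ℂ := Bun.Sph.vec y

theorem tpow_mulVec_u (y : Lens p κ) : tpow p y.Q.P *ᵥ y.u = y.u := Bun.Sph.P_vec y

theorem nsq_u (y : Lens p κ) : nsq y.u = 1 := Bun.Sph.nsq_vec y

@[continuity, fun_prop]
theorem continuous_Q : Continuous (Q : Lens p κ → Gr 1 κ) := Bun.Sph.continuous_base

@[continuity, fun_prop]
theorem continuous_u : Continuous (u : Lens p κ → (Fin p → κ) → ℂ) := Bun.Sph.continuous_vec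

@[ext (iff := false)]
theorem ext {y z : Lens p κ} (h1 : y.Q = z.Q) (h2 : y.u = z.u) : y = z := Bun.Sph.ext h1 h2

/-- constructor -/
def mk (Q : Gr 1 κ) (u : (Fin p → κ) → ℂ) (h : tpow p Q.P *ᵥ u = u) (h1 : nsq u = 1) :
    Lens p κ := Bun.mkSph _ Q u h h1

@[simp] theorem Q_mk (Q : Gr 1 κ) (u : (Fin p → κ) → ℂ) (h h1) : (mk Q u h h1).Q = Q := rfl
@[simp] theorem u_mk (Q : Gr 1 κ) (u : (Fin p → κ) → ℂ) (h h1) : (mk Q u h h1).u = u := rfl

theorem continuous_mk {f : Z → Gr 1 κ} {g : Z → (Fin p → κ) → ℂ} (hf : Continuous f)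
    (hg : Continuous g) (h : ∀ z, tpow p (f z).P *ᵥ g z = g z) (h1 : ∀ z, nsq (g z) = 1) :
    Continuous fun z => mk (f z) (g z) (h z) (h1 z) :=
  Bun.continuous_Sph_iff.mpr ⟨hf, hg⟩

end Lens

namespace SS

/-- the projection of the sphere to the lens space -/
def lens (p : ℕ) (x : SS κ) : Lens p κ :=
  Lens.mk x.line (tp p x.v) (by rw [line_P, tpow_mulVec_tp, lineP_mulVec_self x.nsq_v])
    (by rw [nsq_tp, x.nsq_v, one_pow])

@[simp] theorem lens_Q (p : ℕ) (x : SS κ) : (x.lens p).Q = x.line := rfl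
@[simp] theorem lens_u (p : ℕ) (x : SS κ) : (x.lens p).u = tp p x.v := rfl

@[continuity, fun_prop]
theorem continuous_lens (p : ℕ) : Continuous (lens p : SS κ → Lens p κ) :=
  Lens.continuous_mk continuous_line ((continuous_tp p).comp continuous_v) _ _

/-- multiplication by a scalar of norm one -/
def smul (c : ℂ) (hc : Complex.normSq c = 1) (x : SS κ) : SS κ :=
  ⟨c • x.v, by rw [nsq_smul, hc, x.nsq_v, one_mul]⟩

@[simp] theorem smul_v (c : ℂ) (hc : Complex.normSq c = 1) (x : SS κ) :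
    (smul c hc x).v = c • x.v := rfl

@[simp] theorem smul_line (c : ℂ) (hc : Complex.normSq c = 1) (x : SS κ) :
    (smul c hc x).line = x.line := by
  apply Gr.ext
  rw [line_P, line_P, smul_v, lineP_smul, hc, Complex.ofReal_one, one_smul]

theorem line_eq_iff {x y : SS κ} :
    x.line = y.line ↔ ∃ c : ℂ, Complex.normSq c = 1 ∧ y.v = c • x.v := by
  rw [← lineP_eq_iff x.nsq_v y.nsq_v]
  exact ⟨fun h => congrArg Gr.P h, fun h => Gr.ext h⟩

end SS

theorem normSq_of_pow_eq {p : ℕ} (hp : p ≠ 0) {c s : ℂ} (hc : Complex.normSq c = 1)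
    (h : s ^ p = c) : Complex.normSq s = 1 := by
  have h1 : Complex.normSq s ^ p = 1 := by rw [← map_pow, h, hc]
  exact (pow_eq_one_iff_of_nonneg (Complex.normSq_nonneg s) hp).mp h1

theorem Lens.u_eq {p : ℕ} (y : Lens p κ) {x : SS κ} (h : x.line = y.Q) :
    ∃ c : ℂ, Complex.normSq c = 1 ∧ y.u = c • tp p x.v := by
  have h1 : tpow p y.Q.P = lineP (tp p x.v) := by
    rw [← h, SS.line_P]
    unfold lineP
    rw [tpow_vecMulVec, star_tp]
  have h2 : nsq (tp p x.v) = 1 := by rw [nsq_tp, x.nsq_v, one_pow]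
  have h3 : lineP (tp p x.v) *ᵥ y.u = y.u := by rw [← h1]; exact y.tpow_mulVec_u
  refine ⟨star (tp p x.v) ⬝ᵥ y.u, ?_, (lineP_mulVec_eq_iff h2).mp h3⟩
  rw [normSq_dotProduct_of_fixed (isProj_lineP h2) h2 (lineP_mulVec_self h2) h3, y.nsq_u]

theorem SS.lens_surjective {p : ℕ} (hp : p ≠ 0) :
    Function.Surjective (SS.lens p : SS κ → Lens p κ) := by
  intro y
  obtain ⟨x, hx⟩ := SS.line_surjective y.Q
  obtain ⟨c, hc, hu⟩ := y.u_eq hx
  obtain ⟨s, hs⟩ := IsAlgClosed.exists_pow_nat_eq c (Nat.pos_of_ne_zero hp)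
  have h1 := normSq_of_pow_eq hp hc hs
  refine ⟨SS.smul s h1 x, Lens.ext ?_ ?_⟩
  · rw [SS.lens_Q, SS.smul_line, hx]
  · rw [SS.lens_u, SS.smul_v, tp_smul, hs, hu]

theorem SS.isQuotientMap_lens {p : ℕ} (hp : p ≠ 0) :
    IsQuotientMap (SS.lens p : SS κ → Lens p κ) :=
  IsQuotientMap.of_surjective_continuous (SS.lens_surjective hp) (SS.continuous_lens p)

theorem SS.lens_eq_iff {p : ℕ} (hp : p ≠ 0) {x y : SS κ} :
    x.lens p = y.lens p ↔ ∃ c : ℂ, c ^ p = 1 ∧ y.v = c • x.v := by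
  constructor
  · intro h
    have h1 : x.line = y.line := congrArg Lens.Q h
    have h2 : tp p x.v = tp p y.v := congrArg Lens.u h
    obtain ⟨c, -, hy⟩ := SS.line_eq_iff.mp h1
    refine ⟨c, ?_, hy⟩
    rw [hy, tp_smul] at h2
    have h3 : (c ^ p - 1) • tp p x.v = 0 := by rw [sub_smul, one_smul, ← h2, sub_self]
    rcases smul_eq_zero.mp h3 with h4 | h4
    · exact sub_eq_zero.mp h4
    · exfalso
      have h5 : nsq (tp p x.v) = 1 := by rw [nsq_tp, x.nsq_v, one_pow]
      rw [h4, nsq_zero] at h5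
      exact zero_ne_one h5
  · rintro ⟨c, hc, hy⟩
    have h1 : Complex.normSq c = 1 := normSq_of_pow_eq hp (by simp) hc
    apply Lens.ext
    · exact SS.line_eq_iff.mpr ⟨c, h1, hy⟩
    · rw [SS.lens_u, SS.lens_u, hy, tp_smul, hc, one_smul]

end Vale.Agent.P251.G
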