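import Vale.Agent.P251.G.Gr

/-!
# P251, part G: tensor powers and lines

* `tp p x : (Fin p → κ) → ℂ`, `tp p x t = ∏ a, x (t a)`: the tensor power of a vector;
* `tpow p A : Matrix (Fin p → ι) (Fin p → κ) ℂ`: the tensor power of a matrix;
* `Bun.tpow V p`: the tensor power of a bundle;
* rank one projections: `IsProj 1 P ↔ ∃ x, nsq x = 1 ∧ P = vecMulVec x (star x)`.
-/

open Matrix Filter Topology CategoryTheory

namespace Vale.Agent.P251.G

variable {X Y Z : Type} [TopologicalSpace X] [TopologicalSpace Y] [TopologicalSpace Z]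
variable {ι κ μ : Type}

/-! ### Tensor powers of vectors and matrices -/

/-- tensor power of a vector -/
def tp (p : ℕ) (x : κ → ℂ) : (Fin p → κ) → ℂ := fun t => ∏ a, x (t a)

/-- tensor power of a matrix -/
def tpow (p : ℕ) (A : Matrix ι κ ℂ) : Matrix (Fin p → ι) (Fin p → κ) ℂ :=
  fun s t => ∏ a, A (s a) (t a)

@[simp] theorem tp_apply (p : ℕ) (x : κ → ℂ) (t : Fin p → κ) : tp p x t = ∏ a, x (t a) := rfl

@[simp] theorem tpow_apply (p : ℕ) (A : Matrix ι κ ℂ) (s : Fin p → ι) (t : Fin p → κ) :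
    tpow p A s t = ∏ a, A (s a) (t a) := rfl

theorem tpow_mul [Fintype κ] (p : ℕ) (A : Matrix ι κ ℂ) (B : Matrix κ μ ℂ) :
    tpow p (A * B) = tpow p A * tpow p B := by
  ext s t
  simp only [tpow_apply, Matrix.mul_apply]
  rw [Fintype.prod_sum]
  exact Finset.sum_congr rfl fun u _ => Finset.prod_mul_distrib

theorem tpow_mulVec_tp [Fintype κ] (p : ℕ) (A : Matrix ι κ ℂ) (x : κ → ℂ) :
    tpow p A *ᵥ tp p x = tp p (A *ᵥ x) := by
  ext s
  simp only [Matrix.mulVec, dotProduct, tpow_apply, tp_apply]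
  rw [Fintype.prod_sum]
  exact Finset.sum_congr rfl fun u _ => Finset.prod_mul_distrib.symm

theorem tpow_one [DecidableEq ι] (p : ℕ) :
    tpow p (1 : Matrix ι ι ℂ) = (1 : Matrix (Fin p → ι) (Fin p → ι) ℂ) := by
  ext s t
  rw [tpow_apply]
  by_cases h : s = t
  · subst h; simp
  · rw [Matrix.one_apply_ne h]
    obtain ⟨a, ha⟩ := Function.ne_iff.mp h
    exact Finset.prod_eq_zero (Finset.mem_univ a) (Matrix.one_apply_ne ha)

theorem tpow_conjTranspose (p : ℕ) (A : Matrix ι κ ℂ) : (tpow p A)ᴴ = tpow p Aᴴ := by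
  ext s t
  simp only [conjTranspose_apply, tpow_apply]
  rw [star_prod]

theorem tpow_vecMulVec (p : ℕ) (x : ι → ℂ) (y : κ → ℂ) :
    tpow p (vecMulVec x y) = vecMulVec (tp p x) (tp p y) := by
  ext s t
  simp only [tpow_apply, vecMulVec_apply, tp_apply]
  exact Finset.prod_mul_distrib

theorem star_tp (p : ℕ) (x : κ → ℂ) : star (tp p x) = tp p (star x) := by
  ext t
  simp only [Pi.star_apply, tp_apply]
  rw [star_prod]

theorem tp_smul (p : ℕ) (c : ℂ) (x : κ → ℂ) : tp p (c • x) = c ^ p • tp p x := by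
  ext t
  simp only [tp_apply, Pi.smul_apply, smul_eq_mul]
  rw [Finset.prod_mul_distrib]
  simp

theorem tpow_smul (p : ℕ) (c : ℂ) (A : Matrix ι κ ℂ) : tpow p (c • A) = c ^ p • tpow p A := by
  ext s t
  simp only [tpow_apply, Matrix.smul_apply, smul_eq_mul]
  rw [Finset.prod_mul_distrib]
  simp

theorem tp_dotProduct_tp [Fintype κ] (p : ℕ) (x y : κ → ℂ) :
    tp p x ⬝ᵥ tp p y = (x ⬝ᵥ y) ^ p := by
  simp only [dotProduct, tp_apply]
  rw [← Fin.prod_const, Fintype.prod_sum]
  exact Finset.sum_congr rfl fun u _ => Finset.prod_mul_distrib.symm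

theorem trace_tpow [Fintype κ] (p : ℕ) (A : Matrix κ κ ℂ) : (tpow p A).trace = A.trace ^ p := by
  simp only [Matrix.trace, Matrix.diag_apply, tpow_apply]
  rw [← Fin.prod_const, Fintype.prod_sum]

theorem nsq_tp [Fintype κ] (p : ℕ) (x : κ → ℂ) : nsq (tp p x) = nsq x ^ p := by
  have h : ((nsq (tp p x) : ℝ) : ℂ) = ((nsq x ^ p : ℝ) : ℂ) := by
    push_cast
    rw [nsq_eq_dotProduct, nsq_eq_dotProduct, star_tp, tp_dotProduct_tp]
  exact_mod_cast h

@[continuity, fun_prop]
theorem continuous_tp (p : ℕ) : Continuous (tp p : (κ → ℂ) → (Fin p → κ) → ℂ) := by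
  unfold tp
  fun_prop

@[continuity, fun_prop]
theorem continuous_tpow (p : ℕ) :
    Continuous (tpow p : Matrix ι κ ℂ → Matrix (Fin p → ι) (Fin p → κ) ℂ) := by
  refine continuous_matrix fun s t => ?_
  simp only [tpow_apply]
  exact continuous_finsetProd _ fun a _ => continuous_id.matrix_elem _ _

theorem IsProj.tpow [Fintype κ] {n : ℕ} {P : Matrix κ κ ℂ} (h : IsProj n P) (p : ℕ) :
    IsProj (n ^ p) (tpow p P) where
  idem := by rw [← tpow_mul, h.idem]
  herm := by rw [tpow_conjTranspose, h.herm]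
  trace := by rw [trace_tpow, h.trace]; push_cast; rfl

/-- tensor power of a bundle -/
@[simps] def Bun.tpow [Fintype κ] (V : Bun X κ) (p : ℕ) : Bun X (Fin p → κ) where
  P x := G.tpow p (V.P x)
  cont := (continuous_tpow p).comp V.cont
  idem x := by rw [← tpow_mul, V.idem]
  herm x := by rw [tpow_conjTranspose, V.herm]

theorem Bun.IsRank.tpow [Fintype κ] {V : Bun X κ} {n : ℕ} (h : V.IsRank n) (p : ℕ) :
    (V.tpow p).IsRank (n ^ p) := fun x => by
  rw [Bun.tpow_P, trace_tpow, h x]; push_cast; rfl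

theorem Bun.tpow_pullback [Fintype κ] (V : Bun X κ) (p : ℕ) (f : C(Y, X)) :
    (V.pullback f).tpow p = (V.tpow p).pullback f := rfl

/-! ### Lines -/

section lines

variable [Fintype κ]

/-- the projection onto the line spanned by a unit vector -/
def lineP (x : κ → ℂ) : Matrix κ κ ℂ := vecMulVec x (star x)

omit [Fintype κ] in
@[simp] theorem lineP_apply (x : κ → ℂ) (i j : κ) : lineP x i j = x i * star (x j) := rfl

omit [Fintype κ] in
@[continuity, fun_prop]
theorem continuous_lineP : Continuous (lineP : (κ → ℂ) → Matrix κ κ ℂ) := by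
  refine continuous_matrix fun s t => ?_
  simp only [lineP_apply]
  fun_prop

theorem lineP_mulVec (x v : κ → ℂ) : lineP x *ᵥ v = (star x ⬝ᵥ v) • x := by
  ext i
  simp only [Matrix.mulVec, dotProduct, lineP_apply, Pi.smul_apply, smul_eq_mul, Pi.star_apply,
    Finset.sum_mul]
  exact Finset.sum_congr rfl fun j _ => by ring

theorem star_dotProduct_self {x : κ → ℂ} (h : nsq x = 1) : star x ⬝ᵥ x = 1 := by
  rw [← nsq_eq_dotProduct, h, Complex.ofReal_one]

theorem lineP_mulVec_self {x : κ → ℂ} (h : nsq x = 1) : lineP x *ᵥ x = x := by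
  rw [lineP_mulVec, star_dotProduct_self h, one_smul]

theorem isProj_lineP {x : κ → ℂ} (h : nsq x = 1) : IsProj 1 (lineP x) where
  idem := by
    ext i j
    have h1 := congrFun (congrArg (lineP x *ᵥ ·) (rfl : x = x)) i
    simp only [lineP_mulVec_self h] at h1
    rw [Matrix.mul_apply]
    simp only [lineP_apply]
    calc ∑ k, x i * star (x k) * (x k * star (x j))
        = x i * (∑ k, star (x k) * x k) * star (x j) := by
          rw [Finset.mul_sum, Finset.sum_mul]
          exact Finset.sum_congr rfl fun k _ => by ring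
      _ = x i * star (x j) := by
          have : ∑ k, star (x k) * x k = 1 := star_dotProduct_self h
          rw [this, mul_one]
  herm := by
    ext i j
    simp only [conjTranspose_apply, lineP_apply, star_mul', star_star]
    ring
  trace := by
    simp only [Matrix.trace, Matrix.diag_apply, lineP_apply]
    have : ∑ k, star (x k) * x k = 1 := star_dotProduct_self h
    simp only [mul_comm (star _)] at this
    rw [this]; simp

omit [Fintype κ] in
theorem lineP_smul (c : ℂ) (x : κ → ℂ) : lineP (c • x) = (Complex.normSq c : ℂ) • lineP x := by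
  ext i j
  simp only [lineP_apply, Pi.smul_apply, smul_eq_mul, Matrix.smul_apply, star_mul']
  rw [Complex.normSq_eq_conj_mul_self]
  change c * x i * (starRingEnd ℂ c * star (x j)) = _
  ring

/-- two rank one projections with a common unit vector are equal -/
theorem IsProj.eq_lineP {P : Matrix κ κ ℂ} (h : IsProj 1 P) {x : κ → ℂ} (hx : nsq x = 1)
    (hPx : P *ᵥ x = x) : P = lineP x := by
  have h1 : P * lineP x = lineP x := by
    ext i j
    rw [Matrix.mul_apply]
    simp only [lineP_apply]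
    have := congrFun hPx i
    simp only [Matrix.mulVec, dotProduct] at this
    rw [← this, Finset.sum_mul]
    exact Finset.sum_congr rfl fun k _ => by ring
  have h2 : lineP x * P = lineP x := by
    have := congrArg conjTranspose h1
    rwa [conjTranspose_mul, h.herm, (isProj_lineP hx).herm] at this
  have h3 := (isProj_lineP hx)
  have h4 : P - lineP x = 0 := by
    have h5 : (P - lineP x)ᴴ = P - lineP x := by rw [conjTranspose_sub, h.herm, h3.herm]
    have h6 : (P - lineP x) * (P - lineP x) = P - lineP x := by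
      rw [Matrix.sub_mul, Matrix.mul_sub, Matrix.mul_sub, h.idem, h1, h2, h3.idem]
      abel
    have h7 : (P - lineP x).trace = ((0 : ℕ) : ℂ) := by
      rw [Matrix.trace_sub, h.trace, h3.trace]; simp
    have h8 : IsProj 0 (P - lineP x) := ⟨h6, h5, h7⟩
    have h9 : ∀ i, nsq ((P - lineP x) i) = 0 := by
      have h10 : ∑ i, nsq ((P - lineP x) i) = 0 := by
        have h11 := h8.trace
        rw [Matrix.trace] at h11
        simp only [Matrix.diag_apply] at h11
        rw [Finset.sum_congr rfl fun i _ => h8.diag_eq i, ← Complex.ofReal_sum] at h11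
        exact_mod_cast h11
      intro i
      exact (Finset.sum_eq_zero_iff_of_nonneg fun i _ => nsq_nonneg _).mp h10 i (Finset.mem_univ i)
    ext i j
    exact congrFun (nsq_eq_zero.mp (h9 i)) j
  exact sub_eq_zero.mp h4

/-- every rank one projection is the projection onto the line of a unit vector -/
theorem IsProj.exists_lineP {P : Matrix κ κ ℂ} (h : IsProj 1 P) :
    ∃ x : κ → ℂ, nsq x = 1 ∧ P *ᵥ x = x ∧ P = lineP x := by
  obtain ⟨v, hv⟩ : ∃ v, P *ᵥ v ≠ 0 := by
    by_contra hc
    push Not at hc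
    have h1 : P = 0 := by
      classical
      ext i j
      have := congrFun (hc (Pi.single j 1)) i
      simpa using this
    have := h.trace
    rw [h1] at this
    simp at this
  have h1 : 0 < nsq (P *ᵥ v) := nsq_pos hv
  have h2 : nsq (((Real.sqrt (nsq (P *ᵥ v)))⁻¹ : ℝ) • (P *ᵥ v)) = 1 := by
    rw [nsq_real_smul, inv_pow, Real.sq_sqrt h1.le]
    exact inv_mul_cancel₀ h1.ne'
  have h3 : P *ᵥ (((Real.sqrt (nsq (P *ᵥ v)))⁻¹ : ℝ) • (P *ᵥ v)) =
      ((Real.sqrt (nsq (P *ᵥ v)))⁻¹ : ℝ) • (P *ᵥ v) := by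
    rw [mulVec_smul, mulVec_mulVec, h.idem]
  exact ⟨_, h2, h3, h.eq_lineP h2 h3⟩

/-- the fixed vectors of a rank one projection -/
theorem lineP_mulVec_eq_iff {x v : κ → ℂ} (_h : nsq x = 1) :
    lineP x *ᵥ v = v ↔ v = (star x ⬝ᵥ v) • x := by
  rw [lineP_mulVec]
  exact eq_comm

theorem lineP_mulVec_smul {x : κ → ℂ} (h : nsq x = 1) (c : ℂ) :
    lineP x *ᵥ (c • x) = c • x := by
  rw [mulVec_smul, lineP_mulVec_self h]

theorem IsProj.eq_smul {P : Matrix κ κ ℂ} (h : IsProj 1 P) {x v : κ → ℂ} (hx : nsq x = 1)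
    (hPx : P *ᵥ x = x) (hv : P *ᵥ v = v) : v = (star x ⬝ᵥ v) • x := by
  rw [h.eq_lineP hx hPx] at hv
  exact (lineP_mulVec_eq_iff hx).mp hv

theorem normSq_dotProduct_of_fixed {P : Matrix κ κ ℂ} (h : IsProj 1 P) {x v : κ → ℂ}
    (hx : nsq x = 1) (hPx : P *ᵥ x = x) (hv : P *ᵥ v = v) :
    Complex.normSq (star x ⬝ᵥ v) = nsq v := by
  conv_rhs => rw [h.eq_smul hx hPx hv]
  rw [nsq_smul, hx, mul_one]

/-- unit vectors spanning the same line differ by a scalar of norm one -/
theorem lineP_eq_iff {x y : κ → ℂ} (hx : nsq x = 1) (hy : nsq y = 1) :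
    lineP x = lineP y ↔ ∃ c : ℂ, Complex.normSq c = 1 ∧ y = c • x := by
  constructor
  · intro h
    have h1 : lineP x *ᵥ y = y := by rw [h]; exact lineP_mulVec_self hy
    refine ⟨star x ⬝ᵥ y, ?_, (lineP_mulVec_eq_iff hx).mp h1⟩
    rw [normSq_dotProduct_of_fixed (isProj_lineP hx) hx (lineP_mulVec_self hx) h1, hy]
  · rintro ⟨c, hc, rfl⟩
    rw [lineP_smul, hc]; simp

end lines

/-! ### The sphere and the projection to projective space -/

/-- The unit sphere of `ℂ^κ`. -/
def SS (κ : Type) [Fintype κ] : Type := {x : κ → ℂ // nsq x = 1}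

namespace SS

variable [Fintype κ]

instance : TopologicalSpace (SS κ) := inferInstanceAs (TopologicalSpace (Subtype _))
instance : T2Space (SS κ) := inferInstanceAs (T2Space (Subtype _))

instance : CompactSpace (SS κ) := by
  refine isCompact_iff_compactSpace.mp ?_
  refine (isCompact_nsq_le 1).of_isClosed_subset
    (isClosed_eq continuous_nsq continuous_const) ?_
  intro x hx
  exact le_of_eq hx

/-- the underlying vector -/
def v (x : SS κ) : κ → ℂ := x.1

theorem nsq_v (x : SS κ) : nsq x.v = 1 := x.2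

@[ext (iff := false)] theorem ext {x y : SS κ} (h : x.v = y.v) : x = y := Subtype.ext h

@[continuity, fun_prop]
theorem continuous_v : Continuous (v : SS κ → κ → ℂ) := continuous_subtype_val

/-- the line through a point of the sphere -/
def line (x : SS κ) : Gr 1 κ := ⟨lineP x.v, isProj_lineP x.nsq_v⟩

@[simp] theorem line_P (x : SS κ) : x.line.P = lineP x.v := rfl

@[continuity, fun_prop]
theorem continuous_line : Continuous (line : SS κ → Gr 1 κ) :=
  (continuous_lineP.comp continuous_v).subtype_mk _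

theorem line_surjective : Function.Surjective (line : SS κ → Gr 1 κ) := by
  intro P
  obtain ⟨x, hx, -, h⟩ := P.isProj.exists_lineP
  exact ⟨⟨x, hx⟩, Gr.ext h.symm⟩

theorem isQuotientMap_line : IsQuotientMap (line : SS κ → Gr 1 κ) :=
  IsQuotientMap.of_surjective_continuous line_surjective continuous_line

end SS

end Vale.Agent.P251.G
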