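import Vale.Agent.P251.G.CellTh
import Vale.Agent.P251.G.TPow
import Vale.Agent.P251.G.Lens

/-!
# Compact spaces with a finite chain of cells, as a class

`HasChain Y`: `Y` is obtained from `∅` by attaching finitely many cells.  Instances: finite
spaces, products, sums, Grassmannians, unit spheres, unit sphere bundles of arbitrary bundles
(hence lens spaces).  `fc_of_hasChain`, `fc_tot` : the space itself and the total space of any
bundle over it are finite cell spaces.
-/

open CategoryTheory MonoidalCategory Filter Topology OnePoint Set Metric Matrix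

namespace Vale.Agent.P251.G.Cell

open LC

/-- `Y` has a finite chain of cells. -/
class HasChain (Y : Type) [TopologicalSpace Y] : Prop where
  /-- the chain -/
  out : CellChain univ ∅ (univ : Set Y)

theorem HasChain.of_chain {D : Set ℕ} {Y : Type} [TopologicalSpace Y]
    (h : CellChain D ∅ (univ : Set Y)) : HasChain Y := ⟨h.mono (subset_univ _)⟩

theorem HasChain.of_homeo {X Y : Type} [TopologicalSpace X] [TopologicalSpace Y] [hX : HasChain X]
    (e : X ≃ₜ Y) : HasChain Y := by
  have h := hX.out.image (f := e) e.continuous.continuousOn e.injective.injOn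
  rw [image_empty, image_univ, e.surjective.range_eq] at h
  exact ⟨h⟩

theorem chain_finset {Y : Type} [TopologicalSpace Y] (s : Set Y) (hs : s.Finite) :
    CellChain univ ∅ s := by
  induction s, hs using Set.Finite.induction_on with
  | empty => exact CellChain.refl _
  | insert ha _ ih => exact CellChain.step (mem_univ 0) ih (cellStep_point _ ha)

instance {Y : Type} [TopologicalSpace Y] [Finite Y] : HasChain Y :=
  ⟨chain_finset univ finite_univ⟩

instance {X Y : Type} [TopologicalSpace X] [TopologicalSpace Y] [hX : HasChain X]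
    [hY : HasChain Y] : HasChain (X × Y) :=
  HasChain.of_chain (chain_prod_univ hX.out hY.out)

instance {X Y : Type} [TopologicalSpace X] [TopologicalSpace Y] [hX : HasChain X]
    [hY : HasChain Y] : HasChain (X ⊕ Y) := by
  have h1 := hX.out.image (f := (Sum.inl : X → X ⊕ Y)) continuous_inl.continuousOn
    Sum.inl_injective.injOn
  have h2 := hY.out.image (f := (Sum.inr : Y → X ⊕ Y)) continuous_inr.continuousOn
    Sum.inr_injective.injOn
  rw [image_empty, image_univ] at h1 h2
  have h3 := h2.union (Z := range (Sum.inl : X → X ⊕ Y)) (by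
    rw [range_inl_inter_range_inr])
  rw [union_empty, range_inl_union_range_inr] at h3
  exact ⟨h1.trans h3⟩

instance (n : ℕ) (I : Type) [Fintype I] : HasChain (Gr n I) := HasChain.of_chain (chain_gr n I)

instance (a : ℕ) : HasChain (sphere (0 : Euc a) 1) := by
  have h := (chain_sphere a).preimage (e := (Subtype.val : sphere (0 : Euc a) 1 → Euc a))
    IsEmbedding.subtypeVal (by rw [Subtype.range_coe])
  rw [preimage_empty, show (Subtype.val ⁻¹' sphere (0 : Euc a) 1 : Set (sphere (0 : Euc a) 1)) =
    univ from by ext x; simp] at h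
  exact HasChain.of_chain h

instance (a : ℕ) : HasChain (closedBall (0 : Euc a) 1) := by
  have h0 : CellChain univ ∅ (closedBall (0 : Euc a) 1) :=
    CellChain.step (mem_univ a) ((chain_sphere a).mono (subset_univ _)) (cellStep_ball a)
  have h := h0.preimage (e := (Subtype.val : closedBall (0 : Euc a) 1 → Euc a))
    IsEmbedding.subtypeVal (by rw [Subtype.range_coe])
  rw [preimage_empty, show (Subtype.val ⁻¹' closedBall (0 : Euc a) 1 :
    Set (closedBall (0 : Euc a) 1)) = univ from by ext x; simp] at h
  exact HasChain.of_chain h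

section bundles

variable {ι : Type} [Fintype ι] {Y : Type} [TopologicalSpace Y]

/-- The unit sphere bundle of any bundle. -/
instance [hY : HasChain Y] (V : Bun Y ι) : HasChain V.Sph := by
  classical
  have h1 := hY.out.sphereBundle' (X := Y × (ι → ℂ)) V.P V.cont.continuousOn
    (fun y _ => V.idem y) id continuousOn_id (injOn_id _)
  rw [image_id, image_id] at h1
  have hemb : IsEmbedding (fun s : V.Sph => (s.base, s.vec)) :=
    (IsEmbedding.subtypeVal (p := fun p : Y × (ι → ℂ) => V.P p.1 *ᵥ p.2 = p.2)).comp
      (IsEmbedding.subtypeVal (p := fun p : V.E => nsq (Bun.vec p) = 1))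
  have hr' : range (fun s : V.Sph => (s.base, s.vec)) = sphB V.P univ := by
    ext ⟨y, v⟩
    constructor
    · rintro ⟨s, hs⟩
      rw [Prod.mk.injEq] at hs
      rw [← hs.1, ← hs.2]
      exact ⟨mem_univ _, s.P_vec, s.nsq_vec⟩
    · rintro ⟨-, hv, hn⟩
      exact ⟨V.mkSph y v hv hn, rfl⟩
  have h2 := h1.preimage hemb (by rw [hr'])
  have e1 : sphB V.P ∅ = ∅ := by ext q; simp [sphB]
  rw [e1, preimage_empty, ← hr', preimage_range] at h2
  exact HasChain.of_chain h2

/-- The unit sphere of `ℂ^κ`. -/
instance (κ : Type) [Fintype κ] : HasChain (SS κ) := by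
  classical
  let V := Bun.triv Unit κ
  let f : V.Sph → SS κ := fun s => ⟨s.vec, s.nsq_vec⟩
  have hf : Continuous f := Bun.Sph.continuous_vec.subtype_mk _
  have hb : Function.Bijective f := by
    constructor
    · intro s t h
      exact Bun.Sph.ext (Subsingleton.elim _ _) (congrArg Subtype.val h)
    · intro x
      refine ⟨V.mkSph () x.1 ?_ x.2, rfl⟩
      change (1 : Matrix κ κ ℂ) *ᵥ x.1 = x.1
      rw [one_mulVec]
  exact HasChain.of_homeo (hf.homeoOfEquivCompactToT2 (f := Equiv.ofBijective f hb))

variable [CompactSpace Y] [T2Space Y] [hY : HasChain Y]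

/-- A compact space with a chain of cells is a finite cell space. -/
theorem fc_of_hasChain (Y : Type) [TopologicalSpace Y] [CompactSpace Y] [T2Space Y]
    [hY : HasChain Y] : FC (LC.of Y) := (cells_of_compact hY.out).fc

/-- The total space of any bundle over a compact space with a chain of cells is a finite cell
space. -/
theorem fc_tot (V : Bun Y ι) : FC V.tot := by
  classical
  have h := thomChain' V hY.out
  rw [overSet_empty, overSet_univ] at h
  exact Cells.fc h

end bundles

theorem fc_gr (n : ℕ) (I : Type) [Fintype I] : FC (LC.of (Gr n I)) := (cells_gr n I).fc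

theorem fc_th (n : ℕ) (I : Type) [Fintype I] : FC (LC.of (Th n I)) := (cells_th n I).fc

/-- the identification of `ℂ^I` with a real vector space -/
theorem fc_cvec (I : Type) [Fintype I] : FC (LC.of (I → ℂ)) := by
  classical
  have h : FC (Bun.triv Unit I).tot := fc_tot _
  refine h.of_homeo (Y := LC.of (I → ℂ)) ?_
  refine (Bun.trivHomeo Unit I).trans ?_
  exact Homeomorph.punitProd (I → ℂ)


end Vale.Agent.P251.G.Cell
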