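import Mathlib.Topology.Compactification.OnePoint.Basic
import Mathlib.Topology.Maps.Proper.Basic
import Mathlib.Topology.Maps.Proper.CompactlyGenerated
import Mathlib.Topology.Homotopy.Basic

/-!
# P251, part G: topology of one-point compactifications needed for the power operation (G6)

Everything here is on bare functions `OnePoint X → OnePoint Y`.
-/

open Set Filter Topology OnePoint

namespace Vale.Agent.P251.G

section criterion

variable {X Y Z : Type*} [TopologicalSpace X] [TopologicalSpace Y] [TopologicalSpace Z]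

/-- Continuity criterion for pointed maps of one-point compactifications. -/
theorem OP.continuous_of [T2Space Y] [T2Space X] (f : OnePoint X → OnePoint Y) (hf : f ∞ = ∞)
    (h1 : Continuous fun x : X => f x)
    (h2 : ∀ K : Set Y, IsCompact K → ∃ C : Set X, IsCompact C ∧ ∀ x : X, ∀ y ∈ K, f x = y → x ∈ C) :
    Continuous f := by
  rw [OnePoint.continuous_iff]
  refine ⟨?_, h1⟩
  rw [hf, OnePoint.hasBasis_nhds_infty.tendsto_right_iff]
  rintro K ⟨-, hK⟩
  obtain ⟨C, hC, hC'⟩ := h2 K hK
  have : Cᶜ ∈ coclosedCompact X := hC.compl_mem_coclosedCompact_of_isClosed hC.isClosed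
  filter_upwards [this] with x hx
  by_contra hcon
  have h3 : f x ∈ ((↑) '' K : Set (OnePoint Y)) := by
    by_contra h4
    apply hcon
    rw [← OnePoint.compl_image_coe]
    exact h4
  obtain ⟨y, hy, hy'⟩ := h3
  exact hx (hC' x y hy hy'.symm)

/-- A pointed continuous map has compact preimages of compact sets. -/
theorem OP.isCompact_preimage [T2Space Y] (f : OnePoint X → OnePoint Y)
    (hf : f ∞ = ∞) (hc : Continuous f) {K : Set Y} (hK : IsCompact K) :
    IsCompact {x : X | ∃ y ∈ K, f x = y} := by
  have h1 : IsClosed (f ⁻¹' ((↑) '' K)) :=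
    (OnePoint.isClosed_image_coe.2 ⟨hK.isClosed, hK⟩).preimage hc
  have h2 : ∞ ∉ f ⁻¹' ((↑) '' K) := by
    rw [mem_preimage, hf]; exact OnePoint.infty_notMem_image_coe
  have h3 := (OnePoint.isClosed_iff_of_notMem h2).1 h1
  convert h3.2 using 1
  ext x
  simp only [mem_ofPred_eq, mem_preimage, mem_image]
  constructor
  · rintro ⟨y, hy, h⟩; exact ⟨y, hy, h.symm⟩
  · rintro ⟨y, hy, h⟩; exact ⟨y, hy, h.symm⟩

/-- A proper map induces a continuous map of one-point compactifications. -/
theorem OP.continuous_map_of_isProperMap {f : X → Y} (hf : IsProperMap f) :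
    Continuous (OnePoint.map f) := by
  refine OnePoint.continuous_map hf.continuous ?_
  rw [hasBasis_coclosedCompact.tendsto_right_iff]
  rintro K ⟨hK1, hK2⟩
  have := (hf.isCompact_preimage hK2).compl_mem_coclosedCompact_of_isClosed
    (hK1.preimage hf.continuous)
  filter_upwards [this] with x hx using hx

/-- Descent of continuity along a proper surjection. -/
theorem OP.continuous_of_comp_map [T2Space Y] [LocallyCompactSpace Y] {W : Type*}
    [TopologicalSpace W] {q : X → Y} (hq : IsProperMap q) (hs : Function.Surjective q)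
    {F : OnePoint Y → W} (hF : Continuous fun a : OnePoint X => F (OnePoint.map q a)) :
    Continuous F := by
  have h1 : Continuous (OnePoint.map q) := OP.continuous_map_of_isProperMap hq
  have h2 : Function.Surjective (OnePoint.map q) := by
    intro y
    induction y using OnePoint.rec with
    | infty => exact ⟨∞, rfl⟩
    | coe y => obtain ⟨x, rfl⟩ := hs y; exact ⟨x, rfl⟩
  have h3 : IsQuotientMap (OnePoint.map q) := (h1.isClosedMap).isQuotientMap h1 h2
  exact h3.continuous_iff.2 hF

end criterion

section smash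

variable {J : Type*} [Finite J]

open Classical in
/-- the canonical map from the product of one-point compactifications to the one-point
compactification of the product -/
noncomputable def OP.smash {Y : J → Type*} (y : ∀ j, OnePoint (Y j)) : OnePoint (∀ j, Y j) :=
  if h : ∀ j, ∃ z : Y j, y j = z then ((fun j => (h j).choose : ∀ j, Y j) : OnePoint (∀ j, Y j))
  else ∞

omit [Finite J] in
theorem OP.smash_coe {Y : J → Type*} (y : ∀ j, Y j) :
    OP.smash (fun j => (y j : OnePoint (Y j))) = (y : OnePoint (∀ j, Y j)) := by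
  have h : ∀ j, ∃ z : Y j, (y j : OnePoint (Y j)) = z := fun j => ⟨y j, rfl⟩
  rw [OP.smash, dif_pos h]
  congr 1
  funext j
  exact (OnePoint.coe_injective (h j).choose_spec).symm

omit [Finite J] in
theorem OP.smash_infty {Y : J → Type*} (y : ∀ j, OnePoint (Y j)) {j : J} (h : y j = ∞) :
    OP.smash y = ∞ := by
  rw [OP.smash, dif_neg]
  intro h'
  obtain ⟨z, hz⟩ := h' j
  rw [h] at hz
  exact OnePoint.infty_ne_coe z hz

omit [Finite J] in
theorem OP.smash_eq_coe {Y : J → Type*} {y : ∀ j, OnePoint (Y j)} {z : ∀ j, Y j}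
    (h : OP.smash y = z) (j : J) : y j = z j := by
  by_cases h' : ∀ j, ∃ z : Y j, y j = z
  · rw [OP.smash, dif_pos h', OnePoint.coe_eq_coe] at h
    rw [← h]
    exact (h' j).choose_spec
  · rw [OP.smash, dif_neg h'] at h
    exact absurd h (OnePoint.infty_ne_coe _)

omit [Finite J] in
theorem OP.smash_eq_coe_iff {Y : J → Type*} {y : ∀ j, OnePoint (Y j)} {z : ∀ j, Y j} :
    OP.smash y = z ↔ ∀ j, y j = z j := by
  refine ⟨OP.smash_eq_coe, fun h => ?_⟩
  rw [← OP.smash_coe]
  congr 1
  funext j
  exact h j

theorem OP.continuous_smash {Y : J → Type*} [∀ j, TopologicalSpace (Y j)] [∀ j, T2Space (Y j)]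
    [∀ j, LocallyCompactSpace (Y j)] :
    Continuous (OP.smash : (∀ j, OnePoint (Y j)) → OnePoint (∀ j, Y j)) := by
  have hemb : IsOpenMap (fun y : ∀ j, Y j => fun j => (y j : OnePoint (Y j))) :=
    (IsOpenEmbedding.piMap (f := fun j => (OnePoint.some : Y j → OnePoint (Y j)))
      (fun j => OnePoint.isOpenEmbedding_coe)).isOpenMap
  rw [continuous_def]
  intro U hU
  by_cases hinf : ∞ ∈ U
  · rw [OnePoint.isOpen_iff_of_mem hinf] at hU
    have hK : IsCompact ((fun y : ∀ j, Y j => fun j => (y j : OnePoint (Y j))) ''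
        ((↑) ⁻¹' U : Set (∀ j, Y j))ᶜ) :=
      hU.2.image (continuous_pi fun j => OnePoint.continuous_coe.comp (continuous_apply j))
    have : OP.smash ⁻¹' U = ((fun y : ∀ j, Y j => fun j => (y j : OnePoint (Y j))) ''
        ((↑) ⁻¹' U : Set (∀ j, Y j))ᶜ)ᶜ := by
      ext y
      simp only [mem_preimage, mem_compl_iff, mem_image, not_exists, not_and]
      constructor
      · rintro h z hz rfl
        apply hz
        rwa [OP.smash_coe] at h
      · intro h
        by_contra hcon
        have h2 : OP.smash y ≠ ∞ := fun h3 => hcon (h3 ▸ hinf)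
        obtain ⟨z, hz⟩ := OnePoint.ne_infty_iff_exists.1 h2
        refine h z ?_ ?_
        · rwa [hz]
        · funext j; exact (OP.smash_eq_coe hz.symm j).symm
    rw [this]
    exact hK.isClosed.isOpen_compl
  · rw [OnePoint.isOpen_iff_of_notMem hinf] at hU
    have : OP.smash ⁻¹' U = (fun y : ∀ j, Y j => fun j => (y j : OnePoint (Y j))) ''
        ((↑) ⁻¹' U : Set (∀ j, Y j)) := by
      ext y
      simp only [mem_preimage, mem_image]
      constructor
      · intro h
        have h2 : OP.smash y ≠ ∞ := fun h3 => hinf (h3 ▸ h)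
        obtain ⟨z, hz⟩ := OnePoint.ne_infty_iff_exists.1 h2
        refine ⟨z, by rwa [hz], ?_⟩
        funext j; exact (OP.smash_eq_coe hz.symm j).symm
      · rintro ⟨z, hz, rfl⟩
        rwa [OP.smash_coe]
    rw [this]
    exact hemb _ hU

open Classical in
/-- the `J`-fold smash power of a map of one-point compactifications -/
noncomputable def OP.pow {X Y : Type*} (J : Type*) (f : OnePoint X → OnePoint Y) :
    OnePoint (J → X) → OnePoint (J → Y) :=
  fun a => a.elim ∞ (fun x => OP.smash (fun j => f (x j)))

omit [Finite J] in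
@[simp] theorem OP.pow_infty {X Y : Type*} (f : OnePoint X → OnePoint Y) :
    OP.pow J f ∞ = ∞ := rfl

omit [Finite J] in
@[simp] theorem OP.pow_coe {X Y : Type*} (f : OnePoint X → OnePoint Y) (x : J → X) :
    OP.pow J f x = OP.smash (fun j => f (x j)) := rfl

theorem OP.continuous_pow {X Y : Type*} [TopologicalSpace X] [TopologicalSpace Y] [T2Space X]
    [T2Space Y] [LocallyCompactSpace Y] (f : OnePoint X → OnePoint Y) (hf : f ∞ = ∞)
    (hc : Continuous f) : Continuous (OP.pow J f) := by
  apply OP.continuous_of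
  · rfl
  · simp only [OP.pow_coe]
    exact OP.continuous_smash.comp (continuous_pi fun j =>
      hc.comp (OnePoint.continuous_coe.comp (continuous_apply j)))
  · intro K hK
    have hKj : ∀ j : J, IsCompact ((fun y : J → Y => y j) '' K) := fun j =>
      hK.image (continuous_apply j)
    refine ⟨Set.univ.pi fun j => {x : X | ∃ y ∈ ((fun y : J → Y => y j) '' K), f x = y},
      isCompact_univ_pi fun j => OP.isCompact_preimage f hf hc (hKj j), ?_⟩
    intro x y hy h j _
    rw [OP.pow_coe] at h
    exact ⟨y j, ⟨y, hy, rfl⟩, OP.smash_eq_coe h j⟩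

end smash

section lsmash

variable {X Y Z : Type*} [TopologicalSpace X] [TopologicalSpace Y] [TopologicalSpace Z]

/-- `X × OnePoint Y → OnePoint (X × Y)` -/
def OP.lsmash (a : X × OnePoint Y) : OnePoint (X × Y) := a.2.elim ∞ (fun y => ((a.1, y) : X × Y))

omit [TopologicalSpace X] [TopologicalSpace Y] in
@[simp] theorem OP.lsmash_infty (x : X) : OP.lsmash (x, (∞ : OnePoint Y)) = ∞ := rfl

omit [TopologicalSpace X] [TopologicalSpace Y] in
@[simp] theorem OP.lsmash_coe (x : X) (y : Y) :
    OP.lsmash (x, (y : OnePoint Y)) = ((x, y) : X × Y) := rfl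

theorem OP.continuous_lsmash [T2Space X] [T2Space Y] [LocallyCompactSpace Y] :
    Continuous (OP.lsmash : X × OnePoint Y → OnePoint (X × Y)) := by
  rw [continuous_def]
  intro U hU
  by_cases hinf : ∞ ∈ U
  · rw [OnePoint.isOpen_iff_of_mem hinf] at hU
    have hK : IsCompact ((fun a : X × Y => (a.1, (a.2 : OnePoint Y))) ''
        ((↑) ⁻¹' U : Set (X × Y))ᶜ) :=
      hU.2.image (continuous_fst.prodMk (OnePoint.continuous_coe.comp continuous_snd))
    have : OP.lsmash ⁻¹' U = ((fun a : X × Y => (a.1, (a.2 : OnePoint Y))) ''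
        ((↑) ⁻¹' U : Set (X × Y))ᶜ)ᶜ := by
      ext ⟨x, y⟩
      simp only [mem_preimage, mem_compl_iff, mem_image, not_exists, not_and]
      constructor
      · rintro h ⟨x', y'⟩ hz hh
        rw [Prod.mk.injEq] at hh
        obtain ⟨rfl, rfl⟩ := hh
        exact hz h
      · intro h
        induction y using OnePoint.rec with
        | infty => exact hinf
        | coe y =>
          by_contra hcon
          exact h (x, y) hcon rfl
    rw [this]
    exact hK.isClosed.isOpen_compl
  · rw [OnePoint.isOpen_iff_of_notMem hinf] at hU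
    have : OP.lsmash ⁻¹' U = (Prod.map id ((↑) : Y → OnePoint Y)) ''
        ((↑) ⁻¹' U : Set (X × Y)) := by
      ext ⟨x, y⟩
      simp only [mem_preimage, mem_image]
      constructor
      · intro h
        induction y using OnePoint.rec with
        | infty => exact absurd h hinf
        | coe y => exact ⟨(x, y), h, rfl⟩
      · rintro ⟨⟨x', y'⟩, hz, hh⟩
        rw [Prod.map_apply, Prod.mk.injEq] at hh
        obtain ⟨rfl, rfl⟩ := hh
        exact hz
    rw [this]
    exact (IsOpenMap.id.prodMap OnePoint.isOpenMap_coe) _ hU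

end lsmash

end Vale.Agent.P251.G
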