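import Vale.Agent.P251.G.Homotopy
import Vale.Agent.P251.G.PowTop

/-!
# P251, part G: finite powers of morphisms of `LC`, descent along proper surjections (for G6)
-/

open CategoryTheory MonoidalCategory Filter Topology OnePoint

namespace Vale.Agent.P251.G

namespace LC

/-- A proper map (in the sense of `IsProperMap`) gives a morphism. -/
def ofIsProper {X Y : LC} (f : X → Y) (hf : IsProperMap f) : X ⟶ Y :=
  ⟨⟨OnePoint.map f, OP.continuous_map_of_isProperMap hf⟩, rfl⟩

@[simp] theorem app_ofIsProper_coe {X Y : LC} (f : X → Y) (hf : IsProperMap f) (x : X) :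
    app (ofIsProper f hf) (x : OnePoint X) = (f x : OnePoint Y) := rfl

theorem isProperMap_of_tendsto {X Y : LC} {f : X → Y} (hf : Continuous f)
    (h : Tendsto f (cocompact X) (cocompact Y)) : IsProperMap f :=
  isProperMap_iff_tendsto_cocompact.2 ⟨hf, h⟩

/-- the object `J → X` -/
abbrev powObj (J : Type) [Finite J] (X : LC) : LC := LC.of (J → X)

/-- the `J`-fold tensor power of a morphism -/
noncomputable def powHom (J : Type) [Finite J] {X Y : LC} (f : X ⟶ Y) :
    powObj J X ⟶ powObj J Y :=
  ⟨⟨OP.pow J (app f), OP.continuous_pow (app f) (app_infty f) (continuous_app f)⟩, rfl⟩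

theorem app_powHom_coe (J : Type) [Finite J] {X Y : LC} (f : X ⟶ Y) (x : J → X) :
    app (powHom J f) (x : OnePoint (J → X)) = OP.smash fun j => app f (x j : OnePoint X) := rfl

theorem app_powHom_smash (J : Type) [Finite J] {X Y : LC} (f : X ⟶ Y) (x : J → OnePoint X) :
    app (powHom J f) (OP.smash x) = OP.smash fun j => app f (x j) := by
  by_cases h : ∀ j, ∃ z : X, (z : OnePoint X) = x j
  · choose z hz using h
    have : x = fun j => (z j : OnePoint X) := funext fun j => (hz j).symm
    subst this
    rw [OP.smash_coe]; rfl
  · push Not at h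
    obtain ⟨j, hj⟩ := h
    have hj' : x j = ∞ := by
      by_contra hcon
      obtain ⟨y, hy⟩ := OnePoint.ne_infty_iff_exists.1 hcon
      exact hj y hy
    rw [OP.smash_infty x hj', OP.smash_infty (fun j => app f (x j)) (j := j) (by
      rw [hj']; exact app_infty f)]
    exact app_infty _

theorem powHom_id (J : Type) [Finite J] (X : LC) : powHom J (𝟙 X) = 𝟙 (powObj J X) := by
  ext x
  rw [app_powHom_coe]
  exact OP.smash_coe x

theorem powHom_comp (J : Type) [Finite J] {X Y Z : LC} (f : X ⟶ Y) (g : Y ⟶ Z) :
    powHom J (f ≫ g) = powHom J f ≫ powHom J g := by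
  ext x
  rw [app_comp, app_powHom_coe, app_powHom_coe, app_powHom_smash]
  rfl

/-- Descent of a morphism along a proper surjection. -/
def descend {A' A Z : LC} (q : A' → A) (hq : IsProperMap q) (hs : Function.Surjective q)
    (G : A' ⟶ Z) (F : A → OnePoint Z) (h : ∀ a : A', F (q a) = app G (a : OnePoint A')) :
    A ⟶ Z :=
  ⟨⟨fun a => a.elim ∞ F, by
    refine OP.continuous_of_comp_map hq hs ?_
    have : (fun a : OnePoint A' => OnePoint.elim (OnePoint.map q a) ∞ F) = app G := by
      funext a
      induction a using OnePoint.rec with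
      | infty => exact (app_infty G).symm
      | coe a => exact h a
    rw [this]
    exact continuous_app G⟩, rfl⟩

@[simp] theorem app_descend_coe {A' A Z : LC} (q : A' → A) (hq : IsProperMap q)
    (hs : Function.Surjective q) (G : A' ⟶ Z) (F : A → OnePoint Z)
    (h : ∀ a : A', F (q a) = app G (a : OnePoint A')) (a : A) :
    app (descend q hq hs G F h) (a : OnePoint A) = F a := rfl

theorem ofIsProper_comp_descend {A' A Z : LC} (q : A' → A) (hq : IsProperMap q)
    (hs : Function.Surjective q) (G : A' ⟶ Z) (F : A → OnePoint Z)
    (h : ∀ a : A', F (q a) = app G (a : OnePoint A')) :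
    ofIsProper q hq ≫ descend q hq hs G F h = G := by
  ext a
  rw [app_comp, app_ofIsProper_coe, app_descend_coe, h]

/-- morphisms out of the image of a proper surjection are determined by the composite -/
theorem cancel_proper_surj {A' A Z : LC} {q : A' → A} (hq : IsProperMap q)
    (hs : Function.Surjective q) {f g : A ⟶ Z} (h : ofIsProper q hq ≫ f = ofIsProper q hq ≫ g) :
    f = g := by
  ext a
  obtain ⟨a', rfl⟩ := hs a
  have := congrArg (fun k => app k (a' : OnePoint A')) h
  simpa only [app_comp, app_ofIsProper_coe] using this

/-- The homotopy of `J`-fold powers. -/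
theorem Homotopic.powHom (J : Type) [Finite J] {X Y : LC} {f g : X ⟶ Y} (H : Homotopic f g) :
    Homotopic (powHom J f) (powHom J g) := by
  cases isEmpty_or_nonempty J with
  | inl hJ =>
    apply Homotopic.of_eq
    ext x
    rw [app_powHom_coe, app_powHom_coe]
    congr 1
    funext j
    exact (IsEmpty.false j).elim
  | inr hJ =>
    obtain ⟨K, h0, h1⟩ := H
    let r : (J → X) × unitInterval → (J → X × unitInterval) := fun a j => (a.1 j, a.2)
    have hr : Continuous r := by
      refine continuous_pi fun j => ?_
      exact ((continuous_apply j).comp continuous_fst).prodMk continuous_snd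
    let l : (J → X × unitInterval) → (J → X) × unitInterval :=
      fun b => (fun j => (b j).1, (b (Classical.arbitrary J)).2)
    have hl : Continuous l := by
      refine Continuous.prodMk (continuous_pi fun j => ?_) ?_
      · exact continuous_fst.comp (continuous_apply j)
      · exact continuous_snd.comp (continuous_apply _)
    have hlr : Function.LeftInverse l r := fun a => rfl
    have hcl : IsClosedEmbedding r := hlr.isClosedEmbedding hl hr
    refine ⟨ofIsProper (X := LC.of ((J → X) × unitInterval)) (Y := LC.of (J → X × unitInterval))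
      r hcl.isProperMap ≫ LC.powHom J K, ?_, ?_⟩
    · ext x
      rw [app_comp, app_comp, app_incl, smash_coe_coe, app_ofIsProper_coe, app_powHom_coe,
        app_powHom_coe, ← h0]
      simp only [app_comp, app_incl]
      rfl
    · ext x
      rw [app_comp, app_comp, app_incl, smash_coe_coe, app_ofIsProper_coe, app_powHom_coe,
        app_powHom_coe, ← h1]
      simp only [app_comp, app_incl]
      rfl

end LC

end Vale.Agent.P251.G
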