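import Vale.Agent.P251.G.Retract

/-!
# P251, part G: relative cell complexes in `LC`

`RelCell D f` : `f : A ⟶ B` is a finite composite of isomorphisms and of cofibrations with strict
cofibre `ℝᵃ`, `a ∈ D`.
-/

open CategoryTheory MonoidalCategory

namespace Vale.Agent.P251.G.LC

/-- `B` is obtained from `A` (through `f`) by attaching finitely many cells, with dimensions
in `D`. -/
inductive RelCell (D : Set ℕ) : ∀ {A B : LC}, (A ⟶ B) → Prop
  | iso {A B : LC} (f : A ⟶ B) [IsIso f] : RelCell D f
  | step {A B : LC} (i : A ⟶ B) (a : ℕ) (ha : a ∈ D) (hi : Cofib i)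
      (e : Nonempty (cof i ≅ Sph a)) : RelCell D i
  | comp {A B C : LC} {f : A ⟶ B} {g : B ⟶ C} (hf : RelCell D f) (hg : RelCell D g) :
      RelCell D (f ≫ g)

namespace RelCell

variable {D D' : Set ℕ}

theorem mono (h : D ⊆ D') {A B : LC} {f : A ⟶ B} (hf : RelCell D f) : RelCell D' f := by
  induction hf with
  | iso f => exact iso f
  | step i a ha hi e => exact step i a (h ha) hi e
  | comp _ _ ihf ihg => exact comp ihf ihg

theorem fc {A B : LC} {f : A ⟶ B} (hf : RelCell D f) (hA : FC A) : FC B := by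
  induction hf with
  | iso f => exact hA.of_iso (asIso f)
  | step i a ha hi e => exact FC.ext hi hA ((FC.sph a).of_iso e.some.symm)
  | comp _ _ ihf ihg => exact ihg (ihf hA)

theorem iso_comp {A B C : LC} (f : A ⟶ B) [IsIso f] {g : B ⟶ C} (hg : RelCell D g) :
    RelCell D (f ≫ g) := comp (iso f) hg

theorem comp_iso {A B C : LC} {f : A ⟶ B} (hf : RelCell D f) (g : B ⟶ C) [IsIso g] :
    RelCell D (f ≫ g) := comp hf (iso g)

end RelCell

end Vale.Agent.P251.G.LC
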