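import Vale.Agent.P251.G.CofibNDR
import Mathlib.Analysis.Normed.Module.FiniteDimension
import Mathlib.Topology.OpenPartialHomeomorph.Continuity

/-!
# P251, part G: cofibrations in `LC`: criteria and examples
-/

open CategoryTheory MonoidalCategory Filter Topology OnePoint

namespace Vale.Agent.P251.G

namespace LC

variable {A B C D X Y Z : LC}

section criteria

theorem tendsto_cocompact_of_preimage {X Y : Type*} [TopologicalSpace X] [TopologicalSpace Y]
    {f : X → Y} (h : ∀ K : Set Y, IsCompact K → ∃ K' : Set X, IsCompact K' ∧ f ⁻¹' K ⊆ K') :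
    Tendsto f (cocompact X) (cocompact Y) := by
  rw [Filter.hasBasis_cocompact.tendsto_iff Filter.hasBasis_cocompact]
  intro K hK
  obtain ⟨K', hK', hsub⟩ := h K hK
  exact ⟨K', hK', fun x hx hfx => hx (hsub hfx)⟩

/-- a continuous function on a compact object extends to the compactification -/
def extCompact [CompactSpace D] {Z : Type*} [TopologicalSpace Z] (u : D → Z) (hu : Continuous u)
    (z : Z) : C(OnePoint D, Z) :=
  OnePoint.continuousMapMk ⟨u, hu⟩ z (by
    rw [coclosedCompact_eq_cocompact, cocompact_eq_bot]; exact tendsto_bot)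

@[simp] theorem extCompact_coe [CompactSpace D] {Z : Type*} [TopologicalSpace Z] (u : D → Z)
    (hu : Continuous u) (z : Z) (d : D) : extCompact u hu z (d : OnePoint D) = u d := rfl

/-- NDR data with an honest proper deformation. -/
theorem pndr_of_proper {S : Set D} (u : C(OnePoint D, unitInterval)) (h : D × unitInterval → D)
    (hc : Continuous h) (hp : Tendsto h (cocompact (D × unitInterval)) (cocompact D))
    (u0 : ∀ d : D, u (d : OnePoint D) = 0 ↔ d ∈ S) (h0 : ∀ d : D, h (d, 0) = d)
    (hS : ∀ d ∈ S, ∀ t, h (d, t) = d)
    (hlt : ∀ (d : D) (t : unitInterval), u (d : OnePoint D) < t → h (d, t) ∈ S) : PNDR D S :=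
  ⟨{ u := u
     h := ofProper (X := LC.of (D × unitInterval)) h hc hp
     u_eq_zero := u0
     h_zero := fun d => congrArg _ (h0 d)
     h_mem := fun d hd t => congrArg _ (hS d hd t)
     h_lt := fun d t hdt => coe_mem_ptd.mpr (hlt d t hdt) }⟩

/-- NDR data in a compact object. -/
theorem pndr_of_compact [CompactSpace D] {S : Set D} (u : D → unitInterval) (hu : Continuous u)
    (h : D × unitInterval → D) (hc : Continuous h) (u0 : ∀ d : D, u d = 0 ↔ d ∈ S)
    (h0 : ∀ d, h (d, 0) = d) (hS : ∀ d ∈ S, ∀ t, h (d, t) = d)
    (hlt : ∀ d t, u d < t → h (d, t) ∈ S) : PNDR D S :=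
  pndr_of_proper (extCompact u hu 1) h hc (by rw [cocompact_eq_bot]; exact tendsto_bot) u0 h0 hS
    hlt

/-- the reparametrisation `t / u` cut off at `1` -/
noncomputable def tdiv (t u : unitInterval) : unitInterval :=
  ⟨min 1 (t.1 / u.1), le_min zero_le_one (div_nonneg t.2.1 u.2.1), min_le_left _ _⟩

/-- The classical form of NDR data: the deformation pushes `{u < 1}` into `S` at time `1`. -/
theorem pndr_of_classical {S : Set D} (u : C(OnePoint D, unitInterval)) (h : D ⊗ II ⟶ D)
    (u0 : ∀ d : D, u (d : OnePoint D) = 0 ↔ d ∈ S)
    (h0 : ∀ d : D,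
      app h (smash (d : OnePoint D) ((0 : unitInterval) : OnePoint unitInterval)) = d)
    (hS : ∀ d ∈ S, ∀ t : unitInterval,
      app h (smash (d : OnePoint D) (t : OnePoint unitInterval)) = d)
    (hlt : ∀ d : D, u (d : OnePoint D) < 1 →
      app h (smash (d : OnePoint D) ((1 : unitInterval) : OnePoint unitInterval)) ∈ ptd S) :
    PNDR D S := by
  classical
  have h0' : ∀ d : OnePoint D,
      app h (smash d ((0 : unitInterval) : OnePoint unitInterval)) = d := by
    intro d
    induction d using OnePoint.rec with
    | infty => exact app_infty _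
    | coe d => exact h0 d
  let F : OnePoint D × unitInterval → OnePoint D := fun p =>
    if u p.1 = 0 then p.1 else app h (smash p.1 ((tdiv p.2 (u p.1) : unitInterval) :
      OnePoint unitInterval))
  have hF : Continuous F := by
    rw [continuous_iff_continuousAt]
    rintro ⟨x, t⟩
    by_cases hx : u x = 0
    · have hFx : F (x, t) = x := if_pos hx
      have hconst : ∀ s : unitInterval,
          app h (smash x (s : OnePoint unitInterval)) = x := by
        intro s
        induction x using OnePoint.rec with
        | infty => exact app_infty _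
        | coe x => exact hS x ((u0 x).mp hx) s
      rw [ContinuousAt, hFx]
      intro N hN
      obtain ⟨V, hVN, hV, hxV⟩ := mem_nhds_iff.mp hN
      have key : ∀ᶠ y in 𝓝 x, ∀ s ∈ (Set.univ : Set unitInterval),
          app h (smash y (s : OnePoint unitInterval)) ∈ V := by
        apply isCompact_univ.eventually_forall_of_forall_eventually
        intro s _
        have hcont : Continuous (fun p : OnePoint D × unitInterval =>
            app h (smash p.1 (p.2 : OnePoint unitInterval))) :=
          (continuous_app h).comp (continuous_smashII D)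
        have hmem : app h (smash x (s : OnePoint unitInterval)) ∈ V := by
          rw [hconst s]; exact hxV
        exact (hcont.continuousAt (x := (x, s))).preimage_mem_nhds (hV.mem_nhds hmem)
      have key2 : ∀ᶠ p : OnePoint D × unitInterval in 𝓝 (x, t), ∀ s ∈ (Set.univ : Set unitInterval),
          app h (smash p.1 (s : OnePoint unitInterval)) ∈ V :=
        (continuous_fst.tendsto (x, t)).eventually key
      rw [mem_map]
      filter_upwards [key2] with p hp
      apply hVN
      by_cases hpu : u p.1 = 0
      · have : F p = p.1 := if_pos hpu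
        rw [this]
        have := hp 0 (Set.mem_univ _)
        rwa [h0'] at this
      · have : F p = app h (smash p.1 ((tdiv p.2 (u p.1) : unitInterval) :
            OnePoint unitInterval)) := if_neg hpu
        rw [this]
        exact hp _ (Set.mem_univ _)
    · have hopen : IsOpen {p : OnePoint D × unitInterval | u p.1 ≠ 0} :=
        (isOpen_compl_singleton (x := (0 : unitInterval))).preimage
          (u.continuous.comp continuous_fst)
      have hon : ContinuousOn F {p : OnePoint D × unitInterval | u p.1 ≠ 0} := by
        have h1 : ContinuousOn (fun p : OnePoint D × unitInterval =>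
            app h (smash p.1 ((tdiv p.2 (u p.1) : unitInterval) : OnePoint unitInterval)))
            {p : OnePoint D × unitInterval | u p.1 ≠ 0} := by
          have h2 : ContinuousOn (fun p : OnePoint D × unitInterval => tdiv p.2 (u p.1))
              {p : OnePoint D × unitInterval | u p.1 ≠ 0} := by
            rw [Topology.IsInducing.subtypeVal.continuousOn_iff]
            refine continuous_min.comp_continuousOn (continuousOn_const.prodMk ?_)
            apply ContinuousOn.div
            · exact (continuous_subtype_val.comp continuous_snd).continuousOn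
            · exact (continuous_subtype_val.comp
                (u.continuous.comp continuous_fst)).continuousOn
            · intro p hp h3
              exact hp (Subtype.ext h3)
          exact ((continuous_app h).comp (continuous_smashII D)).comp_continuousOn
            (continuousOn_fst.prodMk h2)
        refine h1.congr ?_
        intro p hp
        exact if_neg hp
      exact hon.continuousAt (hopen.mem_nhds hx)
  refine ⟨{ u := u
            h := homII F hF ?_
            u_eq_zero := u0
            h_zero := ?_
            h_mem := ?_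
            h_lt := ?_ }⟩
  · intro t
    by_cases h1 : u ∞ = 0
    · exact if_pos h1
    · exact (if_neg h1).trans (app_infty h)
  · intro d
    rw [app_homII]
    by_cases h1 : u (d : OnePoint D) = 0
    · exact if_pos h1
    · refine (if_neg h1).trans ?_
      have : tdiv (0 : unitInterval) (u (d : OnePoint D)) = 0 := by
        apply Subtype.ext
        change min 1 ((0 : ℝ) / (u (d : OnePoint D)).1) = 0
        rw [zero_div, min_eq_right zero_le_one]
      change app h (smash (d : OnePoint D) ((tdiv (0 : unitInterval) (u (d : OnePoint D)) :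
        unitInterval) : OnePoint unitInterval)) = d
      rw [this, h0]
  · intro d hd t
    rw [app_homII]
    exact if_pos ((u0 d).mpr hd)
  · intro d t hdt
    rw [app_homII]
    by_cases h1 : u (d : OnePoint D) = 0
    · have : F ((d : OnePoint D), t) = d := if_pos h1
      rw [this]
      exact coe_mem_ptd.mpr ((u0 d).mp h1)
    · refine Set.mem_of_eq_of_mem (if_neg h1) ?_
      have hpos : 0 < (u (d : OnePoint D)).1 :=
        lt_of_le_of_ne (u (d : OnePoint D)).2.1 (fun h => h1 (Subtype.ext h.symm))
      have hlt' : (u (d : OnePoint D)).1 < t.1 := hdt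
      have : tdiv t (u (d : OnePoint D)) = 1 := by
        apply Subtype.ext
        change min 1 (t.1 / (u (d : OnePoint D)).1) = 1
        rw [min_eq_left]
        rw [le_div_iff₀ hpos]; linarith
      change app h (smash (d : OnePoint D) ((tdiv t (u (d : OnePoint D)) :
        unitInterval) : OnePoint unitInterval)) ∈ ptd S
      rw [this]
      exact hlt d (lt_of_lt_of_le hdt t.2.2)

/-- cut-off used in `pndr_of_local` -/
noncomputable def cutoff (t u : unitInterval) : unitInterval :=
  ⟨t.1 * min 1 (max 0 (2 - 3 * u.1)), mul_nonneg t.2.1 (le_min zero_le_one (le_max_left _ _)),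
    by
      have h1 : min 1 (max 0 (2 - 3 * u.1)) ≤ 1 := min_le_left _ _
      have h2 : 0 ≤ min 1 (max 0 (2 - 3 * u.1)) := le_min zero_le_one (le_max_left _ _)
      calc t.1 * min 1 (max 0 (2 - 3 * u.1)) ≤ 1 * 1 := by
            apply mul_le_mul t.2.2 h1 h2 zero_le_one
        _ = 1 := one_mul 1⟩

/-- three times, cut off at `1` -/
noncomputable def triple (u : unitInterval) : unitInterval :=
  ⟨min 1 (3 * u.1), le_min zero_le_one (by linarith [u.2.1]), min_le_left _ _⟩

/-- The local form of NDR data: the deformation need only be defined (and continuous) where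
`u < 1`. -/
theorem pndr_of_local {S : Set D} (u : C(OnePoint D, unitInterval))
    (h : OnePoint D × unitInterval → OnePoint D) (hc : ContinuousOn h {p | u p.1 < 1})
    (hinf : ∀ t, u ∞ < 1 → h (∞, t) = ∞)
    (u0 : ∀ d : D, u (d : OnePoint D) = 0 ↔ d ∈ S)
    (h0 : ∀ d : D, u (d : OnePoint D) < 1 → h ((d : OnePoint D), 0) = d)
    (hS : ∀ d ∈ S, ∀ t : unitInterval, h ((d : OnePoint D), t) = d)
    (hlt : ∀ d : D, u (d : OnePoint D) < 1 → h ((d : OnePoint D), 1) ∈ ptd S) :
    PNDR D S := by
  classical
  let u' : C(OnePoint D, unitInterval) := ⟨fun x => triple (u x), by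
    apply Continuous.subtype_mk
    exact continuous_const.min (continuous_const.mul
      (continuous_subtype_val.comp u.continuous))⟩
  let F : OnePoint D × unitInterval → OnePoint D := fun p =>
    if u p.1 < 1 then h (p.1, cutoff p.2 (u p.1)) else p.1
  have hcut : Continuous (fun p : OnePoint D × unitInterval => cutoff p.2 (u p.1)) := by
    apply Continuous.subtype_mk
    apply (continuous_subtype_val.comp continuous_snd).mul
    apply continuous_const.min
    apply continuous_const.max
    exact continuous_const.sub (continuous_const.mul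
      (continuous_subtype_val.comp (u.continuous.comp continuous_fst)))
  have hcut0 : ∀ (t υ : unitInterval), (2 / 3 : ℝ) ≤ υ.1 → cutoff t υ = 0 := by
    intro t υ hυ
    apply Subtype.ext
    change t.1 * min 1 (max 0 (2 - 3 * υ.1)) = 0
    rw [max_eq_left (by linarith), min_eq_right zero_le_one, mul_zero]
  have h0' : ∀ x : OnePoint D, u x < 1 → h (x, 0) = x := by
    intro x hx
    induction x using OnePoint.rec with
    | infty => exact hinf 0 hx
    | coe x => exact h0 x hx
  have hF : Continuous F := by
    rw [continuous_iff_continuousAt]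
    rintro ⟨x, t⟩
    by_cases hx : u x < 1
    · have hopen : IsOpen {p : OnePoint D × unitInterval | u p.1 < 1} :=
        isOpen_lt (u.continuous.comp continuous_fst) continuous_const
      have hon : ContinuousOn F {p : OnePoint D × unitInterval | u p.1 < 1} := by
        have h1 : ContinuousOn (fun p : OnePoint D × unitInterval =>
            h (p.1, cutoff p.2 (u p.1))) {p : OnePoint D × unitInterval | u p.1 < 1} :=
          hc.comp (continuousOn_fst.prodMk hcut.continuousOn) (fun p hp => hp)
        exact h1.congr fun p hp => if_pos hp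
      exact hon.continuousAt (hopen.mem_nhds hx)
    · have hx1 : u x = 1 := le_antisymm (u x).2.2 (not_lt.mp hx)
      have hnear : ∀ᶠ p : OnePoint D × unitInterval in 𝓝 (x, t), (2 / 3 : ℝ) < (u p.1).1 := by
        have hcont : Continuous (fun p : OnePoint D × unitInterval => (u p.1).1) :=
          continuous_subtype_val.comp (u.continuous.comp continuous_fst)
        apply hcont.continuousAt.eventually
        apply lt_mem_nhds
        change (2 / 3 : ℝ) < (u x).1
        rw [hx1]
        change (2 / 3 : ℝ) < 1
        norm_num
      refine (continuous_fst.continuousAt (x := (x, t))).congr ?_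
      filter_upwards [hnear] with p hp
      symm
      by_cases hp1 : u p.1 < 1
      · refine (if_pos hp1).trans ?_
        rw [hcut0 _ _ hp.le]
        exact h0' p.1 hp1
      · exact if_neg hp1
  have hlt1 : ∀ υ : unitInterval, triple υ < 1 → υ.1 < 1 / 3 := by
    intro υ hυ
    have h1 : min 1 (3 * υ.1) < 1 := hυ
    rcases min_lt_iff.mp h1 with h2 | h2
    · exact absurd h2 (lt_irrefl _)
    · linarith
  refine pndr_of_classical u' (homII F hF ?_) ?_ ?_ ?_ ?_
  · intro t
    by_cases h1 : u ∞ < 1
    · exact (if_pos h1).trans (hinf _ h1)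
    · exact if_neg h1
  · intro d
    rw [← u0 d]
    constructor
    · intro h1
      apply Subtype.ext
      have h2 : min 1 (3 * (u (d : OnePoint D)).1) = 0 := congrArg Subtype.val h1
      have h3 := (u (d : OnePoint D)).2.1
      change (u (d : OnePoint D)).1 = 0
      rcases min_choice 1 (3 * (u (d : OnePoint D)).1) with h4 | h4
      · rw [h4] at h2; exact absurd h2 one_ne_zero
      · rw [h4] at h2; linarith
    · intro h1
      apply Subtype.ext
      change min 1 (3 * (u (d : OnePoint D)).1) = 0
      rw [h1]
      change min 1 (3 * (0 : ℝ)) = 0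
      rw [mul_zero, min_eq_right zero_le_one]
  · intro d
    rw [app_homII]
    by_cases h1 : u (d : OnePoint D) < 1
    · refine (if_pos h1).trans ?_
      have : cutoff (0 : unitInterval) (u (d : OnePoint D)) = 0 := by
        apply Subtype.ext
        change (0 : ℝ) * _ = 0
        rw [zero_mul]
      change h ((d : OnePoint D), cutoff (0 : unitInterval) (u (d : OnePoint D))) = d
      rw [this, h0 d h1]
    · exact if_neg h1
  · intro d hd t
    rw [app_homII]
    have h1 : u (d : OnePoint D) < 1 := by
      rw [(u0 d).mpr hd]
      exact zero_lt_one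
    exact (if_pos h1).trans (hS d hd _)
  · intro d hd
    rw [app_homII]
    have h2 := hlt1 _ hd
    have h1 : u (d : OnePoint D) < 1 := by
      change (u (d : OnePoint D)).1 < 1
      linarith
    refine Set.mem_of_eq_of_mem (if_pos h1) ?_
    have : cutoff (1 : unitInterval) (u (d : OnePoint D)) = 1 := by
      apply Subtype.ext
      change (1 : ℝ) * min 1 (max 0 (2 - 3 * (u (d : OnePoint D)).1)) = 1
      rw [one_mul, max_eq_right (by linarith), min_eq_left (by linarith)]
    change h ((d : OnePoint D), cutoff (1 : unitInterval) (u (d : OnePoint D))) ∈ ptd S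
    rw [this]
    exact hlt d h1

/-- The inclusion of an open and closed subset is a cofibration. -/
theorem cofib_of_isClopen {j : C ⟶ D} (hj : Function.Injective (app j)) {S : Set D}
    (hS : Set.range (app j) = ptd S) (h : IsClopen S) : Cofib j := by
  classical
  let g : D × unitInterval → D × unitInterval := fun p =>
    (p.1, if p.1 ∈ S then p.2 else 0)
  have hc : Continuous g := by
    apply continuous_fst.prodMk
    refine Continuous.if ?_ continuous_snd continuous_const
    intro p hp
    have hcl : IsClopen {p : D × unitInterval | p.1 ∈ S} :=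
      ⟨h.1.preimage continuous_fst, h.2.preimage continuous_fst⟩
    rw [hcl.frontier_eq] at hp
    exact absurd hp (Set.notMem_empty _)
  have hp : Tendsto g (cocompact (D × unitInterval)) (cocompact (D × unitInterval)) := by
    apply tendsto_cocompact_of_preimage
    intro K hK
    refine ⟨(Prod.fst '' K) ×ˢ Set.univ, (hK.image continuous_fst).prod isCompact_univ, ?_⟩
    intro p hp
    exact ⟨⟨_, hp, rfl⟩, Set.mem_univ _⟩
  refine cofib_of_isRetr hj
    (r := ofProper (X := LC.of (D × unitInterval)) (Y := LC.of (D × unitInterval)) g hc hp)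
    ⟨?_, ?_, ?_⟩
  · intro d
    induction d using OnePoint.rec with
    | infty => exact app_infty _
    | coe d =>
      change ((g (d, 0) : D × unitInterval) : OnePoint (D × unitInterval)) =
        (((d, 0) : D × unitInterval) : OnePoint (D × unitInterval))
      by_cases hd : d ∈ S
      · simp only [g, if_pos hd]
      · simp only [g, if_neg hd]
  · intro d hd t
    rw [hS] at hd
    induction d using OnePoint.rec with
    | infty => exact app_infty _
    | coe d =>
      change ((g (d, t) : D × unitInterval) : OnePoint (D × unitInterval)) =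
        (((d, t) : D × unitInterval) : OnePoint (D × unitInterval))
      simp only [g, if_pos (coe_mem_ptd.mp hd)]
  · intro p
    rw [hS]
    induction p using OnePoint.rec with
    | infty => exact ⟨∞, 0, app_infty _, Or.inl rfl⟩
    | coe p =>
      refine ⟨(p.1 : OnePoint D), if p.1 ∈ S then p.2 else 0, rfl, ?_⟩
      by_cases hd : p.1 ∈ S
      · exact Or.inr (coe_mem_ptd.mpr hd)
      · exact Or.inl (if_neg hd)

end criteria

section examples

/-- the point `0` of the half line -/
theorem pndr_zero_HH : PNDR HH {(0 : NNReal)} := by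
  let u : C(OnePoint NNReal, unitInterval) :=
    OnePoint.continuousMapMk ⟨fun x => ⟨min 1 x.1, le_min zero_le_one x.2, min_le_left _ _⟩, by
      apply Continuous.subtype_mk
      exact continuous_const.min NNReal.continuous_coe⟩ 1 (by
        rw [coclosedCompact_eq_cocompact]
        apply tendsto_const_nhds.congr'
        have h1 : {x : NNReal | x ≤ 1}ᶜ ∈ cocompact NNReal := by
          apply IsCompact.compl_mem_cocompact
          have : {x : NNReal | x ≤ 1} = Set.Icc 0 1 := by
            ext x; simp
          rw [this]
          exact isCompact_Icc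
        filter_upwards [h1] with x hx
        apply Subtype.ext
        change (1 : ℝ) = min 1 x.1
        have h2 : ¬ x ≤ 1 := hx
        rw [min_eq_left]
        have h3 : (1 : NNReal) < x := not_le.mp h2
        exact_mod_cast h3.le)
  let h : NNReal × unitInterval → NNReal := fun p => p.1 - ⟨p.2.1, p.2.2.1⟩
  have hc : Continuous h :=
    continuous_fst.sub (Continuous.subtype_mk (continuous_subtype_val.comp continuous_snd) _)
  refine pndr_of_proper (D := HH) u h hc ?_ ?_ ?_ ?_ ?_
  · apply tendsto_cocompact_of_preimage
    intro K hK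
    obtain ⟨M, hM⟩ := hK.bddAbove
    refine ⟨Set.Icc 0 (M + 1) ×ˢ Set.univ, isCompact_Icc.prod isCompact_univ, ?_⟩
    rintro ⟨x, t⟩ hx
    have h1 : x - ⟨t.1, t.2.1⟩ ≤ M := hM hx
    refine ⟨⟨zero_le, ?_⟩, Set.mem_univ _⟩
    have h2 : x ≤ M + ⟨t.1, t.2.1⟩ := tsub_le_iff_right.mp h1
    have h3 : (⟨t.1, t.2.1⟩ : NNReal) ≤ 1 := t.2.2
    exact h2.trans (add_le_add le_rfl h3)
  · intro x
    constructor
    · intro h1
      have h2 : min 1 (NNReal.toReal x) = 0 := congrArg Subtype.val h1
      apply NNReal.eq
      rcases min_choice 1 (NNReal.toReal x) with h4 | h4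
      · rw [h4] at h2; exact absurd h2 one_ne_zero
      · rw [h4] at h2; exact h2
    · intro h1
      have h1' : x = (0 : NNReal) := h1
      subst h1'
      apply Subtype.ext
      change min 1 (NNReal.toReal 0) = 0
      rw [NNReal.coe_zero, min_eq_right zero_le_one]
  · intro x
    change (x : NNReal) - 0 = x
    exact _root_.tsub_zero _
  · intro x hx t
    have h1' : x = (0 : NNReal) := hx
    subst h1'
    exact _root_.zero_tsub _
  · intro x t ht
    have h1 : min 1 (NNReal.toReal x) < t.1 := ht
    have h2 : NNReal.toReal x < t.1 := by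
      rcases min_lt_iff.mp h1 with h3 | h3
      · exact absurd (h3.trans_le t.2.2) (lt_irrefl _)
      · exact h3
    change (x : NNReal) - ⟨t.1, t.2.1⟩ = 0
    apply tsub_eq_zero_of_le
    exact h2.le

/-- the end point `0` of the unit interval -/
theorem pndr_zero_II : PNDR II {(0 : unitInterval)} := by
  refine pndr_of_compact (D := II) (fun y => (y : unitInterval)) continuous_id
    (fun p => tsub p.1 p.2) (continuous_tsub continuous_fst continuous_snd) ?_ ?_ ?_ ?_
  · intro d; exact Iff.rfl
  · intro d; exact tsub_zero d
  · intro d hd t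
    obtain rfl : d = (0 : unitInterval) := hd
    exact zero_tsub t
  · intro d t h
    exact tsub_of_le (le_of_lt h)

/-- the end point `1` of the unit interval -/
theorem pndr_one_II : PNDR II {(1 : unitInterval)} := by
  have hσ : Continuous unitInterval.symm := unitInterval.continuous_symm
  refine pndr_of_compact (D := II) (fun y => unitInterval.symm y) hσ
    (fun p => unitInterval.symm (tsub (unitInterval.symm p.1) p.2))
    (hσ.comp (continuous_tsub (hσ.comp continuous_fst) continuous_snd)) ?_ ?_ ?_ ?_
  · intro d
    change unitInterval.symm d = 0 ↔ d = (1 : unitInterval)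
    constructor
    · intro h
      rw [← unitInterval.symm_symm d, h, unitInterval.symm_zero]
    · rintro rfl
      exact unitInterval.symm_one
  · intro d
    change unitInterval.symm (tsub (unitInterval.symm d) 0) = d
    rw [tsub_zero, unitInterval.symm_symm]
  · intro d hd t
    obtain rfl : d = (1 : unitInterval) := hd
    change unitInterval.symm (tsub (unitInterval.symm 1) t) = 1
    rw [unitInterval.symm_one, zero_tsub, unitInterval.symm_zero]
  · intro d t h
    change unitInterval.symm (tsub (unitInterval.symm d) t) = 1
    rw [tsub_of_le (le_of_lt h), unitInterval.symm_zero]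

/-- the two end points of the unit interval -/
theorem pndr_boundary_II : PNDR II {y | y = (0 : unitInterval) ∨ y = (1 : unitInterval)} := by
  let u : unitInterval → unitInterval := fun y =>
    ⟨min 1 (4 * min y.1 (1 - y.1)), le_min zero_le_one (mul_nonneg (by norm_num)
      (le_min y.2.1 (by linarith [y.2.2]))), min_le_left _ _⟩
  have hu : Continuous u := by
    apply Continuous.subtype_mk
    exact continuous_const.min (continuous_const.mul (continuous_subtype_val.min
      (continuous_const.sub continuous_subtype_val)))
  let h : unitInterval × unitInterval → unitInterval := fun p =>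
    Set.projIcc 0 1 zero_le_one ((p.1.1 - 1 / 2) / (1 - p.2.1 / 2) + 1 / 2)
  have hpos : ∀ t : unitInterval, 0 < 1 - t.1 / 2 := fun t => by linarith [t.2.2]
  have hc : Continuous h := by
    apply continuous_projIcc.comp
    apply Continuous.add _ continuous_const
    apply Continuous.div
    · exact (continuous_subtype_val.comp continuous_fst).sub continuous_const
    · exact continuous_const.sub ((continuous_subtype_val.comp continuous_snd).div_const 2)
    · intro p
      exact (hpos p.2).ne'
  refine pndr_of_compact (D := II) u hu h hc ?_ ?_ ?_ ?_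
  · intro y
    have hy0 := y.2.1
    have hy1 := y.2.2
    constructor
    · intro h1
      have h2 : min 1 (4 * min y.1 (1 - y.1)) = 0 := congrArg Subtype.val h1
      rcases min_choice 1 (4 * min y.1 (1 - y.1)) with h4 | h4
      · rw [h4] at h2; exact absurd h2 one_ne_zero
      · rw [h4] at h2
        rcases min_choice y.1 (1 - y.1) with h5 | h5
        · rw [h5] at h2
          left; apply Subtype.ext; change y.1 = 0; linarith
        · rw [h5] at h2
          right; apply Subtype.ext; change y.1 = 1; linarith
    · rintro (rfl | rfl)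
      · apply Subtype.ext
        change min (1 : ℝ) (4 * min 0 (1 - 0)) = 0
        norm_num
      · apply Subtype.ext
        change min (1 : ℝ) (4 * min 1 (1 - 1)) = 0
        norm_num
  · intro y
    apply Subtype.ext
    change ((Set.projIcc 0 1 zero_le_one ((y.1 - 1 / 2) / (1 - 0 / 2) + 1 / 2) :
      unitInterval) : ℝ) = y.1
    have h1 : (y.1 - 1 / 2) / (1 - 0 / 2) + 1 / 2 = y.1 := by norm_num
    rw [h1, Set.projIcc_of_mem zero_le_one y.2]
  · intro y hy t
    have ht := hpos t
    have ht0 := t.2.1
    have ht1 := t.2.2
    rcases hy with rfl | rfl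
    · change Set.projIcc 0 1 zero_le_one (((0 : ℝ) - 1 / 2) / (1 - t.1 / 2) + 1 / 2) = 0
      rw [Set.projIcc_of_le_left zero_le_one]
      · rfl
      · have : ((0 : ℝ) - 1 / 2) / (1 - t.1 / 2) ≤ -(1 / 2) := by
          rw [div_le_iff₀ ht]; linarith
        linarith
    · change Set.projIcc 0 1 zero_le_one (((1 : ℝ) - 1 / 2) / (1 - t.1 / 2) + 1 / 2) = 1
      rw [Set.projIcc_of_right_le zero_le_one]
      · rfl
      · have : (1 : ℝ) / 2 ≤ ((1 : ℝ) - 1 / 2) / (1 - t.1 / 2) := by
          rw [le_div_iff₀ ht]; linarith
        linarith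
  · intro y t hyt
    have ht := hpos t
    have h1 : min 1 (4 * min y.1 (1 - y.1)) < t.1 := hyt
    have h2 : 4 * min y.1 (1 - y.1) < t.1 := by
      rcases min_lt_iff.mp h1 with h3 | h3
      · exact absurd (h3.trans_le t.2.2) (lt_irrefl _)
      · exact h3
    rcases min_choice y.1 (1 - y.1) with h5 | h5
    · left
      rw [h5] at h2
      change Set.projIcc 0 1 zero_le_one ((y.1 - 1 / 2) / (1 - t.1 / 2) + 1 / 2) = 0
      rw [Set.projIcc_of_le_left zero_le_one]
      · rfl
      · have : (y.1 - 1 / 2) / (1 - t.1 / 2) ≤ -(1 / 2) := by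
          rw [div_le_iff₀ ht]; linarith
        linarith
    · right
      rw [h5] at h2
      change Set.projIcc 0 1 zero_le_one ((y.1 - 1 / 2) / (1 - t.1 / 2) + 1 / 2) = 1
      rw [Set.projIcc_of_right_le zero_le_one]
      · rfl
      · have : (1 : ℝ) / 2 ≤ (y.1 - 1 / 2) / (1 - t.1 / 2) := by
          rw [le_div_iff₀ ht]; linarith
        linarith

section normed

variable (E : Type) [NormedAddCommGroup E] [NormedSpace ℝ E] [ProperSpace E]

omit [NormedSpace ℝ E] in
/-- `min 1 ‖x‖`-like functions extend to the one-point compactification -/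
theorem tendsto_of_one_le_norm {Z : Type*} [TopologicalSpace Z] {f : E → Z} {z : Z} (R : ℝ)
    (h : ∀ x, R ≤ ‖x‖ → f x = z) : Tendsto f (cocompact E) (𝓝 z) := by
  apply tendsto_const_nhds.congr'
  have h1 : (Metric.closedBall (0 : E) R)ᶜ ∈ cocompact E :=
    (isCompact_closedBall (0 : E) R).compl_mem_cocompact
  filter_upwards [h1] with x hx
  rw [Set.mem_compl_iff, mem_closedBall_zero_iff, not_le] at hx
  exact (h x hx.le).symm

omit [NormedSpace ℝ E] in
theorem tendsto_cocompact_of_norm {W : Type*} [TopologicalSpace W] [CompactSpace W]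
    {h : E × W → E} (hn : ∀ x t, ‖x‖ - 1 ≤ ‖h (x, t)‖) :
    Tendsto h (cocompact (E × W)) (cocompact E) := by
  apply tendsto_cocompact_of_preimage
  intro K hK
  obtain ⟨M, hM⟩ := hK.isBounded.exists_norm_le
  refine ⟨Metric.closedBall (0 : E) (M + 1) ×ˢ Set.univ,
    (isCompact_closedBall _ _).prod isCompact_univ, ?_⟩
  rintro ⟨x, t⟩ hx
  refine ⟨?_, Set.mem_univ _⟩
  rw [mem_closedBall_zero_iff]
  have := hM _ hx
  have := hn x t
  linarith

/-- A closed ball `‖x‖ ≤ r`, `r ≥ 0` in a finite dimensional normed space (in particular the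
point `0`). -/
theorem pndr_closedBall {r : ℝ} (hr : 0 ≤ r) :
    PNDR (LC.of E) {x : E | ‖x‖ ≤ r} := by
  let uf : E → unitInterval := fun x => Set.projIcc 0 1 zero_le_one (‖x‖ - r)
  have huf : Continuous uf := continuous_projIcc.comp (continuous_norm.sub continuous_const)
  let u : C(OnePoint E, unitInterval) := OnePoint.continuousMapMk ⟨uf, huf⟩ 1 (by
    rw [coclosedCompact_eq_cocompact]
    apply tendsto_of_one_le_norm E (1 + r)
    intro x hx
    change Set.projIcc 0 1 zero_le_one (‖x‖ - r) = 1
    rw [Set.projIcc_of_right_le zero_le_one (by linarith)]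
    rfl)
  -- the amount of the displacement
  let a : E × unitInterval → ℝ := fun p => min p.2.1 (max (‖p.1‖ - r) 0)
  have ha : Continuous a := by
    apply (continuous_subtype_val.comp continuous_snd).min
    exact ((continuous_norm.comp continuous_fst).sub continuous_const).max continuous_const
  have ha0 : ∀ p, 0 ≤ a p := fun p => le_min p.2.2.1 (le_max_right _ _)
  have ha1 : ∀ p : E × unitInterval, a p ≤ ‖p.1‖ := by
    intro p
    refine (min_le_right _ _).trans (max_le (by linarith) (norm_nonneg _))
  let h : E × unitInterval → E := fun p => p.1 - (a p / ‖p.1‖) • p.1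
  have hns : ∀ p : E × unitInterval, ‖(a p / ‖p.1‖) • p.1‖ = a p := by
    intro p
    by_cases hp : ‖p.1‖ = 0
    · have h1 : a p = 0 := le_antisymm (by rw [← hp]; exact ha1 p) (ha0 p)
      rw [h1, zero_div, zero_smul, norm_zero]
    · rw [norm_smul, Real.norm_of_nonneg (div_nonneg (ha0 p) (norm_nonneg _)),
        div_mul_cancel₀ _ hp]
  have hc : Continuous h := by
    refine continuous_fst.sub ?_
    rw [continuous_iff_continuousAt]
    rintro ⟨x, t⟩
    by_cases hx : ‖x‖ = 0
    · have hx' : x = 0 := norm_eq_zero.mp hx
      subst hx'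
      rw [ContinuousAt]
      have h1 : (a (0, t) / ‖(0 : E)‖) • (0 : E) = 0 := smul_zero _
      change Tendsto (fun p : E × unitInterval => (a p / ‖p.1‖) • p.1) _
        (𝓝 ((a (0, t) / ‖(0 : E)‖) • (0 : E)))
      rw [h1]
      apply squeeze_zero_norm (a := fun p : E × unitInterval => ‖p.1‖)
      · intro p
        rw [hns]
        exact ha1 p
      · have h3 : Tendsto (fun p : E × unitInterval => ‖p.1‖) (𝓝 ((0 : E), t)) (𝓝 ‖(0 : E)‖) :=
          (continuous_norm.comp continuous_fst).tendsto ((0 : E), t)
        rwa [norm_zero] at h3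
    · apply ContinuousAt.smul
      · apply ContinuousAt.div ha.continuousAt
        · exact (continuous_norm.comp continuous_fst).continuousAt
        · exact hx
      · exact continuous_fst.continuousAt
  refine pndr_of_proper (D := LC.of E) u h hc ?_ ?_ ?_ ?_ ?_
  · apply tendsto_cocompact_of_norm E
    intro x t
    have h1 : ‖x‖ ≤ ‖h (x, t)‖ + ‖(a (x, t) / ‖x‖) • x‖ := by
      have : x = h (x, t) + (a (x, t) / ‖x‖) • x := by
        change x = (x - (a (x, t) / ‖x‖) • x) + (a (x, t) / ‖x‖) • x
        rw [sub_add_cancel]
      calc ‖x‖ = ‖h (x, t) + (a (x, t) / ‖x‖) • x‖ := by rw [← this]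
        _ ≤ _ := norm_add_le _ _
    have h2 : ‖(a (x, t) / ‖x‖) • x‖ = a (x, t) := hns (x, t)
    have h3 : a (x, t) ≤ 1 := (min_le_left _ _).trans t.2.2
    linarith
  · intro x
    change Set.projIcc 0 1 zero_le_one (‖(x : E)‖ - r) = 0 ↔ ‖(x : E)‖ ≤ r
    refine (Set.projIcc_eq_left (zero_lt_one (α := ℝ))).trans ?_
    constructor
    · intro h; linarith
    · intro h; linarith
  · intro x
    change (x : E) - (a (x, 0) / ‖(x : E)‖) • x = x
    have h1 : a (x, 0) = 0 := by
      change min (0 : ℝ) (max (‖(x : E)‖ - r) 0) = 0
      exact min_eq_left (le_max_right _ _)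
    rw [h1, zero_div, zero_smul, sub_zero]
  · intro x hx t
    have hx' : ‖(x : E)‖ ≤ r := hx
    change (x : E) - (a (x, t) / ‖(x : E)‖) • x = x
    have h1 : a (x, t) = 0 := by
      change min t.1 (max (‖(x : E)‖ - r) 0) = 0
      rw [max_eq_right (by linarith), min_eq_right t.2.1]
    rw [h1, zero_div, zero_smul, sub_zero]
  · intro x t hxt
    have hlt : ((Set.projIcc 0 1 zero_le_one (‖(x : E)‖ - r) : unitInterval) : ℝ) < t.1 := hxt
    have h1 : ‖(x : E)‖ - r < t.1 := by
      rw [Set.coe_projIcc] at hlt
      by_contra hcon
      push Not at hcon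
      have h2 : t.1 ≤ min 1 (‖(x : E)‖ - r) := le_min t.2.2 hcon
      have h3 := lt_of_le_of_lt (le_max_right (0 : ℝ) (min 1 (‖(x : E)‖ - r))) hlt
      linarith
    change ‖(x : E) - (a (x, t) / ‖(x : E)‖) • x‖ ≤ r
    by_cases hx : ‖(x : E)‖ ≤ r
    · have h1 : a (x, t) = 0 := by
        change min t.1 (max (‖(x : E)‖ - r) 0) = 0
        rw [max_eq_right (by linarith), min_eq_right t.2.1]
      rw [h1, zero_div, zero_smul, sub_zero]
      exact hx
    · push Not at hx
      have hpos : 0 < ‖(x : E)‖ := lt_of_le_of_lt hr hx
      have h2 : a (x, t) = ‖(x : E)‖ - r := by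
        change min t.1 (max (‖(x : E)‖ - r) 0) = _
        rw [max_eq_left (by linarith), min_eq_right (by linarith)]
      have h3 : (x : E) - (a (x, t) / ‖(x : E)‖) • x = (r / ‖(x : E)‖) • (x : E) := by
        rw [h2, sub_div, div_self hpos.ne', sub_smul, one_smul, sub_sub_cancel]
      rw [h3, norm_smul, Real.norm_of_nonneg (by positivity), div_mul_cancel₀ _ hpos.ne']

/-- the origin of a finite dimensional normed space -/
theorem pndr_origin : PNDR (LC.of E) {(0 : E)} := by
  have h := pndr_closedBall E (le_refl (0 : ℝ))
  have h2 : {x : E | ‖x‖ ≤ 0} = {(0 : E)} := by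
    ext x
    simp
  rwa [h2] at h

instance : CompactSpace (Metric.closedBall (0 : E) 1) :=
  isCompact_iff_compactSpace.mp (isCompact_closedBall _ _)

/-- The closed unit ball as an object of `LC`. -/
abbrev Ball : LC := LC.of (Metric.closedBall (0 : E) 1)

/-- The unit sphere in the closed unit ball. -/
theorem pndr_sphere : PNDR (Ball E) {x : Metric.closedBall (0 : E) 1 | ‖(x : E)‖ = 1} := by
  have hle : ∀ x : Metric.closedBall (0 : E) 1, ‖(x : E)‖ ≤ 1 := fun x =>
    mem_closedBall_zero_iff.mp x.2
  let u : Metric.closedBall (0 : E) 1 → unitInterval := fun x =>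
    Set.projIcc 0 1 zero_le_one (2 * (1 - ‖(x : E)‖))
  have hu : Continuous u := continuous_projIcc.comp (continuous_const.mul
    (continuous_const.sub (continuous_norm.comp continuous_subtype_val)))
  let m : Metric.closedBall (0 : E) 1 × unitInterval → ℝ := fun p =>
    max ‖(p.1 : E)‖ (1 - p.2.1 / 2)
  have hm : Continuous m := (continuous_norm.comp (continuous_subtype_val.comp
    continuous_fst)).max (continuous_const.sub
      ((continuous_subtype_val.comp continuous_snd).div_const 2))
  have hmpos : ∀ p, 0 < m p := fun p =>
    lt_of_lt_of_le (by linarith [p.2.2.2] : (0 : ℝ) < 1 - p.2.1 / 2) (le_max_right _ _)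
  let h : Metric.closedBall (0 : E) 1 × unitInterval → Metric.closedBall (0 : E) 1 := fun p =>
    ⟨(m p)⁻¹ • (p.1 : E), by
      rw [mem_closedBall_zero_iff, norm_smul, norm_inv, Real.norm_of_nonneg (hmpos p).le,
        inv_mul_le_iff₀ (hmpos p), mul_one]
      exact le_max_left _ _⟩
  have hc : Continuous h := by
    apply Continuous.subtype_mk
    exact (hm.inv₀ (fun p => (hmpos p).ne')).smul (continuous_subtype_val.comp continuous_fst)
  refine pndr_of_compact (D := Ball E) u hu h hc ?_ ?_ ?_ ?_
  · intro x
    change Set.projIcc 0 1 zero_le_one (2 * (1 - ‖((x : Metric.closedBall (0 : E) 1) : E)‖)) = 0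
      ↔ ‖((x : Metric.closedBall (0 : E) 1) : E)‖ = 1
    refine (Set.projIcc_eq_left (zero_lt_one (α := ℝ))).trans ?_
    have := hle x
    constructor
    · intro h; linarith
    · intro h; linarith
  · intro x
    apply Subtype.ext
    change (m (x, 0))⁻¹ • ((x : Metric.closedBall (0 : E) 1) : E) = _
    have h1 : m (x, 0) = 1 := by
      change max _ (1 - (0 : ℝ) / 2) = 1
      rw [zero_div, sub_zero, max_eq_right (hle x)]
    rw [h1, inv_one, one_smul]
  · intro x hx t
    apply Subtype.ext
    have hx' : ‖((x : Metric.closedBall (0 : E) 1) : E)‖ = 1 := hx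
    change (m (x, t))⁻¹ • ((x : Metric.closedBall (0 : E) 1) : E) = _
    have h1 : m (x, t) = 1 := by
      change max ‖((x : Metric.closedBall (0 : E) 1) : E)‖ (1 - t.1 / 2) = 1
      rw [hx', max_eq_left (by linarith [t.2.1])]
    rw [h1, inv_one, one_smul]
  · intro x t hxt
    change ‖(m (x, t))⁻¹ • ((x : Metric.closedBall (0 : E) 1) : E)‖ = 1
    have hlt : ((Set.projIcc 0 1 zero_le_one
      (2 * (1 - ‖((x : Metric.closedBall (0 : E) 1) : E)‖)) : unitInterval) : ℝ) < t.1 := hxt
    have h1 : 2 * (1 - ‖((x : Metric.closedBall (0 : E) 1) : E)‖) < t.1 := by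
      rw [Set.coe_projIcc] at hlt
      by_contra hcon
      push Not at hcon
      have h3 := lt_of_le_of_lt (le_max_right (0 : ℝ)
        (min 1 (2 * (1 - ‖((x : Metric.closedBall (0 : E) 1) : E)‖)))) hlt
      have h2 := le_min t.2.2 hcon
      linarith
    have h2 : m (x, t) = ‖((x : Metric.closedBall (0 : E) 1) : E)‖ :=
      max_eq_left (by linarith)
    have h3 := hmpos (x, t)
    rw [norm_smul, norm_inv, Real.norm_of_nonneg h3.le, ← h2, inv_mul_cancel₀ h3.ne']

end normed

end examples

end LC

end Vale.Agent.P251.G
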