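import Vale.Agent.P251.G.Isom
import Mathlib.LinearAlgebra.Matrix.Rank

/-!
# P251, part G/M: the Thom spaces `Th n I` in the homotopy category

In the homotopy category `HLC` all the maps `Th n I ⟶ Th n J` induced by isometries agree.  We call
this morphism `Thh.j h` (`h : card I ≤ card J`) and the direct sum followed by it
`Thh.mu : Th n I ⊗ Th m J ⟶ Th k K` (`n + m = k`, `card I + card J ≤ card K`).  All identities
hold strictly in `HLC` (no casts).
The same for the even spheres `ℂ^I`, where only `card I = card J` is allowed.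
-/

set_option linter.unusedSectionVars false

open CategoryTheory MonoidalCategory Filter Topology OnePoint Matrix

noncomputable section

namespace Vale.Agent.P251.G

open LC

variable {I J K L : Type} [Fintype I] [Fintype J] [Fintype K] [Fintype L] {n m k l : ℕ}
variable [DecidableEq I] [DecidableEq J] [DecidableEq K] [DecidableEq L]

/-- a chosen isometry -/
theorem exists_isom (h : Fintype.card I ≤ Fintype.card J) :
    ∃ u : Matrix J I ℂ, uᴴ * u = 1 := by
  obtain ⟨f⟩ := Function.Embedding.nonempty_of_card_le h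
  exact ⟨injMat f, injMat_isom f.injective⟩

/-- a chosen isometry `ℂ^I → ℂ^J` -/
def chosenIsom (h : Fintype.card I ≤ Fintype.card J) : Matrix J I ℂ := (exists_isom h).choose

theorem chosenIsom_spec (h : Fintype.card I ≤ Fintype.card J) :
    (chosenIsom h)ᴴ * chosenIsom h = 1 := (exists_isom h).choose_spec

theorem card_le_of_isom {u : Matrix J I ℂ} (hu : uᴴ * u = 1) :
    Fintype.card I ≤ Fintype.card J := by
  have h1 : Matrix.rank (1 : Matrix I I ℂ) ≤ Matrix.rank u := by
    rw [← hu]
    exact rank_mul_le_right _ _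
  rw [rank_one] at h1
  exact h1.trans (rank_le_card_height u)

/-- the object `Th n I` of the homotopy category -/
abbrev Thh (n : ℕ) (I : Type) [Fintype I] : HLC := HLC.proj.obj (LC.of (Th n I))

/-- the object `ℂ^I` of the homotopy category -/
abbrev CCh (I : Type) [Fintype I] : HLC := HLC.proj.obj (Th.CC I)

namespace Thh

/-- the canonical map `Th n I ⟶ Th n J` in the homotopy category -/
def j (n : ℕ) (h : Fintype.card I ≤ Fintype.card J) : Thh n I ⟶ Thh n J :=
  HLC.proj.map (Th.map (chosenIsom h) (chosenIsom_spec h))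

/-- every isometry induces the canonical map -/
theorem proj_map_eq (u : Matrix J I ℂ) (hu : uᴴ * u = 1)
    (h : Fintype.card I ≤ Fintype.card J) :
    HLC.proj.map (Th.map (n := n) u hu) = j n h :=
  HLC.sound (Th.map_homotopic_map _ _ _ _)

@[simp] theorem j_refl (h : Fintype.card I ≤ Fintype.card I) : j n h = 𝟙 (Thh n I) := by
  rw [← proj_map_eq 1 isom_one, Th.map_one]
  rfl

@[reassoc]
theorem j_comp (h : Fintype.card I ≤ Fintype.card J) (h' : Fintype.card J ≤ Fintype.card K) :
    j n h ≫ j n h' = j n (h.trans h') := by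
  rw [← proj_map_eq (chosenIsom h) (chosenIsom_spec h),
    ← proj_map_eq (chosenIsom h') (chosenIsom_spec h'), ← Functor.map_comp, Th.map_comp,
    proj_map_eq]

/-- the direct sum map in the homotopy category -/
def sum (h : n + m = k) (I J : Type) [Fintype I] [Fintype J] :
    Thh n I ⊗ Thh m J ⟶ Thh k (I ⊕ J) :=
  HLC.proj.map (Th.sum h)

theorem card_sum_le {I J K : Type} [Fintype I] [Fintype J] [Fintype K]
    (h : Fintype.card I + Fintype.card J ≤ Fintype.card K) :
    Fintype.card (I ⊕ J) ≤ Fintype.card K := by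
  rwa [Fintype.card_sum]

/-- the product `Th n I ⊗ Th m J ⟶ Th k K` in the homotopy category -/
def mu (h : n + m = k) (hc : Fintype.card I + Fintype.card J ≤ Fintype.card K) :
    Thh n I ⊗ Thh m J ⟶ Thh k K :=
  sum h I J ≫ j k (card_sum_le hc)

/-- `mu` is the direct sum followed by any isometry -/
theorem mu_eq (h : n + m = k) (hc : Fintype.card I + Fintype.card J ≤ Fintype.card K)
    (u : Matrix K (I ⊕ J) ℂ) (hu : uᴴ * u = 1) :
    HLC.proj.map (Th.sum h ≫ Th.map u hu) = mu h hc := by
  rw [Functor.map_comp, proj_map_eq u hu (card_sum_le hc)]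
  rfl

theorem card_sum_le_sum {I J K L : Type} [Fintype I] [Fintype J] [Fintype K] [Fintype L]
    (hI : Fintype.card I ≤ Fintype.card K) (hJ : Fintype.card J ≤ Fintype.card L) :
    Fintype.card (I ⊕ J) ≤ Fintype.card (K ⊕ L) := by
  simp only [Fintype.card_sum]
  omega

theorem sum_naturality (h : n + m = k) (hI : Fintype.card I ≤ Fintype.card K)
    (hJ : Fintype.card J ≤ Fintype.card L) :
    (j n hI ⊗ₘ j m hJ) ≫ sum h K L = sum h I J ≫ j k (card_sum_le_sum hI hJ) := by
  have h1 := congrArg HLC.proj.map (Th.sum_naturality h (chosenIsom hI) (chosenIsom_spec hI)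
    (chosenIsom hJ) (chosenIsom_spec hJ))
  rw [Functor.map_comp, Functor.map_comp, HLC.proj_tensorHom,
    proj_map_eq _ _ (card_sum_le_sum hI hJ)] at h1
  exact h1

/-- naturality of `mu` -/
@[reassoc]
theorem mu_naturality {I' J' K' : Type} [Fintype I'] [Fintype J'] [Fintype K']
    [DecidableEq I'] [DecidableEq J'] [DecidableEq K'] (h : n + m = k)
    (hI : Fintype.card I ≤ Fintype.card I') (hJ : Fintype.card J ≤ Fintype.card J')
    (hK : Fintype.card K ≤ Fintype.card K')
    (hc : Fintype.card I + Fintype.card J ≤ Fintype.card K)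
    (hc' : Fintype.card I' + Fintype.card J' ≤ Fintype.card K') :
    (j n hI ⊗ₘ j m hJ) ≫ mu h hc' = mu h hc ≫ j k hK := by
  rw [mu, mu, ← Category.assoc, sum_naturality, Category.assoc, Category.assoc, j_comp, j_comp]

@[reassoc]
theorem mu_j (h : n + m = k) (hK : Fintype.card K ≤ Fintype.card L)
    (hc : Fintype.card I + Fintype.card J ≤ Fintype.card K) :
    mu h hc ≫ j k hK = mu h (hc.trans hK) := by
  rw [mu, mu, Category.assoc, j_comp]

/-- commutativity -/
@[reassoc]
theorem mu_comm (h : n + m = k) (h' : m + n = k)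
    (hc : Fintype.card I + Fintype.card J ≤ Fintype.card K)
    (hc' : Fintype.card J + Fintype.card I ≤ Fintype.card K) :
    (β_ (Thh n I) (Thh m J)).hom ≫ mu h' hc' = mu h hc := by
  have h1 := congrArg HLC.proj.map (Th.sum_comm (I := I) (J := J) h h')
  rw [Functor.map_comp, Functor.map_comp] at h1
  have h2 : HLC.proj.map ((Th.reindex (n := k) (Equiv.sumComm I J)).hom) =
      j k (by simp only [Fintype.card_sum]; omega) := proj_map_eq _ _ _
  rw [h2] at h1
  have h3 : (β_ (Thh n I) (Thh m J)).hom ≫ sum h' J I =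
      sum h I J ≫ j k (by simp only [Fintype.card_sum]; omega) := h1.symm
  rw [mu, mu, ← Category.assoc, h3, Category.assoc, j_comp]

/-- associativity -/
theorem mu_assoc {a b c ab bc abc : ℕ} {A B : Type} [Fintype A] [Fintype B]
    [DecidableEq A] [DecidableEq B]
    (h1 : a + b = ab) (h2 : ab + c = abc) (h3 : b + c = bc)
    (h4 : a + bc = abc) (c1 : Fintype.card I + Fintype.card J ≤ Fintype.card A)
    (c2 : Fintype.card A + Fintype.card K ≤ Fintype.card L)
    (c3 : Fintype.card J + Fintype.card K ≤ Fintype.card B)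
    (c4 : Fintype.card I + Fintype.card B ≤ Fintype.card L) :
    (mu h1 c1 ▷ Thh c K) ≫ mu h2 c2 =
      (α_ (Thh a I) (Thh b J) (Thh c K)).hom ≫ (Thh a I ◁ mu h3 c3) ≫ mu h4 c4 := by
  have e1 := congrArg HLC.proj.map (Th.sum_assoc (I := I) (J := J) (K := K) h1 h2 h3 h4)
  simp only [Functor.map_comp] at e1
  have e2 : HLC.proj.map ((Th.reindex (n := abc) (Equiv.sumAssoc I J K)).hom) =
      j abc (by simp only [Fintype.card_sum]; omega) := proj_map_eq _ _ _
  rw [e2] at e1
  have e3 : (sum h1 I J ▷ Thh c K) ≫ sum h2 (I ⊕ J) K ≫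
      j abc (by simp only [Fintype.card_sum]; omega) =
      (α_ (Thh a I) (Thh b J) (Thh c K)).hom ≫ (Thh a I ◁ sum h3 J K) ≫ sum h4 I (J ⊕ K) := e1
  have e4 : (mu h1 c1 ▷ Thh c K) ≫ mu h2 c2 = (sum h1 I J ▷ Thh c K) ≫ sum h2 (I ⊕ J) K ≫
      j abc (by simp only [Fintype.card_sum]; omega) := by
    have := sum_naturality (n := ab) (m := c) h2 (card_sum_le c1) (le_refl (Fintype.card K))
    rw [j_refl, tensorHom_id] at this
    rw [mu, mu, comp_whiskerRight, Category.assoc, ← Category.assoc (_ ▷ _) (sum h2 A K), this,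
      Category.assoc, j_comp]
  have e5 : (Thh a I ◁ mu h3 c3) ≫ mu h4 c4 = (Thh a I ◁ sum h3 J K) ≫ sum h4 I (J ⊕ K) ≫
      j abc (by simp only [Fintype.card_sum]; omega) := by
    have := sum_naturality (n := a) (m := bc) h4 (le_refl (Fintype.card I)) (card_sum_le c3)
    rw [j_refl, id_tensorHom] at this
    rw [mu, mu, whiskerLeft_comp, Category.assoc, ← Category.assoc (_ ◁ _) (sum h4 I B), this,
      Category.assoc, j_comp]
  rw [e4, e5]
  have e6 := congrArg (fun f => f ≫ j abc (J := L) (by simp only [Fintype.card_sum]; omega)) e3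
  simp only [Category.assoc, j_comp] at e6
  exact e6

/-- the unit `𝟙 ⟶ Th 0 I` -/
def unit (I : Type) [Fintype I] : 𝟙_ HLC ⟶ Thh 0 I := HLC.proj.map (Th.unit I)

@[reassoc (attr := simp)]
theorem unit_j (h : Fintype.card I ≤ Fintype.card J) : unit I ≫ j 0 h = unit J := by
  rw [← proj_map_eq (chosenIsom h) (chosenIsom_spec h)]
  exact congrArg HLC.proj.map (Th.unit_map (chosenIsom h) (chosenIsom_spec h))

/-- left unit -/
@[reassoc]
theorem unit_mu (h : 0 + n = n) (hc : Fintype.card I + Fintype.card J ≤ Fintype.card K) :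
    (unit I ▷ Thh n J) ≫ mu h hc = (λ_ (Thh n J)).hom ≫ j n (by omega) := by
  have e1 := congrArg HLC.proj.map (Th.unit_sum (I := I) (J := J) h)
  rw [Functor.map_comp, Functor.map_comp] at e1
  have e2 : HLC.proj.map (Th.inj (n := n) (Sum.inr : J → I ⊕ J) Sum.inr_injective) =
    j n (by simp only [Fintype.card_sum]; omega) := proj_map_eq _ _ _
  rw [e2] at e1
  have e3 : (unit I ▷ Thh n J) ≫ sum h I J = (λ_ (Thh n J)).hom ≫
    j n (by simp only [Fintype.card_sum]; omega) := e1
  rw [mu, ← Category.assoc, e3, Category.assoc, j_comp]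

/-- right unit -/
@[reassoc]
theorem mu_unit (h : n + 0 = n) (hc : Fintype.card I + Fintype.card J ≤ Fintype.card K) :
    (Thh n I ◁ unit J) ≫ mu h hc = (ρ_ (Thh n I)).hom ≫ j n (by omega) := by
  have e1 := congrArg HLC.proj.map (Th.sum_unit (I := I) (J := J) h)
  rw [Functor.map_comp, Functor.map_comp] at e1
  have e2 : HLC.proj.map (Th.inj (n := n) (Sum.inl : I → I ⊕ J) Sum.inl_injective) =
    j n (by simp only [Fintype.card_sum]; omega) := proj_map_eq _ _ _
  rw [e2] at e1
  have e3 : (Thh n I ◁ unit J) ≫ sum h I J = (ρ_ (Thh n I)).hom ≫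
    j n (by simp only [Fintype.card_sum]; omega) := e1
  rw [mu, ← Category.assoc, e3, Category.assoc, j_comp]

end Thh

end Vale.Agent.P251.G
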