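import Vale.Agent.P251.G.Cofibre

/-!
# P251, part G: finite cell spaces

`FC` is the smallest class of objects of `LC` which contains the empty space and all `ℝⁿ`, is
closed under homotopy equivalence, and contains `B` whenever there is a cofibration `i : A ⟶ B`
with `A` and the strict cofibre `cof i` (the complement of the image of `i`) in the class.
-/

open CategoryTheory MonoidalCategory Filter Topology OnePoint

namespace Vale.Agent.P251.G

namespace LC

/-- Finite cell spaces. -/
inductive FC : LC → Prop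
  | empty : FC (LC.of Empty)
  | sph (n : ℕ) : FC (Sph n)
  | hequiv {X Y : LC} : FC X → HEquiv X Y → FC Y
  | ext {A B : LC} {i : A ⟶ B} : Cofib i → FC A → FC (cof i) → FC B

section basic

theorem HEquiv.refl (X : LC) : HEquiv X X :=
  ⟨𝟙 X, 𝟙 X, Homotopic.of_eq (by simp), Homotopic.of_eq (by simp)⟩

theorem HEquiv.symm {X Y : LC} (h : HEquiv X Y) : HEquiv Y X := by
  obtain ⟨f, g, h1, h2⟩ := h
  exact ⟨g, f, h2, h1⟩

theorem HEquiv.trans {X Y Z : LC} (h : HEquiv X Y) (k : HEquiv Y Z) : HEquiv X Z := by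
  obtain ⟨f, g, h1, h2⟩ := h
  obtain ⟨f', g', k1, k2⟩ := k
  refine ⟨f ≫ f', g' ≫ g, ?_, ?_⟩
  · have : (f ≫ f') ≫ g' ≫ g = f ≫ (f' ≫ g') ≫ g := by simp only [Category.assoc]
    rw [this]
    exact ((Homotopic.comp_left f (k1.comp_right g)).trans
      (Homotopic.of_eq (by rw [Category.id_comp]))).trans h1
  · have : (g' ≫ g) ≫ f ≫ f' = g' ≫ (g ≫ f) ≫ f' := by simp only [Category.assoc]
    rw [this]
    exact ((Homotopic.comp_left g' (h2.comp_right f')).trans
      (Homotopic.of_eq (by rw [Category.id_comp]))).trans k2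

theorem HEquiv.of_iso {X Y : LC} (e : X ≅ Y) : HEquiv X Y :=
  ⟨e.hom, e.inv, Homotopic.of_eq e.hom_inv_id, Homotopic.of_eq e.inv_hom_id⟩

theorem IsHEquiv.hequiv {X Y : LC} {f : X ⟶ Y} (h : IsHEquiv f) : HEquiv X Y := by
  obtain ⟨g, h1, h2⟩ := h
  exact ⟨f, g, h1, h2⟩

theorem isHEquiv_of_iso {X Y : LC} (f : X ⟶ Y) [IsIso f] : IsHEquiv f :=
  ⟨inv f, Homotopic.of_eq (by simp), Homotopic.of_eq (by simp)⟩

theorem HEquiv.tensor {X X' Y Y' : LC} (h : HEquiv X X') (k : HEquiv Y Y') :
    HEquiv (X ⊗ Y) (X' ⊗ Y') := by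
  obtain ⟨f, g, h1, h2⟩ := h
  obtain ⟨f', g', k1, k2⟩ := k
  refine ⟨f ⊗ₘ f', g ⊗ₘ g', ?_, ?_⟩
  · rw [MonoidalCategory.tensorHom_comp_tensorHom]
    exact (h1.tensor k1).trans (Homotopic.of_eq (by simp))
  · rw [MonoidalCategory.tensorHom_comp_tensorHom]
    exact (h2.tensor k2).trans (Homotopic.of_eq (by simp))

theorem IsHEquiv.whiskerRight {X Y : LC} {f : X ⟶ Y} (h : IsHEquiv f) (Z : LC) :
    IsHEquiv (f ▷ Z) := by
  obtain ⟨g, h1, h2⟩ := h
  refine ⟨g ▷ Z, ?_, ?_⟩
  · rw [← MonoidalCategory.comp_whiskerRight]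
    exact (h1.whiskerRight Z).trans (Homotopic.of_eq (by simp))
  · rw [← MonoidalCategory.comp_whiskerRight]
    exact (h2.whiskerRight Z).trans (Homotopic.of_eq (by simp))

/-- the empty space is the zero object -/
theorem eq_zero_of_empty {X Y : LC} [IsEmpty X] (f : X ⟶ Y) : f = 0 := by
  apply hom_ext
  intro x
  exact isEmptyElim x

theorem eq_zero_to_empty {X Y : LC} [IsEmpty Y] (f : X ⟶ Y) : f = 0 := by
  apply hom_ext
  intro x
  exact Subsingleton.elim _ _

theorem Contr.hequiv {X : LC} (h : Contr X) : HEquiv X (LC.of Empty) :=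
  ⟨0, 0, (Homotopic.of_eq (by rw [Limits.comp_zero])).trans h.symm,
    Homotopic.of_eq (by rw [eq_zero_of_empty (X := LC.of Empty) (𝟙 (LC.of Empty)),
      Limits.comp_zero])⟩

theorem Contr.of_hequiv {X Y : LC} (h : Contr X) (k : HEquiv X Y) : Contr Y := by
  obtain ⟨f, g, -, h2⟩ := k
  refine h2.symm.trans ?_
  have h3 := Homotopic.comp_left g (h.comp_right f)
  rw [Category.id_comp] at h3
  exact h3.trans (Homotopic.of_eq (by rw [Limits.zero_comp, Limits.comp_zero]))

theorem contr_of_isEmpty (X : LC) [IsEmpty X] : Contr X :=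
  Homotopic.of_eq (eq_zero_of_empty _)

end basic

namespace FC

theorem of_iso {X Y : LC} (h : FC X) (e : X ≅ Y) : FC Y := h.hequiv (HEquiv.of_iso e)

theorem of_homeo {X Y : LC} (h : FC X) (e : X ≃ₜ Y) : FC Y := h.of_iso (ofHomeo e)

theorem of_contr {X : LC} (h : Contr X) : FC X := FC.empty.hequiv h.hequiv.symm

theorem of_isEmpty (X : LC) [IsEmpty X] : FC X := of_contr (contr_of_isEmpty X)

/-- the one point space -/
theorem unit : FC (𝟙_ LC) := by
  refine (FC.sph 0).of_homeo (Y := LC.of Unit) ?_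
  exact
    { toFun := fun _ => ()
      invFun := fun _ => default
      left_inv := fun _ => Subsingleton.elim _ _
      right_inv := fun _ => rfl
      continuous_toFun := continuous_const
      continuous_invFun := continuous_const }

theorem of_unique (X : LC) [Unique X] : FC X := by
  refine unit.of_homeo (X := LC.of Unit) ?_
  exact
    { toFun := fun _ => default
      invFun := fun _ => ()
      left_inv := fun _ => rfl
      right_inv := fun _ => Subsingleton.elim _ _
      continuous_toFun := continuous_const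
      continuous_invFun := continuous_const }

theorem of_ext {A B U : LC} {i : A ⟶ B} (hi : Cofib i) (hA : FC A) (e : cof i ≅ U) (hU : FC U) :
    FC B := FC.ext hi hA (hU.of_iso e.symm)

end FC

end LC

end Vale.Agent.P251.G
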