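import Vale.Agent.P251.G.FC
import Mathlib.CategoryTheory.Monoidal.Subcategory

/-!
# P251, part G: cofibrations and retractions

* `Cofib.injective`: a cofibration is injective (on one-point compactifications);
* `cofib_iff`: `i` is a cofibration iff it is injective and the cylinder
  `{(b, t) | t = 0 or b ∈ im i}` is a retract of `B ⊗ II`;
* `Cofib.whiskerRight`, `Cofib.whiskerLeft`: the tensor product with an object preserves
  cofibrations;
* `FC.tensor`: finite cell spaces are closed under tensor products.
-/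

open CategoryTheory MonoidalCategory Filter Topology OnePoint

namespace Vale.Agent.P251.G

namespace LC

section cone

/-- the half open interval `(0, 1]` -/
abbrev JJ : LC :=
  haveI : LocallyCompactSpace {t : unitInterval // t ≠ 0} :=
    (isOpen_ne (x := (0 : unitInterval))).locallyCompactSpace
  LC.of {t : unitInterval // t ≠ 0}

/-- the collapse `[0, 1] → (0, 1]` -/
noncomputable def collJJ : II ⟶ JJ :=
  ofOpen (X := II) (Y := JJ) (fun t => (t : unitInterval))
    (isOpen_ne (x := (0 : unitInterval))).isOpenEmbedding_subtypeVal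

theorem app_collJJ_zero : app collJJ ((0 : unitInterval) : OnePoint unitInterval) = ∞ :=
  app_ofOpen_of_notMem (X := II) (Y := JJ) (fun t => (t : unitInterval))
    (isOpen_ne (x := (0 : unitInterval))).isOpenEmbedding_subtypeVal
    (by rintro ⟨t, ht⟩; exact t.2 ht)

theorem app_point {X : LC} (x : X) (u : Unit) : app (point x) (u : OnePoint Unit) = x := rfl

theorem app_collJJ_one : app collJJ ((1 : unitInterval) : OnePoint unitInterval) =
    ((⟨1, one_ne_zero⟩ : {t : unitInterval // t ≠ 0}) : OnePoint {t : unitInterval // t ≠ 0}) :=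
  app_ofOpen_coe (X := II) (Y := JJ) _ _ ⟨1, one_ne_zero⟩

/-- A cofibration is injective. -/
theorem Cofib.injective {A B : LC} {i : A ⟶ B} (hi : Cofib i) : Function.Injective (app i) := by
  obtain ⟨K, -, hK⟩ := hi (A ⊗ JJ) 0 (A ◁ collJJ) (by
    apply hom_ext
    intro a
    rw [app_comp, app_incl, app_whiskerLeft_smash, Limits.comp_zero, app_zero]
    rw [app_collJJ_zero, smash_infty_right])
  have key : ∀ a : OnePoint A, app K (smash (app i a) ((1 : unitInterval) : OnePoint unitInterval)) =
      smash a ((⟨1, one_ne_zero⟩ : {t : unitInterval // t ≠ 0}) :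
        OnePoint {t : unitInterval // t ≠ 0}) := by
    intro a
    have h1 : app (i ▷ II) (smash a ((1 : unitInterval) : OnePoint unitInterval)) =
        smash (app i a) ((1 : unitInterval) : OnePoint unitInterval) :=
      app_whiskerRight_smash i II a _
    rw [← h1, ← app_comp, hK]
    exact (app_whiskerLeft_smash A collJJ a _).trans (congrArg (smash a) app_collJJ_one)
  intro a a' h
  have h2 := (key a).symm.trans ((congrArg (fun b => app K (smash b
    ((1 : unitInterval) : OnePoint unitInterval))) h).trans (key a'))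
  induction a using OnePoint.rec with
  | infty =>
    induction a' using OnePoint.rec with
    | infty => rfl
    | coe a' =>
      rw [smash_infty_left, smash_coe_coe] at h2
      exact absurd h2.symm (OnePoint.coe_ne_infty _)
  | coe a =>
    induction a' using OnePoint.rec with
    | infty =>
      rw [smash_infty_left, smash_coe_coe] at h2
      exact absurd h2 (OnePoint.coe_ne_infty _)
    | coe a' =>
      rw [smash_coe_coe, smash_coe_coe] at h2
      have h3 := OnePoint.coe_injective h2
      rw [Prod.mk.injEq] at h3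
      rw [h3.1]

end cone

section closed

variable {A B : LC}

theorem isClosedEmb_app {i : A ⟶ B} (hi : Function.Injective (app i)) :
    IsClosedEmbedding (app i) :=
  (continuous_app i).isClosedEmbedding hi

/-- the underlying map of spaces of an injective morphism -/
theorem exists_lift {i : A ⟶ B} (hi : Function.Injective (app i)) (a : A) :
    ∃ b : B, (b : OnePoint B) = app i a := by
  rw [← OnePoint.ne_infty_iff_exists]
  intro h
  have := hi (h.trans (app_infty i).symm)
  exact OnePoint.coe_ne_infty a this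

/-- the underlying map of spaces of an injective morphism -/
noncomputable def under {i : A ⟶ B} (hi : Function.Injective (app i)) (a : A) : B :=
  (exists_lift hi a).choose

theorem coe_under {i : A ⟶ B} (hi : Function.Injective (app i)) (a : A) :
    (under hi a : OnePoint B) = app i a := (exists_lift hi a).choose_spec

theorem isClosedEmbedding_under {i : A ⟶ B} (hi : Function.Injective (app i)) :
    IsClosedEmbedding (under hi) := by
  have h1 : (fun a => (under hi a : OnePoint B)) = app i ∘ ((↑) : A → OnePoint A) := by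
    funext a; exact coe_under hi a
  have h2 : IsEmbedding (fun a => (under hi a : OnePoint B)) := by
    rw [h1]
    exact (isClosedEmb_app hi).isEmbedding.comp OnePoint.isOpenEmbedding_coe.isEmbedding
  refine ⟨(OnePoint.isOpenEmbedding_coe.isEmbedding.of_comp_iff).mp h2, ?_⟩
  have h3 : Set.range (under hi) = ((↑) : B → OnePoint B) ⁻¹' Set.range (app i) := by
    ext b
    constructor
    · rintro ⟨a, rfl⟩
      exact ⟨a, (coe_under hi a).symm⟩
    · rintro ⟨a, ha⟩
      induction a using OnePoint.rec with
      | infty =>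
        rw [app_infty] at ha
        exact absurd ha.symm (OnePoint.coe_ne_infty b)
      | coe a =>
        refine ⟨a, ?_⟩
        apply OnePoint.coe_injective
        rw [coe_under, ha]
  rw [h3]
  exact (isCompact_range (continuous_app i)).isClosed.preimage OnePoint.continuous_coe

theorem ofClosed_under {i : A ⟶ B} (hi : Function.Injective (app i)) :
    ofClosed (under hi) (isClosedEmbedding_under hi) = i := by
  apply hom_ext
  intro a
  exact coe_under hi a

theorem app_injective_ofClosed {X Y : LC} {f : X → Y} (hf : IsClosedEmbedding f) :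
    Function.Injective (app (ofClosed f hf)) := by
  intro a b h
  induction a using OnePoint.rec with
  | infty =>
    induction b using OnePoint.rec with
    | infty => rfl
    | coe b => rw [app_infty, app_ofClosed_coe] at h; exact absurd h.symm (OnePoint.coe_ne_infty _)
  | coe a =>
    induction b using OnePoint.rec with
    | infty => rw [app_infty, app_ofClosed_coe] at h; exact absurd h (OnePoint.coe_ne_infty _)
    | coe b =>
      rw [app_ofClosed_coe, app_ofClosed_coe] at h
      rw [hf.injective (OnePoint.coe_injective h)]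

end closed

section glue

variable {P Q X Z : LC}

open scoped Classical in
/-- gluing of two functions along injective maps `u`, `v` -/
noncomputable def glueFun {P Q X : Type} {Z : Type} (u : P → X) (v : Q → X)
    (f : P → OnePoint Z) (g : Q → OnePoint Z) (x : X) : OnePoint Z :=
  if h : ∃ p, u p = x then f h.choose else
    if h' : ∃ q, v q = x then g h'.choose else ∞

theorem glueFun_left {P Q X : Type} {Z : Type} {u : P → X} (hu : Function.Injective u) (v : Q → X)
    (f : P → OnePoint Z) (g : Q → OnePoint Z) (p : P) : glueFun u v f g (u p) = f p := by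
  have h : ∃ p', u p' = u p := ⟨p, rfl⟩
  unfold glueFun
  rw [dif_pos h, hu h.choose_spec]

theorem glueFun_right {P Q X : Type} {Z : Type} (u : P → X) {v : Q → X}
    (hv : Function.Injective v) (f : P → OnePoint Z) (g : Q → OnePoint Z)
    (hfg : ∀ p q, u p = v q → f p = g q) (q : Q) : glueFun u v f g (v q) = g q := by
  unfold glueFun
  by_cases h : ∃ p', u p' = v q
  · rw [dif_pos h]
    exact hfg _ _ h.choose_spec
  · have h' : ∃ q', v q' = v q := ⟨q, rfl⟩
    rw [dif_neg h, dif_pos h', hv h'.choose_spec]

theorem glueFun_comp_left {P Q X : Type} {Z : Type} {u : P → X} (hu : Function.Injective u)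
    (v : Q → X) (f : P → OnePoint Z) (g : Q → OnePoint Z) : glueFun u v f g ∘ u = f :=
  funext fun p => glueFun_left hu v f g p

theorem glueFun_comp_right {P Q X : Type} {Z : Type} (u : P → X) {v : Q → X}
    (hv : Function.Injective v) (f : P → OnePoint Z) (g : Q → OnePoint Z)
    (hfg : ∀ p q, u p = v q → f p = g q) : glueFun u v f g ∘ v = g :=
  funext fun q => glueFun_right u hv f g hfg q

theorem continuous_of_cover {P Q X Z : Type*} [TopologicalSpace P] [TopologicalSpace Q]
    [TopologicalSpace X] [TopologicalSpace Z] {u : P → X} {v : Q → X}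
    (hu : IsClosedEmbedding u) (hv : IsClosedEmbedding v)
    (hcov : ∀ x, x ∈ Set.range u ∨ x ∈ Set.range v) {F : X → Z} (h1 : Continuous (F ∘ u))
    (h2 : Continuous (F ∘ v)) : Continuous F := by
  rw [continuous_iff_isClosed]
  intro C hC
  have : F ⁻¹' C = u '' ((F ∘ u) ⁻¹' C) ∪ v '' ((F ∘ v) ⁻¹' C) := by
    ext x
    constructor
    · intro hx
      rcases hcov x with ⟨p, rfl⟩ | ⟨q, rfl⟩
      · exact Or.inl ⟨p, hx, rfl⟩
      · exact Or.inr ⟨q, hx, rfl⟩
    · rintro (⟨p, hp, rfl⟩ | ⟨q, hq, rfl⟩)
      · exact hp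
      · exact hq
  rw [this]
  exact (hu.isClosedMap _ (hC.preimage h1)).union (hv.isClosedMap _ (hC.preimage h2))

theorem tendsto_of_cover {P Q X Z : Type*} [TopologicalSpace P] [TopologicalSpace Q]
    [TopologicalSpace X] {u : P → X} {v : Q → X}
    (hu : Continuous u) (hv : Continuous v)
    (hcov : ∀ x, x ∈ Set.range u ∨ x ∈ Set.range v) {F : X → Z} {l : Filter Z}
    (h1 : Tendsto (F ∘ u) (cocompact P) l) (h2 : Tendsto (F ∘ v) (cocompact Q) l) :
    Tendsto F (cocompact X) l := by
  intro N hN
  obtain ⟨K1, hK1, hN1⟩ := mem_cocompact.mp (h1 hN)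
  obtain ⟨K2, hK2, hN2⟩ := mem_cocompact.mp (h2 hN)
  refine mem_cocompact.mpr ⟨u '' K1 ∪ v '' K2, (hK1.image hu).union (hK2.image hv), ?_⟩
  intro x hx
  rcases hcov x with ⟨p, rfl⟩ | ⟨q, rfl⟩
  · exact hN1 (fun hp => hx (Or.inl ⟨p, hp, rfl⟩))
  · exact hN2 (fun hq => hx (Or.inr ⟨q, hq, rfl⟩))

theorem tendsto_app_cocompact {X Y : LC} (f : X ⟶ Y) :
    Tendsto (fun x : X => app f (x : OnePoint X)) (cocompact X) (𝓝 ∞) := by
  have h1 : Tendsto (app f) (𝓝 ∞) (𝓝 (app f ∞)) := (continuous_app f).tendsto ∞
  rw [app_infty] at h1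
  have h2 : Tendsto ((↑) : X → OnePoint X) (cocompact X) (𝓝 ∞) := by
    rw [← coclosedCompact_eq_cocompact]
    exact OnePoint.tendsto_coe_infty
  exact h1.comp h2

/-- Gluing of morphisms on two closed subspaces covering `X`. -/
noncomputable def glue {u : P → X} {v : Q → X} (hu : IsClosedEmbedding u)
    (hv : IsClosedEmbedding v) (hcov : ∀ x, x ∈ Set.range u ∨ x ∈ Set.range v)
    (f : P ⟶ Z) (g : Q ⟶ Z)
    (hfg : ∀ p q, u p = v q → app f (p : OnePoint P) = app g (q : OnePoint Q)) : X ⟶ Z :=
  mk' (glueFun u v (fun p : P => app f (p : OnePoint P)) (fun q : Q => app g (q : OnePoint Q)))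
    (continuous_of_cover hu hv hcov
      (by
        rw [glueFun_comp_left hu.injective]
        exact (continuous_app f).comp OnePoint.continuous_coe)
      (by
        rw [glueFun_comp_right _ hv.injective _ _ hfg]
        exact (continuous_app g).comp OnePoint.continuous_coe))
    (tendsto_of_cover hu.continuous hv.continuous hcov
      (by
        rw [glueFun_comp_left hu.injective]
        exact tendsto_app_cocompact f)
      (by
        rw [glueFun_comp_right _ hv.injective _ _ hfg]
        exact tendsto_app_cocompact g))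

theorem app_glue_left {u : P → X} {v : Q → X} (hu : IsClosedEmbedding u)
    (hv : IsClosedEmbedding v) (hcov : ∀ x, x ∈ Set.range u ∨ x ∈ Set.range v)
    (f : P ⟶ Z) (g : Q ⟶ Z)
    (hfg : ∀ p q, u p = v q → app f (p : OnePoint P) = app g (q : OnePoint Q)) (p : P) :
    app (glue hu hv hcov f g hfg) (u p : OnePoint X) = app f (p : OnePoint P) :=
  glueFun_left hu.injective v (fun p : P => app f (p : OnePoint P))
    (fun q : Q => app g (q : OnePoint Q)) p

theorem app_glue_right {u : P → X} {v : Q → X} (hu : IsClosedEmbedding u)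
    (hv : IsClosedEmbedding v) (hcov : ∀ x, x ∈ Set.range u ∨ x ∈ Set.range v)
    (f : P ⟶ Z) (g : Q ⟶ Z)
    (hfg : ∀ p q, u p = v q → app f (p : OnePoint P) = app g (q : OnePoint Q)) (q : Q) :
    app (glue hu hv hcov f g hfg) (v q : OnePoint X) = app g (q : OnePoint Q) :=
  glueFun_right u hv.injective (fun p : P => app f (p : OnePoint P))
    (fun q : Q => app g (q : OnePoint Q)) hfg q

theorem ofClosed_glue {u : P → X} {v : Q → X} (hu : IsClosedEmbedding u)
    (hv : IsClosedEmbedding v) (hcov : ∀ x, x ∈ Set.range u ∨ x ∈ Set.range v)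
    (f : P ⟶ Z) (g : Q ⟶ Z)
    (hfg : ∀ p q, u p = v q → app f (p : OnePoint P) = app g (q : OnePoint Q)) :
    ofClosed u hu ≫ glue hu hv hcov f g hfg = f := by
  apply hom_ext
  intro p
  exact app_glue_left hu hv hcov f g hfg p

theorem ofClosed_glue' {u : P → X} {v : Q → X} (hu : IsClosedEmbedding u)
    (hv : IsClosedEmbedding v) (hcov : ∀ x, x ∈ Set.range u ∨ x ∈ Set.range v)
    (f : P ⟶ Z) (g : Q ⟶ Z)
    (hfg : ∀ p q, u p = v q → app f (p : OnePoint P) = app g (q : OnePoint Q)) :
    ofClosed v hv ≫ glue hu hv hcov f g hfg = g := by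
  apply hom_ext
  intro q
  exact app_glue_right hu hv hcov f g hfg q

end glue

section cylinder

variable {A B : LC}

/-- the underlying set of the cylinder -/
def cylSet (i : A ⟶ B) : Set (B × unitInterval) :=
  {p | p.2 = 0 ∨ (p.1 : OnePoint B) ∈ Set.range (app i)}

theorem isClosed_cylSet (i : A ⟶ B) : IsClosed (cylSet i) := by
  refine IsClosed.union ?_ ?_
  · exact isClosed_singleton.preimage continuous_snd
  · exact (isCompact_range (continuous_app i)).isClosed.preimage
      (OnePoint.continuous_coe.comp continuous_fst)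

/-- the cylinder `B × 0 ∪ im i × I` -/
def cyl (i : A ⟶ B) : LC :=
  haveI : LocallyCompactSpace (cylSet i) :=
    (isClosed_cylSet i).isClosedEmbedding_subtypeVal.locallyCompactSpace
  LC.of (cylSet i)

/-- the inclusion of the cylinder in `B ⊗ II` -/
def cylIncl (i : A ⟶ B) : cyl i ⟶ B ⊗ II :=
  ofClosed (X := cyl i) (Y := LC.of (B × unitInterval)) (fun p => p.1)
    (isClosed_cylSet i).isClosedEmbedding_subtypeVal

theorem app_cylIncl_coe (i : A ⟶ B) (p : cyl i) :
    app (cylIncl i) (p : OnePoint (cyl i)) = ((p.1 : B × unitInterval) : OnePoint _) := rfl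

theorem isClosedEmbedding_cylBot (i : A ⟶ B) :
    IsClosedEmbedding (fun b : B => (⟨(b, 0), Or.inl rfl⟩ : cyl i)) := by
  have h : IsClosedEmbedding (fun b : B => ((b, (0 : unitInterval)) : B × unitInterval)) := by
    refine ⟨isEmbedding_prodMkLeft 0, ?_⟩
    have : Set.range (fun b : B => ((b, (0 : unitInterval)) : B × unitInterval)) =
        Prod.snd ⁻¹' {0} := by
      ext ⟨b, t⟩
      constructor
      · rintro ⟨b', hb'⟩
        rw [Prod.mk.injEq] at hb'
        exact hb'.2.symm
      · intro ht
        have ht' : t = 0 := ht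
        exact ⟨b, by rw [ht']⟩
    rw [this]
    exact isClosed_singleton.preimage continuous_snd
  exact ((isClosed_cylSet i).isClosedEmbedding_subtypeVal.of_comp_iff).mp h

theorem isClosedEmbedding_cylSide {i : A ⟶ B} (hi : Function.Injective (app i)) :
    IsClosedEmbedding (fun p : A × unitInterval =>
      (⟨(under hi p.1, p.2), Or.inr ⟨p.1, (coe_under hi p.1).symm⟩⟩ : cyl i)) := by
  have h : IsClosedEmbedding (fun p : A × unitInterval =>
      ((under hi p.1, p.2) : B × unitInterval)) :=
    (isClosedEmbedding_under hi).prodMap IsClosedEmbedding.id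
  exact ((isClosed_cylSet i).isClosedEmbedding_subtypeVal.of_comp_iff).mp h

/-- the bottom of the cylinder -/
def cylBot (i : A ⟶ B) : B ⟶ cyl i :=
  ofClosed (X := B) (Y := cyl i) (fun b => ⟨(b, 0), Or.inl rfl⟩) (isClosedEmbedding_cylBot i)

/-- the side of the cylinder -/
noncomputable def cylSide {i : A ⟶ B} (hi : Function.Injective (app i)) : A ⊗ II ⟶ cyl i :=
  ofClosed (X := LC.of (A × unitInterval)) (Y := cyl i)
    (fun p => (⟨(under hi p.1, p.2), Or.inr ⟨p.1, (coe_under hi p.1).symm⟩⟩ : cyl i))
    (isClosedEmbedding_cylSide hi)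

theorem cyl_cover {i : A ⟶ B} (hi : Function.Injective (app i)) (x : cyl i) :
    x ∈ Set.range (fun b : B => (⟨(b, 0), Or.inl rfl⟩ : cyl i)) ∨
    x ∈ Set.range (fun p : A × unitInterval =>
      (⟨(under hi p.1, p.2), Or.inr ⟨p.1, (coe_under hi p.1).symm⟩⟩ : cyl i)) := by
  obtain ⟨⟨b, t⟩, h | ⟨a, ha⟩⟩ := x
  · left
    have ht : t = 0 := h
    subst ht
    exact ⟨b, rfl⟩
  · right
    induction a using OnePoint.rec with
    | infty => rw [app_infty] at ha; exact absurd ha.symm (OnePoint.coe_ne_infty _)
    | coe a =>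
      refine ⟨(a, t), ?_⟩
      apply Subtype.ext
      change (under hi a, t) = (b, t)
      congr 1
      exact OnePoint.coe_injective ((coe_under hi a).trans ha)

/-- the universal property of the cylinder -/
noncomputable def cylDesc {i : A ⟶ B} (hi : Function.Injective (app i)) {Z : LC} (f : B ⟶ Z)
    (H : A ⊗ II ⟶ Z) (h : incl 0 A ≫ H = i ≫ f) : cyl i ⟶ Z :=
  glue (P := B) (Q := LC.of (A × unitInterval)) (X := cyl i) (isClosedEmbedding_cylBot i)
    (isClosedEmbedding_cylSide hi) (cyl_cover hi) f H (by
      rintro b ⟨a, t⟩ hbt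
      have h1 := congrArg Subtype.val hbt
      rw [Prod.mk.injEq] at h1
      obtain ⟨h2, h3⟩ := h1
      have h3' : (0 : unitInterval) = t := h3
      have h2' : b = under hi a := h2
      subst h3'
      have h4 := congrArg (fun k => app k (a : OnePoint A)) h
      simp only [app_comp, app_incl] at h4
      rw [h2', coe_under]
      exact h4.symm)

@[reassoc]
theorem cylBot_cylDesc {i : A ⟶ B} (hi : Function.Injective (app i)) {Z : LC} (f : B ⟶ Z)
    (H : A ⊗ II ⟶ Z) (h : incl 0 A ≫ H = i ≫ f) : cylBot i ≫ cylDesc hi f H h = f :=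
  ofClosed_glue _ _ _ _ _ _

@[reassoc]
theorem cylSide_cylDesc {i : A ⟶ B} (hi : Function.Injective (app i)) {Z : LC} (f : B ⟶ Z)
    (H : A ⊗ II ⟶ Z) (h : incl 0 A ≫ H = i ≫ f) : cylSide hi ≫ cylDesc hi f H h = H :=
  ofClosed_glue' _ _ _ _ _ _

@[reassoc]
theorem cylBot_cylIncl (i : A ⟶ B) : cylBot i ≫ cylIncl i = incl 0 B := by
  apply hom_ext
  intro b
  rw [app_incl]
  rfl

@[reassoc]
theorem cylSide_cylIncl {i : A ⟶ B} (hi : Function.Injective (app i)) :
    cylSide hi ≫ cylIncl i = i ▷ II := by
  apply tensor_ext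
  intro a t
  have h := app_whiskerRight_smash i II (a : OnePoint A) (t : OnePoint unitInterval)
  rw [← coe_under hi] at h
  exact h.symm

theorem incl_cylSide {i : A ⟶ B} (hi : Function.Injective (app i)) :
    incl 0 A ≫ cylSide hi = i ≫ cylBot i := by
  have hmono : Function.Injective (app (cylIncl i)) :=
    app_injective_ofClosed (X := cyl i) (Y := LC.of (B × unitInterval)) _
  apply hom_ext
  intro a
  apply hmono
  rw [← app_comp, ← app_comp, Category.assoc, Category.assoc, cylSide_cylIncl, cylBot_cylIncl,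
    incl_naturality]

theorem cyl_hom_ext {i : A ⟶ B} (hi : Function.Injective (app i)) {Z : LC} {f g : cyl i ⟶ Z}
    (h1 : cylBot i ≫ f = cylBot i ≫ g) (h2 : cylSide hi ≫ f = cylSide hi ≫ g) : f = g := by
  apply hom_ext
  intro x
  rcases cyl_cover hi x with ⟨b, rfl⟩ | ⟨p, rfl⟩
  · exact congrArg (fun k => app k (b : OnePoint B)) h1
  · exact congrArg (fun k => app k (p : OnePoint (A × unitInterval))) h2

/-- A morphism is a cofibration iff it is injective and the cylinder is a retract of `B ⊗ II`. -/
theorem cofib_iff (i : A ⟶ B) :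
    Cofib i ↔ Function.Injective (app i) ∧ ∃ r : B ⊗ II ⟶ cyl i, cylIncl i ≫ r = 𝟙 _ := by
  constructor
  · intro h
    have hi := h.injective
    refine ⟨hi, ?_⟩
    obtain ⟨K, h0, h1⟩ := h (cyl i) (cylBot i) (cylSide hi) (incl_cylSide hi)
    refine ⟨K, cyl_hom_ext hi ?_ ?_⟩
    · rw [cylBot_cylIncl_assoc, h0, Category.comp_id]
    · rw [cylSide_cylIncl_assoc, h1, Category.comp_id]
  · rintro ⟨hi, r, hr⟩ Z f H hfH
    refine ⟨r ≫ cylDesc hi f H hfH, ?_, ?_⟩
    · rw [← cylBot_cylIncl, Category.assoc, reassoc_of% hr, cylBot_cylDesc]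
    · rw [← cylSide_cylIncl hi, Category.assoc, reassoc_of% hr, cylSide_cylDesc]

end cylinder

section tensor

variable {A B : LC}

theorem injective_whiskerR {i : A ⟶ B} (hi : Function.Injective (app i)) (Y : LC) :
    Function.Injective (app (i ▷ Y)) := by
  have h : i ▷ Y = ofClosed (X := LC.of (A × Y)) (Y := LC.of (B × Y))
      (Prod.map (under hi) id) ((isClosedEmbedding_under hi).prodMap IsClosedEmbedding.id) := by
    apply tensor_ext
    intro a y
    have h := app_whiskerRight_smash i Y (a : OnePoint A) (y : OnePoint Y)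
    rw [← coe_under hi] at h
    exact h
  rw [h]
  exact app_injective_ofClosed _

/-- the rearrangement `(b, y, t) ↦ (b, t, y)` -/
def permIso (B Y : LC) : (B ⊗ Y) ⊗ II ≅ (B ⊗ II) ⊗ Y :=
  ofHomeo (X := LC.of ((B × Y) × unitInterval)) (Y := LC.of ((B × unitInterval) × Y))
    { toFun := fun w => ((w.1.1, w.2), w.1.2)
      invFun := fun w => ((w.1.1, w.2), w.1.2)
      left_inv := fun _ => rfl
      right_inv := fun _ => rfl
      continuous_toFun := by fun_prop
      continuous_invFun := by fun_prop }

/-- the cylinder of `i ▷ Y` -/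
def cylWhisker (i : A ⟶ B) (Y : LC) : cyl i ⊗ Y ≅ cyl (i ▷ Y) :=
  ofHomeo (X := LC.of (cyl i × Y)) (Y := cyl (i ▷ Y))
    { toFun := fun w => ⟨((w.1.1.1, w.2), w.1.1.2), by
        rcases w.1.2 with h | h
        · exact Or.inl h
        · exact Or.inr ((mem_range_whiskerRight i Y _ _).mpr h)⟩
      invFun := fun w => (⟨(w.1.1.1, w.1.2), by
        rcases w.2 with h | h
        · exact Or.inl h
        · exact Or.inr ((mem_range_whiskerRight i Y _ _).mp h)⟩, w.1.1.2)
      left_inv := fun _ => rfl
      right_inv := fun _ => rfl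
      continuous_toFun := by
        refine Continuous.subtype_mk ?_ _
        have h1 : Continuous fun w : cyl i × Y => (w.1.1 : B × unitInterval) :=
          continuous_subtype_val.comp continuous_fst
        exact ((continuous_fst.comp h1).prodMk continuous_snd).prodMk (continuous_snd.comp h1)
      continuous_invFun := by
        have h1 : Continuous fun w : cyl (i ▷ Y) => (w.1 : (B × Y) × unitInterval) :=
          continuous_subtype_val
        refine Continuous.prodMk ?_ ?_
        · refine Continuous.subtype_mk ?_ _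
          exact ((continuous_fst.comp (continuous_fst.comp h1))).prodMk (continuous_snd.comp h1)
        · exact continuous_snd.comp (continuous_fst.comp h1) }

theorem cylWhisker_comp (i : A ⟶ B) (Y : LC) :
    (cylWhisker i Y).hom ≫ cylIncl (i ▷ Y) ≫ (permIso B Y).hom = cylIncl i ▷ Y := by
  apply tensor_ext
  intro w y
  rfl

theorem Cofib.whiskerRight {i : A ⟶ B} (h : Cofib i) (Y : LC) : Cofib (i ▷ Y) := by
  rw [cofib_iff] at h ⊢
  obtain ⟨hi, r, hr⟩ := h
  refine ⟨injective_whiskerR hi Y, (permIso B Y).hom ≫ r ▷ Y ≫ (cylWhisker i Y).hom, ?_⟩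
  rw [← cancel_epi (cylWhisker i Y).hom, Category.comp_id]
  have h2 := cylWhisker_comp i Y
  calc (cylWhisker i Y).hom ≫ cylIncl (i ▷ Y) ≫ (permIso B Y).hom ≫ r ▷ Y ≫ (cylWhisker i Y).hom
      = ((cylWhisker i Y).hom ≫ cylIncl (i ▷ Y) ≫ (permIso B Y).hom) ≫ r ▷ Y ≫
          (cylWhisker i Y).hom := by simp only [Category.assoc]
    _ = (cylIncl i ▷ Y ≫ r ▷ Y) ≫ (cylWhisker i Y).hom := by rw [h2, Category.assoc]
    _ = (cylWhisker i Y).hom := by
        rw [← MonoidalCategory.comp_whiskerRight, hr, MonoidalCategory.id_whiskerRight,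
          Category.id_comp]

theorem Cofib.comp_iso {i : A ⟶ B} (h : Cofib i) {B' : LC} (e : B ≅ B') : Cofib (i ≫ e.hom) := by
  intro Z f H hfH
  obtain ⟨K, h0, h1⟩ := h Z (e.hom ≫ f) H (by rw [hfH, Category.assoc])
  refine ⟨e.inv ▷ II ≫ K, ?_, ?_⟩
  · rw [incl_naturality_assoc, h0, Iso.inv_hom_id_assoc]
  · rw [← MonoidalCategory.comp_whiskerRight_assoc, Category.assoc, Iso.hom_inv_id,
      Category.comp_id, h1]

theorem Cofib.iso_comp {i : A ⟶ B} (h : Cofib i) {A' : LC} (e : A' ≅ A) : Cofib (e.hom ≫ i) := by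
  intro Z f H hfH
  obtain ⟨K, h0, h1⟩ := h Z f (e.inv ▷ II ≫ H) (by
    rw [incl_naturality_assoc, hfH, Category.assoc, Iso.inv_hom_id_assoc])
  refine ⟨K, h0, ?_⟩
  rw [MonoidalCategory.comp_whiskerRight, Category.assoc, h1,
    ← MonoidalCategory.comp_whiskerRight_assoc, Iso.hom_inv_id,
    MonoidalCategory.id_whiskerRight, Category.id_comp]

theorem Cofib.whiskerLeft {i : A ⟶ B} (h : Cofib i) (Y : LC) : Cofib (Y ◁ i) := by
  have h1 : Y ◁ i = (β_ Y A).hom ≫ i ▷ Y ≫ (β_ B Y).hom := by
    rw [← Category.assoc, ← BraidedCategory.braiding_naturality_right, Category.assoc,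
      SymmetricCategory.symmetry, Category.comp_id]
  rw [h1]
  exact ((h.whiskerRight Y).comp_iso (β_ B Y)).iso_comp (β_ Y A)

/-- `ℝⁿ × ℝᵐ ≅ ℝ^(n+m)` -/
def sphTensor (n m : ℕ) : Sph n ⊗ Sph m ≅ Sph (n + m) :=
  ofHomeo (X := LC.of ((Fin n → ℝ) × (Fin m → ℝ))) (Y := Sph (n + m))
    { toFun := fun w => Fin.append w.1 w.2
      invFun := fun v => (fun i => v (Fin.castAdd m i), fun j => v (Fin.natAdd n j))
      right_inv := fun v => by
        funext i
        refine Fin.addCases (fun i => ?_) (fun i => ?_) i
        · simp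
        · simp
      left_inv := fun w => by
        ext i <;> simp
      continuous_invFun := by fun_prop
      continuous_toFun := by
        refine continuous_pi fun i => ?_
        refine Fin.addCases (fun i => ?_) (fun i => ?_) i
        · simp only [Fin.append_left]
          fun_prop
        · simp only [Fin.append_right]
          fun_prop }

/-- Finite cell spaces are closed under tensor products: spheres. -/
theorem FC.tensor_sph {Y : LC} (hY : FC Y) (m : ℕ) : FC (Y ⊗ Sph m) := by
  induction hY with
  | empty =>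
    have : IsEmpty (LC.of Empty ⊗ Sph m : LC) := inferInstanceAs (IsEmpty (Empty × (Fin m → ℝ)))
    exact FC.of_isEmpty _
  | sph n => exact (FC.sph (n + m)).of_iso (sphTensor n m).symm
  | hequiv _ h ih => exact ih.hequiv (h.tensor (HEquiv.refl (Sph m)))
  | @ext A B i hi _ _ ihA ihC =>
    exact FC.ext (hi.whiskerRight (Sph m)) ihA (ihC.of_iso (cofWhiskerRight i (Sph m)).symm)

/-- Finite cell spaces are closed under tensor products. -/
theorem FC.tensor {X Y : LC} (hX : FC X) (hY : FC Y) : FC (X ⊗ Y) := by
  induction hX with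
  | empty =>
    have : IsEmpty (LC.of Empty ⊗ Y : LC) := inferInstanceAs (IsEmpty (Empty × Y))
    exact FC.of_isEmpty _
  | sph n => exact (hY.tensor_sph n).of_iso (β_ Y (Sph n))
  | hequiv _ h ih => exact ih.hequiv (h.tensor (HEquiv.refl Y))
  | @ext A B i hi _ _ ihA ihC =>
    exact FC.ext (hi.whiskerRight Y) ihA (ihC.of_iso (cofWhiskerRight i Y).symm)

/-- the object property of finite cell spaces -/
abbrev FCProp : ObjectProperty LC := FC

instance : FCProp.IsMonoidal where
  prop_unit := FC.unit
  prop_tensor := fun _ _ h1 h2 => h1.tensor h2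

end tensor

end LC

end Vale.Agent.P251.G
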