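import Vale.Agent.P251.G.Polar

/-!
# P251, part G: strict cofibres as open subspaces

(The zero section of a bundle is a cofibration: see `Bun.cofib_zeroHom` in `G/Polar.lean`.)
* `cofOfOpen`: the strict cofibre of `i : A ⟶ T` is any open subspace `j : U → T` with range the
  complement of the image of `i`; `ofOpen_cofOfOpen`.
-/

open Matrix Filter Topology CategoryTheory MonoidalCategory OnePoint

namespace Vale.Agent.P251.G

namespace LC

/-- The strict cofibre is any open subspace which is the complement of the image. -/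
noncomputable def cofOfOpen {A T U : LC} (i : A ⟶ T) (j : U → T) (hj : IsOpenEmbedding j)
    (h : ∀ t : T, t ∈ Set.range j ↔ (t : OnePoint T) ∉ Set.range (app i)) : U ≅ cof i :=
  ofHomeo (X := U) (Y := cof i)
    ((hj.isEmbedding.toHomeomorph).trans (Homeomorph.setCongr (Set.ext fun t => h t)))

theorem ofOpen_cofOfOpen {A T U : LC} (i : A ⟶ T) (j : U → T) (hj : IsOpenEmbedding j)
    (h : ∀ t : T, t ∈ Set.range j ↔ (t : OnePoint T) ∉ Set.range (app i)) :
    ofOpen j hj ≫ (cofOfOpen i j hj h).hom = cofMap i := by
  apply hom_ext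
  intro t
  rw [app_comp]
  by_cases ht : t ∈ Set.range j
  · obtain ⟨u, rfl⟩ := ht
    rw [app_ofOpen_coe]
    have hu : (j u : OnePoint T) ∉ Set.range (app i) := (h (j u)).mp ⟨u, rfl⟩
    exact (app_cofMap_coe i ⟨j u, hu⟩).symm
  · rw [app_ofOpen_of_notMem j hj ht, app_infty]
    symm
    apply app_cofMap_of_mem
    by_contra hcon
    exact ht ((h t).mpr hcon)

end LC

end Vale.Agent.P251.G
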