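import Vale.Agent.P251.G.BundleMap
import Vale.Agent.P251.G.ThMap

/-!
# P251, part G (G08): ranks, classifying maps, Segre maps

Ranks of sums, tensor products, complements, pull backs; the Segre map
`Gr n I × Gr m J → Gr (n * m) (I × J)`, which pulls the tautological bundle back to the tensor product;
the bundle map of a bundle to the tautological bundle.
-/

set_option linter.unusedSectionVars false

open CategoryTheory MonoidalCategory Filter Topology OnePoint Matrix

noncomputable section

namespace Vale.Agent.P251.G

open LC

variable {I J K L : Type} [Fintype I] [Fintype J] [Fintype K] [Fintype L] {n m k l : ℕ}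
variable {X Y : Type} [TopologicalSpace X] [TopologicalSpace Y]

namespace Bun

variable {V : Bun X I} {W : Bun X J}

theorem IsRank.isProj (h : V.IsRank n) (x : X) : IsProj n (V.P x) := ⟨V.idem x, V.herm x, h x⟩

theorem IsRank.pullback (h : V.IsRank n) (f : C(Y, X)) : (V.pullback f).IsRank n :=
  fun y => h (f y)

theorem IsRank.sum (h : V.IsRank n) (h' : W.IsRank m) : (V.sum W).IsRank (n + m) :=
  fun x => (IsProj.fromBlocks (h.isProj x) (h'.isProj x)).trace

theorem IsRank.tensor (h : V.IsRank n) (h' : W.IsRank m) : (V.tensor W).IsRank (n * m) := by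
  intro x
  rw [tensor_P, trace_kronecker, h x, h' x]
  push_cast
  rfl

theorem isRank_triv [DecidableEq I] : (triv X I).IsRank (Fintype.card I) := by
  intro x; simp

theorem isRank_zero : (zero X I).IsRank 0 := by
  intro x; simp

theorem IsRank.compl [DecidableEq I] (h : V.IsRank n) (hm : n + m = Fintype.card I) :
    V.compl.IsRank m := by
  intro x
  rw [compl_P, trace_sub, h x, trace_one, ← hm]
  push_cast
  ring

theorem IsRank.reindex (h : V.IsRank n) (e : I ≃ J) : (V.reindex e).IsRank n := by
  intro x
  rw [reindex_P, ← h x]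
  simp only [Matrix.trace, diag_apply, submatrix_apply]
  exact Equiv.sum_comp e.symm fun i => V.P x i i

theorem IsRank.image (h : V.IsRank n) {u : X → Matrix J I ℂ} (hu : Continuous u)
    (hP : ∀ x, (u x)ᴴ * u x = V.P x) : (V.image u hu hP).IsRank n := by
  intro x
  rw [image_P, trace_mul_comm, hP, h x]

theorem isRank_extSum {W : Bun Y J} (h : V.IsRank n) (h' : W.IsRank m) :
    (V.extSum W).IsRank (n + m) :=
  fun x => (IsProj.fromBlocks (h.isProj x.1) (h'.isProj x.2)).trace

theorem pullback_toGr (h : V.IsRank n) : (taut n I).pullback (V.toGr h) = V := rfl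

theorem toGr_pullback (h : V.IsRank n) (f : C(Y, X)) :
    (V.pullback f).toGr (h.pullback f) = (V.toGr h).comp f := rfl

theorem toGr_taut : (taut n I).toGr (taut_isRank n I) = ContinuousMap.id _ := rfl

/-- the classifying bundle map -/
def toTaut [DecidableEq I] (V : Bun X I) (h : V.IsRank n) : BMap V (taut n I) :=
  BMap.ofPullback (taut n I) (V.toGr h)

theorem tautHomeo_toTaut [DecidableEq I] (V : Bun X I) (h : V.IsRank n) (p : V.E) :
    tautHomeo n I ((V.toTaut h).toFun p) =
      Th.mk (V.P (base p)) (vec p) (h.isProj _) (P_vec p) := by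
  ext1
  · rfl
  · change (1 : Matrix I I ℂ) *ᵥ vec p = vec p
    exact one_mulVec _

end Bun

/-- the Segre map -/
def Gr.segre (n m : ℕ) (I J : Type) [Fintype I] [Fintype J] :
    C(Gr n I × Gr m J, Gr (n * m) (I × J)) :=
  Bun.toGr (((taut n I).pullback ContinuousMap.fst).tensor ((taut m J).pullback ContinuousMap.snd))
    (((taut_isRank n I).pullback _).tensor ((taut_isRank m J).pullback _))

@[simp] theorem Gr.segre_P (n m : ℕ) (x : Gr n I × Gr m J) :
    (Gr.segre n m I J x).P = kroneckerMap (· * ·) x.1.P x.2.P := rfl

/-- the Segre map pulls the tautological bundle back to the tensor product -/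
theorem Gr.pullback_segre (n m : ℕ) (I J : Type) [Fintype I] [Fintype J] :
    (taut (n * m) (I × J)).pullback (Gr.segre n m I J) =
      ((taut n I).pullback ContinuousMap.fst).tensor ((taut m J).pullback ContinuousMap.snd) := rfl

/-- the tensor product of two bundles is classified by the Segre map -/
theorem Bun.toGr_tensor (V : Bun X I) (W : Bun X J) (h : V.IsRank n) (h' : W.IsRank m) :
    (V.tensor W).toGr (h.tensor h') =
      (Gr.segre n m I J).comp ((V.toGr h).prodMk (W.toGr h')) := rfl

end Vale.Agent.P251.G
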