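import Vale.Agent.P251.G.Glue

/-!
# P251, part G: finite disjoint unions `Fin k × X`

For `X : LC`: `LC.finProd k X = LC.of (Fin k × X)` with the closed inclusions `finIncl k i` and the
collapses `finColl k i` of the components, and `finCast k : finProd k X ⟶ finProd (k+1) X`
(a cofibration) with the collapse `finDrop k` in the other direction.
-/

open CategoryTheory MonoidalCategory Filter Topology OnePoint

namespace Vale.Agent.P251.G

namespace LC

variable (X : LC)

/-- `k` disjoint copies of `X` -/
abbrev finProd (k : ℕ) : LC := LC.of (Fin k × X)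

theorem isOpenEmbedding_finMk {k : ℕ} (i : Fin k) : IsOpenEmbedding (fun x : X => (i, x)) := by
  refine IsOpenEmbedding.of_continuous_injective_isOpenMap (by fun_prop)
    (fun y y' h => (Prod.ext_iff.1 h).2) ?_
  intro V hV
  have : (fun y : X => (i, y)) '' V = ({i} : Set (Fin k)) ×ˢ V := by
    ext ⟨i', y⟩
    simp only [Set.mem_image, Prod.mk.injEq, Set.mem_prod, Set.mem_singleton_iff]
    constructor
    · rintro ⟨y', h1, rfl, rfl⟩; exact ⟨rfl, h1⟩
    · rintro ⟨rfl, h1⟩; exact ⟨y, h1, rfl, rfl⟩
  rw [this]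
  exact (isOpen_discrete _).prod hV

theorem isClosedEmbedding_finMk {k : ℕ} (i : Fin k) :
    IsClosedEmbedding (fun x : X => (i, x)) := by
  refine ⟨(isOpenEmbedding_finMk X i).isEmbedding, ?_⟩
  have : Set.range (fun x : X => (i, x)) = (fun p : Fin k × X => p.1) ⁻¹' {i} := by
    ext ⟨i', y⟩
    simp only [Set.mem_range, Prod.mk.injEq, exists_eq_right, Set.mem_preimage,
      Set.mem_singleton_iff]
    exact eq_comm
  rw [this]
  exact (isClosed_discrete _).preimage continuous_fst

/-- the inclusion of the `i`-th copy -/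
def finIncl (k : ℕ) (i : Fin k) : X ⟶ finProd X k :=
  ofClosed (Y := finProd X k) (fun x => (i, x)) (isClosedEmbedding_finMk X i)

/-- the collapse onto the `i`-th copy -/
noncomputable def finColl (k : ℕ) (i : Fin k) : finProd X k ⟶ X :=
  ofOpen (X := finProd X k) (fun x => (i, x)) (isOpenEmbedding_finMk X i)

@[simp] theorem app_finIncl_coe (k : ℕ) (i : Fin k) (x : X) :
    app (finIncl X k i) (x : OnePoint X) = ((i, x) : Fin k × X) := rfl

theorem app_finColl_same (k : ℕ) (i : Fin k) (x : X) :
    app (finColl X k i) (((i, x) : Fin k × X) : OnePoint (Fin k × X)) = x :=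
  app_ofOpen_coe (X := finProd X k) _ (isOpenEmbedding_finMk X i) x

theorem app_finColl_ne (k : ℕ) {i j : Fin k} (h : i ≠ j) (x : X) :
    app (finColl X k j) (((i, x) : Fin k × X) : OnePoint (Fin k × X)) = ∞ := by
  refine app_ofOpen_of_notMem (X := finProd X k) _ (isOpenEmbedding_finMk X j) ?_
  rintro ⟨y, hy⟩
  exact h (Prod.ext_iff.1 hy).1.symm

theorem finIncl_finColl (k : ℕ) (i : Fin k) : finIncl X k i ≫ finColl X k i = 𝟙 X := by
  ext x
  rw [app_comp, app_finIncl_coe, app_finColl_same]
  rfl

theorem finIncl_finColl_ne (k : ℕ) {i j : Fin k} (h : i ≠ j) :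
    finIncl X k i ≫ finColl X k j = 0 := by
  ext x
  rw [app_comp, app_finIncl_coe, app_finColl_ne X k h, app_zero]

/-- the map `Fin k × X → Fin (k+1) × X` -/
def castFun (k : ℕ) (p : Fin k × X) : Fin (k + 1) × X := (p.1.castSucc, p.2)

theorem mem_range_castFun (k : ℕ) (p : Fin (k + 1) × X) :
    p ∈ Set.range (castFun X k) ↔ p.1 ≠ Fin.last k := by
  constructor
  · rintro ⟨q, rfl⟩
    exact (Fin.castSucc_lt_last q.1).ne
  · intro h
    refine ⟨(p.1.castPred h, p.2), ?_⟩
    exact Prod.ext (Fin.castSucc_castPred _ h) rfl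

theorem isOpenEmbedding_castFun (k : ℕ) : IsOpenEmbedding (castFun X k) := by
  have h1 : IsOpenEmbedding (Fin.castSucc : Fin k → Fin (k + 1)) :=
    IsOpenEmbedding.of_continuous_injective_isOpenMap continuous_of_discreteTopology
      (Fin.castSucc_injective k) (fun _ _ => isOpen_discrete _)
  exact h1.prodMap IsOpenEmbedding.id

theorem isClosedEmbedding_castFun (k : ℕ) : IsClosedEmbedding (castFun X k) := by
  refine ⟨(isOpenEmbedding_castFun X k).isEmbedding, ?_⟩
  have : Set.range (castFun X k) = (fun p : Fin (k + 1) × X => p.1) ⁻¹' {Fin.last k}ᶜ := by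
    ext p
    rw [mem_range_castFun]
    rfl
  rw [this]
  exact (isClosed_discrete _).preimage continuous_fst

/-- the inclusion of the first `k` copies -/
def finCast (k : ℕ) : finProd X k ⟶ finProd X (k + 1) :=
  ofClosed (X := finProd X k) (Y := finProd X (k + 1)) (castFun X k)
    (isClosedEmbedding_castFun X k)

/-- the collapse onto the first `k` copies -/
noncomputable def finDrop (k : ℕ) : finProd X (k + 1) ⟶ finProd X k :=
  ofOpen (X := finProd X (k + 1)) (Y := finProd X k) (castFun X k)
    (isOpenEmbedding_castFun X k)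

theorem app_finCast_coe (k : ℕ) (p : Fin k × X) :
    app (finCast X k) (p : OnePoint (Fin k × X)) =
      ((p.1.castSucc, p.2) : Fin (k + 1) × X) := rfl

theorem app_finDrop_castSucc (k : ℕ) (i : Fin k) (x : X) :
    app (finDrop X k) (((i.castSucc, x) : Fin (k + 1) × X) : OnePoint (Fin (k + 1) × X)) =
      ((i, x) : Fin k × X) :=
  app_ofOpen_coe (X := finProd X (k + 1)) (Y := finProd X k) (castFun X k)
    (isOpenEmbedding_castFun X k) (i, x)

theorem app_finDrop_last (k : ℕ) (x : X) :
    app (finDrop X k) (((Fin.last k, x) : Fin (k + 1) × X) : OnePoint (Fin (k + 1) × X)) = ∞ := by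
  refine app_ofOpen_of_notMem (X := finProd X (k + 1)) (Y := finProd X k) (castFun X k)
    (isOpenEmbedding_castFun X k) ?_
  rw [mem_range_castFun]
  simp

theorem finCast_finDrop (k : ℕ) : finCast X k ≫ finDrop X k = 𝟙 _ := by
  apply hom_ext
  rintro ⟨i, x⟩
  rw [app_comp, app_finCast_coe, app_finDrop_castSucc]
  rfl

theorem finIncl_castSucc (k : ℕ) (i : Fin k) :
    finIncl X k i ≫ finCast X k = finIncl X (k + 1) i.castSucc := by
  ext x
  rfl

theorem finDrop_finColl (k : ℕ) (i : Fin k) :
    finDrop X k ≫ finColl X k i = finColl X (k + 1) i.castSucc := by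
  apply hom_ext
  rintro ⟨j, x⟩
  rw [app_comp]
  induction j using Fin.lastCases with
  | last =>
    rw [app_finDrop_last, app_infty, app_finColl_ne X (k + 1) (Fin.castSucc_lt_last i).ne']
  | cast j =>
    rw [app_finDrop_castSucc]
    by_cases h : j = i
    · subst h
      rw [app_finColl_same, app_finColl_same]
    · rw [app_finColl_ne X k h, app_finColl_ne X (k + 1) (fun h' => h (Fin.castSucc_injective _ h'))]

theorem finIncl_last_finDrop (k : ℕ) :
    finIncl X (k + 1) (Fin.last k) ≫ finDrop X k = 0 := by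
  ext x
  rw [app_comp, app_finIncl_coe, app_finDrop_last, app_zero]

theorem finCast_finColl_last (k : ℕ) :
    finCast X k ≫ finColl X (k + 1) (Fin.last k) = 0 := by
  apply hom_ext
  rintro ⟨i, x⟩
  rw [app_comp, app_finCast_coe, app_finColl_ne X (k + 1) (Fin.castSucc_lt_last i).ne, app_zero]

theorem isCompl_castFun (k : ℕ) :
    IsCompl (Set.range (castFun X k)) (Set.range fun x : X => (Fin.last k, x)) := by
  have h : (Set.range fun x : X => (Fin.last k, x)) = (Set.range (castFun X k))ᶜ := by
    ext p
    rw [Set.mem_compl_iff, mem_range_castFun, not_not]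
    constructor
    · rintro ⟨x, rfl⟩; rfl
    · intro h; exact ⟨p.2, Prod.ext h.symm rfl⟩
  rw [h]
  exact isCompl_compl

/-- the constant homotopy -/
def constH (B : LC) : B ⊗ II ⟶ B :=
  (B ◁ ofCompact (X := II) (Y := LC.of Unit) (fun _ => ()) continuous_const) ≫ (ρ_ B).hom

theorem app_constH (B : LC) (b : OnePoint B) (t : unitInterval) :
    app (constH B) (smash b (t : OnePoint unitInterval)) = b := by
  rw [constH, app_comp, app_whiskerLeft_smash]
  induction b using OnePoint.rec with
  | infty =>
    rw [smash_infty_left]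
    exact app_infty _
  | coe b => rfl

theorem incl_constH (t : unitInterval) (B : LC) : incl t B ≫ constH B = 𝟙 B := by
  apply hom_ext
  intro b
  rw [app_comp, app_incl, app_constH]
  rfl

/-- Inclusions of clopen subspaces are cofibrations. -/
theorem cofib_of_clopen {A B : LC} (z : A → B) (hz : IsClosedEmbedding z)
    (ho : IsOpen (Set.range z)) : Cofib (ofClosed z hz) := by
  classical
  have hc : IsClopen (Set.range z) := ⟨hz.isClosed_range, ho⟩
  have hu0 : ∀ b : B, (Set.range z)ᶜ.indicator (fun _ => (1 : ℝ)) b = 0 ↔ b ∈ Set.range z := by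
    intro b
    by_cases hb : b ∈ Set.range z
    · simp [hb]
    · simp [hb]
  have hmem : ∀ b : B, (b : OnePoint B) ∈ Set.range (app (ofClosed z hz)) ↔ b ∈ Set.range z := by
    intro b
    constructor
    · rintro ⟨a, ha⟩
      induction a using OnePoint.rec with
      | infty => exact absurd (ha.symm.trans (app_infty _)) (OnePoint.coe_ne_infty b)
      | coe a =>
        rw [app_ofClosed_coe] at ha
        exact ⟨a, OnePoint.coe_injective ha⟩
    · rintro ⟨a, rfl⟩
      exact ⟨(a : OnePoint A), rfl⟩
  refine cofib_of_ndr ?_ ((Set.range z)ᶜ.indicator (fun _ => (1 : ℝ))) ?_ ?_ ?_ (constH B)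
    (incl_constH 0 B) ?_ ?_
  · exact injective_app_ofClosed z hz
  · exact hc.compl.continuous_indicator continuous_const
  · intro b
    exact Set.indicator_nonneg (fun _ _ => zero_le_one) b
  · intro b
    rw [hu0, hmem]
  · intro b t _
    exact app_constH B b t
  · intro b hb
    rw [app_constH, hmem, ← hu0]
    by_cases hb' : b ∈ (Set.range z)ᶜ
    · rw [Set.indicator_of_mem hb'] at hb
      exact absurd hb (lt_irrefl _)
    · exact Set.indicator_of_notMem hb' _

theorem cofib_finCast (k : ℕ) : Cofib (finCast X k) :=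
  cofib_of_clopen (A := finProd X k) (B := finProd X (k + 1)) (castFun X k)
    (isClosedEmbedding_castFun X k) (isOpenEmbedding_castFun X k).isOpen_range

/-- the strict cofibre of `finCast` is the last copy -/
noncomputable def cofFinCast (k : ℕ) : cof (finCast X k) ≅ X :=
  cofClosedOpen (Z := finProd X k) (Y := finProd X (k + 1)) (castFun X k)
    (isClosedEmbedding_castFun X k) (fun x : X => (Fin.last k, x))
    (isOpenEmbedding_finMk X (Fin.last k)) (isCompl_castFun X k)

theorem cofMap_cofFinCast (k : ℕ) :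
    cofMap (finCast X k) ≫ (cofFinCast X k).hom = finColl X (k + 1) (Fin.last k) :=
  cofMap_cofClosedOpen (Z := finProd X k) (Y := finProd X (k + 1)) (castFun X k)
    (isClosedEmbedding_castFun X k) (fun x : X => (Fin.last k, x))
    (isOpenEmbedding_finMk X (Fin.last k)) (isCompl_castFun X k)

theorem fc_finProd {X : LC} (hX : FC X) : ∀ k : ℕ, FC (finProd X k)
  | 0 => by
    haveI : IsEmpty (finProd X 0) := inferInstanceAs (IsEmpty (Fin 0 × X))
    exact FC.of_isEmpty _
  | k + 1 => FC.of_ext (cofib_finCast X k) (fc_finProd hX k) (cofFinCast X k) hX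

end LC

end Vale.Agent.P251.G
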