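import Vale.Agent.P251.G.Gen3

/-!
# P251, part G (G10): linear isomorphisms up to homotopy

`LC.homotopic_lin_id` : a linear automorphism with positive determinant is homotopic to the
identity; `LC.homotopic_lin_of_neg` : two with negative determinant are homotopic.
-/

open CategoryTheory MonoidalCategory Filter Topology OnePoint Set Matrix

set_option linter.unusedSectionVars false

namespace Vale.Agent.P251.G

namespace Gen

section joined

variable {n : ℕ}

/-- invertible matrices -/
def GLset (n : ℕ) : Set (Matrix (Fin n) (Fin n) ℝ) := {M | M.det ≠ 0}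

theorem joinedIn_mul {A B C D : Matrix (Fin n) (Fin n) ℝ} (h : JoinedIn (GLset n) A B)
    (k : JoinedIn (GLset n) C D) : JoinedIn (GLset n) (A * C) (B * D) := by
  obtain ⟨γ, hγ⟩ := h
  obtain ⟨δ, hδ⟩ := k
  refine ⟨⟨⟨fun t => γ t * δ t, γ.continuous.matrix_mul δ.continuous⟩, by simp, by simp⟩, ?_⟩
  intro t
  change (γ t * δ t).det ≠ 0
  rw [det_mul]
  exact mul_ne_zero (hγ t) (hδ t)

theorem joinedIn_transvection {i j : Fin n} (hij : i ≠ j) (c : ℝ) :
    JoinedIn (GLset n) 1 (transvection i j c) := by
  refine ⟨⟨⟨fun t : unitInterval => transvection i j ((t : ℝ) * c), ?_⟩, by simp, by simp⟩, ?_⟩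
  · unfold transvection
    refine continuous_const.add ?_
    refine continuous_matrix fun a b => ?_
    simp only [single_apply]
    split_ifs
    · fun_prop
    · fun_prop
  · intro t
    change (transvection i j ((t : ℝ) * c)).det ≠ 0
    rw [det_transvection_of_ne i j hij]
    exact one_ne_zero

theorem diag2n_eq' {i j : Fin n} (hij : i ≠ j) (c : ℝ) (hc : c ≠ 0) :
    (SpecialLinearGroup.diag2n hij c hc).1 =
      transvection j i (-1 / c) * transvection i j (c - 1) * transvection j i 1 *
        transvection i j (-(c - 1) / c) := by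
  rw [SpecialLinearGroup.diag2n_coe]
  simp only [transvection, add_mul, mul_add, one_mul, mul_one]
  simp only [single_mul_single_same, single_mul_single_of_ne _ _ _ _ hij.symm,
    single_mul_single_of_ne _ _ _ _ hij, zero_mul, add_zero]
  ext x y
  simp only [Matrix.add_apply, single_apply, diagonal_apply, one_apply]
  by_cases hxi : x = i
  · subst hxi
    by_cases hyi : y = x
    · subst hyi
      simp [hij.symm]
    · by_cases hyj : y = j
      · subst hyj
        simp only [hij, ↓reduceIte, hij.symm, and_self, add_zero, and_true, zero_add, and_false,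
          neg_sub]
        field_simp
        ring
      · simp [Ne.symm hyi, Ne.symm hyj]
  · by_cases hxj : x = j
    · subst hxj
      by_cases hyi : y = i
      · subst hyi
        simp only [hij.symm, ↓reduceIte, and_self, zero_add, hij, and_false, add_zero, and_true]
        field_simp
        ring
      · by_cases hyj : y = x
        · subst hyj
          simp only [↓reduceIte, hij.symm, hij, and_false, add_zero, and_true, and_self, zero_add,
            neg_sub]
          field_simp
          ring
        · simp [hij, Ne.symm hyi, Ne.symm hyj]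
    · simp [hxi, hxj, Ne.symm hxi, Ne.symm hxj]

theorem joinedIn_SL [Nontrivial (Fin n)] (M : SpecialLinearGroup (Fin n) ℝ) :
    JoinedIn (GLset n) 1 M.1 := by
  refine SpecialLinearGroup.diagonal_transvection_induction'
    (fun M => JoinedIn (GLset n) 1 M.1) M ?_ ?_ ?_
  · intro i j hij c hc
    rw [diag2n_eq' hij c hc]
    have := joinedIn_mul (joinedIn_mul (joinedIn_mul (joinedIn_transvection hij.symm (-1 / c))
      (joinedIn_transvection hij (c - 1))) (joinedIn_transvection hij.symm 1))
      (joinedIn_transvection hij (-(c - 1) / c))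
    simpa using this
  · intro i j hij a
    exact joinedIn_transvection hij a
  · intro A B hA hB
    have := joinedIn_mul hA hB
    rw [one_mul] at this
    exact this

theorem joinedIn_smul {M : Matrix (Fin n) (Fin n) ℝ} (hM : M ∈ GLset n) {c : ℝ} (hc : 0 < c) :
    JoinedIn (GLset n) M (c • M) := by
  refine ⟨⟨⟨fun t : unitInterval => ((1 - (t : ℝ)) + (t : ℝ) * c) • M, by fun_prop⟩,
    by simp, by simp⟩, ?_⟩
  intro t
  change (((1 - (t : ℝ)) + (t : ℝ) * c) • M).det ≠ 0
  rw [det_smul]
  refine mul_ne_zero (pow_ne_zero _ ?_) hM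
  have h1 := t.2.1
  have h2 := t.2.2
  rcases h1.eq_or_lt with h | h
  · rw [← h]; norm_num
  · have : 0 < (t : ℝ) * c := mul_pos h hc
    have : 0 ≤ 1 - (t : ℝ) := by linarith
    positivity

theorem joinedIn_pos {M : Matrix (Fin n) (Fin n) ℝ} (hM : 0 < M.det) :
    JoinedIn (GLset n) 1 M := by
  rcases Nat.lt_or_ge n 2 with hn | hn
  · interval_cases n
    · have : M = 1 := Subsingleton.elim _ _
      rw [this]
      exact JoinedIn.refl (by simp [GLset])
    · have h1 : M = M.det • (1 : Matrix (Fin 1) (Fin 1) ℝ) := by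
        ext i j
        have hi : i = 0 := Subsingleton.elim _ _
        have hj : j = 0 := Subsingleton.elim _ _
        subst hi hj
        simp
      rw [h1]
      exact joinedIn_smul (by simp [GLset]) hM
  · have : Nontrivial (Fin n) := Fin.nontrivial_iff_two_le.2 hn
    have hn0 : (n : ℝ) ≠ 0 := by positivity
    set c : ℝ := M.det ^ (1 / (n : ℝ)) with hc
    have hc0 : 0 < c := Real.rpow_pos_of_pos hM _
    have hcn : c ^ n = M.det := by
      rw [hc, ← Real.rpow_natCast, ← Real.rpow_mul hM.le, one_div_mul_cancel hn0, Real.rpow_one]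
    have hdet : (c⁻¹ • M).det = 1 := by
      rw [det_smul, Fintype.card_fin, inv_pow, hcn, inv_mul_cancel₀ hM.ne']
    have h1 := joinedIn_SL (⟨c⁻¹ • M, hdet⟩ : SpecialLinearGroup (Fin n) ℝ)
    have h2 : JoinedIn (GLset n) (c⁻¹ • M) (c • (c⁻¹ • M)) :=
      joinedIn_smul (by change _ ≠ _; rw [hdet]; exact one_ne_zero) hc0
    rw [smul_smul, mul_inv_cancel₀ hc0.ne', one_smul] at h2
    exact h1.trans h2

end joined

end Gen

namespace LC

open Gen

variable {E F : Type} [NormedAddCommGroup E] [NormedSpace ℝ E] [FiniteDimensional ℝ E]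
  [ProperSpace E]
  [NormedAddCommGroup F] [NormedSpace ℝ F] [FiniteDimensional ℝ F] [ProperSpace F]

/-- a continuous family of linear isomorphisms gives a homotopy -/
theorem homotopic_lin_of_family (a : unitInterval → (E ≃L[ℝ] F))
    (ha : Continuous (fun p : unitInterval × E => a p.1 p.2)) :
    Homotopic (lin (a 0)) (lin (a 1)) := by
  obtain ⟨c, hc, hcb⟩ : ∃ c > (0 : ℝ), ∀ (t : unitInterval) (x : E), c * ‖x‖ ≤ ‖a t x‖ := by
    have hK : IsCompact ((univ : Set unitInterval) ×ˢ Metric.sphere (0 : E) 1) :=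
      isCompact_univ.prod (isCompact_sphere _ _)
    rcases Set.eq_empty_or_nonempty ((univ : Set unitInterval) ×ˢ Metric.sphere (0 : E) 1)
      with h | h
    · refine ⟨1, one_pos, fun t x => ?_⟩
      by_cases hx : x = 0
      · simp [hx]
      · exfalso
        have : ((t, ‖x‖⁻¹ • x) : unitInterval × E) ∈
            ((univ : Set unitInterval) ×ˢ Metric.sphere (0 : E) 1) := by
          refine ⟨mem_univ _, ?_⟩
          rw [mem_sphere_zero_iff_norm, norm_smul, norm_inv, norm_norm,
            inv_mul_cancel₀ (norm_ne_zero_iff.2 hx)]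
        rw [h] at this
        exact this
    · obtain ⟨p, hp, hmin⟩ := hK.exists_isMinOn h ha.norm.continuousOn
      refine ⟨‖a p.1 p.2‖, norm_pos_iff.2 ?_, fun t x => ?_⟩
      · intro h0
        have h1 : p.2 = 0 := by simpa using h0
        have h2 := hp.2
        rw [h1, mem_sphere_zero_iff_norm, norm_zero] at h2
        exact zero_ne_one h2
      · by_cases hx : x = 0
        · simp [hx]
        · have hx0 : 0 < ‖x‖ := norm_pos_iff.2 hx
          have h1 : ((t, ‖x‖⁻¹ • x) : unitInterval × E) ∈
              ((univ : Set unitInterval) ×ˢ Metric.sphere (0 : E) 1) := by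
            refine ⟨mem_univ _, ?_⟩
            rw [mem_sphere_zero_iff_norm, norm_smul, norm_inv, norm_norm,
              inv_mul_cancel₀ (norm_ne_zero_iff.2 hx)]
          have h2 : ‖a p.1 p.2‖ ≤ ‖a t (‖x‖⁻¹ • x)‖ := hmin h1
          rw [_root_.map_smul, norm_smul, norm_inv, norm_norm, inv_mul_eq_div,
            le_div_iff₀ hx0] at h2
          exact h2
  rw [homotopic_iff]
  have hcon : Continuous (extI {p : unitInterval × OnePoint E | p.2 ≠ ∞}
      (fun p => a p.1 (val p.2))) := by
    refine continuous_extI_norm (isOpen_ne_infty continuous_snd) ?_ fun R hR =>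
      ⟨_, isClosed_le (f := fun p : unitInterval × OnePoint E => p.2) continuous_snd (R / c),
        isClosed_le_subset _, fun p hp h => ⟨hp, ?_⟩⟩
    · exact ha.comp_continuousOn (continuousOn_fst.prodMk (continuousOn_val_comp continuous_snd))
    · rw [le_div_iff₀ hc, mul_comm]
      exact (hcb _ _).trans h
  set H : unitInterval × OnePoint E → OnePoint F :=
    extI {p : unitInterval × OnePoint E | p.2 ≠ ∞} (fun p => a p.1 (val p.2)) with hH
  have hH1 : ∀ (t : unitInterval) (x : E), H (t, (x : OnePoint E)) = ((a t x : F) : OnePoint F) :=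
    fun t x => extI_of_mem (g := fun p : unitInterval × OnePoint E => a p.1 (val p.2))
      (show ((t, (x : OnePoint E)) : unitInterval × OnePoint E) ∈
        {p : unitInterval × OnePoint E | p.2 ≠ ∞} from coe_ne_infty x)
  have hH2 : ∀ t : unitInterval, H (t, ∞) = ∞ := fun t =>
    extI_of_notMem (g := fun p : unitInterval × OnePoint E => a p.1 (val p.2))
      (fun h : ((t, ∞) : unitInterval × OnePoint E) ∈
        {p : unitInterval × OnePoint E | p.2 ≠ ∞} => h rfl)
  refine ⟨⟨⟨⟨H, hcon⟩, ?_, ?_⟩, ?_⟩⟩
  · intro x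
    induction x using OnePoint.rec with
    | infty => exact (hH2 0).trans (app_infty (lin (a 0))).symm
    | coe x => exact hH1 0 x
  · intro x
    induction x using OnePoint.rec with
    | infty => exact (hH2 1).trans (app_infty (lin (a 1))).symm
    | coe x => exact hH1 1 x
  · intro t x hx
    rw [mem_singleton_iff] at hx
    subst hx
    exact (hH2 t).trans (app_infty (lin (a 0))).symm

@[simp] theorem lin_refl : lin (ContinuousLinearEquiv.refl ℝ E) = 𝟙 (LC.of E) := by
  ext x; rfl

theorem lin_trans {G : Type} [NormedAddCommGroup G] [NormedSpace ℝ G] [FiniteDimensional ℝ G]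
    [ProperSpace G] (a : E ≃L[ℝ] F) (b : F ≃L[ℝ] G) : lin (a.trans b) = lin a ≫ lin b := by
  ext x; rfl

/-- an invertible matrix as a linear isomorphism -/
noncomputable def mlin {n : ℕ} (M : Matrix (Fin n) (Fin n) ℝ) (h : M.det ≠ 0) :
    (Fin n → ℝ) ≃L[ℝ] (Fin n → ℝ) :=
  ((Matrix.toLin' M).toContinuousLinearMap).toContinuousLinearEquivOfDetNeZero (by
    rw [LinearMap.det_toContinuousLinearMap, LinearMap.det_toLin']; exact h)

@[simp] theorem mlin_apply {n : ℕ} (M : Matrix (Fin n) (Fin n) ℝ) (h : M.det ≠ 0)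
    (x : Fin n → ℝ) : mlin M h x = M *ᵥ x := rfl

theorem homotopic_mlin {n : ℕ} {M : Matrix (Fin n) (Fin n) ℝ} (h : 0 < M.det) :
    Homotopic (lin (mlin M h.ne')) (𝟙 (LC.of (Fin n → ℝ))) := by
  obtain ⟨γ, hγ0⟩ := joinedIn_pos h
  have hγ : ∀ t, (γ t).det ≠ 0 := hγ0
  have h1 := homotopic_lin_of_family (fun t => mlin (γ t) (hγ t)) (by
    simp only [mlin_apply]
    exact (γ.continuous.comp continuous_fst).matrix_mulVec continuous_snd)
  have e0 : lin (mlin (γ 0) (hγ 0)) = 𝟙 (LC.of (Fin n → ℝ)) := by
    ext x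
    rw [app_lin_coe, mlin_apply, γ.source, one_mulVec]
    rfl
  have e1 : lin (mlin (γ 1) (hγ 1)) = lin (mlin M h.ne') := by
    ext x
    rw [app_lin_coe, mlin_apply, γ.target]
    rfl
  rw [e0, e1] at h1
  exact h1.symm

/-- **Linear automorphisms with positive determinant are homotopic to the identity.** -/
theorem homotopic_lin_id (a : E ≃L[ℝ] E) (h : 0 < (a : E →L[ℝ] E).det) :
    Homotopic (lin a) (𝟙 (LC.of E)) := by
  set b := Module.finBasis ℝ E with hb
  set e : E ≃L[ℝ] (Fin (Module.finrank ℝ E) → ℝ) := b.equivFun.toContinuousLinearEquiv with he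
  set M := LinearMap.toMatrix b b (a : E →ₗ[ℝ] E) with hM
  have hdet : M.det = (a : E →L[ℝ] E).det := LinearMap.det_toMatrix b (a : E →ₗ[ℝ] E)
  have hMpos : 0 < M.det := by rw [hdet]; exact h
  have key : lin a = lin e ≫ lin (mlin M hMpos.ne') ≫ lin e.symm := by
    rw [← lin_trans, ← lin_trans]
    congr 1
    ext x
    have h1 : M *ᵥ (b.equivFun x) = b.equivFun (a x) := by
      rw [hM]
      exact LinearMap.toMatrix_mulVec_repr b b (a : E →ₗ[ℝ] E) x
    change a x = e.symm (M *ᵥ (b.equivFun x))
    rw [h1]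
    exact (e.symm_apply_apply (a x)).symm
  rw [key]
  have h2 : Homotopic (lin e ≫ lin (mlin M hMpos.ne') ≫ lin e.symm)
      (lin e ≫ 𝟙 _ ≫ lin e.symm) :=
    Homotopic.comp_left _ ((homotopic_mlin hMpos).comp_right _)
  refine h2.trans (Homotopic.of_eq ?_)
  rw [Category.id_comp, ← lin_trans]
  ext x
  rw [app_lin_coe]
  change ((e.symm (e x) : E) : OnePoint E) = x
  rw [e.symm_apply_apply]

/-- Two linear isomorphisms with the same orientation are homotopic. -/
theorem homotopic_lin_of_det (a b : E ≃L[ℝ] E)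
    (h : 0 < (a : E →L[ℝ] E).det * (b : E →L[ℝ] E).det) : Homotopic (lin a) (lin b) := by
  have hb : (b : E →L[ℝ] E).det ≠ 0 := fun h0 => by rw [h0, mul_zero] at h; exact lt_irrefl _ h
  have h1 : lin a = lin (a.trans b.symm) ≫ lin b := by
    rw [← lin_trans]
    ext x
    simp
  have h2 : 0 < ((a.trans b.symm : E ≃L[ℝ] E) : E →L[ℝ] E).det := by
    have h3 : ((a.trans b.symm : E ≃L[ℝ] E) : E →L[ℝ] E).det * (b : E →L[ℝ] E).det =
        (a : E →L[ℝ] E).det := by
      have : LinearMap.det ((b : E →ₗ[ℝ] E) ∘ₗ ((a.trans b.symm : E ≃L[ℝ] E) : E →ₗ[ℝ] E)) =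
          LinearMap.det (a : E →ₗ[ℝ] E) := by
        congr 1
        ext x
        simp
      rw [LinearMap.det_comp, mul_comm] at this
      exact this
    rw [← h3] at h
    have h4 : 0 < (b : E →L[ℝ] E).det ^ 2 := by positivity
    nlinarith [h, h4]
  rw [h1]
  have h5 := (homotopic_lin_id _ h2).comp_right (lin b)
  rw [Category.id_comp] at h5
  exact h5

end LC

end Vale.Agent.P251.G
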