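import Vale.Agent.P251.G.Cofibre
import Mathlib.Analysis.Normed.Group.Bounded
import Mathlib.Analysis.Normed.Module.FiniteDimension
import Mathlib.Topology.Algebra.Order.Field

/-!
# P251, part G: continuity into one-point compactifications

* `tendsto_infty_of_gauge`, `eventually_gauge_of_tendsto`: convergence to `∞` in `OnePoint Y`
  expressed by a real function `φ` on `Y` (for example the norm);
* `ratio a s`: the function `w ↦ a w / s w` into `OnePoint E` (`∞` where `s = 0`), continuous when
  `a` and `s` have no common zero;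
* `contr_HH`: the half line (pointed at infinity) is contractible.
-/

open CategoryTheory MonoidalCategory Filter Topology OnePoint

namespace Vale.Agent.P251.G

namespace LC

section gauge

variable {Y W : Type*} [TopologicalSpace Y]

theorem tendsto_infty_iff [T2Space Y] {l : Filter W} {f : W → OnePoint Y} :
    Tendsto f l (𝓝 ∞) ↔ ∀ K : Set Y, IsCompact K → ∀ᶠ w in l, f w ∉ ((↑) '' K : Set (OnePoint Y)) := by
  rw [OnePoint.hasBasis_nhds_infty.tendsto_right_iff]
  constructor
  · intro h K hK
    have := h K ⟨hK.isClosed, hK⟩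
    filter_upwards [this] with w hw
    rintro ⟨y, hy, hyw⟩
    rw [← hyw] at hw
    rcases hw with ⟨y', hy', e⟩ | hw
    · exact hy' (by rwa [← OnePoint.coe_injective e] at hy)
    · exact OnePoint.coe_ne_infty y hw
  · rintro h K ⟨-, hK⟩
    filter_upwards [h K hK] with w hw
    cases e : f w using OnePoint.rec with
    | infty => right; rfl
    | coe y =>
      left
      refine ⟨y, fun hy => hw ⟨y, hy, e.symm⟩, rfl⟩

theorem tendsto_infty_of_gauge [T2Space Y] {φ : Y → ℝ} (hφ : Continuous φ) {l : Filter W}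
    {f : W → OnePoint Y} (h : ∀ r : ℝ, ∀ᶠ w in l, ∀ y : Y, f w = (y : OnePoint Y) → r < φ y) :
    Tendsto f l (𝓝 ∞) := by
  rw [tendsto_infty_iff]
  intro K hK
  obtain ⟨r, hr⟩ := (hK.image hφ).bddAbove
  filter_upwards [h r] with w hw
  rintro ⟨y, hy, e⟩
  exact absurd (hr ⟨y, hy, rfl⟩) (not_le.mpr (hw y e.symm))

theorem eventually_gauge_of_tendsto [T2Space Y] {φ : Y → ℝ} (hφ : Tendsto φ (cocompact Y) atTop)
    {l : Filter W} {f : W → OnePoint Y} (h : Tendsto f l (𝓝 ∞)) (r : ℝ) :
    ∀ᶠ w in l, ∀ y : Y, f w = (y : OnePoint Y) → r < φ y := by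
  have h1 : ∀ᶠ y in cocompact Y, r < φ y := hφ.eventually (eventually_gt_atTop r)
  obtain ⟨K, hK, hKr⟩ := mem_cocompact.mp h1
  filter_upwards [tendsto_infty_iff.mp h K hK] with w hw y hy
  by_contra hr
  apply hw
  refine ⟨y, ?_, hy.symm⟩
  by_contra hyK
  exact hr (hKr hyK)

/-- Continuity at a point where the value is `∞`. -/
theorem continuousAt_of_gauge [TopologicalSpace W] [T2Space Y] {φ : Y → ℝ} (hφ : Continuous φ)
    {f : W → OnePoint Y} {w₀ : W} (h₀ : f w₀ = ∞)
    (h : ∀ r : ℝ, ∀ᶠ w in 𝓝 w₀, ∀ y : Y, f w = (y : OnePoint Y) → r < φ y) :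
    ContinuousAt f w₀ := by
  rw [ContinuousAt, h₀]
  exact tendsto_infty_of_gauge hφ h

end gauge

section ratio

variable {E W : Type*} [NormedAddCommGroup E] [NormedSpace ℝ E]

open scoped Classical in
/-- `w ↦ a w / s w` in `OnePoint E`, with value `∞` where `s w = 0`. -/
noncomputable def ratio (a : W → E) (s : W → ℝ) (w : W) : OnePoint E :=
  if s w = 0 then ∞ else (((s w)⁻¹ • a w : E) : OnePoint E)

theorem ratio_of_eq_zero {a : W → E} {s : W → ℝ} {w : W} (h : s w = 0) : ratio a s w = ∞ :=
  if_pos h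

theorem ratio_of_ne_zero {a : W → E} {s : W → ℝ} {w : W} (h : s w ≠ 0) :
    ratio a s w = (((s w)⁻¹ • a w : E) : OnePoint E) := if_neg h

theorem continuous_ratio [TopologicalSpace W] {a : W → E} {s : W → ℝ} (ha : Continuous a) (hs : Continuous s)
    (h : ∀ w, s w = 0 → a w ≠ 0) : Continuous (ratio a s) := by
  rw [continuous_iff_continuousAt]
  intro w₀
  by_cases h₀ : s w₀ = 0
  · refine continuousAt_of_gauge continuous_norm (ratio_of_eq_zero h₀) ?_
    intro r
    have hpos : 0 < ‖a w₀‖ := norm_pos_iff.mpr (h w₀ h₀)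
    have h1 : ∀ᶠ w in 𝓝 w₀, ‖a w₀‖ / 2 < ‖a w‖ :=
      (ha.norm.tendsto w₀).eventually (lt_mem_nhds (by linarith))
    have h2 : ∀ᶠ w in 𝓝 w₀, |s w| * (|r| + 1) < ‖a w₀‖ / 2 := by
      have : Tendsto (fun w => |s w| * (|r| + 1)) (𝓝 w₀) (𝓝 (|s w₀| * (|r| + 1))) :=
        (hs.abs.tendsto w₀).mul_const _
      rw [h₀, abs_zero, zero_mul] at this
      exact this.eventually (gt_mem_nhds (by linarith))
    filter_upwards [h1, h2] with w hw1 hw2 y hy
    have hsw : s w ≠ 0 := by
      intro hsw
      rw [ratio_of_eq_zero hsw] at hy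
      exact OnePoint.infty_ne_coe _ hy
    rw [ratio_of_ne_zero hsw] at hy
    rw [← OnePoint.coe_injective hy, norm_smul, norm_inv, Real.norm_eq_abs]
    have hs' : 0 < |s w| := abs_pos.mpr hsw
    rw [inv_mul_eq_div, lt_div_iff₀ hs']
    calc r * |s w| ≤ |s w| * (|r| + 1) := by
          nlinarith [le_abs_self r]
      _ < ‖a w‖ := by linarith
  · have h1 : ∀ᶠ w in 𝓝 w₀, s w ≠ 0 := (hs.tendsto w₀).eventually_ne h₀
    have h2 : ContinuousAt (fun w => (((s w)⁻¹ • a w : E) : OnePoint E)) w₀ :=
      OnePoint.continuous_coe.continuousAt.comp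
        ((hs.continuousAt.inv₀ h₀).smul ha.continuousAt)
    refine h2.congr ?_
    filter_upwards [h1] with w hw
    exact (ratio_of_ne_zero hw).symm

/-- `ratio` tends to infinity if the norm does. -/
theorem tendsto_ratio {a : W → E} {s : W → ℝ} {l : Filter W}
    (h : ∀ r : ℝ, ∀ᶠ w in l, s w ≠ 0 → r * |s w| < ‖a w‖) : Tendsto (ratio a s) l (𝓝 ∞) := by
  refine tendsto_infty_of_gauge continuous_norm ?_
  intro r
  filter_upwards [h r] with w hw y hy
  have hsw : s w ≠ 0 := by
    intro hsw
    rw [ratio_of_eq_zero hsw] at hy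
    exact OnePoint.infty_ne_coe _ hy
  rw [ratio_of_ne_zero hsw] at hy
  rw [← OnePoint.coe_injective hy, norm_smul, norm_inv, Real.norm_eq_abs, inv_mul_eq_div,
    lt_div_iff₀ (abs_pos.mpr hsw)]
  exact hw hsw

end ratio

section HH

/-- The contraction of the half line. -/
theorem contr_HH : Contr HH := by
  classical
  let f : NNReal × unitInterval → OnePoint NNReal := fun p =>
    if p.2 = 1 then ∞ else
      ((p.1 + Real.toNNReal ((p.2 : ℝ) / (1 - p.2)) : NNReal) : OnePoint NNReal)
  have hf1 : ∀ p : NNReal × unitInterval, p.2 = 1 → f p = ∞ := fun p hp => if_pos hp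
  have hf2 : ∀ p : NNReal × unitInterval, p.2 ≠ 1 → f p =
      ((p.1 + Real.toNNReal ((p.2 : ℝ) / (1 - p.2)) : NNReal) : OnePoint NNReal) :=
    fun p hp => if_neg hp
  have hlt : ∀ t : unitInterval, t ≠ 1 → (0 : ℝ) < 1 - t := by
    intro t ht
    have := t.2.2
    rcases lt_or_eq_of_le this with h | h
    · linarith
    · exact absurd (Subtype.ext h) ht
  have hcont : Continuous f := by
    rw [continuous_iff_continuousAt]
    rintro ⟨x, t⟩
    by_cases ht : t = 1
    · refine continuousAt_of_gauge (φ := fun y : NNReal => (y : ℝ)) NNReal.continuous_coe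
        (hf1 _ ht) ?_
      intro r
      have h1 : ∀ᶠ p : NNReal × unitInterval in 𝓝 (x, t), r * (1 - (p.2 : ℝ)) < (p.2 : ℝ) := by
        have hc1 : Continuous fun p : NNReal × unitInterval => r * (1 - (p.2 : ℝ)) := by fun_prop
        have hc2 : Continuous fun p : NNReal × unitInterval => (p.2 : ℝ) := by fun_prop
        refine (isOpen_lt hc1 hc2).mem_nhds ?_
        simp [ht]
      filter_upwards [h1] with p hp y hy
      have hp1 : p.2 ≠ 1 := by
        intro hp1
        rw [hf1 p hp1] at hy
        exact OnePoint.infty_ne_coe _ hy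
      rw [hf2 p hp1] at hy
      rw [← OnePoint.coe_injective hy]
      have h0 := hlt p.2 hp1
      have h2 : (0 : ℝ) ≤ (p.2 : ℝ) / (1 - p.2) := div_nonneg p.2.2.1 h0.le
      rw [NNReal.coe_add, Real.coe_toNNReal _ h2]
      have h3 : r < (p.2 : ℝ) / (1 - p.2) := by rwa [lt_div_iff₀ h0]
      have h4 : (0 : ℝ) ≤ (p.1 : ℝ) := p.1.2
      linarith
    · have h1 : ∀ᶠ p : NNReal × unitInterval in 𝓝 (x, t), p.2 ≠ 1 :=
        (continuous_snd.tendsto (x, t)).eventually_ne ht
      have h0 := hlt t ht
      have h2 : ContinuousAt (fun p : NNReal × unitInterval =>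
          ((p.1 + Real.toNNReal ((p.2 : ℝ) / (1 - p.2)) : NNReal) : OnePoint NNReal)) (x, t) := by
        refine OnePoint.continuous_coe.continuousAt.comp ?_
        refine continuous_fst.continuousAt.add ?_
        refine continuous_real_toNNReal.continuousAt.comp ?_
        refine ContinuousAt.div ?_ ?_ h0.ne'
        · exact (continuous_subtype_val.comp continuous_snd).continuousAt
        · exact (continuous_const.sub (continuous_subtype_val.comp continuous_snd)).continuousAt
      refine h2.congr ?_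
      filter_upwards [h1] with p hp
      exact (hf2 p hp).symm
  have htend : Tendsto f (cocompact (NNReal × unitInterval)) (𝓝 ∞) := by
    refine tendsto_infty_of_gauge (φ := fun y : NNReal => (y : ℝ)) NNReal.continuous_coe ?_
    intro r
    have hK : IsCompact ((Set.Icc (0 : NNReal) (Real.toNNReal r)) ×ˢ
        (Set.univ : Set unitInterval)) := isCompact_Icc.prod isCompact_univ
    filter_upwards [hK.compl_mem_cocompact] with p hp y hy
    have hp1 : p.2 ≠ 1 := by
      intro hp1
      rw [hf1 p hp1] at hy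
      exact OnePoint.infty_ne_coe _ hy
    rw [hf2 p hp1] at hy
    rw [← OnePoint.coe_injective hy]
    have hp' : Real.toNNReal r < p.1 := by
      by_contra hle
      exact hp ⟨⟨zero_le, not_lt.mp hle⟩, Set.mem_univ _⟩
    have h1 : r < (p.1 : ℝ) :=
      (Real.le_coe_toNNReal r).trans_lt (NNReal.coe_lt_coe.mpr hp')
    rw [NNReal.coe_add]
    have h2 : (0 : ℝ) ≤ ((Real.toNNReal ((p.2 : ℝ) / (1 - p.2)) : NNReal) : ℝ) := NNReal.coe_nonneg _
    linarith
  refine ⟨mk' (X := LC.of (NNReal × unitInterval)) f hcont htend, ?_, ?_⟩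
  · apply hom_ext
    intro x
    change f (x, 0) = (x : OnePoint NNReal)
    rw [hf2 _ (by simp)]
    simp
  · apply hom_ext
    intro x
    exact hf1 (x, 1) rfl

end HH

end LC

end Vale.Agent.P251.G
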