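import Vale.Agent.P251.G.DegLC
import Vale.Agent.P251.G.Gauge
import Mathlib.Analysis.Normed.Module.Ball.Homeomorph

/-!
# P251, G7(c): collapses onto balls, pinch maps

* `collapseBall c r : LC.of E ⟶ LC.of E`, the collapse onto the open ball of centre `c` and radius
  `r > 0`, followed by the standard homeomorphism; it is homotopic to the identity.
* `mfold m : LC.of ℝ ⟶ LC.of ℝ`: collapse onto `m` disjoint intervals, followed by the fold map;
  its degree is `m`.
-/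

open Set Topology Bornology Filter CategoryTheory MonoidalCategory
open scoped unitInterval OnePoint

namespace Vale.Agent.P251.G

open Vale.Agent.P205.TI.Deg

namespace LC

section Ball

variable {E : Type} [NormedAddCommGroup E] [NormedSpace ℝ E]

/-- the standard embedding onto the ball of centre `c` and radius `r` -/
noncomputable def ballEmb (c : E) (r : ℝ) (x : E) : E :=
  c + r • OpenPartialHomeomorph.univUnitBall x

theorem isOpenEmbedding_ballEmb (c : E) {r : ℝ} (hr : 0 < r) : IsOpenEmbedding (ballEmb c r) := by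
  have h1 : IsOpenEmbedding (OpenPartialHomeomorph.univUnitBall : E → E) :=
    OpenPartialHomeomorph.univUnitBall.isOpenEmbedding rfl
  exact (Homeomorph.addLeft c).isOpenEmbedding.comp
    ((Homeomorph.smulOfNeZero r hr.ne').isOpenEmbedding.comp h1)

theorem ballEmb_symm (c : E) {r : ℝ} (hr : 0 < r) {x : E} (hx : ‖r⁻¹ • (x - c)‖ < 1) :
    ballEmb c r ((√(1 - ‖r⁻¹ • (x - c)‖ ^ 2))⁻¹ • (r⁻¹ • (x - c))) = x := by
  have h1 : OpenPartialHomeomorph.univUnitBall
      ((√(1 - ‖r⁻¹ • (x - c)‖ ^ 2))⁻¹ • (r⁻¹ • (x - c))) = r⁻¹ • (x - c) :=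
    OpenPartialHomeomorph.univUnitBall.right_inv (mem_ball_zero_iff.2 hx)
  rw [ballEmb, h1, smul_smul, mul_inv_cancel₀ hr.ne', one_smul, add_sub_cancel]

theorem mem_range_ballEmb (c : E) {r : ℝ} (hr : 0 < r) {x : E} :
    x ∈ range (ballEmb c r) ↔ ‖r⁻¹ • (x - c)‖ < 1 := by
  constructor
  · rintro ⟨y, rfl⟩
    have h1 : r⁻¹ • (ballEmb c r y - c) = OpenPartialHomeomorph.univUnitBall y := by
      rw [ballEmb, add_sub_cancel_left, smul_smul, inv_mul_cancel₀ hr.ne', one_smul]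
    rw [h1]
    exact mem_ball_zero_iff.1
      (OpenPartialHomeomorph.univUnitBall.map_source (mem_univ y))
  · intro h
    exact ⟨_, ballEmb_symm c hr h⟩

theorem mem_range_ballEmb' (c : E) {r : ℝ} (hr : 0 < r) {x : E} :
    x ∈ range (ballEmb c r) ↔ x ∈ Metric.ball c r := by
  rw [mem_range_ballEmb c hr, norm_smul, norm_inv, Real.norm_eq_abs, abs_of_pos hr,
    inv_mul_lt_iff₀ hr, mul_one, mem_ball_iff_norm]

variable [FiniteDimensional ℝ E]

/-- the collapse onto a ball -/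
noncomputable def collapseBall (c : E) (r : ℝ) (hr : 0 < r) : LC.of E ⟶ LC.of E :=
  ofOpen (X := LC.of E) (Y := LC.of E) (ballEmb c r) (isOpenEmbedding_ballEmb c hr)

theorem app_collapseBall (c : E) {r : ℝ} (hr : 0 < r) (x : E) :
    app (collapseBall c r hr) (x : OnePoint E) =
      ratio (fun x : E => r⁻¹ • (x - c)) (fun x : E => √(max 0 (1 - ‖r⁻¹ • (x - c)‖ ^ 2))) x := by
  by_cases h : ‖r⁻¹ • (x - c)‖ < 1
  · have h2 : 0 < 1 - ‖r⁻¹ • (x - c)‖ ^ 2 := by
      have := norm_nonneg (r⁻¹ • (x - c))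
      nlinarith
    have h3 : √(max 0 (1 - ‖r⁻¹ • (x - c)‖ ^ 2)) ≠ 0 := by
      rw [max_eq_right h2.le]
      exact (Real.sqrt_pos.2 h2).ne'
    rw [ratio_of_ne_zero (s := fun x : E => √(max 0 (1 - ‖r⁻¹ • (x - c)‖ ^ 2))) h3,
      max_eq_right h2.le]
    have h1 := app_ofOpen_coe (X := LC.of E) (Y := LC.of E) (ballEmb c r)
      (isOpenEmbedding_ballEmb c hr) ((√(1 - ‖r⁻¹ • (x - c)‖ ^ 2))⁻¹ • (r⁻¹ • (x - c)))
    rw [ballEmb_symm c hr h] at h1
    exact h1
  · have h2 : 1 - ‖r⁻¹ • (x - c)‖ ^ 2 ≤ 0 := by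
      have := not_lt.1 h
      nlinarith
    have h3 : √(max 0 (1 - ‖r⁻¹ • (x - c)‖ ^ 2)) = 0 := by
      rw [max_eq_left h2, Real.sqrt_zero]
    rw [ratio_of_eq_zero (s := fun x : E => √(max 0 (1 - ‖r⁻¹ • (x - c)‖ ^ 2))) h3]
    exact app_ofOpen_of_notMem (X := LC.of E) (Y := LC.of E) (ballEmb c r)
      (isOpenEmbedding_ballEmb c hr) (x := x) (fun hx => h ((mem_range_ballEmb c hr).1 hx))

/-- The collapse onto a ball is homotopic to the identity. -/
theorem homotopic_collapseBall (c : E) {r : ℝ} (hr : 0 < r) :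
    Homotopic (collapseBall c r hr) (𝟙 (LC.of E)) := by
  let ρ : E × unitInterval → ℝ := fun p => (1 - (p.2 : ℝ)) * r + p.2
  have hρ : ∀ p, 0 < ρ p := by
    rintro ⟨x, t⟩
    have h0 := t.2.1
    have h1 := t.2.2
    show 0 < (1 - (t : ℝ)) * r + t
    rcases eq_or_lt_of_le h0 with h | h
    · rw [← h]; linarith
    · have := mul_nonneg (sub_nonneg.2 h1) hr.le
      linarith
  let a : E × unitInterval → E := fun p => (ρ p)⁻¹ • (p.1 - (1 - (p.2 : ℝ)) • c)
  let s : E × unitInterval → ℝ := fun p => √(max 0 (1 - (1 - (p.2 : ℝ)) * ‖a p‖ ^ 2))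
  have hρc : Continuous ρ := by fun_prop
  have hac : Continuous a := by
    refine (hρc.inv₀ fun p => (hρ p).ne').smul ?_
    fun_prop
  have hsc : Continuous s := by fun_prop
  have hcont : Continuous (ratio a s) := by
    refine continuous_ratio hac hsc fun p hp ha => ?_
    have h1 : s p = 1 := by
      show √(max 0 (1 - (1 - (p.2 : ℝ)) * ‖a p‖ ^ 2)) = 1
      rw [ha]
      simp
    rw [h1] at hp
    exact one_ne_zero hp
  have htend : Tendsto (ratio a s) (cocompact (E × unitInterval)) (𝓝 ∞) := by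
    refine tendsto_ratio fun b => ?_
    have hK : IsCompact ((Metric.closedBall (0 : E) (‖c‖ + (|b| + 1) * (r + 1))) ×ˢ
        (Set.univ : Set unitInterval)) := (isCompact_closedBall _ _).prod isCompact_univ
    filter_upwards [hK.compl_mem_cocompact] with p hp _
    have hp' : ‖c‖ + (|b| + 1) * (r + 1) < ‖p.1‖ := by
      by_contra hle
      exact hp ⟨mem_closedBall_zero_iff.2 (not_lt.1 hle), mem_univ _⟩
    have h0 := p.2.2.1
    have h1 := p.2.2.2
    have hs1 : |s p| ≤ 1 := by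
      rw [abs_of_nonneg (Real.sqrt_nonneg _)]
      rw [Real.sqrt_le_one]
      refine max_le zero_le_one ?_
      have := mul_nonneg (sub_nonneg.2 h1) (sq_nonneg ‖a p‖)
      linarith
    have hs0 : 0 ≤ |s p| := abs_nonneg _
    have hρ1 : ρ p ≤ r + 1 := by
      show (1 - (p.2 : ℝ)) * r + p.2 ≤ r + 1
      nlinarith
    have hna : (|b| + 1) < ‖a p‖ := by
      show (|b| + 1) < ‖(ρ p)⁻¹ • (p.1 - (1 - (p.2 : ℝ)) • c)‖
      rw [norm_smul, norm_inv, Real.norm_eq_abs, abs_of_pos (hρ p), inv_mul_eq_div,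
        lt_div_iff₀ (hρ p)]
      have h2 : ‖p.1‖ - ‖c‖ ≤ ‖p.1 - (1 - (p.2 : ℝ)) • c‖ := by
        have h3 : ‖(1 - (p.2 : ℝ)) • c‖ ≤ ‖c‖ := by
          rw [norm_smul, Real.norm_eq_abs, abs_of_nonneg (sub_nonneg.2 h1)]
          have := norm_nonneg c
          nlinarith
        have h4 := norm_sub_norm_le p.1 ((1 - (p.2 : ℝ)) • c)
        linarith
      have h5 : (|b| + 1) * ρ p ≤ (|b| + 1) * (r + 1) :=
        mul_le_mul_of_nonneg_left hρ1 (by positivity)
      linarith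
    calc b * |s p| ≤ |b| * |s p| := mul_le_mul_of_nonneg_right (le_abs_self b) hs0
      _ ≤ |b| * 1 := mul_le_mul_of_nonneg_left hs1 (abs_nonneg b)
      _ < ‖a p‖ := by linarith
  refine ⟨mk' (X := LC.of (E × unitInterval)) (Y := LC.of E) (ratio a s) hcont htend, ?_, ?_⟩
  · apply hom_ext
    intro x
    change ratio a s (x, 0) = app (collapseBall c r hr) (x : OnePoint E)
    rw [app_collapseBall c hr]
    have ha : a (x, 0) = r⁻¹ • (x - c) := by simp [a, ρ]
    have hs : s (x, 0) = √(max 0 (1 - ‖r⁻¹ • (x - c)‖ ^ 2)) := by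
      show √(max 0 (1 - (1 - ((0 : unitInterval) : ℝ)) * ‖a (x, 0)‖ ^ 2)) = _
      rw [ha]
      simp
    unfold ratio
    rw [ha, hs]
  · apply hom_ext
    intro x
    change ratio a s (x, 1) = (x : OnePoint E)
    have hs : s (x, 1) = 1 := by simp [s]
    rw [ratio_of_ne_zero (by rw [hs]; exact one_ne_zero), hs]
    simp [a, ρ]

end Ball

section Fold

/-- the embedding of `m` disjoint lines into the line -/
noncomputable def lines (m : ℕ) (p : Fin m × ℝ) : ℝ := ballEmb ((p.1 : ℕ) : ℝ) (1 / 2) p.2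

theorem lines_mem_ball {m : ℕ} (p : Fin m × ℝ) :
    lines m p ∈ Metric.ball ((p.1 : ℕ) : ℝ) (1 / 2) :=
  (mem_range_ballEmb' _ (by norm_num)).1 ⟨p.2, rfl⟩

theorem ball_disjoint {i j : ℕ} (h : i ≠ j) :
    Disjoint (Metric.ball (i : ℝ) (1 / 2)) (Metric.ball (j : ℝ) (1 / 2)) := by
  refine Metric.ball_disjoint_ball ?_
  rw [Nat.dist_cast_real, Nat.dist_eq]
  have h1 : (1 : ℤ) ≤ |(i : ℤ) - j| := Int.one_le_abs (by omega)
  have h2 : (1 : ℝ) ≤ |(i : ℝ) - j| := by exact_mod_cast h1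
  linarith

theorem isOpenEmbedding_lines (m : ℕ) : IsOpenEmbedding (lines m) := by
  refine IsOpenEmbedding.of_continuous_injective_isOpenMap ?_ ?_ ?_
  · exact continuous_prod_of_discrete_left.2 fun i =>
      (isOpenEmbedding_ballEmb ((i : ℕ) : ℝ) (by norm_num)).continuous
  · rintro ⟨i, x⟩ ⟨j, y⟩ h
    have hij : i = j := by
      by_contra hne
      have h1 := lines_mem_ball (i, x)
      have h2 := lines_mem_ball (j, y)
      rw [h] at h1
      exact disjoint_left.1 (ball_disjoint fun h => hne (Fin.ext h)) h1 h2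
    subst hij
    have h3 : x = y := (isOpenEmbedding_ballEmb ((i : ℕ) : ℝ) (r := 1 / 2) (by norm_num)).injective h
    rw [h3]
  · exact isOpenMap_prod_of_discrete_left.2 fun i =>
      (isOpenEmbedding_ballEmb ((i : ℕ) : ℝ) (by norm_num)).isOpenMap

/-- the fold map -/
noncomputable def foldR (m : ℕ) : LC.of (Fin m × ℝ) ⟶ LC.of ℝ :=
  ofProper (X := LC.of (Fin m × ℝ)) (Y := LC.of ℝ) (fun p => p.2) continuous_snd
    ((isProperMap_iff_tendsto_cocompact.1 (isProperMap_snd_of_compactSpace)).2)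

/-- the map of degree `m`: collapse onto `m` intervals, then fold -/
noncomputable def mfold (m : ℕ) : LC.of ℝ ⟶ LC.of ℝ :=
  ofOpen (X := LC.of ℝ) (Y := LC.of (Fin m × ℝ)) (lines m) (isOpenEmbedding_lines m) ≫ foldR m

theorem app_mfold_of_mem {m : ℕ} {i : ℕ} (hi : i < m) {x : ℝ}
    (hx : x ∈ Metric.ball (i : ℝ) (1 / 2)) :
    app (mfold m) (x : OnePoint ℝ) = app (collapseBall (i : ℝ) (1 / 2) (by norm_num))
      (x : OnePoint ℝ) := by
  obtain ⟨y, rfl⟩ := (mem_range_ballEmb' (i : ℝ) (by norm_num)).2 hx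
  have h1 : app (collapseBall (i : ℝ) (1 / 2) (by norm_num))
      ((ballEmb (i : ℝ) (1 / 2) y : ℝ) : OnePoint ℝ) = (y : OnePoint ℝ) :=
    app_ofOpen_coe (X := LC.of ℝ) (Y := LC.of ℝ) (ballEmb (i : ℝ) (1 / 2))
      (isOpenEmbedding_ballEmb (i : ℝ) (by norm_num)) y
  have h2 : app (ofOpen (X := LC.of ℝ) (Y := LC.of (Fin m × ℝ)) (lines m)
      (isOpenEmbedding_lines m)) ((ballEmb (i : ℝ) (1 / 2) y : ℝ) : OnePoint ℝ) =
      (((⟨i, hi⟩, y) : Fin m × ℝ) : OnePoint (Fin m × ℝ)) :=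
    app_ofOpen_coe (X := LC.of ℝ) (Y := LC.of (Fin m × ℝ)) (lines m)
      (isOpenEmbedding_lines m) (⟨i, hi⟩, y)
  rw [h1, mfold, app_comp, h2]
  rfl

theorem app_mfold_of_notMem {m : ℕ} {x : ℝ}
    (hx : ∀ i < m, x ∉ Metric.ball (i : ℝ) (1 / 2)) : app (mfold m) (x : OnePoint ℝ) = ∞ := by
  rw [mfold, app_comp]
  have h1 : app (ofOpen (X := LC.of ℝ) (Y := LC.of (Fin m × ℝ)) (lines m)
      (isOpenEmbedding_lines m)) (x : OnePoint ℝ) = ∞ :=
    app_ofOpen_of_notMem (X := LC.of ℝ) (Y := LC.of (Fin m × ℝ)) (lines m)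
      (isOpenEmbedding_lines m) (by
        rintro ⟨p, rfl⟩
        exact hx p.1 p.1.2 (lines_mem_ball p))
  rw [h1]
  exact app_infty _

theorem deg_mfold (m : ℕ) : deg (mfold m) = m := by
  rw [deg_sum (Finset.range m) (g := fun i => collapseBall (i : ℝ) (1 / 2) (by norm_num))
    (U := fun i => Metric.ball (i : ℝ) (1 / 2)) (fun i _ j _ hij => ball_disjoint hij)
    (fun i hi x hx => app_mfold_of_mem (Finset.mem_range.1 hi) hx) ?_ ?_]
  · have h1 : ∀ i ∈ Finset.range m,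
        deg (collapseBall (i : ℝ) (1 / 2) (by norm_num)) = 1 := fun i _ => by
      rw [deg_homotopic (homotopic_collapseBall (i : ℝ) (by norm_num)), deg_id]
    rw [Finset.sum_congr rfl h1]
    simp
  · intro i _ x hx
    exact app_ofOpen_of_notMem (X := LC.of ℝ) (Y := LC.of ℝ) (ballEmb (i : ℝ) (1 / 2))
      (isOpenEmbedding_ballEmb (i : ℝ) (by norm_num)) (x := x)
      (fun h => hx ((mem_range_ballEmb' (i : ℝ) (by norm_num)).1 h))
  · intro x hx
    exact app_mfold_of_notMem fun i hi => hx i (Finset.mem_range.2 hi)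

/-- the reflection of the line has degree `-1` -/
theorem deg_neg : deg (ofHomeo (X := LC.of ℝ) (Y := LC.of ℝ) (Homeomorph.neg ℝ)).hom = -1 := by
  have h := deg_linear (ContinuousLinearEquiv.neg ℝ (M := ℝ))
  have h1 : (ofHomeo (X := LC.of ℝ) (Y := LC.of ℝ)
      (ContinuousLinearEquiv.neg ℝ (M := ℝ)).toHomeomorph).hom =
      (ofHomeo (X := LC.of ℝ) (Y := LC.of ℝ) (Homeomorph.neg ℝ)).hom := rfl
  rw [h1] at h
  rw [h]
  have h2 : ((ContinuousLinearEquiv.neg ℝ (M := ℝ) : ℝ ≃L[ℝ] ℝ) : ℝ →L[ℝ] ℝ).det = -1 := by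
    have h3 : (((ContinuousLinearEquiv.neg ℝ (M := ℝ) : ℝ ≃L[ℝ] ℝ) : ℝ →L[ℝ] ℝ) : ℝ →ₗ[ℝ] ℝ) =
        (-1 : ℝ) • LinearMap.id := by
      ext; simp
    rw [ContinuousLinearMap.det, h3, LinearMap.det_smul, LinearMap.det_id]
    simp
  rw [h2, sg_neg (by norm_num)]
  norm_num

end Fold

end LC

end Vale.Agent.P251.G
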