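import Vale.Agent.P251.G.Gen2
import Vale.Agent.P251.G.Homotopy

/-!
# P251, part G (G10): self maps of spheres are sums of linear isomorphisms

* `LC.homotopic_zero_of_finrank_lt` : connectivity of spheres.
* `LC.exists_branches` : every self map `f` of `E` in `LC` is homotopic to a composite
  `E ⟶ Fin k × E ⟶ E` of the collapse onto `k` disjoint open subsets (each of them with a collapse
  homotopic to the identity) and a fold of linear isomorphisms.
-/

open CategoryTheory MonoidalCategory Filter Topology OnePoint Set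

set_option linter.unusedSectionVars false

namespace Vale.Agent.P251.G

namespace Gen

section jmap

variable {ι E F : Type*} [NormedAddCommGroup E] [NormedSpace ℝ E] [FiniteDimensional ℝ E]
  [NormedAddCommGroup F] [NormedSpace ℝ F] [FiniteDimensional ℝ F]

/-- the inverse of the expansion `u ↦ (1 - C ‖A u‖)⁻¹ u` around the points `z i` -/
noncomputable def jmap (C : ℝ) (z : ι → E) (A : ι → (E ≃L[ℝ] F)) (p : ι × E) : E :=
  z p.1 + (1 + C * ‖A p.1 p.2‖)⁻¹ • p.2

/-- the expansion around `z i` -/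
noncomputable def einv (C : ℝ) (z : ι → E) (A : ι → (E ≃L[ℝ] F)) (i : ι) (x : E) : E :=
  (1 - C * ‖A i (x - z i)‖)⁻¹ • (x - z i)

variable {C : ℝ} {z : ι → E} {A : ι → (E ≃L[ℝ] F)}

theorem jmap_einv (_hC : 0 ≤ C) {i : ι} {x : E} (hx : C * ‖A i (x - z i)‖ < 1) :
    jmap C z A (i, einv C z A i x) = x := by
  have hs : 0 < 1 - C * ‖A i (x - z i)‖ := by linarith
  have h1 : ‖A i (einv C z A i x)‖ = (1 - C * ‖A i (x - z i)‖)⁻¹ * ‖A i (x - z i)‖ := by
    rw [einv, _root_.map_smul, norm_smul, Real.norm_eq_abs, abs_of_pos (inv_pos.2 hs)]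
  have h2 : 1 + C * ‖A i (einv C z A i x)‖ = (1 - C * ‖A i (x - z i)‖)⁻¹ := by
    rw [h1]
    field_simp
    ring
  simp only [jmap]
  rw [h2, einv, smul_smul, inv_inv, mul_inv_cancel₀ hs.ne', one_smul]
  abel

theorem norm_jmap_sub (hC : 0 ≤ C) (i : ι) (y : E) :
    C * ‖A i (jmap C z A (i, y) - z i)‖ = 1 - (1 + C * ‖A i y‖)⁻¹ := by
  have ht : 0 < 1 + C * ‖A i y‖ := by positivity
  have h1 : jmap C z A (i, y) - z i = (1 + C * ‖A i y‖)⁻¹ • y := by
    simp only [jmap]; abel
  rw [h1, _root_.map_smul, norm_smul, Real.norm_eq_abs, abs_of_pos (inv_pos.2 ht)]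
  field_simp
  ring

theorem jmap_mem (hC : 0 ≤ C) (i : ι) (y : E) :
    C * ‖A i (jmap C z A (i, y) - z i)‖ < 1 := by
  have ht : 0 < 1 + C * ‖A i y‖ := by positivity
  rw [norm_jmap_sub hC]
  have := inv_pos.2 ht
  linarith

theorem einv_jmap (hC : 0 ≤ C) (i : ι) (y : E) :
    einv C z A i (jmap C z A (i, y)) = y := by
  have ht : 0 < 1 + C * ‖A i y‖ := by positivity
  rw [einv, norm_jmap_sub hC, sub_sub_cancel, inv_inv]
  have h1 : jmap C z A (i, y) - z i = (1 + C * ‖A i y‖)⁻¹ • y := by
    simp only [jmap]; abel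
  rw [h1, smul_smul, mul_inv_cancel₀ ht.ne', one_smul]

theorem continuousOn_einv (i : ι) :
    ContinuousOn (einv C z A i) {x | C * ‖A i (x - z i)‖ < 1} := by
  unfold einv
  refine ContinuousOn.smul (ContinuousOn.inv₀ ?_ ?_) (by fun_prop)
  · exact (continuous_const.sub (continuous_const.mul
      ((A i).continuous.comp (continuous_id.sub continuous_const)).norm)).continuousOn
  · intro x hx
    have : C * ‖A i (x - z i)‖ < 1 := hx
    intro h
    linarith

theorem isOpen_dom (i : ι) : IsOpen {x | C * ‖A i (x - z i)‖ < 1} :=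
  isOpen_Iio.preimage (continuous_const.mul
    ((A i).continuous.comp (continuous_id.sub continuous_const)).norm)

theorem isOpenEmbedding_jmap [TopologicalSpace ι] [DiscreteTopology ι] (hC : 0 ≤ C)
    (hd : ∀ i i' x, C * ‖A i (x - z i)‖ < 1 → C * ‖A i' (x - z i')‖ < 1 → i = i') :
    IsOpenEmbedding (jmap C z A) := by
  refine IsOpenEmbedding.of_continuous_injective_isOpenMap ?_ ?_ ?_
  · rw [continuous_prod_of_discrete_left]
    intro i
    simp only [jmap]
    refine continuous_const.add (Continuous.smul (Continuous.inv₀ (continuous_const.add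
      (continuous_const.mul ((A i).continuous).norm)) ?_) continuous_id)
    intro y
    positivity
  · rintro ⟨i, y⟩ ⟨i', y'⟩ h
    have h1 := jmap_mem (z := z) (A := A) hC i y
    have h2 := jmap_mem (z := z) (A := A) hC i' y'
    rw [← h] at h2
    have h3 := hd i i' _ h1 h2
    subst h3
    have h4 := einv_jmap (z := z) (A := A) hC i y
    have h5 := einv_jmap (z := z) (A := A) hC i y'
    rw [← h, h4] at h5
    rw [h5]
  · intro V hV
    have : jmap C z A '' V = ⋃ i, ({x | C * ‖A i (x - z i)‖ < 1} ∩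
        (fun x => (i, einv C z A i x)) ⁻¹' V) := by
      ext x
      simp only [mem_image, mem_iUnion, mem_inter_iff, mem_preimage, Prod.exists]
      constructor
      · rintro ⟨i, y, hy, rfl⟩
        exact ⟨i, jmap_mem hC i y, by rw [einv_jmap hC]; exact hy⟩
      · rintro ⟨i, h1, h2⟩
        exact ⟨i, _, h2, jmap_einv hC h1⟩
    rw [this]
    refine isOpen_iUnion fun i => ?_
    exact ContinuousOn.isOpen_inter_preimage
      (continuousOn_const.prodMk (continuousOn_einv i)) (isOpen_dom i) hV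

end jmap

end Gen

namespace LC

open Gen

variable {E F : Type} [NormedAddCommGroup E] [NormedSpace ℝ E] [FiniteDimensional ℝ E]
  [ProperSpace E]
  [NormedAddCommGroup F] [NormedSpace ℝ F] [FiniteDimensional ℝ F] [ProperSpace F]

/-- **Connectivity of spheres**: morphisms between vector spaces (spheres) are null homotopic if
the target has larger dimension. -/
theorem homotopic_zero_of_finrank_lt (h : Module.finrank ℝ E < Module.finrank ℝ F)
    (f : LC.of E ⟶ LC.of F) : Homotopic f 0 :=
  (homotopic_iff _ _).2 (homotopic_const_of_finrank_lt h (Hom.toMap f) (Hom.map_infty f))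

theorem homotopic_zero_of_lt {j n : ℕ} (h : j < n) (f : Sph j ⟶ Sph n) : Homotopic f 0 :=
  homotopic_zero_of_finrank_lt (by simpa using h) f

/-- the morphism given by linear isomorphisms on the components of `ι × E` -/
def fold {ι : Type} [Finite ι] [TopologicalSpace ι] [DiscreteTopology ι]
    (a : ι → (E ≃L[ℝ] F)) : LC.of (ι × E) ⟶ LC.of F :=
  ofProper (X := LC.of (ι × E)) (Y := LC.of F) (fun p => a p.1 p.2)
    (by rw [continuous_prod_of_discrete_left]; exact fun i => (a i).continuous) (by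
      intro s hs
      obtain ⟨K, hK, hKs⟩ := mem_cocompact.1 hs
      rw [Filter.mem_map, mem_cocompact]
      refine ⟨⋃ i, (fun x => (i, (a i).symm x)) '' K, isCompact_iUnion fun i =>
        hK.image (by fun_prop), ?_⟩
      intro p hp
      apply hKs
      intro hp'
      apply hp
      rw [mem_iUnion]
      exact ⟨p.1, _, hp', by simp⟩)

@[simp] theorem app_fold_coe {ι : Type} [Finite ι] [TopologicalSpace ι] [DiscreteTopology ι]
    (a : ι → (E ≃L[ℝ] F)) (p : ι × E) :
    app (fold a) (p : OnePoint (ι × E)) = ((a p.1 p.2 : F) : OnePoint F) := rfl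

/-- a linear isomorphism as a morphism -/
def lin (a : E ≃L[ℝ] F) : LC.of E ⟶ LC.of F :=
  ofClosed (X := LC.of E) (Y := LC.of F) a a.toHomeomorph.isClosedEmbedding

@[simp] theorem app_lin_coe (a : E ≃L[ℝ] F) (x : E) :
    app (lin a) (x : OnePoint E) = ((a x : F) : OnePoint F) := rfl

theorem collapse_jmap {ι : Type} [TopologicalSpace ι] [DiscreteTopology ι] {C : ℝ} {z : ι → E}
    {A : ι → (E ≃L[ℝ] F)} (hC : 0 ≤ C)
    (hd : ∀ i i' x, C * ‖A i (x - z i)‖ < 1 → C * ‖A i' (x - z i')‖ < 1 → i = i')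
    {i : ι} {x : E} (hx : C * ‖A i (x - z i)‖ < 1) :
    collapseFun (X := LC.of E) (Y := LC.of (ι × E)) (jmap C z A) (x : OnePoint E) =
      ((i, einv C z A i x) : ι × E) := by
  conv_lhs => rw [← jmap_einv (z := z) (A := A) hC hx]
  exact collapseFun_coe_of_injective (X := LC.of E) (Y := LC.of (ι × E))
    (isOpenEmbedding_jmap hC hd).injective _

theorem collapse_jmap_infty {ι : Type} [TopologicalSpace ι] [DiscreteTopology ι] {C : ℝ}
    {z : ι → E} {A : ι → (E ≃L[ℝ] F)} (hC : 0 ≤ C) {x : E}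
    (hx : ∀ i, ¬ C * ‖A i (x - z i)‖ < 1) :
    collapseFun (X := LC.of E) (Y := LC.of (ι × E)) (jmap C z A) (x : OnePoint E) = ∞ := by
  apply collapseFun_of_notMem
  rintro ⟨⟨i, y⟩, rfl⟩
  exact hx i (jmap_mem hC i y)

theorem isOpenEmbedding_mk {ι : Type} [TopologicalSpace ι] [DiscreteTopology ι] (i : ι) :
    IsOpenEmbedding (fun y : E => (i, y)) := by
  refine IsOpenEmbedding.of_continuous_injective_isOpenMap (by fun_prop)
    (fun y y' h => (Prod.ext_iff.1 h).2) ?_
  intro V hV
  have : (fun y : E => (i, y)) '' V = ({i} : Set ι) ×ˢ V := by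
    ext ⟨i', y⟩
    simp only [mem_image, Prod.mk.injEq, mem_prod, mem_singleton_iff]
    constructor
    · rintro ⟨y', h1, rfl, rfl⟩; exact ⟨rfl, h1⟩
    · rintro ⟨rfl, h1⟩; exact ⟨y, h1, rfl, rfl⟩
  rw [this]
  exact (isOpen_discrete _).prod hV

/-- the collapse onto a component -/
noncomputable def comp' {ι : Type} [TopologicalSpace ι] [DiscreteTopology ι]
    [LocallyCompactSpace ι] (i : ι) : LC.of (ι × E) ⟶ LC.of E :=
  ofOpen (X := LC.of (ι × E)) (Y := LC.of E) (fun y => (i, y)) (isOpenEmbedding_mk i)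

/-- the collapse onto a small neighbourhood of a point is homotopic to the identity -/
theorem homotopic_ofOpen_jmap {ι : Type} [TopologicalSpace ι] [DiscreteTopology ι] {C : ℝ}
    {z : ι → E} {A : ι → (E ≃L[ℝ] F)} (hC : 0 ≤ C)
    (hd : ∀ i i' x, C * ‖A i (x - z i)‖ < 1 → C * ‖A i' (x - z i')‖ < 1 → i = i') (i : ι) :
    Homotopic (ofOpen (X := LC.of E) (Y := LC.of (ι × E)) (jmap C z A)
      (isOpenEmbedding_jmap hC hd) ≫ comp' i) (𝟙 (LC.of E)) := by
  refine Homotopic.symm ?_
  rw [homotopic_iff]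
  set f0 : C(OnePoint E, OnePoint E) := ContinuousMap.id _ with hf0
  set f1 : C(OnePoint E, OnePoint E) := ⟨addw f0 (fun _ => - z i),
    continuous_addw f0.continuous continuous_const (M := ‖z i‖) (fun x => by simp)⟩ with hf1
  have hN : Continuous (fun y : E => ‖A i y‖) := (A i).continuous.norm
  have h01 : f0.HomotopicRel f1 {∞} :=
    homotopic_addw continuous_const (fun x => rfl) (fun x hx => by
      rw [mem_singleton_iff] at hx; rw [hx]; rfl)
  have hf1i : f1 ∞ = ∞ := addw_infty (f := f0) (w := fun _ => - z i) (x := (∞ : OnePoint E)) rfl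
  refine h01.trans (homotopic_scal hN (fun y => norm_nonneg _) (by simp) (c := C) hC
    (fun x => ?_) (fun x hx => by rw [mem_singleton_iff] at hx; rw [hx, hf1i]))
  rw [toMap_apply, app_comp, app_ofOpen]
  induction x using OnePoint.rec with
  | infty =>
    rw [collapseFun_infty, app_infty, scal_infty hf1i]
  | coe x =>
    have hx1 : f1 x = ((x - z i : E) : OnePoint E) := by
      rw [sub_eq_add_neg]
      exact addw_coe (f := f0) (w := fun _ => - z i) (x := (x : OnePoint E)) (y := x) rfl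
    by_cases hx : C * ‖A i (x - z i)‖ < 1
    · rw [collapse_jmap hC hd hx, comp', scal_coe hx1 hx]
      exact app_ofOpen_coe (X := LC.of (ι × E)) (Y := LC.of E) _ _ _
    · rw [scal_large (fun _ => by rw [hx1, val_coe]; exact not_lt.1 hx)]
      by_cases hx' : ∃ i', C * ‖A i' (x - z i')‖ < 1
      · obtain ⟨i', hi'⟩ := hx'
        rw [collapse_jmap hC hd hi', comp']
        refine app_ofOpen_of_notMem (X := LC.of (ι × E)) (Y := LC.of E) _ _ ?_
        rintro ⟨y, hy⟩
        have := (Prod.ext_iff.1 hy).1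
        change i = i' at this
        rw [this] at hx
        exact hx hi'
      · push Not at hx'
        rw [collapse_jmap_infty hC (fun i => not_lt.2 (hx' i)), app_infty]

/-- **Branches**: every self map of a sphere is homotopic to the composite of a pinch map `c` (all
whose components are homotopic to the identity) and a fold of linear isomorphisms. -/
theorem exists_branches (f : LC.of E ⟶ LC.of E) :
    ∃ (k : ℕ) (a : Fin k → (E ≃L[ℝ] E)) (c : LC.of E ⟶ LC.of (Fin k × E)),
      (∀ i, Homotopic (c ≫ comp' i) (𝟙 (LC.of E))) ∧ Homotopic f (c ≫ fold a) := by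
  classical
  obtain ⟨K, Z, A, ρ, hfk, hk0, hρ, hdis, hkA, hkZ⟩ :=
    exists_linear_approx (Hom.toMap f) (Hom.map_infty f)
  -- lower bound outside of the balls
  obtain ⟨m, hm, hmb⟩ : ∃ m > (0 : ℝ), ∀ x ∈
      (((↑) : E → OnePoint E) '' (⋃ z ∈ Z, Metric.ball z (ρ z)))ᶜ, K x ≠ ∞ →
        m ≤ ‖val (K x)‖ := by
    refine exists_lower_bound ?_ ?_
    · rw [isClosed_compl_iff, isOpen_image_coe]
      exact isOpen_biUnion fun z _ => Metric.isOpen_ball
    · intro x hx h0
      induction x using OnePoint.rec with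
      | infty => rw [hk0] at h0; exact infty_ne_coe _ h0
      | coe x =>
        obtain ⟨z, hz, hxz⟩ := hkZ x h0
        exact hx ⟨x, mem_iUnion₂.2 ⟨z, hz, hxz⟩, rfl⟩
  have hlow : ∀ z : E, ∃ c > (0 : ℝ), ∀ v, c * ‖v‖ ≤ ‖A z v‖ := fun z => exists_lower (A z)
  choose c hc hcA using hlow
  -- the constant
  obtain ⟨C, hC0, hCm, hCρ⟩ : ∃ C : ℝ, 0 < C ∧ 1 ≤ C * m ∧ ∀ z ∈ Z, 1 ≤ C * (c z * ρ z) := by
    refine ⟨1 / m + ∑ z ∈ Z, 1 / (c z * ρ z), ?_, ?_, ?_⟩
    · have : 0 ≤ ∑ z ∈ Z, 1 / (c z * ρ z) := Finset.sum_nonneg fun z hz =>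
        (one_div_pos.2 (mul_pos (hc z) (hρ z hz))).le
      positivity
    · have h1 : 0 ≤ ∑ z ∈ Z, 1 / (c z * ρ z) := Finset.sum_nonneg fun z hz =>
        (one_div_pos.2 (mul_pos (hc z) (hρ z hz))).le
      have h2 : 1 / m * m = 1 := by field_simp
      nlinarith
    · intro z hz
      have h0 := mul_pos (hc z) (hρ z hz)
      have h1 : 1 / (c z * ρ z) ≤ ∑ z ∈ Z, 1 / (c z * ρ z) :=
        Finset.single_le_sum (f := fun z => 1 / (c z * ρ z)) (fun y hy =>
          (one_div_pos.2 (mul_pos (hc y) (hρ y hy))).le) hz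
      have h2 : 1 / (c z * ρ z) * (c z * ρ z) = 1 := div_mul_cancel₀ 1 h0.ne'
      have h3 : 0 < 1 / m := by positivity
      nlinarith
  have hdom : ∀ z ∈ Z, ∀ x, C * ‖A z (x - z)‖ < 1 → x ∈ Metric.ball z (ρ z) := by
    intro z hz x hx
    rw [Metric.mem_ball, dist_eq_norm]
    by_contra h
    push Not at h
    have h1 := hcA z (x - z)
    have h2 := hCρ z hz
    have h3 : c z * ρ z ≤ c z * ‖x - z‖ := mul_le_mul_of_nonneg_left h (hc z).le
    have h4 : C * (c z * ρ z) ≤ C * ‖A z (x - z)‖ :=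
      mul_le_mul_of_nonneg_left (h3.trans h1) hC0.le
    linarith
  -- enumeration of the zeros
  set e := Z.equivFin.symm with he
  set z' : Fin Z.card → E := fun i => (e i : E) with hz'
  have hz'Z : ∀ i, z' i ∈ Z := fun i => (e i).2
  set a : Fin Z.card → (E ≃L[ℝ] E) := fun i => A (z' i) with ha
  have hd : ∀ i i' x, C * ‖a i (x - z' i)‖ < 1 → C * ‖a i' (x - z' i')‖ < 1 → i = i' := by
    intro i i' x h1 h2
    have h3 := hdom _ (hz'Z i) x h1
    have h4 := hdom _ (hz'Z i') x h2
    by_contra hne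
    have hne' : z' i ≠ z' i' := by
      intro h5
      exact hne (e.injective (Subtype.ext h5))
    exact disjoint_left.1 (hdis (hz'Z i) (hz'Z i') hne') h3 h4
  refine ⟨Z.card, a, ofOpen (X := LC.of E) (Y := LC.of (Fin Z.card × E)) (jmap C z' a)
    (isOpenEmbedding_jmap hC0.le hd), homotopic_ofOpen_jmap hC0.le hd, ?_⟩
  rw [homotopic_iff]
  refine hfk.trans (homotopic_scal continuous_norm norm_nonneg norm_zero (c := C) hC0.le
    (fun x => ?_) (fun x hx => by rw [mem_singleton_iff] at hx; rw [hx, hk0]))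
  rw [toMap_apply, app_comp, app_ofOpen]
  induction x using OnePoint.rec with
  | infty => rw [collapseFun_infty, app_infty, scal_infty hk0]
  | coe x =>
    by_cases hx : ∃ i, C * ‖a i (x - z' i)‖ < 1
    · obtain ⟨i, hi⟩ := hx
      rw [collapse_jmap hC0.le hd hi, app_fold_coe,
        scal_coe (hkA _ (hz'Z i) x (hdom _ (hz'Z i) x hi)) hi]
      congr 1
      change a i (einv C z' a i x) = _
      rw [einv, _root_.map_smul]
    · push Not at hx
      rw [collapse_jmap_infty hC0.le (fun i => not_lt.2 (hx i)), app_infty, scal_large]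
      intro hinf
      by_cases hxZ : ∃ z ∈ Z, x ∈ Metric.ball z (ρ z)
      · obtain ⟨z, hz, hxz⟩ := hxZ
        rw [hkA z hz x hxz, val_coe]
        have := hx (e.symm ⟨z, hz⟩)
        simpa [ha, hz'] using this
      · have h1 := hmb x (by
          rintro ⟨y, hy, hyx⟩
          rw [coe_eq_coe] at hyx
          subst hyx
          obtain ⟨z, hz, hyz⟩ := mem_iUnion₂.1 hy
          exact hxZ ⟨z, hz, hyz⟩) hinf
        have h2 : C * m ≤ C * ‖val (K x)‖ := mul_le_mul_of_nonneg_left h1 hC0.le
        linarith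

end LC

end Vale.Agent.P251.G
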