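import Vale.Agent.P251.G.Retract
import Vale.Agent.P251.G.Gauge

/-!
# P251, part G: the NDR criterion for cofibrations

* `exists_lift_of_injective`: lifting through an injective morphism;
* `cofib_of_ndr`: a closed subspace `A ⊆ B` with a function `u ≥ 0` vanishing exactly on `A` and a
  homotopy `h` of `𝟙 B` fixing `A` and moving `{u < 1}` into `A` at time `1` is a cofibration;
* `cofib_point_zero`: the end point of the half line is a cofibration.
-/

open CategoryTheory MonoidalCategory Filter Topology OnePoint

namespace Vale.Agent.P251.G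

namespace LC

/-- Lifting through an injective morphism. -/
theorem exists_lift_of_injective {X Y Z : LC} (m : Y ⟶ Z) (hm : Function.Injective (app m))
    (f : X ⟶ Z) (h : ∀ x : X, app f (x : OnePoint X) ∈ Set.range (app m)) :
    ∃ k : X ⟶ Y, k ≫ m = f := by
  have h' : ∀ x : OnePoint X, app f x ∈ Set.range (app m) := by
    intro x
    induction x using OnePoint.rec with
    | infty => exact ⟨∞, by rw [app_infty, app_infty]⟩
    | coe x => exact h x
  choose k hk using h'
  have hc : Continuous k := by
    rw [(isClosedEmb_app hm).isEmbedding.continuous_iff]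
    have : app m ∘ k = app f := funext hk
    rw [this]
    exact continuous_app f
  refine ⟨⟨⟨k, hc⟩, hm ?_⟩, ?_⟩
  · change app m (k ∞) = app m ∞
    rw [hk, app_infty, app_infty]
  · apply hom_ext
    intro x
    exact hk x

section ndr

variable {A B : LC}

open scoped Classical in
/-- the reparametrisation of the NDR homotopy -/
noncomputable def ndrTime (u : B → ℝ) (p : B × unitInterval) : unitInterval :=
  Set.projIcc (0 : ℝ) 1 zero_le_one (if u p.1 = 0 then 1 else (p.2 : ℝ) / u p.1)

theorem ndrTime_of_le {u : B → ℝ} {p : B × unitInterval} (h0 : 0 ≤ u p.1)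
    (h : u p.1 ≤ (p.2 : ℝ)) : ndrTime u p = 1 := by
  unfold ndrTime
  apply Set.projIcc_of_right_le
  by_cases h1 : u p.1 = 0
  · rw [if_pos h1]
  · rw [if_neg h1, one_le_div (lt_of_le_of_ne h0 (Ne.symm h1))]
    exact h

theorem ndrTime_zero {u : B → ℝ} {p : B × unitInterval} (h0 : u p.1 ≠ 0) (h : p.2 = 0) :
    ndrTime u p = 0 := by
  unfold ndrTime
  rw [if_neg h0, h]
  apply Set.projIcc_of_le_left
  simp

theorem continuousAt_ndrTime {u : B → ℝ} (hu : Continuous u) (hu0 : ∀ b, 0 ≤ u b)
    (p : B × unitInterval) (hp : u p.1 ≠ 0 ∨ (0 : ℝ) < p.2) : ContinuousAt (ndrTime u) p := by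
  have hc1 : Continuous fun p : B × unitInterval => u p.1 := hu.comp continuous_fst
  have hc2 : Continuous fun p : B × unitInterval => (p.2 : ℝ) :=
    continuous_subtype_val.comp continuous_snd
  by_cases h0 : u p.1 = 0
  · have hp' : (0 : ℝ) < p.2 := hp.resolve_left (fun h => h h0)
    have h1 : ∀ᶠ q : B × unitInterval in 𝓝 p, u q.1 < (q.2 : ℝ) :=
      (isOpen_lt hc1 hc2).mem_nhds (by change u p.1 < (p.2 : ℝ); rwa [h0])
    have h2 : (fun _ => (1 : unitInterval)) =ᶠ[𝓝 p] ndrTime u := by
      filter_upwards [h1] with q hq
      exact (ndrTime_of_le (hu0 _) hq.le).symm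
    exact (continuousAt_const (y := (1 : unitInterval))).congr h2
  · have h1 : ∀ᶠ q : B × unitInterval in 𝓝 p, u q.1 ≠ 0 := (hc1.tendsto p).eventually_ne h0
    have h2 : ContinuousAt (fun q : B × unitInterval =>
        Set.projIcc (0 : ℝ) 1 zero_le_one ((q.2 : ℝ) / u q.1)) p :=
      continuous_projIcc.continuousAt.comp (hc2.continuousAt.div hc1.continuousAt h0)
    refine h2.congr ?_
    filter_upwards [h1] with q hq
    unfold ndrTime
    rw [if_neg hq]

/-- the second coordinate of the NDR retraction -/
noncomputable def ndrRest (u : B → ℝ) (p : B × unitInterval) : unitInterval :=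
  Set.projIcc (0 : ℝ) 1 zero_le_one ((p.2 : ℝ) - u p.1)

theorem continuous_ndrRest {u : B → ℝ} (hu : Continuous u) : Continuous (ndrRest u) :=
  continuous_projIcc.comp ((continuous_subtype_val.comp continuous_snd).sub
    (hu.comp continuous_fst))

theorem ndrRest_of_le {u : B → ℝ} {p : B × unitInterval} (h : (p.2 : ℝ) ≤ u p.1) :
    ndrRest u p = 0 := by
  unfold ndrRest
  apply Set.projIcc_of_le_left
  linarith

theorem ndrRest_of_eq_zero {u : B → ℝ} {p : B × unitInterval} (h : u p.1 = 0) :
    ndrRest u p = p.2 := by
  unfold ndrRest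
  rw [h, sub_zero]
  exact Set.projIcc_val zero_le_one p.2

/-- tube lemma for a homotopy which fixes the point `x` -/
theorem tube {B Z : LC} (h : B ⊗ II ⟶ Z) (x : OnePoint B) (z : OnePoint Z)
    (hx : ∀ t : unitInterval, app h (smash x (t : OnePoint unitInterval)) = z)
    {N : Set (OnePoint Z)} (hN : N ∈ 𝓝 z) :
    ∀ᶠ y in 𝓝 x, ∀ t : unitInterval, app h (smash y (t : OnePoint unitInterval)) ∈ N := by
  let F : OnePoint B × unitInterval → OnePoint Z :=
    fun p => app h (smash p.1 (p.2 : OnePoint unitInterval))
  have hF : Continuous F := (continuous_app h).comp (continuous_smash.comp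
    (continuous_fst.prodMk (OnePoint.continuous_coe.comp continuous_snd)))
  have h1 : ∀ t ∈ (Set.univ : Set unitInterval), ∀ᶠ p : OnePoint B × unitInterval in 𝓝 (x, t),
      F p ∈ N := by
    intro t _
    have := (hF.tendsto (x, t))
    apply this
    rw [show F (x, t) = z from hx t]
    exact hN
  have h2 := (isCompact_univ (X := unitInterval)).eventually_forall_of_forall_eventually
    (x₀ := x) (P := fun y t => F (y, t) ∈ N) h1
  filter_upwards [h2] with y hy t
  exact hy t (Set.mem_univ t)

/-- The NDR criterion. -/
theorem cofib_of_ndr {i : A ⟶ B} (hi : Function.Injective (app i)) (u : B → ℝ)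
    (hu : Continuous u) (hu0 : ∀ b, 0 ≤ u b)
    (huA : ∀ b : B, u b = 0 ↔ (b : OnePoint B) ∈ Set.range (app i)) (h : B ⊗ II ⟶ B)
    (h0 : incl 0 B ≫ h = 𝟙 B)
    (hA : ∀ (b : B) (t : unitInterval), u b = 0 →
      app h (smash (b : OnePoint B) (t : OnePoint unitInterval)) = b)
    (h1 : ∀ b : B, u b < 1 →
      app h (smash (b : OnePoint B) ((1 : unitInterval) : OnePoint unitInterval)) ∈
        Set.range (app i)) : Cofib i := by
  -- the first coordinate
  let φ : B × unitInterval → OnePoint B := fun p =>
    app h (smash (p.1 : OnePoint B) ((ndrTime u p : unitInterval) : OnePoint unitInterval))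
  have hφ : Continuous φ := by
    rw [continuous_iff_continuousAt]
    intro p
    by_cases hp : u p.1 ≠ 0 ∨ (0 : ℝ) < p.2
    · have hc := continuousAt_ndrTime hu hu0 p hp
      have hk : Continuous (fun q : OnePoint B × unitInterval =>
          app h (smash q.1 (q.2 : OnePoint unitInterval))) :=
        (continuous_app h).comp (continuous_smash.comp
          (continuous_fst.prodMk (OnePoint.continuous_coe.comp continuous_snd)))
      have h1 : ContinuousAt (fun q : B × unitInterval => (q.1 : OnePoint B)) p :=
        (OnePoint.continuous_coe.comp continuous_fst).continuousAt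
      exact hk.continuousAt.comp (h1.prodMk hc)
    · rw [not_or, not_not] at hp
      obtain ⟨hp1, hp2⟩ := hp
      have hval : φ p = (p.1 : OnePoint B) := hA _ _ hp1
      intro N hN
      rw [hval] at hN
      rw [mem_map]
      have h2 := tube h (p.1 : OnePoint B) (p.1 : OnePoint B) (fun t => hA _ t hp1) hN
      have h3 : Tendsto (fun q : B × unitInterval => (q.1 : OnePoint B)) (𝓝 p)
          (𝓝 (p.1 : OnePoint B)) := (OnePoint.continuous_coe.comp continuous_fst).tendsto p
      filter_upwards [h3.eventually h2] with q hq
      exact hq _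
  have hφi : Tendsto φ (cocompact (B × unitInterval)) (𝓝 ∞) := by
    intro N hN
    rw [mem_map]
    have h2 := tube h ∞ ∞ (fun t => by rw [smash_infty_left]; exact app_infty h) hN
    have h3 : Tendsto (fun q : B × unitInterval => (q.1 : OnePoint B))
        (cocompact (B × unitInterval)) (𝓝 ∞) := by
      have h4 : Tendsto ((↑) : B → OnePoint B) (cocompact B) (𝓝 ∞) := by
        rw [← coclosedCompact_eq_cocompact]
        exact OnePoint.tendsto_coe_infty
      refine h4.comp ?_
      intro K hK
      obtain ⟨L, hL, hLK⟩ := mem_cocompact.mp hK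
      refine mem_cocompact.mpr ⟨L ×ˢ Set.univ, hL.prod isCompact_univ, ?_⟩
      intro q hq
      apply hLK
      intro hq1
      exact hq ⟨hq1, Set.mem_univ _⟩
    filter_upwards [h3.eventually h2] with q hq
    exact hq _
  -- the retraction, with values in `B ⊗ II`
  let ρ : B × unitInterval → OnePoint (B × unitInterval) := fun p =>
    smash (φ p) ((ndrRest u p : unitInterval) : OnePoint unitInterval)
  have hρ : Continuous ρ := continuous_smash.comp (hφ.prodMk
    (OnePoint.continuous_coe.comp (continuous_ndrRest hu)))
  have hρi : Tendsto ρ (cocompact (B × unitInterval)) (𝓝 ∞) := by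
    intro N hN
    rw [mem_map]
    let F : OnePoint B × unitInterval → OnePoint (B × unitInterval) :=
      fun p => smash p.1 (p.2 : OnePoint unitInterval)
    have hF : Continuous F := continuous_smash.comp
      (continuous_fst.prodMk (OnePoint.continuous_coe.comp continuous_snd))
    have h2 := (isCompact_univ (X := unitInterval)).eventually_forall_of_forall_eventually
      (x₀ := (∞ : OnePoint B)) (P := fun y t => F (y, t) ∈ N) (fun t _ => by
        apply hF.tendsto ((∞ : OnePoint B), t)
        exact hN)
    filter_upwards [hφi.eventually h2] with q hq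
    exact hq _ (Set.mem_univ _)
  let R : B ⊗ II ⟶ B ⊗ II := mk' (X := LC.of (B × unitInterval)) (Y := LC.of (B × unitInterval))
    ρ hρ hρi
  have hR : ∀ (b : B) (t : unitInterval), app R (smash (b : OnePoint B) (t : OnePoint unitInterval))
      = ρ (b, t) := fun b t => rfl
  -- it has values in the cylinder
  have hcyl : ∀ (b : B) (t : unitInterval), ((t = 0) ∨ (b : OnePoint B) ∈ Set.range (app i)) →
      smash (b : OnePoint B) (t : OnePoint unitInterval) ∈ Set.range (app (cylIncl i)) := by
    intro b t hbt
    let w : cyl i := ⟨(b, t), hbt⟩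
    exact ⟨(w : OnePoint (cyl i)), rfl⟩
  have hval : ∀ x : (B ⊗ II : LC), app R (x : OnePoint _) ∈ Set.range (app (cylIncl i)) := by
    rintro ⟨b, t⟩
    change ρ (b, t) ∈ _
    change smash (φ (b, t)) ((ndrRest u (b, t) : unitInterval) : OnePoint unitInterval) ∈ _
    cases e : φ (b, t) using OnePoint.rec with
    | infty => exact ⟨∞, app_infty _⟩
    | coe b' =>
      apply hcyl
      by_cases hlt : (t : ℝ) ≤ u b
      · left
        exact ndrRest_of_le hlt
      · right
        rw [not_le] at hlt
        have h2 : u b < 1 := lt_of_lt_of_le hlt t.2.2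
        have h3 := h1 b h2
        have h4 : ndrTime u (b, t) = 1 := ndrTime_of_le (hu0 b) hlt.le
        have h5 : φ (b, t) = app h (smash (b : OnePoint B)
            ((1 : unitInterval) : OnePoint unitInterval)) := by
          change app h (smash (b : OnePoint B) ((ndrTime u (b, t) : unitInterval) :
            OnePoint unitInterval)) = _
          rw [h4]
        rw [← e, h5]
        exact h3
  obtain ⟨r, hr⟩ := exists_lift_of_injective (cylIncl i)
    (app_injective_ofClosed (X := cyl i) (Y := LC.of (B × unitInterval)) _) R hval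
  rw [cofib_iff]
  refine ⟨hi, r, ?_⟩
  have hmono : Function.Injective (app (cylIncl i)) :=
    app_injective_ofClosed (X := cyl i) (Y := LC.of (B × unitInterval)) _
  apply hom_ext
  rintro ⟨⟨b, t⟩, hbt⟩
  apply hmono
  rw [← app_comp, Category.assoc, hr]
  change ρ (b, t) = smash (b : OnePoint B) (t : OnePoint unitInterval)
  change smash (φ (b, t)) ((ndrRest u (b, t) : unitInterval) : OnePoint unitInterval) = _
  by_cases hb : u b = 0
  · have e1 : φ (b, t) = (b : OnePoint B) := hA _ _ hb
    rw [e1, ndrRest_of_eq_zero (p := (b, t)) hb]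
  · have ht : t = 0 := by
      rcases hbt with ht | hb'
      · exact ht
      · exact absurd ((huA b).mpr hb') hb
    subst ht
    have e0 : ndrTime u (b, 0) = 0 := ndrTime_zero (p := (b, 0)) hb rfl
    have e1 : φ (b, 0) = (b : OnePoint B) := by
      change app h (smash (b : OnePoint B) ((ndrTime u (b, 0) : unitInterval) :
            OnePoint unitInterval)) = _
      rw [e0, ← app_incl, ← app_comp, h0, app_id]
    rw [e1, ndrRest_of_le (p := (b, 0)) (by simpa using hu0 b)]

end ndr

section examples

/-- The end point of the half line is a cofibration. -/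
theorem cofib_point_zero : Cofib (point (X := HH) (0 : NNReal)) := by
  have hinj : Function.Injective (app (point (X := HH) (0 : NNReal))) :=
    app_injective_ofClosed (X := LC.of Unit) (Y := HH) (f := fun _ : Unit => (0 : NNReal))
      (by
        refine IsClosedEmbedding.of_continuous_injective_isClosedMap continuous_const ?_ ?_
        · intro a b _; exact Subsingleton.elim _ _
        · intro C hC
          rcases Set.eq_empty_or_nonempty C with rfl | hne
          · rw [Set.image_empty]; exact isClosed_empty
          · rw [Set.Nonempty.image_const hne]; exact isClosed_singleton)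
  let g : NNReal × unitInterval → NNReal := fun p => p.1 - Real.toNNReal p.2
  have hg : Continuous g := by
    refine continuous_fst.sub ?_
    exact continuous_real_toNNReal.comp (continuous_subtype_val.comp continuous_snd)
  have hg2 : Tendsto g (cocompact (NNReal × unitInterval)) (cocompact NNReal) := by
    intro K hK
    obtain ⟨L, hL, hLK⟩ := mem_cocompact.mp hK
    obtain ⟨M, hM⟩ := hL.bddAbove
    refine mem_cocompact.mpr ⟨Set.Icc 0 (M + 1) ×ˢ Set.univ,
      isCompact_Icc.prod isCompact_univ, ?_⟩
    rintro ⟨x, t⟩ hq
    apply hLK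
    intro hx
    apply hq
    refine ⟨⟨zero_le, ?_⟩, Set.mem_univ _⟩
    have h1 : x - Real.toNNReal t ≤ M := hM hx
    have h2 : Real.toNNReal t ≤ 1 := by
      rw [Real.toNNReal_le_one]
      exact t.2.2
    calc x ≤ (x - Real.toNNReal t) + Real.toNNReal t := le_tsub_add
      _ ≤ M + 1 := add_le_add h1 h2
  let h : HH ⊗ II ⟶ HH := ofProper (X := LC.of (NNReal × unitInterval)) (Y := HH) g hg hg2
  refine cofib_of_ndr hinj (fun x : NNReal => (x : ℝ)) NNReal.continuous_coe
    (fun x => x.2) ?_ h ?_ ?_ ?_
  · intro x
    constructor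
    · intro hx
      exact ⟨((() : Unit) : OnePoint Unit), by
        have : x = 0 := NNReal.coe_eq_zero.mp hx
        rw [this]; rfl⟩
    · rintro ⟨a, ha⟩
      induction a using OnePoint.rec with
      | infty => rw [app_infty] at ha; exact absurd ha.symm (OnePoint.coe_ne_infty _)
      | coe a =>
        have : (0 : NNReal) = x := OnePoint.coe_injective ha
        rw [← this]; rfl
  · apply hom_ext
    intro x
    rw [app_comp, app_incl]
    change ((x - Real.toNNReal ((0 : unitInterval) : ℝ) : NNReal) : OnePoint NNReal) = _
    simp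
  · intro x t hx
    have : x = 0 := NNReal.coe_eq_zero.mp hx
    subst this
    change (((0 : NNReal) - Real.toNNReal (t : ℝ) : NNReal) : OnePoint NNReal) = _
    simp
  · intro x hx
    refine ⟨((() : Unit) : OnePoint Unit), ?_⟩
    change ((0 : NNReal) : OnePoint NNReal) =
      ((x - Real.toNNReal ((1 : unitInterval) : ℝ) : NNReal) : OnePoint NNReal)
    congr 1
    symm
    rw [tsub_eq_zero_iff_le]
    have : (x : ℝ) < 1 := hx
    simp
    exact_mod_cast this.le

end examples

end LC

end Vale.Agent.P251.G
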