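import Vale.Agent.P251.G.GrHtpy
import Vale.Agent.P251.G.NDR
import Vale.Agent.P251.G.Glue

/-!
# P251, part G: the closed stratum of a Grassmannian

`Gr.addOneHom : Gr n I ⟶ Gr (n + 1) (I ⊕ Unit)`, `P ↦ P ⊕ 1`, is a cofibration with strict cofibre
`Th (n + 1) I`.
-/

open CategoryTheory MonoidalCategory Filter Topology OnePoint Matrix

noncomputable section

namespace Vale.Agent.P251.G

open LC

variable {I J : Type} [Fintype I] [Fintype J] {n : ℕ}

/-! ### The retraction of `{d ≠ 0}` onto `{d = 1}` -/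

/-- the parameter of the deformation -/
def pullS (Q : Gr n (I ⊕ Unit)) (t : unitInterval) : ℝ := 1 - (t : ℝ) * min 1 (2 * dd Q.P)

theorem continuous_pullS :
    Continuous fun p : Gr n (I ⊕ Unit) × unitInterval => pullS p.1 p.2 := by
  unfold pullS
  have h1 : Continuous fun p : Gr n (I ⊕ Unit) × unitInterval => dd p.1.P :=
    continuous_dd.comp (Gr.continuous_P.comp continuous_fst)
  have h2 : Continuous fun p : Gr n (I ⊕ Unit) × unitInterval => (p.2 : ℝ) :=
    continuous_subtype_val.comp continuous_snd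
  exact continuous_const.sub (h2.mul (continuous_const.min (continuous_const.mul h1)))

theorem pulled_pos (Q : Gr n (I ⊕ Unit)) (t : unitInterval) :
    0 < pullS Q t ^ 2 * (1 - dd Q.P) + dd Q.P := by
  have hd0 := dd_nonneg' Q
  have hd1 := dd_le_one' Q
  rcases hd0.eq_or_lt with h | h
  · have : pullS Q t = 1 := by
      unfold pullS
      rw [← h, mul_zero, min_eq_right zero_le_one, mul_zero, sub_zero]
    rw [this, ← h]
    norm_num
  · have : 0 ≤ pullS Q t ^ 2 * (1 - dd Q.P) := mul_nonneg (sq_nonneg _) (by linarith)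
    linarith

/-- the deformation -/
def pull (p : Gr n (I ⊕ Unit) × unitInterval) : Gr n (I ⊕ Unit) :=
  ⟨bmat p.1.P (-(1 - pullS p.1 p.2 ^ 2) / (pullS p.1 p.2 ^ 2 * (1 - dd p.1.P) + dd p.1.P))
    (pullS p.1 p.2 / (pullS p.1 p.2 ^ 2 * (1 - dd p.1.P) + dd p.1.P))
    (dd p.1.P / (pullS p.1 p.2 ^ 2 * (1 - dd p.1.P) + dd p.1.P)),
    isProj_pulled p.1.isProj (pulled_pos p.1 p.2).ne'⟩

theorem pull_P (Q : Gr n (I ⊕ Unit)) (t : unitInterval) : (pull (Q, t)).P =
    bmat Q.P (-(1 - pullS Q t ^ 2) / (pullS Q t ^ 2 * (1 - dd Q.P) + dd Q.P))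
    (pullS Q t / (pullS Q t ^ 2 * (1 - dd Q.P) + dd Q.P))
    (dd Q.P / (pullS Q t ^ 2 * (1 - dd Q.P) + dd Q.P)) := rfl

theorem continuous_pull : Continuous (pull : Gr n (I ⊕ Unit) × unitInterval → _) := by
  have hP : Continuous fun p : Gr n (I ⊕ Unit) × unitInterval => p.1.P :=
    Gr.continuous_P.comp continuous_fst
  have hd : Continuous fun p : Gr n (I ⊕ Unit) × unitInterval => dd p.1.P :=
    continuous_dd.comp hP
  have hs := continuous_pullS (n := n) (I := I)
  have hD : Continuous fun p : Gr n (I ⊕ Unit) × unitInterval =>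
      pullS p.1 p.2 ^ 2 * (1 - dd p.1.P) + dd p.1.P :=
    ((hs.pow 2).mul (continuous_const.sub hd)).add hd
  refine Continuous.subtype_mk (continuous_bmat hP ?_ ?_ ?_) _
  · exact ((continuous_const.sub (hs.pow 2)).neg).div hD fun p => (pulled_pos p.1 p.2).ne'
  · exact hs.div hD fun p => (pulled_pos p.1 p.2).ne'
  · exact hd.div hD fun p => (pulled_pos p.1 p.2).ne'

theorem bmat_zero_one (Q : Matrix (I ⊕ Unit) (I ⊕ Unit) ℂ) (h : IsProj n Q) :
    bmat Q 0 1 (dd Q) = Q := by
  conv_rhs => rw [eq_fromBlocks h]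
  unfold bmat
  simp

theorem pull_zero (Q : Gr n (I ⊕ Unit)) : pull (Q, 0) = Q := by
  apply Gr.ext
  rw [pull_P]
  have h1 : pullS Q 0 = 1 := by simp [pullS]
  rw [h1]
  have h2 : (1 : ℝ) ^ 2 * (1 - dd Q.P) + dd Q.P = 1 := by ring
  rw [h2]
  norm_num
  exact bmat_zero_one Q.P Q.isProj

theorem bb_eq_zero {Q : Matrix (I ⊕ Unit) (I ⊕ Unit) ℂ} (h : IsProj n Q) (hd : dd Q = 1) :
    bb Q = 0 := by
  obtain ⟨e1, e2, e3, e4⟩ := block_eqs h
  rw [hd, sub_self, mul_zero] at e4
  exact nsq_eq_zero.mp e4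

theorem pull_of_eq_one (Q : Gr n (I ⊕ Unit)) (t : unitInterval) (h : dd Q.P = 1) :
    pull (Q, t) = Q := by
  apply Gr.ext
  rw [pull_P]
  have hb := bb_eq_zero Q.isProj h
  have hc : colm (bb Q.P) = 0 := by rw [hb]; rfl
  conv_rhs => rw [eq_fromBlocks Q.isProj]
  unfold bmat
  rw [hc, h]
  norm_num

omit [Fintype I] in
theorem dd_bmat (Q : Matrix (I ⊕ Unit) (I ⊕ Unit) ℂ) (x y z : ℝ) : dd (bmat Q x y z) = z := by
  unfold dd bmat
  rw [fromBlocks_apply₂₂, Matrix.smul_apply, one_apply_eq, smul_eq_mul, mul_one,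
    Complex.ofReal_re]

theorem dd_pull_one (Q : Gr n (I ⊕ Unit)) (h : 1 / 2 < dd Q.P) : dd (pull (Q, 1)).P = 1 := by
  rw [pull_P, dd_bmat]
  have h1 : pullS Q 1 = 0 := by
    unfold pullS
    rw [min_eq_left (by linarith)]
    simp
  rw [h1]
  have : (0 : ℝ) ^ 2 * (1 - dd Q.P) + dd Q.P = dd Q.P := by ring
  rw [this]
  exact div_self (by linarith)

/-- the deformation as a morphism -/
def pullHom : LC.of (Gr n (I ⊕ Unit)) ⊗ II ⟶ LC.of (Gr n (I ⊕ Unit)) :=
  LC.ofCompact (X := LC.of (Gr n (I ⊕ Unit) × unitInterval)) (Y := LC.of (Gr n (I ⊕ Unit))) pull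
    continuous_pull

theorem app_pullHom (Q : Gr n (I ⊕ Unit)) (t : unitInterval) :
    app (pullHom (n := n) (I := I))
      (smash (Q : OnePoint (Gr n (I ⊕ Unit))) (t : OnePoint unitInterval)) =
      (pull (Q, t) : OnePoint (Gr n (I ⊕ Unit))) := rfl

theorem app_addOneHom (P : Gr n I) :
    app Gr.addOneHom (P : OnePoint (Gr n I)) = (P.addOne : OnePoint (Gr (n + 1) (I ⊕ Unit))) :=
  app_ofClosed_coe (X := LC.of (Gr n I)) (Y := LC.of (Gr (n + 1) (I ⊕ Unit))) Gr.addOne
    Gr.isClosedEmbedding_addOne P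

theorem app_addOneHom_injective : Function.Injective (app (Gr.addOneHom (n := n) (I := I))) :=
  app_injective_ofClosed (X := LC.of (Gr n I)) (Y := LC.of (Gr (n + 1) (I ⊕ Unit)))
    Gr.isClosedEmbedding_addOne

theorem mem_range_addOneHom (Q : Gr (n + 1) (I ⊕ Unit)) :
    (Q : OnePoint (Gr (n + 1) (I ⊕ Unit))) ∈ Set.range (app (Gr.addOneHom (n := n) (I := I))) ↔
      dd Q.P = 1 := by
  have h0 : Q ∈ Set.range (Gr.addOne : Gr n I → Gr (n + 1) (I ⊕ Unit)) ↔ dd Q.P = 1 := by
    rw [Gr.range_addOne]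
    rfl
  rw [← h0]
  constructor
  · rintro ⟨x, hx⟩
    induction x using OnePoint.rec with
    | infty => exact absurd ((app_infty _).symm.trans hx).symm (OnePoint.coe_ne_infty _)
    | coe P =>
      have := (app_addOneHom P).symm.trans hx
      exact ⟨P, OnePoint.coe_injective this⟩
  · rintro ⟨P, rfl⟩
    exact ⟨P, app_addOneHom P⟩

/-- The inclusion of the closed stratum is a cofibration. -/
theorem Gr.cofib_addOneHom : Cofib (Gr.addOneHom (n := n) (I := I)) := by
  refine cofib_of_ndr app_addOneHom_injective (fun Q => 2 * (1 - dd (Gr.P Q))) ?_ ?_ ?_ pullHom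
    ?_ ?_ ?_
  · exact continuous_const.mul (continuous_const.sub (continuous_dd.comp Gr.continuous_P))
  · intro Q
    have := dd_le_one' Q
    change 0 ≤ 2 * (1 - dd (Gr.P Q))
    linarith
  · intro Q
    refine Iff.trans ?_ (mem_range_addOneHom Q).symm
    constructor
    · intro h; linarith
    · intro h; rw [h]; norm_num
  · apply LC.hom_ext
    intro Q
    rw [app_comp, app_incl]
    refine (app_pullHom Q 0).trans ?_
    rw [pull_zero, app_id]
  · intro Q t h
    refine (app_pullHom Q t).trans ?_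
    rw [pull_of_eq_one]
    change 2 * (1 - dd (Gr.P Q)) = 0 at h
    linarith
  · intro Q h
    have h2 := mem_range_addOneHom (pull (Q, 1))
    rw [show app pullHom (smash (Q : OnePoint (Gr (n + 1) (I ⊕ Unit)))
      ((1 : unitInterval) : OnePoint unitInterval)) = _ from app_pullHom Q 1]
    refine h2.mpr (dd_pull_one Q ?_)
    change 2 * (1 - dd (Gr.P Q)) < 1 at h
    linarith

/-- The strict cofibre of the closed stratum is the open stratum. -/
def Gr.cofAddOne : cof (Gr.addOneHom (n := n) (I := I)) ≅ LC.of (Th (n + 1) I) :=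
  cofClosedOpen (Z := LC.of (Gr n I)) (U := LC.of (Th (n + 1) I))
    (Y := LC.of (Gr (n + 1) (I ⊕ Unit))) Gr.addOne Gr.isClosedEmbedding_addOne Th.graph
    Th.isOpenEmbedding_graph (by
      rw [Gr.range_addOne, Th.range_graph]
      exact isCompl_compl)

@[reassoc]
theorem Gr.cofMap_cofAddOne :
    cofMap Gr.addOneHom ≫ (Gr.cofAddOne (n := n) (I := I)).hom = Gr.collapse :=
  cofMap_cofClosedOpen _ _ _ _ _

@[reassoc (attr := simp)]
theorem Gr.addOneHom_collapse :
    Gr.addOneHom (n := n) (I := I) ≫ Gr.collapse = 0 := by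
  rw [← Gr.cofMap_cofAddOne, comp_cofMap_assoc, Limits.zero_comp]

/-! ### Projective spaces: rank one -/

theorem gr_zero_subsingleton (P Q : Gr 0 I) : P = Q := by
  have h : ∀ R : Gr 0 I, R.P = 0 := by
    intro R
    have h1 := R.isProj
    ext i j
    have h3 : ∑ k, nsq (R.P k) = 0 := by
      have h4 := h1.trace
      have h5 : (R.P.trace) = ((∑ k, nsq (R.P k) : ℝ) : ℂ) := by
        push_cast
        exact Finset.sum_congr rfl fun k _ => h1.diag_eq k
      rw [h5] at h4
      exact_mod_cast h4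
    have h6 := (Finset.sum_eq_zero_iff_of_nonneg fun k _ => nsq_nonneg (R.P k)).mp h3 i
      (Finset.mem_univ i)
    exact congrFun (nsq_eq_zero.mp h6) j
  exact Gr.ext ((h P).trans (h Q).symm)

instance : Unique (Gr 0 I) where
  default := ⟨0, IsProj.zero⟩
  uniq P := gr_zero_subsingleton P _

instance [IsEmpty I] : IsEmpty (Gr (n + 1) I) := ⟨fun Q => by
  have h := Q.isProj.trace
  have h2 : Q.P.trace = 0 := by simp [Matrix.trace]
  rw [h2] at h
  have h3 : ((n + 1 : ℕ) : ℂ) ≠ 0 := Nat.cast_ne_zero.mpr (Nat.succ_ne_zero n)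
  exact h3 h.symm⟩

end Vale.Agent.P251.G
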