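import Vale.Agent.P251.G.Cofib

/-!
# P251, part G: cofibrations in `LC`: NDR pairs and the pushout product

* `PNDR D S`: neighbourhood deformation retract data for a subset `S` of `D` (pointed version).
* `cofib_of_pndr`: an injective morphism with image `S ∪ {∞}` is a cofibration.
* `Cofib.pushoutProduct`: the pushout product of a cofibration and an NDR inclusion.
-/

open CategoryTheory MonoidalCategory Filter Topology OnePoint

namespace Vale.Agent.P251.G

namespace LC

section tsub

/-- truncated subtraction in the unit interval -/
def tsub (t u : unitInterval) : unitInterval :=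
  ⟨max (t.1 - u.1) 0, le_max_right _ _, max_le (by linarith [t.2.2, u.2.1]) zero_le_one⟩

theorem continuous_tsub {X : Type*} [TopologicalSpace X] {f g : X → unitInterval}
    (hf : Continuous f) (hg : Continuous g) : Continuous (fun x => tsub (f x) (g x)) :=
  Continuous.subtype_mk (((continuous_subtype_val.comp hf).sub
    (continuous_subtype_val.comp hg)).max continuous_const) _

@[simp] theorem tsub_zero (t : unitInterval) : tsub t 0 = t := by
  apply Subtype.ext
  change max (t.1 - (0 : ℝ)) 0 = t.1
  rw [sub_zero, max_eq_left t.2.1]

theorem tsub_of_le {t u : unitInterval} (h : t ≤ u) : tsub t u = 0 := by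
  apply Subtype.ext
  change max (t.1 - u.1) 0 = 0
  have : t.1 ≤ u.1 := h
  rw [max_eq_right (by linarith)]

@[simp] theorem zero_tsub (u : unitInterval) : tsub 0 u = 0 := tsub_of_le u.2.1

@[simp] theorem tsub_self (u : unitInterval) : tsub u u = 0 := tsub_of_le le_rfl

end tsub

variable {A B C D X Y Z : LC}

/-- the subset `S ∪ {∞}` of `OnePoint D` -/
def ptd (S : Set D) : Set (OnePoint D) := {x | ∀ d : D, x = d → d ∈ S}

@[simp] theorem infty_mem_ptd (S : Set D) : ∞ ∈ ptd S := fun _ h => absurd h (infty_ne_coe _)

@[simp] theorem coe_mem_ptd {S : Set D} {d : D} : (d : OnePoint D) ∈ ptd S ↔ d ∈ S :=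
  ⟨fun h => h d rfl, fun h d' hd => by rwa [← OnePoint.coe_injective hd]⟩

theorem range_subι {S : Set D} (hS : IsClosed S) : Set.range (app (subι hS)) = ptd S :=
  Set.ext fun y => mem_range_subι hS y

theorem range_ofClosed (f : C → D) (hf : IsClosedEmbedding f) :
    Set.range (app (ofClosed f hf)) = ptd (Set.range f) := by
  ext x
  constructor
  · rintro ⟨c, rfl⟩ d hd
    induction c using OnePoint.rec with
    | infty => exact absurd ((app_infty (ofClosed f hf)).symm.trans hd) (infty_ne_coe _)
    | coe c => exact ⟨c, OnePoint.coe_injective hd⟩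
  · intro h
    induction x using OnePoint.rec with
    | infty => exact infty_mem_range_app _
    | coe x =>
      obtain ⟨c, rfl⟩ := h x rfl
      exact ⟨c, rfl⟩

theorem injective_ofClosed (f : C → D) (hf : IsClosedEmbedding f) :
    Function.Injective (app (ofClosed f hf)) := by
  intro a b h
  induction a using OnePoint.rec with
  | infty =>
    induction b using OnePoint.rec with
    | infty => rfl
    | coe b => exact absurd ((app_infty (ofClosed f hf)).symm.trans h) (infty_ne_coe _)
  | coe a =>
    induction b using OnePoint.rec with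
    | infty => exact absurd (h.trans (app_infty (ofClosed f hf))) (OnePoint.coe_ne_infty _)
    | coe b => exact congrArg _ (hf.injective (OnePoint.coe_injective h))

/-- Data exhibiting `S` as a neighbourhood deformation retract in `D`: pointed version, the values
of `u` at infinity are not restricted and the deformation is allowed to reach infinity. -/
structure NDRData (D : LC) (S : Set D) where
  /-- the distance to `S` -/
  u : C(OnePoint D, unitInterval)
  /-- the deformation -/
  h : D ⊗ II ⟶ D
  u_eq_zero : ∀ d : D, u (d : OnePoint D) = 0 ↔ d ∈ S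
  h_zero : ∀ d : D,
    app h (smash (d : OnePoint D) ((0 : unitInterval) : OnePoint unitInterval)) = d
  h_mem : ∀ d ∈ S, ∀ t : unitInterval,
    app h (smash (d : OnePoint D) (t : OnePoint unitInterval)) = d
  h_lt : ∀ (d : D) (t : unitInterval), u (d : OnePoint D) < t →
    app h (smash (d : OnePoint D) (t : OnePoint unitInterval)) ∈ ptd S

/-- `S` is a neighbourhood deformation retract in `D` (pointed version). -/
def PNDR (D : LC) (S : Set D) : Prop := Nonempty (NDRData D S)

namespace NDRData

variable {S : Set D} (N : NDRData D S)

include N in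
theorem isClosed : IsClosed S := by
  have h1 : S = (fun d : D => N.u (d : OnePoint D)) ⁻¹' {0} := by
    ext d
    exact (N.u_eq_zero d).symm
  rw [h1]
  exact isClosed_singleton.preimage (N.u.continuous.comp OnePoint.continuous_coe)

include N in
theorem isClosed_ptd : IsClosed (ptd S) := by
  rw [← range_subι N.isClosed]
  exact isClosed_range_app _

theorem h_zero' (d : OnePoint D) :
    app N.h (smash d ((0 : unitInterval) : OnePoint unitInterval)) = d := by
  induction d using OnePoint.rec with
  | infty => exact app_infty _
  | coe d => exact N.h_zero d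

theorem h_mem' {d : OnePoint D} (hd : d ∈ ptd S) (t : unitInterval) :
    app N.h (smash d (t : OnePoint unitInterval)) = d := by
  induction d using OnePoint.rec with
  | infty => exact app_infty _
  | coe d => exact N.h_mem d (coe_mem_ptd.mp hd) t

theorem h_lt' (d : OnePoint D) (t : unitInterval) (h : N.u d < t) :
    app N.h (smash d (t : OnePoint unitInterval)) ∈ ptd S := by
  induction d using OnePoint.rec with
  | infty =>
    have h1 : app N.h (smash ∞ (t : OnePoint unitInterval)) = ∞ := app_infty _
    rw [h1]
    exact infty_mem_ptd S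
  | coe d => exact N.h_lt d t h

theorem h_le (d : OnePoint D) (t : unitInterval) (h : N.u d ≤ t) (h1 : N.u d < 1) :
    app N.h (smash d (t : OnePoint unitInterval)) ∈ ptd S := by
  have hcl : IsClosed {t : unitInterval |
      app N.h (smash d (t : OnePoint unitInterval)) ∈ ptd S} :=
    N.isClosed_ptd.preimage ((continuous_app N.h).comp
      (continuous_smash.comp (continuous_const.prodMk OnePoint.continuous_coe)))
  have hsub : Set.Ioi (N.u d) ⊆ {t : unitInterval |
      app N.h (smash d (t : OnePoint unitInterval)) ∈ ptd S} := fun t ht => N.h_lt' d t ht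
  have h2 := hcl.closure_subset_iff.mpr hsub
  have hne : (Set.Ioi (N.u d)).Nonempty := ⟨1, h1⟩
  have h3 : closure (Set.Ioi (N.u d)) = Set.Ici (N.u d) := closure_Ioi' hne
  rw [h3] at h2
  exact h2 h

end NDRData

/-- An injective morphism whose image is an NDR is a cofibration. -/
theorem cofib_of_pndr {j : C ⟶ D} (hj : Function.Injective (app j)) {S : Set D}
    (hS : Set.range (app j) = ptd S) (h : PNDR D S) : Cofib j := by
  obtain ⟨N⟩ := h
  have hc : Continuous (fun p : OnePoint D × unitInterval =>
      smash (app N.h (smash p.1 (p.2 : OnePoint unitInterval)))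
        ((tsub p.2 (N.u p.1) : unitInterval) : OnePoint unitInterval)) := by
    refine continuous_smash.comp (Continuous.prodMk ?_ ?_)
    · exact (continuous_app N.h).comp (continuous_smash.comp
        (continuous_fst.prodMk (OnePoint.continuous_coe.comp continuous_snd)))
    · exact OnePoint.continuous_coe.comp
        (continuous_tsub continuous_snd (N.u.continuous.comp continuous_fst))
  refine cofib_of_isRetr hj (r := homII (Z := D ⊗ II) _ hc ?_) ⟨?_, ?_, ?_⟩
  · intro t
    have h1 : app N.h (smash ∞ (t : OnePoint unitInterval)) = ∞ := app_infty _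
    change smash (app N.h (smash ∞ (t : OnePoint unitInterval))) _ = ∞
    rw [h1]
    rfl
  · intro d
    rw [app_homII]
    change smash (app N.h (smash d _)) _ = _
    rw [N.h_zero', zero_tsub]
  · intro d hd t
    rw [hS] at hd
    rw [app_homII]
    change smash (app N.h (smash d _)) _ = _
    rw [N.h_mem' hd]
    induction d using OnePoint.rec with
    | infty => rfl
    | coe d =>
      have h0 := (N.u_eq_zero d).mpr (coe_mem_ptd.mp hd)
      change smash _ ((tsub t (N.u (d : OnePoint D)) : unitInterval) : OnePoint unitInterval) = _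
      rw [h0, tsub_zero]
  · intro p
    obtain ⟨d, t, rfl⟩ := smash_coe_surjective (X := D) (Y := unitInterval) p
    rw [app_homII]
    refine ⟨_, _, rfl, ?_⟩
    rw [hS]
    rcases le_or_gt t (N.u d) with h1 | h1
    · exact Or.inl (tsub_of_le h1)
    · exact Or.inr (N.h_lt' d t h1)

theorem cofib_subι {S : Set D} (hS : IsClosed S) (h : PNDR D S) : Cofib (subι hS) :=
  cofib_of_pndr (injective_subι hS) (range_subι hS) h

theorem cofib_ofClosed (f : C → D) (hf : IsClosedEmbedding f) (h : PNDR D (Set.range f)) :
    Cofib (ofClosed f hf) :=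
  cofib_of_pndr (injective_ofClosed f hf) (range_ofClosed f hf) h

section pushoutProduct

/-- the auxiliary function of the proof of `Cofib.pushoutProduct` -/
def ppAux {S : Set D} (N : NDRData D S) (B : LC)
    (p : (OnePoint B × unitInterval) × (OnePoint D × unitInterval)) :
    OnePoint ((B × D) × unitInterval) :=
  smash (smash p.1.1 (app N.h (smash p.2.1
      ((tsub (min p.2.2 (N.u p.2.1)) p.1.2 : unitInterval) : OnePoint unitInterval))))
    ((tsub p.2.2 (tsub (min p.2.2 (N.u p.2.1)) p.1.2) : unitInterval) : OnePoint unitInterval)

theorem continuous_ppAux {S : Set D} (N : NDRData D S) (B : LC) : Continuous (ppAux N B) := by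
  have hd : Continuous (fun p : (OnePoint B × unitInterval) × (OnePoint D × unitInterval) =>
      p.2.1) := continuous_fst.comp continuous_snd
  have ht : Continuous (fun p : (OnePoint B × unitInterval) × (OnePoint D × unitInterval) =>
      p.2.2) := continuous_snd.comp continuous_snd
  have he : Continuous (fun p : (OnePoint B × unitInterval) × (OnePoint D × unitInterval) =>
      tsub (min p.2.2 (N.u p.2.1)) p.1.2) :=
    continuous_tsub (ht.min (N.u.continuous.comp hd)) (continuous_snd.comp continuous_fst)
  refine continuous_smash.comp (Continuous.prodMk (continuous_smash.comp (Continuous.prodMk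
    (continuous_fst.comp continuous_fst) ((continuous_app N.h).comp (continuous_smash.comp
      (Continuous.prodMk hd (OnePoint.continuous_coe.comp he)))))) ?_)
  exact OnePoint.continuous_coe.comp (continuous_tsub ht he)

/-- **Pushout product.**  If `i : A ⟶ B` is a cofibration and `S` is an NDR in `D`, then every
injective morphism into `B ⊗ D` whose image consists of the `smash b d` with `b` in the image of
`i` or `d ∈ S ∪ {∞}` is a cofibration. -/
theorem Cofib.of_pushoutProduct {i : A ⟶ B} (hi : Cofib i) {S : Set D} (hS : PNDR D S) {P : LC}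
    {q : P ⟶ B ⊗ D} (hq : Function.Injective (app q))
    (hr : ∀ b d, smash b d ∈ Set.range (app q) ↔ (b ∈ Set.range (app i) ∨ d ∈ ptd S)) :
    Cofib q := by
  obtain ⟨N⟩ := hS
  obtain ⟨ρ, hρ⟩ := hi.exists_isRetr
  let q0 : (OnePoint B × unitInterval) × (OnePoint D × unitInterval) →
      OnePoint (B × unitInterval) × (OnePoint D × unitInterval) := Prod.map (smashII B) id
  have hq0 : IsQuotientMap q0 := by
    apply IsQuotientMap.of_surjective_continuous
    · exact (surjective_smashII B).prodMap Function.surjective_id
    · exact (continuous_smashII B).prodMap continuous_id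
  have hfac : Function.FactorsThrough (⟨ppAux N B, continuous_ppAux N B⟩ : C(_, _))
      (⟨q0, hq0.continuous⟩ : C(_, _)) := by
    rintro ⟨⟨k, s⟩, y⟩ ⟨⟨k', s'⟩, y'⟩ h
    have h1 : smash k (s : OnePoint unitInterval) = smash k' (s' : OnePoint unitInterval) :=
      congrArg Prod.fst h
    have h2 : y = y' := congrArg Prod.snd h
    subst h2
    obtain ⟨rfl, h3⟩ := smash_coe_eq_iff.mp h1
    rcases h3 with rfl | rfl
    · rfl
    · rfl
  let G := IsQuotientMap.lift (f := ⟨q0, hq0.continuous⟩) hq0
    ⟨ppAux N B, continuous_ppAux N B⟩ hfac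
  have hG : ∀ (k : OnePoint B) (s : unitInterval) (y : OnePoint D × unitInterval),
      G (smash k (s : OnePoint unitInterval), y) = ppAux N B ((k, s), y) := by
    intro k s y
    exact DFunLike.congr_fun (IsQuotientMap.lift_comp (f := ⟨q0, hq0.continuous⟩) hq0
      ⟨ppAux N B, continuous_ppAux N B⟩ hfac) ((k, s), y)
  let Φ : OnePoint B × (OnePoint D × unitInterval) → OnePoint ((B × D) × unitInterval) :=
    fun p => G (app ρ (smash p.1 ((min p.2.2 (N.u p.2.1) : unitInterval) :
      OnePoint unitInterval)), p.2)
  have hΦ : Continuous Φ := by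
    refine G.continuous.comp (Continuous.prodMk ?_ continuous_snd)
    refine (continuous_app ρ).comp (continuous_smash.comp (Continuous.prodMk continuous_fst ?_))
    exact OnePoint.continuous_coe.comp ((continuous_snd.comp continuous_snd).min
      (N.u.continuous.comp (continuous_fst.comp continuous_snd)))
  let J : (B × D) × unitInterval → OnePoint B × (OnePoint D × unitInterval) :=
    fun p => ((p.1.1 : OnePoint B), ((p.1.2 : OnePoint D), p.2))
  have hJ : IsOpenEmbedding J :=
    (OnePoint.isOpenEmbedding_coe.prodMap
      (OnePoint.isOpenEmbedding_coe.prodMap IsOpenEmbedding.id)).comp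
      (Homeomorph.prodAssoc B D unitInterval).isOpenEmbedding
  have hΦb : ∀ y, Φ (∞, y) = ∞ := by
    intro y
    have h1 : app ρ (smash ∞ ((min y.2 (N.u y.1) : unitInterval) : OnePoint unitInterval)) =
      smash ∞ ((0 : unitInterval) : OnePoint unitInterval) := app_infty ρ
    change G (app ρ _, y) = ∞
    rw [h1, hG]
    rfl
  have hΦd : ∀ b t, Φ (b, (∞, t)) = ∞ := by
    intro b t
    obtain ⟨k, s, hks⟩ := smash_coe_surjective (X := B) (Y := unitInterval)
      (app ρ (smash b ((min t (N.u ∞) : unitInterval) : OnePoint unitInterval)))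
    change G (app ρ (smash b ((min t (N.u ∞) : unitInterval) : OnePoint unitInterval)),
      (∞, t)) = ∞
    rw [← hks, hG]
    have h1 : app N.h (smash ∞ ((tsub (min t (N.u ∞)) s : unitInterval) :
      OnePoint unitInterval)) = ∞ := app_infty N.h
    change smash (smash k (app N.h (smash ∞ _))) _ = ∞
    rw [h1, smash_infty_right, smash_infty_left]
  let R : (B ⊗ D) ⊗ II ⟶ (B ⊗ D) ⊗ II :=
    ofCompactification (X := LC.of ((B × D) × unitInterval))
      (Y := LC.of ((B × D) × unitInterval)) J hJ Φ hΦ (by
        rintro ⟨b, d, t⟩ hk
        by_cases hb : b = ∞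
        · subst hb; exact hΦb _
        by_cases hd : d = ∞
        · subst hd; exact hΦd b t
        obtain ⟨b', rfl⟩ := OnePoint.ne_infty_iff_exists.mp hb
        obtain ⟨d', rfl⟩ := OnePoint.ne_infty_iff_exists.mp hd
        exact absurd ⟨((b', d'), t), rfl⟩ hk)
  have hR : ∀ (b : OnePoint B) (d : OnePoint D) (t : unitInterval),
      app R (smash (smash b d) (t : OnePoint unitInterval)) = Φ (b, (d, t)) := by
    intro b d t
    induction b using OnePoint.rec with
    | infty => rw [hΦb]; exact app_infty R
    | coe b =>
      induction d using OnePoint.rec with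
      | infty => rw [hΦd]; exact app_infty R
      | coe d => rfl
  refine cofib_of_isRetr hq (r := R) ⟨?_, ?_, ?_⟩
  · intro p
    obtain ⟨b, d, rfl⟩ := smash_surjective (X := B) (Y := D) p
    rw [hR]
    change G (app ρ (smash b ((min (0 : unitInterval) (N.u d) : unitInterval) :
      OnePoint unitInterval)), (d, 0)) = _
    have h0 : min (0 : unitInterval) (N.u d) = 0 := min_eq_left (N.u d).2.1
    rw [h0, hρ.zero, hG]
    change smash (smash b (app N.h (smash d ((tsub (min 0 (N.u d)) 0 : unitInterval) :
      OnePoint unitInterval)))) ((tsub 0 (tsub (min 0 (N.u d)) 0) : unitInterval) :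
      OnePoint unitInterval) = _
    rw [h0, tsub_zero, N.h_zero', tsub_zero]
  · intro p hp t
    obtain ⟨b, d, rfl⟩ := smash_surjective (X := B) (Y := D) p
    rw [hR]
    change G (app ρ (smash b ((min t (N.u d) : unitInterval) :
      OnePoint unitInterval)), (d, t)) = _
    rcases (hr b d).mp hp with hb | hd
    · rw [hρ.mem b hb, hG]
      change smash (smash b (app N.h (smash d ((tsub (min t (N.u d)) (min t (N.u d)) :
        unitInterval) : OnePoint unitInterval)))) ((tsub t (tsub (min t (N.u d))
        (min t (N.u d))) : unitInterval) : OnePoint unitInterval) = _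
      rw [tsub_self, N.h_zero', tsub_zero]
    · by_cases hd' : d = ∞
      · subst hd'
        have h1 := hΦd b t
        change G (app ρ (smash b ((min t (N.u ∞) : unitInterval) :
          OnePoint unitInterval)), (∞, t)) = ∞ at h1
        rw [h1, smash_infty_right, smash_infty_left]
      · obtain ⟨d', rfl⟩ := OnePoint.ne_infty_iff_exists.mp hd'
        have h0 : N.u (d' : OnePoint D) = 0 := (N.u_eq_zero d').mpr (coe_mem_ptd.mp hd)
        have h1 : min t (N.u (d' : OnePoint D)) = 0 := by rw [h0]; exact min_eq_right t.2.1
        rw [h1, hρ.zero, hG]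
        change smash (smash b (app N.h (smash (d' : OnePoint D)
          ((tsub (min t (N.u (d' : OnePoint D))) 0 : unitInterval) :
          OnePoint unitInterval)))) ((tsub t (tsub (min t (N.u (d' : OnePoint D))) 0) :
          unitInterval) : OnePoint unitInterval) = _
        rw [h1, tsub_zero, N.h_zero', tsub_zero]
  · intro p
    obtain ⟨p', t, rfl⟩ := smash_coe_surjective (X := (B ⊗ D : LC)) (Y := unitInterval) p
    obtain ⟨b, d, rfl⟩ := smash_surjective (X := B) (Y := D) p'
    rw [hR]
    obtain ⟨k, s, h1, h2⟩ := hρ.range (smash b ((min t (N.u d) : unitInterval) :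
      OnePoint unitInterval))
    change ∃ b' t', G (app ρ (smash b ((min t (N.u d) : unitInterval) :
      OnePoint unitInterval)), (d, t)) = _ ∧ _
    rw [h1, hG]
    refine ⟨_, _, rfl, ?_⟩
    change tsub t (tsub (min t (N.u d)) s) = 0 ∨ smash k (app N.h (smash d
      ((tsub (min t (N.u d)) s : unitInterval) : OnePoint unitInterval))) ∈ _
    rcases h2 with rfl | h2
    · rw [tsub_zero]
      rcases le_or_gt t (N.u d) with h3 | h3
      · left
        rw [min_eq_left h3, tsub_self]
      · right
        rw [min_eq_right h3.le]
        exact (hr _ _).mpr (Or.inr (N.h_le d _ le_rfl (lt_of_lt_of_le h3 t.2.2)))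
    · right
      exact (hr _ _).mpr (Or.inl h2)

end pushoutProduct

end LC

end Vale.Agent.P251.G
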