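import Vale.Agent.P251.G.CellLC
import Vale.Agent.P251.G.CellGr
import Vale.Agent.P251.G.ThMap
import Vale.Agent.P251.G.SphereBundle

/-!
# Cell structures of Grassmannians, Thom spaces, total spaces and sphere bundles, in `LC`

* `Cells.of_iso`, `Cells.tensor`, `cells_of_compact`, `chain_prod`, `cells_sph`;
* `cells_tot`, `chain_Sph` for bundles over a compact space with a chain of cells;
* `cells_gr`, `cells_th`;
* `relCell_inj` : `Th n I ⟶ Th n J` (injection of index types), cells even, `≥ 2 |I| + 2`;
* `relCell_incl` : `ℂ^I ⟶ Th n J` (`|I| = n`), cells even, `≥ 2 n + 2`;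
* `relCell_sum_unit` : `Th n I ⊗ Th 1 Unit ⟶ Th (n+1) (I ⊕ Unit)`, cells even, `≥ 4 (n + 1)`.
-/

open CategoryTheory MonoidalCategory Filter Topology OnePoint Set Metric Matrix

namespace Vale.Agent.P251.G.Cell

open LC

section basic

variable {D E : Set ℕ}

theorem app_bijective_of_isIso {X Y : LC} (f : X ⟶ Y) [IsIso f] :
    Function.Bijective (app f) := by
  refine ⟨fun x y h => ?_, fun y => ⟨app (inv f) y, ?_⟩⟩
  · have h1 := congrArg (app (inv f)) h
    rwa [← app_comp, ← app_comp, IsIso.hom_inv_id, app_id, app_id] at h1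
  · rw [← app_comp, IsIso.inv_hom_id, app_id]

theorem Cells.of_iso {X Y : LC} (e : X ≅ Y) (h : Cells D X) : Cells D Y := by
  have hb := app_bijective_of_isIso e.hom
  have h1 := h.image (f := app e.hom) (continuous_app e.hom).continuousOn hb.injective.injOn
  rw [image_univ, image_singleton, app_infty, hb.surjective.range_eq] at h1
  exact h1

theorem Cells.of_homeo {X Y : LC} (e : X ≃ₜ Y) (h : Cells D X) : Cells D Y :=
  h.of_iso (ofHomeo e)

/-- A compact space with a chain of cells. -/
theorem cells_of_compact {Y : Type} [TopologicalSpace Y] [CompactSpace Y] [T2Space Y]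
    (h : CellChain D ∅ (univ : Set Y)) : Cells D (LC.of Y) := by
  have h1 := h.image (f := fun y : Y => (y : OnePoint Y)) OnePoint.continuous_coe.continuousOn
    OnePoint.coe_injective.injOn
  rw [image_empty, image_univ] at h1
  have h2 := h1.union (Z := {∞}) (by
    rintro x ⟨hx, y, rfl⟩
    exact absurd (mem_singleton_iff.1 hx) (OnePoint.coe_ne_infty _))
  rw [union_empty] at h2
  have h3 : {∞} ∪ range (fun y : Y => (y : OnePoint Y)) = univ := by
    ext x
    simp only [mem_univ, iff_true]
    induction x using OnePoint.rec with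
    | infty => exact Or.inl rfl
    | coe y => exact Or.inr ⟨y, rfl⟩
  rw [h3] at h2
  exact h2

theorem cells_empty : Cells D (LC.of Empty) :=
  cells_of_compact (by
    rw [show (univ : Set Empty) = ∅ from by ext x; exact x.elim]
    exact CellChain.refl _)

theorem chain_unit : CellChain {0} ∅ (univ : Set Unit) := by
  have := cellStep_point (B := (∅ : Set Unit)) () (by simp)
  rw [insert_empty_eq, show ({()} : Set Unit) = univ from by ext; simp] at this
  exact CellChain.single (mem_singleton 0) this

/-- The sphere `ℝᵃ`. -/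
theorem cells_sph (a : ℕ) : Cells {a} (Sph a) := by
  -- the disc bundle of the trivial situation: one cell
  have hcol : ∀ y : Euc a, y ∉ ball (0 : Euc a) 1 →
      collapseFun (X := LC.of (Euc a)) (Y := LC.of (Fin a → ℝ)) (jE a)
        (y : OnePoint (Euc a)) = ∞ := by
    intro y hy
    apply collapseFun_of_notMem
    rwa [range_jE]
  have hcol' : ∀ v : Fin a → ℝ,
      collapseFun (X := LC.of (Euc a)) (Y := LC.of (Fin a → ℝ)) (jE a)
        (jE a v : OnePoint (Euc a)) = (v : OnePoint (Fin a → ℝ)) := fun v =>
    collapseFun_coe_of_injective (X := LC.of (Euc a)) (Y := LC.of (Fin a → ℝ))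
      (isOpenEmbedding_jE a).injective v
  refine CellChain.single (mem_singleton a) ⟨subset_univ _, fun y =>
    collapseFun (X := LC.of (Euc a)) (Y := LC.of (Fin a → ℝ)) (jE a) (y : OnePoint (Euc a)),
    ?_, ?_, ?_, ?_⟩
  · exact ((continuous_collapseFun (X := LC.of (Euc a)) (Y := LC.of (Fin a → ℝ))
      (isOpenEmbedding_jE a)).comp OnePoint.continuous_coe).continuousOn
  · intro y hy
    rw [mem_singleton_iff]
    apply hcol
    rw [mem_ball_zero_iff, mem_sphere_zero_iff_norm.1 hy]
    exact lt_irrefl _
  · intro y hy z hz hyz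
    rw [← range_jE] at hy hz
    obtain ⟨v, rfl⟩ := hy
    obtain ⟨w, rfl⟩ := hz
    dsimp only at hyz
    rw [hcol', hcol'] at hyz
    rw [OnePoint.coe_injective hyz]
  · ext x
    constructor
    · rintro ⟨y, hy, rfl⟩
      rw [← range_jE] at hy
      obtain ⟨v, rfl⟩ := hy
      refine ⟨mem_univ _, ?_⟩
      dsimp only
      rw [hcol', mem_singleton_iff]
      exact OnePoint.coe_ne_infty v
    · rintro ⟨-, hx⟩
      obtain ⟨v, rfl⟩ := OnePoint.ne_infty_iff_exists.mp hx
      exact ⟨jE a v, by rw [← range_jE]; exact mem_range_self v, hcol' v⟩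

/-- Chains of the product of a chain with a space with cells. -/
theorem chain_smash {X Y : LC} {S T : Set (OnePoint X)} (h : CellChain D S T)
    (hY : Cells E Y) (hS : ∞ ∈ S) :
    CellChain (image2 (fun a b => a + b) D E)
      ((fun p : OnePoint X × OnePoint Y => smash p.1 p.2) '' (S ×ˢ univ))
      ((fun p : OnePoint X × OnePoint Y => smash p.1 p.2) '' (T ×ˢ univ)) := by
  induction h with
  | refl => exact CellChain.refl _
  | @step B C a ha hc hs ih =>
    have hB : ∞ ∈ B := hc.subset hS
    refine ih.trans ?_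
    obtain ⟨hBC, φ, h1, h2, h3, h4⟩ := hs
    have hφb : ∀ t ∈ ball (0 : Euc a) 1, φ t ∈ C \ B := fun t ht => by
      rw [← h4]; exact mem_image_of_mem _ ht
    have hinj : ∀ (x x' : OnePoint X) (y y' : OnePoint Y), x ≠ ∞ → y ≠ ∞ →
        smash x y = smash x' y' → x = x' ∧ y = y' := by
      intro x x' y y' hx hy hxy
      obtain ⟨x, rfl⟩ := OnePoint.ne_infty_iff_exists.mp hx
      obtain ⟨y, rfl⟩ := OnePoint.ne_infty_iff_exists.mp hy
      induction x' using OnePoint.rec with
      | infty => exact absurd hxy (OnePoint.coe_ne_infty _)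
      | coe x' =>
        induction y' using OnePoint.rec with
        | infty => exact absurd hxy (OnePoint.coe_ne_infty _)
        | coe y' =>
          have := OnePoint.coe_injective hxy
          rw [Prod.mk.injEq] at this
          exact ⟨congrArg _ this.1, congrArg _ this.2⟩
    refine (CellChain.fibre (a := a) hY (B := (fun p : OnePoint X × OnePoint Y =>
      smash p.1 p.2) '' (B ×ˢ univ)) (C := (fun p : OnePoint X × OnePoint Y =>
      smash p.1 p.2) '' (C ×ˢ univ)) (image_mono (prod_mono_left hBC))
      (fun p => smash (φ p.1) p.2) ?_ ?_ ?_ ?_ ?_ ?_).mono ?_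
    · exact continuous_smash.comp_continuousOn ((h1.comp continuousOn_fst fun p hp => hp.1).prodMk
        continuousOn_snd)
    · intro t ht y _
      exact ⟨(φ t, y), ⟨h2 ht, mem_univ _⟩, rfl⟩
    · intro t _ y hy
      rw [mem_singleton_iff.1 hy]
      exact ⟨(∞, ∞), ⟨hB, mem_univ _⟩, by simp⟩
    · intro t ht y hy t' ht' y' hy' heq
      have hx : φ t ≠ ∞ := fun h => (hφb t ht).2 (h ▸ hB)
      obtain ⟨e1, e2⟩ := hinj _ _ _ _ hx (fun h => hy.2 h) heq
      exact ⟨h3 ht ht' e1, e2⟩
    · intro t ht y hy
      have hx : φ t ≠ ∞ := fun h => (hφb t ht).2 (h ▸ hB)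
      refine ⟨⟨(φ t, y), ⟨(hφb t ht).1, mem_univ _⟩, rfl⟩, ?_⟩
      rintro ⟨⟨x', y'⟩, ⟨hx', -⟩, heq⟩
      obtain ⟨e1, -⟩ := hinj _ _ _ _ hx (fun h => hy.2 h) heq.symm
      exact (hφb t ht).2 (e1 ▸ hx')
    · rintro _ ⟨⟨⟨x, y⟩, ⟨hx, -⟩, rfl⟩, hn⟩
      have hxB : x ∉ B := fun h => hn ⟨(x, y), ⟨h, mem_univ _⟩, rfl⟩
      have hy : y ≠ ∞ := by
        rintro rfl
        exact hn ⟨(∞, ∞), ⟨hB, mem_univ _⟩, by simp⟩
      have : x ∈ φ '' ball 0 1 := by rw [h4]; exact ⟨hx, hxB⟩
      obtain ⟨t, ht, rfl⟩ := this
      exact ⟨t, ht, y, ⟨mem_univ _, hy⟩, rfl⟩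
    · rintro _ ⟨b, hb, rfl⟩
      exact ⟨a, ha, b, hb, rfl⟩

/-- Products. -/
theorem Cells.tensor {X Y : LC} (hX : Cells D X) (hY : Cells E Y) :
    Cells (image2 (fun a b => a + b) D E) (X ⊗ Y) := by
  have h := chain_smash hX hY (mem_singleton _)
  have e1 : (fun p : OnePoint X × OnePoint Y => smash p.1 p.2) '' ({∞} ×ˢ univ) = {∞} := by
    ext z
    constructor
    · rintro ⟨⟨x, y⟩, ⟨hx, -⟩, rfl⟩
      have hx' : x = ∞ := hx
      subst hx'
      rfl
    · rintro rfl
      exact ⟨(∞, ∞), ⟨rfl, mem_univ _⟩, rfl⟩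
  have e2 : (fun p : OnePoint X × OnePoint Y => smash p.1 p.2) '' (univ ×ˢ univ) = univ := by
    ext z
    simp only [mem_univ, iff_true]
    induction z using OnePoint.rec with
    | infty => exact ⟨(∞, ∞), ⟨mem_univ _, mem_univ _⟩, rfl⟩
    | coe p => exact ⟨(p.1, p.2), ⟨mem_univ _, mem_univ _⟩, rfl⟩
  rw [e1, e2] at h
  exact h

/-- Products of compact spaces. -/
theorem chain_prod {Y Z : Type} [TopologicalSpace Y] [TopologicalSpace Z] {S T : Set Y}
    (h : CellChain D S T) (hZ : CellChain E ∅ (univ : Set Z)) :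
    CellChain (image2 (fun a b => a + b) D E) (S ×ˢ (univ : Set Z)) (T ×ˢ univ) := by
  induction h with
  | refl => exact CellChain.refl _
  | @step B C a ha hc hs ih =>
    refine ih.trans ?_
    obtain ⟨hBC, φ, h1, h2, h3, h4⟩ := hs
    have hφb : ∀ t ∈ ball (0 : Euc a) 1, φ t ∈ C \ B := fun t ht => by
      rw [← h4]; exact mem_image_of_mem _ ht
    refine (CellChain.fibre (a := a) hZ (B := B ×ˢ univ) (C := C ×ˢ univ) (prod_mono_left hBC)
      (fun p => (φ p.1, p.2)) ?_ ?_ ?_ ?_ ?_ ?_).mono ?_
    · exact (h1.comp continuousOn_fst fun p hp => hp.1).prodMk continuousOn_snd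
    · intro t ht z _
      exact ⟨h2 ht, mem_univ _⟩
    · intro t _ z hz
      exact absurd hz (notMem_empty _)
    · intro t ht z _ t' ht' z' _ heq
      rw [Prod.mk.injEq] at heq
      exact ⟨h3 ht ht' heq.1, heq.2⟩
    · intro t ht z _
      exact ⟨⟨(hφb t ht).1, mem_univ _⟩, fun h => (hφb t ht).2 h.1⟩
    · rintro ⟨y, z⟩ ⟨⟨hy, -⟩, hn⟩
      have hyB : y ∉ B := fun h => hn ⟨h, mem_univ _⟩
      have : y ∈ φ '' ball 0 1 := by rw [h4]; exact ⟨hy, hyB⟩
      obtain ⟨t, ht, rfl⟩ := this
      exact ⟨t, ht, z, ⟨mem_univ _, notMem_empty _⟩, rfl⟩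
    · rintro _ ⟨b, hb, rfl⟩
      exact ⟨a, ha, b, hb, rfl⟩

theorem chain_prod_univ {Y Z : Type} [TopologicalSpace Y] [TopologicalSpace Z]
    (h : CellChain D ∅ (univ : Set Y)) (hZ : CellChain E ∅ (univ : Set Z)) :
    CellChain (image2 (fun a b => a + b) D E) ∅ (univ : Set (Y × Z)) := by
  have := chain_prod h hZ
  rwa [empty_prod, univ_prod_univ] at this

end basic

section bundles

variable {ι : Type} [Fintype ι] [DecidableEq ι] {Y : Type} [TopologicalSpace Y] [CompactSpace Y]
  [T2Space Y] {D : Set ℕ}

/-- Total spaces of bundles. -/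
theorem cells_tot (V : Bun Y ι) {r : ℕ} (hr : V.IsRank r) (h : CellChain D ∅ (univ : Set Y)) :
    Cells ((fun a => a + 2 * r) '' D) V.tot := by
  have := thomChain V hr h
  rwa [overSet_empty, overSet_univ] at this

omit [CompactSpace Y] [T2Space Y] in
/-- Sphere bundles. -/
theorem chain_Sph (V : Bun Y ι) {r : ℕ} (hr : V.IsRank r) (h : CellChain D ∅ (univ : Set Y)) :
    CellChain {k | ∃ a ∈ D, k = a ∨ k = a + (2 * r - 1)} ∅ (univ : Set V.Sph) := by
  have h1 := h.sphereBundle (X := Y × (ι → ℂ)) V.P V.cont.continuousOn (fun y _ => V.idem y)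
    (fun y _ => hr y) id continuousOn_id (injOn_id _)
  rw [image_id, image_id] at h1
  have hemb : IsEmbedding (fun s : V.Sph => (s.base, s.vec)) :=
    (IsEmbedding.subtypeVal (p := fun p : Y × (ι → ℂ) => V.P p.1 *ᵥ p.2 = p.2)).comp
      (IsEmbedding.subtypeVal (p := fun p : V.E => nsq (Bun.vec p) = 1))
  have hr' : range (fun s : V.Sph => (s.base, s.vec)) = sphB V.P univ := by
    ext ⟨y, v⟩
    constructor
    · rintro ⟨s, hs⟩
      rw [Prod.mk.injEq] at hs
      rw [← hs.1, ← hs.2]
      exact ⟨mem_univ _, s.P_vec, s.nsq_vec⟩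
    · rintro ⟨-, hv, hn⟩
      exact ⟨V.mkSph y v hv hn, rfl⟩
  have h2 := h1.preimage hemb (by rw [hr'])
  have e1 : sphB V.P ∅ = ∅ := by ext q; simp [sphB]
  rw [e1, preimage_empty, ← hr', preimage_range] at h2
  exact h2

end bundles

section gr

variable {I J : Type} [Fintype I] [Fintype J] {n m k : ℕ}

/-- Grassmannians as objects of `LC`. -/
theorem cells_gr (n : ℕ) (I : Type) [Fintype I] : Cells (evens 0) (LC.of (Gr n I)) :=
  cells_of_compact (chain_gr n I)

/-- Thom spaces: even cells of dimension at least `2 n`. -/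
theorem cells_th (n : ℕ) (I : Type) [Fintype I] : Cells (evens (2 * n)) (LC.of (Th n I)) := by
  classical
  have h := cells_tot (taut n I) (taut_isRank n I) (chain_gr n I)
  refine (Cells.of_homeo (X := (taut n I).tot) (Y := LC.of (Th n I)) (tautHomeo n I) h).mono ?_
  refine (evens_add 0 n).trans (evens_mono ?_)
  omega

/-- A set of points of `Th n I` together with `∞`. -/
def thSet (A : Set (Matrix I I ℂ)) : Set (OnePoint (Th n I)) :=
  {∞} ∪ (fun x : Th n I => (x : OnePoint (Th n I))) '' {x | x.P ∈ A}

theorem thSet_prj : thSet (n := n) (prj n I) = univ := by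
  ext x
  simp only [mem_univ, iff_true]
  induction x using OnePoint.rec with
  | infty => exact Or.inl rfl
  | coe x => exact Or.inr ⟨x, x.isProj, rfl⟩

/-- Chains of sets of projections give chains of Thom spaces. -/
theorem chain_thSet {D : Set ℕ} {A : Set (Matrix I I ℂ)} (h : CellChain D A (prj n I)) :
    CellChain ((fun a => a + 2 * n) '' D) (thSet (n := n) A) univ := by
  classical
  have h1 := thomChain (taut n I) (taut_isRank n I) (chain_gr_of h)
  have hc : Continuous (OnePoint.map (tautHomeo n I)) :=
    (tautHomeo n I).onePointCongr.continuous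
  have hi : Function.Injective (OnePoint.map (tautHomeo n I)) :=
    (tautHomeo n I).onePointCongr.injective
  have hs : Function.Surjective (OnePoint.map (tautHomeo n I)) :=
    (tautHomeo n I).onePointCongr.surjective
  have h2 := h1.image (f := OnePoint.map (tautHomeo n I)) hc.continuousOn hi.injOn
  rw [overSet_univ, image_univ, hs.range_eq] at h2
  convert h2 using 1
  ext x
  constructor
  · rintro (hx | ⟨x, hx, rfl⟩)
    · rw [mem_singleton_iff.1 hx]
      exact ⟨∞, Or.inl rfl, rfl⟩
    · refine ⟨((tautHomeo n I).symm x : OnePoint (taut n I).E), Or.inr ⟨_, ?_, rfl⟩, ?_⟩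
      · exact hx
      · exact congrArg (fun z : Th n I => (z : OnePoint (Th n I)))
          ((tautHomeo n I).apply_symm_apply x)
  · rintro ⟨_, hy | ⟨p, hp, rfl⟩, rfl⟩
    · rw [mem_singleton_iff.1 hy]
      exact Or.inl rfl
    · exact Or.inr ⟨tautHomeo n I p, hp, rfl⟩

end gr

section inj

variable {I J K : Type} [Fintype I] [Fintype J] [Fintype K] [DecidableEq I] [DecidableEq J]
  [DecidableEq K] {n m k : ℕ}

theorem app_injective_map (u : Matrix J I ℂ) (hu : uᴴ * u = 1) :
    Function.Injective (app (Th.map (n := n) u hu)) := by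
  have h1 : Function.Injective (Th.mapFun (n := n) u hu) := by
    intro x y hxy
    have hP := congrArg Th.P hxy
    have hv := congrArg Th.v hxy
    rw [Th.mapFun_P, Th.mapFun_P] at hP
    rw [Th.mapFun_v, Th.mapFun_v] at hv
    refine Th.ext ?_ ?_
    · have h2 := congrArg (fun M => uᴴ * M * u) hP
      have h3 : ∀ M : Matrix I I ℂ, uᴴ * (u * M * uᴴ) * u = M := by
        intro M
        calc uᴴ * (u * M * uᴴ) * u = (uᴴ * u) * M * (uᴴ * u) := by simp only [Matrix.mul_assoc]
          _ = M := by rw [hu, Matrix.one_mul, Matrix.mul_one]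
      simpa [h3] using h2
    · have h2 := congrArg (fun v => uᴴ *ᵥ v) hv
      simpa [mulVec_mulVec, hu] using h2
  intro x y hxy
  induction x using OnePoint.rec with
  | infty =>
    induction y using OnePoint.rec with
    | infty => rfl
    | coe y => rw [app_infty, Th.app_map_coe] at hxy; exact absurd hxy.symm (OnePoint.coe_ne_infty _)
  | coe x =>
    induction y using OnePoint.rec with
    | infty => rw [app_infty, Th.app_map_coe] at hxy; exact absurd hxy (OnePoint.coe_ne_infty _)
    | coe y =>
      rw [Th.app_map_coe, Th.app_map_coe] at hxy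
      rw [h1 (OnePoint.coe_injective hxy)]

/-- the inclusion `Th n I ⟶ Th n (I ⊕ Unit)` : image -/
theorem range_inj_inl (n : ℕ) (I : Type) [Fintype I] [DecidableEq I] :
    range (app (Th.inj (n := n) (Sum.inl : I → I ⊕ Unit) Sum.inl_injective)) =
      thSet (n := n) (kil n I) := by
  ext x
  constructor
  · rintro ⟨y, rfl⟩
    induction y using OnePoint.rec with
    | infty => rw [app_infty]; exact Or.inl rfl
    | coe y =>
      refine Or.inr ⟨Th.mapFun _ (injMat_isom Sum.inl_injective) y, ?_, rfl⟩
      refine ⟨Th.isProj _, ?_⟩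
      rw [Th.mapFun_P, injMat_inl_conj]
      change ext0 I y.P *ᵥ eL I = 0
      rw [eL, ext0_mulVec]
      ext i; rcases i with i | i <;> simp
  · rintro (hx | ⟨x, ⟨hx, hxe⟩, rfl⟩)
    · rw [mem_singleton_iff.1 hx]
      exact ⟨∞, app_infty _⟩
    · have h1 := eq_ext0 hx.herm hxe
      have hv : x.v = Sum.elim (fun i => x.v (Sum.inl i)) 0 := by
        have h2 := x.P_mulVec
        rw [h1] at h2
        have h3 : x.v = Sum.elim (fun i => x.v (Sum.inl i)) (fun i => x.v (Sum.inr i)) := by
          ext i; rcases i with i | i <;> rfl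
        rw [h3, ext0_mulVec] at h2
        ext i
        rcases i with i | i
        · rfl
        · have := congrFun h2 (Sum.inr i)
          simpa using this.symm
      have hP : IsProj n x.P.toBlocks₁₁ := by
        have := hx
        rw [h1] at this
        exact isProj_of_ext0 this
      have hPv : x.P.toBlocks₁₁ *ᵥ (fun i => x.v (Sum.inl i)) = fun i => x.v (Sum.inl i) := by
        have h2 := x.P_mulVec
        rw [h1, hv, ext0_mulVec] at h2
        ext i
        exact congrFun h2 (Sum.inl i)
      refine ⟨(Th.mk _ _ hP hPv : OnePoint (Th n I)), ?_⟩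
      rw [Th.app_map_coe]
      congr 1
      refine Th.ext ?_ ?_
      · rw [Th.mapFun_P, injMat_inl_conj]
        exact h1.symm
      · rw [Th.mapFun_v, injMat_inl_mulVec]
        exact hv.symm

/-- The inclusion `Th n I ⟶ Th n (I ⊕ Unit)` attaches even cells of dimension `≥ 2 |I| + 2`. -/
theorem relCell_inl (n : ℕ) (I : Type) [Fintype I] [DecidableEq I] :
    RelCell (evens (2 * Fintype.card I + 2))
      (Th.inj (n := n) (Sum.inl : I → I ⊕ Unit) Sum.inl_injective) := by
  refine relCell_of_chain _ (app_injective_map _ _) ?_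
  rw [range_inj_inl]
  cases n with
  | zero =>
    have h1 : kil 0 I = prj 0 (I ⊕ Unit) := by
      ext Q
      refine ⟨fun h => h.1, fun h => ⟨h, ?_⟩⟩
      rw [prj_zero_eq, mem_singleton_iff] at h
      rw [h, zero_mulVec]
    rw [h1, thSet_prj]
    exact CellChain.refl _
  | succ n =>
    have h := chain_thSet (chain_kil n I)
    refine h.mono ((evens_add _ (n + 1)).trans (evens_mono ?_))
    omega

/-- The inclusion `Th n I ⟶ Th n J` induced by an injection of index types. -/
theorem relCell_inj (n : ℕ) (f : I → J) (hf : Function.Injective f) :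
    RelCell (evens (2 * Fintype.card I + 2)) (Th.inj (n := n) f hf) := by
  obtain ⟨d, hd⟩ : ∃ d, Fintype.card J = Fintype.card I + d :=
    ⟨Fintype.card J - Fintype.card I, by have := Fintype.card_le_of_injective f hf; omega⟩
  induction d generalizing J with
  | zero =>
    have hb : Function.Bijective f := by
      rw [Fintype.bijective_iff_injective_and_card]
      exact ⟨hf, by omega⟩
    let e : I ≃ J := Equiv.ofBijective f hb
    have h1 : Th.inj (n := n) f hf = (Th.reindex (n := n) e).hom := rfl
    rw [h1]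
    exact RelCell.iso _
  | succ d ih =>
    have hns : ¬ Function.Surjective f := by
      intro hs
      have := Fintype.card_le_of_surjective f hs
      omega
    obtain ⟨j0, hj0⟩ := not_forall.1 hns
    have hj0' : ∀ i, f i ≠ j0 := fun i h => hj0 ⟨i, h⟩
    let J' : Type := {j : J // j ≠ j0}
    let f' : I → J' := fun i => ⟨f i, hj0' i⟩
    have hf' : Function.Injective f' := fun a b h => hf (congrArg Subtype.val h)
    have hcard : Fintype.card J' = Fintype.card I + d := by
      have : Fintype.card J' = Fintype.card J - 1 := by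
        simp [J']
      omega
    let g : J' ⊕ Unit → J := Sum.elim Subtype.val fun _ => j0
    have hg : Function.Bijective g := by
      constructor
      · rintro (a | a) (b | b) h
        · exact congrArg Sum.inl (Subtype.ext h)
        · exact absurd h a.2
        · exact absurd h.symm b.2
        · rfl
      · intro j
        by_cases hj : j = j0
        · exact ⟨Sum.inr (), hj.symm⟩
        · exact ⟨Sum.inl ⟨j, hj⟩, rfl⟩
    let e : J' ⊕ Unit ≃ J := Equiv.ofBijective g hg
    have h1 := ih f' hf' hcard
    have h2 := (relCell_inl n J').mono (evens_mono (k := 2 * Fintype.card I + 2) (by omega))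
    have h3 : RelCell (evens (2 * Fintype.card I + 2)) (Th.reindex (n := n) e).hom :=
      RelCell.iso _
    have h4 := (h1.comp h2).comp h3
    have h5 : (Th.inj (n := n) f' hf' ≫ Th.inj (n := n) (Sum.inl : J' → J' ⊕ Unit)
        Sum.inl_injective) ≫ (Th.reindex (n := n) e).hom = Th.inj (n := n) f hf := by
      rw [Th.inj_comp]
      change Th.inj _ _ ≫ Th.inj e e.injective = _
      rw [Th.inj_comp]
      rfl
    rwa [h5] at h4

/-- The inclusion of the fibre at `P = 1` is an isomorphism. -/
theorem isIso_incl' (h : Fintype.card I = n) : IsIso (Th.incl' (I := I) h) := by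
  apply isIso_of_bijective
  have hone : ∀ x : Th n I, x.P = 1 := by
    intro x
    have h1 := isProj_compl x.isProj
    rw [h, Nat.sub_self] at h1
    have h2 : (1 - x.P) ∈ prj 0 I := h1
    rw [prj_zero_eq, mem_singleton_iff, sub_eq_zero] at h2
    exact h2.symm
  constructor
  · intro x y hxy
    induction x using OnePoint.rec with
    | infty =>
      induction y using OnePoint.rec with
      | infty => rfl
      | coe y =>
        rw [app_infty, Th.app_incl'_coe] at hxy
        exact absurd hxy.symm (OnePoint.coe_ne_infty _)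
    | coe x =>
      induction y using OnePoint.rec with
      | infty =>
        rw [app_infty, Th.app_incl'_coe] at hxy
        exact absurd hxy (OnePoint.coe_ne_infty _)
      | coe y =>
        rw [Th.app_incl'_coe, Th.app_incl'_coe] at hxy
        have := congrArg Th.v (OnePoint.coe_injective hxy)
        rw [Th.mk_v, Th.mk_v] at this
        rw [this]
  · intro y
    induction y using OnePoint.rec with
    | infty => exact ⟨∞, app_infty _⟩
    | coe y =>
      refine ⟨(y.v : OnePoint (I → ℂ)), ?_⟩
      rw [Th.app_incl'_coe]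
      congr 1
      exact Th.ext (hone y).symm rfl

/-- The bottom cell `ℂ^I ⟶ Th n J`, `|I| = n`. -/
theorem relCell_incl (h : Fintype.card I = n) (f : I → J) (hf : Function.Injective f) :
    RelCell (evens (2 * n + 2)) (Th.incl' (I := I) h ≫ Th.inj (n := n) f hf) := by
  have := isIso_incl' (I := I) h
  refine RelCell.iso_comp _ ?_
  have h1 := relCell_inj n f hf
  rwa [h] at h1

/-- The stabilisation map `Th n I ⊗ Th 1 Unit ⟶ Th (n+1) (I ⊕ Unit)`: image -/
theorem range_sum_unit (n : ℕ) (I : Type) [Fintype I] [DecidableEq I] :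
    range (app (Th.sum (I := I) (J := Unit) (n := n) (m := 1) rfl)) =
      thSet (n := n + 1) (fix (n + 1) I) := by
  have hone : ∀ x : Th 1 Unit, x.P = 1 := by
    intro x
    have h1 := isProj_compl x.isProj
    have h2 : (1 - x.P) ∈ prj 0 Unit := h1
    rw [prj_zero_eq, mem_singleton_iff, sub_eq_zero] at h2
    exact h2.symm
  ext x
  constructor
  · rintro ⟨y, rfl⟩
    induction y using OnePoint.rec with
    | infty => rw [app_infty]; exact Or.inl rfl
    | coe y =>
      obtain ⟨y, z⟩ := y
      refine Or.inr ⟨Th.sumFun rfl y z, ?_, rfl⟩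
      refine ⟨Th.isProj _, ?_⟩
      rw [Th.sumFun_P, hone z, eL, fromBlocks_mulVec]
      ext i; rcases i with i | i <;> simp
  · rintro (hx | ⟨x, ⟨hx, hxe⟩, rfl⟩)
    · rw [mem_singleton_iff.1 hx]
      exact ⟨∞, app_infty _⟩
    · -- the blocks of `x.P`
      have hr : ∀ i, x.P i (Sum.inr ()) = eL I i := by
        intro i
        have := congrFun hxe i
        simpa [Matrix.mulVec, dotProduct, eL] using this
      have hl : ∀ i, x.P (Sum.inr ()) i = star (eL I i) := by
        intro i
        have := congrFun (congrFun hx.herm (Sum.inr ())) i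
        rw [conjTranspose_apply, hr] at this
        exact this.symm
      have hblk : x.P = fromBlocks x.P.toBlocks₁₁ 0 0 1 := by
        ext i j
        rcases i with i | i <;> rcases j with j | j
        · rfl
        · rw [hr]; simp [eL]
        · rw [hl]; simp [eL]
        · rw [hr]; simp [eL]
      have hP : IsProj n x.P.toBlocks₁₁ := by
        refine ⟨?_, ?_, ?_⟩
        · have := hx.idem
          rw [hblk, fromBlocks_multiply] at this
          simpa using (congrArg toBlocks₁₁ this)
        · have := hx.herm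
          rw [hblk, fromBlocks_conjTranspose] at this
          simpa using (congrArg toBlocks₁₁ this)
        · have := hx.trace
          rw [hblk, Matrix.trace, Fintype.sum_sum_type] at this
          simp only [diag_apply, fromBlocks_apply₁₁, fromBlocks_apply₂₂, Finset.univ_unique,
            Finset.sum_singleton, Matrix.one_apply_eq] at this
          push_cast at this
          exact add_right_cancel this
      have hv := x.P_mulVec
      have hv2 : x.v = Sum.elim (fun i => x.v (Sum.inl i)) (fun i => x.v (Sum.inr i)) := by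
        ext i; rcases i with i | i <;> rfl
      have hPv : x.P.toBlocks₁₁ *ᵥ (fun i => x.v (Sum.inl i)) = fun i => x.v (Sum.inl i) := by
        rw [hblk, hv2, fromBlocks_mulVec] at hv
        ext i
        have := congrFun hv (Sum.inl i)
        simpa using this
      let z : Th 1 Unit := Th.mk 1 (fun i => x.v (Sum.inr i))
        (by simpa using IsProj.one (I := Unit)) (one_mulVec _)
      refine ⟨(((Th.mk _ _ hP hPv, z) : Th n I × Th 1 Unit) : OnePoint (Th n I × Th 1 Unit)), ?_⟩
      rw [Th.app_sum_coe]
      congr 1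
      refine Th.ext ?_ ?_
      · rw [Th.sumFun_P]
        exact hblk.symm
      · rw [Th.sumFun_v]
        exact hv2.symm

omit [DecidableEq I] [DecidableEq J] in
theorem app_injective_sum (h : n + m = k) :
    Function.Injective (app (Th.sum (I := I) (J := J) h)) := by
  intro x y hxy
  induction x using OnePoint.rec with
  | infty =>
    induction y using OnePoint.rec with
    | infty => rfl
    | coe y =>
      obtain ⟨y, z⟩ := y
      rw [app_infty] at hxy
      have := Th.app_sum_coe (I := I) (J := J) h y z
      exact absurd (this.symm.trans hxy.symm) (OnePoint.coe_ne_infty _)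
  | coe x =>
    obtain ⟨x, w⟩ := x
    have h1 := Th.app_sum_coe (I := I) (J := J) h x w
    induction y using OnePoint.rec with
    | infty =>
      rw [app_infty] at hxy
      exact absurd (h1.symm.trans hxy) (OnePoint.coe_ne_infty _)
    | coe y =>
      obtain ⟨y, z⟩ := y
      have h2 := Th.app_sum_coe (I := I) (J := J) h y z
      have h3 := OnePoint.coe_injective ((h1.symm.trans hxy).trans h2)
      have hP := congrArg Th.P h3
      have hv := congrArg Th.v h3
      rw [Th.sumFun_P, Th.sumFun_P, fromBlocks_inj] at hP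
      rw [Th.sumFun_v, Th.sumFun_v] at hv
      have e1 : x = y := Th.ext hP.1 (by ext i; exact congrFun hv (Sum.inl i))
      have e2 : w = z := Th.ext hP.2.2.2 (by ext i; exact congrFun hv (Sum.inr i))
      rw [e1, e2]

/-- The stabilisation map attaches even cells of dimension at least `4 (n + 1)`. -/
theorem relCell_sum_unit (n : ℕ) (I : Type) [Fintype I] [DecidableEq I] :
    RelCell (evens (4 * (n + 1))) (Th.sum (I := I) (J := Unit) (n := n) (m := 1) rfl) := by
  refine relCell_of_chain _ (app_injective_sum _) ?_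
  rw [range_sum_unit]
  have h := chain_thSet (chain_fix n I)
  refine h.mono ((evens_add _ (n + 1)).trans (evens_mono ?_))
  omega

end inj

end Vale.Agent.P251.G.Cell
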