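import Vale.Agent.P251.G.ThMap
import Mathlib.Analysis.CStarAlgebra.Unitary.Connected
import Mathlib.Analysis.CStarAlgebra.Matrix
import Mathlib.Analysis.InnerProductSpace.PiL2
import Mathlib.LinearAlgebra.Eigenspace.Minpoly
import Mathlib.Analysis.Real.Pi.Bounds

/-!
# P251, part G (G08): any two isometries `ℂ^I → ℂ^J` are joined by a path of isometries

Consequently all the maps `Th.map u` for isometries `u : Matrix J I ℂ` are homotopic.
-/

set_option linter.unusedSectionVars false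

open CategoryTheory MonoidalCategory Filter Topology OnePoint Matrix

noncomputable section

namespace Vale.Agent.P251.G

open LC

variable {I J K L : Type} [Fintype I] [Fintype J] [Fintype K] [Fintype L] {n m k l : ℕ}
variable [DecidableEq I] [DecidableEq J] [DecidableEq K] [DecidableEq L]

section unitary

open scoped Matrix.Norms.L2Operator

theorem exists_theta (S : Set ℂ) (hS : S.Finite) :
    ∃ θ : ℝ, -Complex.exp (-(θ * Complex.I)) ∉ S := by
  have hinj : Set.InjOn (fun θ : ℝ => -Complex.exp (-(θ * Complex.I))) (Set.Icc (0 : ℝ) 1) := by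
    intro x hx y hy hxy
    simp only [neg_inj] at hxy
    have hpi : (3 : ℝ) < Real.pi := Real.pi_gt_three
    have h := Complex.exp_inj_of_neg_pi_lt_of_le_pi (x := -(x * Complex.I))
      (y := -(y * Complex.I)) (by simp; linarith [hx.2]) (by simp; linarith [hx.1])
      (by simp; linarith [hy.2]) (by simp; linarith [hy.1]) hxy
    rw [neg_inj] at h
    have h2 := mul_right_cancel₀ Complex.I_ne_zero h
    exact_mod_cast h2
  have hinf : ((fun θ : ℝ => -Complex.exp (-(θ * Complex.I))) '' Set.Icc (0 : ℝ) 1).Infinite :=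
    (Set.Icc_infinite zero_lt_one).image hinj
  obtain ⟨x, ⟨θ, -, rfl⟩, hx⟩ := hinf.exists_notMem_finite hS
  exact ⟨θ, hx⟩

/-- a point of the unitary group -/
def rotU (w : unitary (Matrix J J ℂ)) (θ : ℝ) : unitary (Matrix J J ℂ) :=
  ⟨Complex.exp (θ * Complex.I) • (w : Matrix J J ℂ), by
    have h : Complex.exp (θ * Complex.I) * star (Complex.exp (θ * Complex.I)) = 1 := by
      rw [Complex.star_def, Complex.mul_conj, Complex.normSq_eq_norm_sq,
        Complex.norm_exp_ofReal_mul_I]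
      simp
    have h' : star (Complex.exp (θ * Complex.I)) * Complex.exp (θ * Complex.I) = 1 := by
      rw [mul_comm, h]
    rw [Unitary.mem_iff]
    constructor
    · rw [star_smul, smul_mul_smul_comm, h', one_smul]
      exact Unitary.coe_star_mul_self w
    · rw [star_smul, smul_mul_smul_comm, h, one_smul]
      exact Unitary.coe_mul_star_self w⟩

theorem joined_rotU (w : unitary (Matrix J J ℂ)) (θ : ℝ) : Joined w (rotU w θ) := by
  refine ⟨⟨⟨fun t => rotU w (t * θ), ?_⟩, ?_, ?_⟩⟩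
  · refine Continuous.subtype_mk ?_ _
    fun_prop
  · ext1; simp [rotU]
  · ext1; simp [rotU]

/-- The unitary group of matrices is path connected. -/
theorem unitary_joined_one (w : unitary (Matrix J J ℂ)) : Joined w 1 := by
  obtain ⟨θ, hθ⟩ := exists_theta (spectrum ℂ (w : Matrix J J ℂ)) (Matrix.finite_spectrum _)
  refine (joined_rotU w θ).trans (Unitary.joined _ _ ?_)
  rw [norm_sub_rev, OneMemClass.coe_one, Unitary.norm_sub_one_lt_two_iff (rotU w θ).2]
  intro h
  apply hθ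
  let c : ℂˣ := Units.mk0 (Complex.exp (θ * Complex.I)) (Complex.exp_ne_zero _)
  have h1 : c • (-Complex.exp (-(θ * Complex.I))) = (-1 : ℂ) := by
    change Complex.exp (θ * Complex.I) * (-Complex.exp (-(θ * Complex.I))) = -1
    rw [mul_neg, ← Complex.exp_add, add_neg_cancel, Complex.exp_zero]
  rw [← spectrum.smul_mem_smul_iff (r := c), h1]
  exact h

end unitary

/-- Any unitary matrix is joined to `1` by a path of unitary matrices. -/
theorem exists_unitary_path (w : Matrix J J ℂ) (hw : wᴴ * w = 1) :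
    ∃ u : unitInterval → Matrix J J ℂ, Continuous u ∧ (∀ t, (u t)ᴴ * u t = 1) ∧
      u 0 = 1 ∧ u 1 = w := by
  have hw' : w * wᴴ = 1 := mul_eq_one_comm.mp hw
  let w' : unitary (Matrix J J ℂ) := ⟨w, Unitary.mem_iff.mpr ⟨hw, hw'⟩⟩
  obtain ⟨γ⟩ := (unitary_joined_one w').symm
  refine ⟨fun t => (γ t : Matrix J J ℂ), continuous_subtype_val.comp γ.continuous, ?_, ?_, ?_⟩
  · intro t
    exact Unitary.coe_star_mul_self (γ t)
  · change ((γ 0 : unitary (Matrix J J ℂ)) : Matrix J J ℂ) = 1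
    rw [γ.source]; rfl
  · change ((γ 1 : unitary (Matrix J J ℂ)) : Matrix J J ℂ) = w
    rw [γ.target]

/-- isometric matrices as linear isometries -/
def toLI (u : Matrix J I ℂ) (hu : uᴴ * u = 1) : EuclideanSpace ℂ I →ₗᵢ[ℂ] EuclideanSpace ℂ J where
  toLinearMap := Matrix.toEuclideanLin u
  norm_map' x := by
    have h := nsq_mulVec (u := u) (v := x.ofLp) (by rw [hu, one_mulVec])
    have h1 : ∀ {K : Type} [Fintype K] (y : EuclideanSpace ℂ K), ‖y‖ ^ 2 = nsq y.ofLp := by
      intro K _ y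
      rw [EuclideanSpace.norm_sq_eq]
      simp only [nsq, Complex.normSq_eq_norm_sq]
    have h2 : ‖(Matrix.toEuclideanLin u) x‖ ^ 2 = ‖x‖ ^ 2 := by
      rw [h1, h1, ← h]
      rfl
    exact (sq_eq_sq₀ (norm_nonneg _) (norm_nonneg _)).mp h2

theorem exists_unitary_mul (u₀ u₁ : Matrix J I ℂ) (h₀ : u₀ᴴ * u₀ = 1) (h₁ : u₁ᴴ * u₁ = 1) :
    ∃ w : Matrix J J ℂ, wᴴ * w = 1 ∧ w * u₀ = u₁ := by
  let L₀ := toLI u₀ h₀
  let L₁ := toLI u₁ h₁
  let S := LinearMap.range L₀.toLinearMap
  let e : EuclideanSpace ℂ I ≃ₗᵢ[ℂ] S := L₀.equivRange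
  let M : S →ₗᵢ[ℂ] EuclideanSpace ℂ J := L₁.comp e.symm.toLinearIsometry
  let W := M.extend
  have hW : ∀ x, W (L₀ x) = L₁ x := by
    intro x
    have h1 : (e x : EuclideanSpace ℂ J) = L₀ x := rfl
    have h := M.extend_apply (e x)
    rw [h1] at h
    rw [h]
    simp [M]
  let w : Matrix J J ℂ := Matrix.toEuclideanLin.symm W.toLinearMap
  have hw : ∀ x : EuclideanSpace ℂ J, Matrix.toEuclideanLin w x = W x := by
    intro x
    simp [w]
  have hinner : ∀ {K : Type} [Fintype K] (x y : EuclideanSpace ℂ K),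
      inner ℂ x y = star x.ofLp ⬝ᵥ y.ofLp := by
    intro K _ x y
    rw [EuclideanSpace.inner_eq_star_dotProduct, dotProduct_comm]
  refine ⟨w, ?_, ?_⟩
  · apply Matrix.ext_of_mulVec_single
    intro i
    apply dotProduct_eq
    intro v
    have h := W.inner_map_map (WithLp.toLp 2 (star v)) (WithLp.toLp 2 (Pi.single i (1 : ℂ)))
    rw [hinner, hinner, ← hw, ← hw] at h
    have h2 : star (w *ᵥ star v) ⬝ᵥ (w *ᵥ Pi.single i 1) =
      star (star v) ⬝ᵥ (Pi.single i (1 : ℂ) : J → ℂ) := h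
    rw [star_mulVec, star_star, ← dotProduct_mulVec, mulVec_mulVec] at h2
    rw [dotProduct_comm, h2, one_mulVec, dotProduct_comm]
  · apply Matrix.ext_of_mulVec_single
    intro i
    have h := hW (WithLp.toLp 2 (Pi.single i (1 : ℂ)))
    rw [← hw] at h
    have h2 : w *ᵥ (u₀ *ᵥ Pi.single i 1) = u₁ *ᵥ Pi.single i 1 := congrArg WithLp.ofLp h
    rw [← mulVec_mulVec, h2]

/-- Any two isometries `ℂ^I → ℂ^J` are joined by a path of isometries. -/
theorem exists_isom_path (u₀ u₁ : Matrix J I ℂ) (h₀ : u₀ᴴ * u₀ = 1) (h₁ : u₁ᴴ * u₁ = 1) :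
    ∃ u : unitInterval → Matrix J I ℂ, Continuous u ∧ (∀ t, (u t)ᴴ * u t = 1) ∧
      u 0 = u₀ ∧ u 1 = u₁ := by
  obtain ⟨w, hw, hwu⟩ := exists_unitary_mul u₀ u₁ h₀ h₁
  obtain ⟨u, hc, hu, hu0, hu1⟩ := exists_unitary_path w hw
  refine ⟨fun t => u t * u₀, hc.matrix_mul continuous_const, fun t => isom_mul (hu t) h₀, ?_, ?_⟩
  · simp only [hu0, Matrix.one_mul]
  · simp only [hu1, hwu]

namespace Th

/-- All maps `Th n I ⟶ Th n J` induced by isometries are homotopic. -/
theorem map_homotopic_map (u₀ u₁ : Matrix J I ℂ) (h₀ : u₀ᴴ * u₀ = 1) (h₁ : u₁ᴴ * u₁ = 1) :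
    Homotopic (map (n := n) u₀ h₀) (map u₁ h₁) := by
  obtain ⟨u, hc, hu, rfl, rfl⟩ := exists_isom_path u₀ u₁ h₀ h₁
  exact map_homotopic u hc hu

/-- All endomorphisms of `Th n I` induced by unitary matrices are homotopic to the identity. -/
theorem map_homotopic_id (u : Matrix I I ℂ) (h : uᴴ * u = 1) :
    Homotopic (map u h) (𝟙 (LC.of (Th n I))) := by
  rw [← map_one]
  exact map_homotopic_map _ _ _ _

/-- All maps `ℂ^I ⟶ ℂ^J` of `LC` induced by isometries are homotopic. -/
theorem cmap_homotopic_cmap (u₀ u₁ : Matrix J I ℂ) (h₀ : u₀ᴴ * u₀ = 1) (h₁ : u₁ᴴ * u₁ = 1) :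
    Homotopic (cmap u₀ h₀) (cmap u₁ h₁) := by
  obtain ⟨u, hc, hu, rfl, rfl⟩ := exists_isom_path u₀ u₁ h₀ h₁
  exact cmap_homotopic u hc hu

theorem cmap_homotopic_id (u : Matrix I I ℂ) (h : uᴴ * u = 1) :
    Homotopic (cmap u h) (𝟙 (CC I)) := by
  rw [← cmap_one]
  exact cmap_homotopic_cmap _ _ _ _

theorem braiding_csum (I J : Type) [Fintype I] [DecidableEq I] [Fintype J] [DecidableEq J] :
    (β_ (CC I) (CC J)).hom ≫ (csum J I).hom = (csum I J).hom ≫
      cmap (injMat (Equiv.sumComm I J)) (injMat_isom (Equiv.sumComm I J).injective) := by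
  apply tensor_ext
  intro x y
  rw [app_comp, app_braiding_smash, app_csum_smash, app_comp, app_csum_smash, app_cmap_coe,
    injMat_equiv_mulVec]
  congr 1
  ext (i | i) <;> rfl

/-- the swap of `ℂ^I ⊗ ℂ^I` is homotopic to the identity -/
theorem braiding_CC_homotopic (I : Type) [Fintype I] [DecidableEq I] :
    Homotopic (β_ (CC I) (CC I)).hom (𝟙 _) := by
  have h : (β_ (CC I) (CC I)).hom = (csum I I).hom ≫
      cmap (injMat (Equiv.sumComm I I)) (injMat_isom (Equiv.sumComm I I).injective) ≫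
        (csum I I).inv := by
    rw [← Category.assoc, Iso.eq_comp_inv]
    exact braiding_csum I I
  rw [h]
  have h2 : (𝟙 (CC I ⊗ CC I)) = (csum I I).hom ≫ 𝟙 _ ≫ (csum I I).inv := by simp
  rw [h2]
  exact Homotopic.comp_left _ ((cmap_homotopic_id _ _).comp_right _)

end Th

end Vale.Agent.P251.G
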