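import Vale.Agent.P251.G.BundleMap
import Mathlib.Data.Matrix.Block

/-!
# P251, part G: direct sums of finite families of bundles

`Bun.sigma V`, index type `Σ j, κ j`, block diagonal projection.
-/

open Matrix Filter Topology CategoryTheory

namespace Vale.Agent.P251.G

variable {X Y Z : Type} [TopologicalSpace X] [TopologicalSpace Y] [TopologicalSpace Z]

theorem continuous_blockDiagonal' {J : Type} [DecidableEq J] {κ μ : J → Type}
    {f : X → ∀ j, Matrix (κ j) (μ j) ℂ} (hf : Continuous f) :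
    Continuous fun x => Matrix.blockDiagonal' (f x) := by
  exact hf.matrix_blockDiagonal'

namespace Bun

variable {J : Type} [Fintype J] [DecidableEq J] {κ : J → Type} [∀ j, Fintype (κ j)]

/-- direct sum of a finite family of bundles -/
@[simps] def sigma (V : ∀ j, Bun X (κ j)) : Bun X (Σ j, κ j) where
  P x := Matrix.blockDiagonal' fun j => (V j).P x
  cont := (continuous_pi fun j => (V j).cont).matrix_blockDiagonal'
  idem x := by rw [← Matrix.blockDiagonal'_mul]; simp only [(V _).idem]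
  herm x := by rw [Matrix.blockDiagonal'_conjTranspose]; simp only [(V _).herm]

theorem sigma_pullback (V : ∀ j, Bun X (κ j)) (f : C(Y, X)) :
    (sigma V).pullback f = sigma fun j => (V j).pullback f := rfl

theorem IsRank.sigma {V : ∀ j, Bun X (κ j)} {n : J → ℕ} (h : ∀ j, (V j).IsRank (n j)) :
    (Bun.sigma V).IsRank (∑ j, n j) := fun x => by
  rw [sigma_P, Matrix.trace_blockDiagonal']
  push_cast
  exact Finset.sum_congr rfl fun j _ => h j x

theorem blockDiagonal'_mulVec_apply {μ : J → Type} (M : ∀ j, Matrix (μ j) (κ j) ℂ)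
    (v : (Σ j, κ j) → ℂ) (j : J) (i : μ j) :
    (Matrix.blockDiagonal' M *ᵥ v) ⟨j, i⟩ = (M j *ᵥ fun k => v ⟨j, k⟩) i := by
  simp only [Matrix.mulVec, dotProduct]
  rw [Fintype.sum_sigma]
  rw [Finset.sum_eq_single j]
  · exact Finset.sum_congr rfl fun k _ => by rw [Matrix.blockDiagonal'_apply_eq]
  · intro j' _ hj'
    exact Finset.sum_eq_zero fun k _ => by
      rw [Matrix.blockDiagonal'_apply_ne _ _ _ (Ne.symm hj'), zero_mul]
  · intro h; exact absurd (Finset.mem_univ j) h

theorem sigma_fixed_iff {V : ∀ j, Bun X (κ j)} {x : X} {v : (Σ j, κ j) → ℂ} :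
    (sigma V).P x *ᵥ v = v ↔ ∀ j, (V j).P x *ᵥ (fun k => v ⟨j, k⟩) = fun k => v ⟨j, k⟩ := by
  constructor
  · intro h j
    funext k
    have := congrFun h ⟨j, k⟩
    rwa [sigma_P, blockDiagonal'_mulVec_apply] at this
  · intro h
    funext ⟨j, k⟩
    rw [sigma_P, blockDiagonal'_mulVec_apply]
    exact congrFun (h j) k

omit [DecidableEq J] in
theorem nsq_sigma (v : (Σ j, κ j) → ℂ) : nsq v = ∑ j, nsq fun k => v ⟨j, k⟩ := by
  unfold nsq
  rw [Fintype.sum_sigma]

end Bun

/-! ### Splitting off the last summand -/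

/-- the index bijection `Σ i : Fin (n+1), κ i ≃ (Σ i : Fin n, κ i.castSucc) ⊕ κ (Fin.last n)` -/
def sigmaFinSucc {n : ℕ} (κ : Fin (n + 1) → Type) :
    (Σ i, κ i) ≃ (Σ i : Fin n, κ i.castSucc) ⊕ κ (Fin.last n) where
  toFun x := Fin.lastCases (motive := fun i => κ i → (Σ i : Fin n, κ i.castSucc) ⊕ κ (Fin.last n))
    Sum.inr (fun i k => Sum.inl ⟨i, k⟩) x.1 x.2
  invFun x := x.elim (fun y => ⟨y.1.castSucc, y.2⟩) (fun k => ⟨Fin.last n, k⟩)
  left_inv := by
    rintro ⟨i, k⟩
    induction i using Fin.lastCases with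
    | last => simp
    | cast i => simp
  right_inv := by
    rintro (⟨i, k⟩ | k)
    · simp
    · simp

@[simp] theorem sigmaFinSucc_symm_inl {n : ℕ} (κ : Fin (n + 1) → Type)
    (y : Σ i : Fin n, κ i.castSucc) :
    (sigmaFinSucc κ).symm (Sum.inl y) = ⟨y.1.castSucc, y.2⟩ := rfl

@[simp] theorem sigmaFinSucc_symm_inr {n : ℕ} (κ : Fin (n + 1) → Type) (k : κ (Fin.last n)) :
    (sigmaFinSucc κ).symm (Sum.inr k) = ⟨Fin.last n, k⟩ := rfl

/-- The direct sum of `n + 1` bundles is the direct sum of the first `n` and the last one. -/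
theorem Bun.sigma_reindex {n : ℕ} {κ : Fin (n + 1) → Type} [∀ j, Fintype (κ j)]
    (V : ∀ j, Bun X (κ j)) :
    (Bun.sigma V).reindex (sigmaFinSucc κ) =
      (Bun.sigma fun i : Fin n => V i.castSucc).sum (V (Fin.last n)) := by
  ext x a b
  rw [Bun.reindex_P, Bun.sum_P, Matrix.submatrix_apply, Bun.sigma_P, Bun.sigma_P]
  rcases a with a | a <;> rcases b with b | b
  · rw [sigmaFinSucc_symm_inl, sigmaFinSucc_symm_inl, Matrix.fromBlocks_apply₁₁]
    obtain ⟨i, a⟩ := a
    obtain ⟨j, b⟩ := b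
    by_cases h : i = j
    · subst h
      rw [Matrix.blockDiagonal'_apply_eq, Matrix.blockDiagonal'_apply_eq]
    · rw [Matrix.blockDiagonal'_apply_ne _ _ _ h, Matrix.blockDiagonal'_apply_ne]
      exact fun h' => h (Fin.castSucc_injective _ h')
  · rw [sigmaFinSucc_symm_inl, sigmaFinSucc_symm_inr, Matrix.fromBlocks_apply₁₂,
      Matrix.blockDiagonal'_apply_ne]
    · rfl
    · exact (Fin.castSucc_lt_last _).ne
  · rw [sigmaFinSucc_symm_inl, sigmaFinSucc_symm_inr, Matrix.fromBlocks_apply₂₁,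
      Matrix.blockDiagonal'_apply_ne]
    · rfl
    · exact (Fin.castSucc_lt_last _).ne'
  · rw [sigmaFinSucc_symm_inr, sigmaFinSucc_symm_inr, Matrix.fromBlocks_apply₂₂,
      Matrix.blockDiagonal'_apply_eq]

end Vale.Agent.P251.G
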