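import Vale.Agent.P251.G.LC
import Mathlib.Topology.Instances.Matrix
import Mathlib.Topology.Algebra.Star.Real
import Mathlib.LinearAlgebra.Matrix.Kronecker
import Mathlib.LinearAlgebra.Matrix.NonsingularInverse
import Mathlib.LinearAlgebra.Matrix.DotProduct
import Mathlib.Analysis.Complex.Basic
import Mathlib.Tactic

/-!
# P251, part G: vector bundles by projections

A vector bundle over `X` is a continuous family of orthogonal projections
`P x : Matrix ι ι ℂ`.  Total space `{(x, v) | P x *ᵥ v = v}`.
-/

open Matrix Filter Topology CategoryTheory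

namespace Vale.Agent.P251.G

variable {X Y Z : Type} [TopologicalSpace X] [TopologicalSpace Y] [TopologicalSpace Z]
variable {ι κ μ : Type} [Fintype ι] [Fintype κ] [Fintype μ]

/-! ### The square norm -/

/-- the hermitian square norm of a vector -/
def nsq (v : ι → ℂ) : ℝ := ∑ i, Complex.normSq (v i)

theorem nsq_nonneg (v : ι → ℂ) : 0 ≤ nsq v :=
  Finset.sum_nonneg fun _ _ => Complex.normSq_nonneg _

theorem nsq_eq_zero {v : ι → ℂ} : nsq v = 0 ↔ v = 0 := by
  unfold nsq
  rw [Finset.sum_eq_zero_iff_of_nonneg fun _ _ => Complex.normSq_nonneg _]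
  constructor
  · intro h; funext i; simpa using h i (Finset.mem_univ i)
  · rintro rfl i -; simp

@[simp] theorem nsq_zero : nsq (0 : ι → ℂ) = 0 := nsq_eq_zero.mpr rfl

theorem nsq_pos {v : ι → ℂ} (h : v ≠ 0) : 0 < nsq v :=
  lt_of_le_of_ne (nsq_nonneg v) fun h' => h (nsq_eq_zero.mp h'.symm)

theorem nsq_smul (c : ℂ) (v : ι → ℂ) : nsq (c • v) = Complex.normSq c * nsq v := by
  simp [nsq, Finset.mul_sum]

theorem nsq_real_smul (c : ℝ) (v : ι → ℂ) : nsq (c • v) = c ^ 2 * nsq v := by
  unfold nsq
  rw [Finset.mul_sum]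
  refine Finset.sum_congr rfl fun i _ => ?_
  rw [Pi.smul_apply, Complex.real_smul, map_mul, Complex.normSq_ofReal, sq]

theorem nsq_eq_dotProduct (v : ι → ℂ) : (nsq v : ℂ) = star v ⬝ᵥ v := by
  unfold nsq dotProduct
  push_cast
  refine Finset.sum_congr rfl fun i _ => ?_
  rw [Complex.normSq_eq_conj_mul_self]
  rfl

@[continuity, fun_prop]
theorem continuous_nsq : Continuous (nsq : (ι → ℂ) → ℝ) := by
  unfold nsq
  exact continuous_finsetSum _ fun i _ => Complex.continuous_normSq.comp (continuous_apply i)

/-- an isometric matrix preserves the square norm on the image of the projection `P` -/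
theorem nsq_mulVec_of_isometry {A : Matrix κ ι ℂ} {P : Matrix ι ι ℂ} (h : Aᴴ * A = P) {v : ι → ℂ}
    (hv : P *ᵥ v = v) : nsq (A *ᵥ v) = nsq v := by
  have : ((nsq (A *ᵥ v) : ℝ) : ℂ) = (nsq v : ℝ) := by
    rw [nsq_eq_dotProduct, nsq_eq_dotProduct, star_mulVec, ← dotProduct_mulVec, mulVec_mulVec, h,
      hv]
  exact_mod_cast this

open scoped ComplexOrder in
theorem mul_of_isometry {A : Matrix κ ι ℂ} {P : Matrix ι ι ℂ} (h : Aᴴ * A = P) (h1 : Pᴴ = P)
    (h2 : P * P = P) : A * P = A := by
  have h3 : (A * P - A)ᴴ * (A * P - A) = 0 := by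
    rw [conjTranspose_sub, conjTranspose_mul, h1, Matrix.sub_mul, Matrix.mul_sub,
      Matrix.mul_sub, Matrix.mul_assoc, ← Matrix.mul_assoc Aᴴ, h, Matrix.mul_assoc P Aᴴ A, h, h2, h2,
      sub_self]
  exact sub_eq_zero.mp (Matrix.conjTranspose_mul_self_eq_zero.mp h3)

theorem nsq_elim (v : ι → ℂ) (w : κ → ℂ) : nsq (Sum.elim v w) = nsq v + nsq w := by
  simp [nsq]

theorem normSq_le_nsq (v : ι → ℂ) (i : ι) : Complex.normSq (v i) ≤ nsq v :=
  Finset.single_le_sum (f := fun i => Complex.normSq (v i))
    (fun _ _ => Complex.normSq_nonneg _) (Finset.mem_univ i)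

theorem norm_sq_le_nsq (v : ι → ℂ) : ‖v‖ ^ 2 ≤ nsq v := by
  have h : ‖v‖ ≤ Real.sqrt (nsq v) := by
    rw [pi_norm_le_iff_of_nonneg (Real.sqrt_nonneg _)]
    intro i
    rw [Real.le_sqrt (norm_nonneg _) (nsq_nonneg _), ← Complex.normSq_eq_norm_sq]
    exact normSq_le_nsq v i
  calc ‖v‖ ^ 2 ≤ Real.sqrt (nsq v) ^ 2 := by gcongr
    _ = nsq v := Real.sq_sqrt (nsq_nonneg v)

/-! ### Bundles -/

/-- A vector bundle over `X`, embedded in the trivial bundle with fibre `ℂ^ι`, given by a
continuous family of orthogonal projections. -/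
@[ext]
structure Bun (X : Type) [TopologicalSpace X] (ι : Type) [Fintype ι] where
  /-- the projection onto the fibre -/
  P : X → Matrix ι ι ℂ
  cont : Continuous P
  idem : ∀ x, P x * P x = P x
  herm : ∀ x, (P x)ᴴ = P x

namespace Bun

attribute [continuity, fun_prop] Bun.cont

/-- The rank is constant equal to `n`. -/
def IsRank (V : Bun X ι) (n : ℕ) : Prop := ∀ x, (V.P x).trace = n

/-- pull back -/
@[simps] def pullback (V : Bun X ι) (f : C(Y, X)) : Bun Y ι where
  P y := V.P (f y)
  cont := V.cont.comp f.continuous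
  idem _ := V.idem _
  herm _ := V.herm _

/-- the zero bundle -/
@[simps] def zero (X : Type) [TopologicalSpace X] (ι : Type) [Fintype ι] : Bun X ι where
  P _ := 0
  cont := continuous_const
  idem _ := by simp
  herm _ := by simp

/-- the trivial bundle with fibre `ℂ^ι` -/
@[simps] def triv (X : Type) [TopologicalSpace X] (ι : Type) [Fintype ι] [DecidableEq ι] :
    Bun X ι where
  P _ := 1
  cont := continuous_const
  idem _ := by simp
  herm _ := by simp

/-- direct sum -/
@[simps] def sum (V : Bun X ι) (W : Bun X κ) : Bun X (ι ⊕ κ) where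
  P x := fromBlocks (V.P x) 0 0 (W.P x)
  cont := V.cont.matrix_fromBlocks continuous_const continuous_const W.cont
  idem x := by rw [fromBlocks_multiply]; simp [V.idem, W.idem]
  herm x := by rw [fromBlocks_conjTranspose]; simp [V.herm, W.herm]

/-- orthogonal complement -/
@[simps] def compl [DecidableEq ι] (V : Bun X ι) : Bun X ι where
  P x := 1 - V.P x
  cont := continuous_const.sub V.cont
  idem x := by
    rw [sub_mul, mul_sub, mul_sub, V.idem]; simp
  herm x := by rw [conjTranspose_sub, V.herm, conjTranspose_one]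

/-- tensor product -/
@[simps] def tensor (V : Bun X ι) (W : Bun X κ) : Bun X (ι × κ) where
  P x := kroneckerMap (· * ·) (V.P x) (W.P x)
  cont := by
    refine continuous_matrix fun i j => ?_
    simp only [kroneckerMap_apply]
    exact (V.cont.matrix_elem _ _).mul (W.cont.matrix_elem _ _)
  idem x := by
    rw [← mul_kronecker_mul, V.idem, W.idem]
  herm x := by
    rw [conjTranspose_kronecker, V.herm, W.herm]

/-- change of the index type -/
@[simps] def reindex (V : Bun X ι) (e : ι ≃ κ) : Bun X κ where
  P x := (V.P x).submatrix e.symm e.symm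
  cont := V.cont.matrix_submatrix _ _
  idem x := by rw [submatrix_mul_equiv, V.idem]
  herm x := by rw [conjTranspose_submatrix, V.herm]

/-- the image of a bundle under a continuous family of isometries `u x : ℂ^ι → ℂ^κ`
(isometric on the fibres of `V`, zero on the orthogonal complement). -/
@[simps] def image (V : Bun X ι) (u : X → Matrix κ ι ℂ) (hu : Continuous u)
    (h : ∀ x, (u x)ᴴ * u x = V.P x) : Bun X κ where
  P x := u x * (u x)ᴴ
  cont := hu.matrix_mul hu.matrix_conjTranspose
  idem x := by
    rw [Matrix.mul_assoc, ← Matrix.mul_assoc (u x)ᴴ, h, ← Matrix.mul_assoc,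
      mul_of_isometry (h x) (V.herm x) (V.idem x)]
  herm x := by rw [conjTranspose_mul, conjTranspose_conjTranspose]

/-! ### Total space -/

/-- the total space -/
def E (V : Bun X ι) : Type := {p : X × (ι → ℂ) // V.P p.1 *ᵥ p.2 = p.2}

instance (V : Bun X ι) : TopologicalSpace V.E := inferInstanceAs (TopologicalSpace (Subtype _))

/-- the base point of a vector -/
def base {V : Bun X ι} (p : V.E) : X := p.1.1

/-- the vector -/
def vec {V : Bun X ι} (p : V.E) : ι → ℂ := p.1.2

theorem P_vec {V : Bun X ι} (p : V.E) : V.P (base p) *ᵥ vec p = vec p := p.2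

@[continuity, fun_prop]
theorem continuous_base {V : Bun X ι} : Continuous (base : V.E → X) :=
  continuous_fst.comp continuous_subtype_val

@[continuity, fun_prop]
theorem continuous_vec {V : Bun X ι} : Continuous (vec : V.E → ι → ℂ) :=
  continuous_snd.comp continuous_subtype_val

/-- constructor for vectors -/
def mkE (V : Bun X ι) (x : X) (v : ι → ℂ) (h : V.P x *ᵥ v = v) : V.E := ⟨(x, v), h⟩

@[simp] theorem base_mkE (V : Bun X ι) (x : X) (v : ι → ℂ) (h) : base (V.mkE x v h) = x := rfl
@[simp] theorem vec_mkE (V : Bun X ι) (x : X) (v : ι → ℂ) (h) : vec (V.mkE x v h) = v := rfl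

@[ext (iff := false)]
theorem E_ext {V : Bun X ι} {p q : V.E} (h1 : base p = base q) (h2 : vec p = vec q) : p = q :=
  Subtype.ext (Prod.ext h1 h2)

theorem continuous_mkE {V : Bun X ι} {f : Z → X} {g : Z → ι → ℂ} (hf : Continuous f)
    (hg : Continuous g) (h : ∀ z, V.P (f z) *ᵥ g z = g z) :
    Continuous fun z => V.mkE (f z) (g z) (h z) :=
  (hf.prodMk hg).subtype_mk _

theorem continuous_E_iff {V : Bun X ι} {f : Z → V.E} :
    Continuous f ↔ Continuous (fun z => base (f z)) ∧ Continuous (fun z => vec (f z)) :=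
  ⟨fun h => ⟨continuous_base.comp h, continuous_vec.comp h⟩, fun h =>
    (h.1.prodMk h.2).subtype_mk _⟩

theorem isClosedEmbedding_val (V : Bun X ι) :
    IsClosedEmbedding (Subtype.val : V.E → X × (ι → ℂ)) := by
  refine IsClosed.isClosedEmbedding_subtypeVal ?_
  exact isClosed_eq ((V.cont.comp continuous_fst).matrix_mulVec continuous_snd) continuous_snd

instance [T2Space X] (V : Bun X ι) : T2Space V.E :=
  inferInstanceAs (T2Space (Subtype _))

instance [LocallyCompactSpace X] (V : Bun X ι) : LocallyCompactSpace V.E :=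
  V.isClosedEmbedding_val.locallyCompactSpace

/-- the total space as an object of `LC` (for compact `X` this is the Thom space) -/
abbrev tot [LocallyCompactSpace X] [T2Space X] (V : Bun X ι) : LC := LC.of V.E

theorem P_mulVec_mulVec (V : Bun X ι) (x : X) (v : ι → ℂ) :
    V.P x *ᵥ (V.P x *ᵥ v) = V.P x *ᵥ v := by rw [mulVec_mulVec, V.idem]

/-- project a vector to the fibre -/
def ofVec (V : Bun X ι) (x : X) (v : ι → ℂ) : V.E := V.mkE x (V.P x *ᵥ v) (V.P_mulVec_mulVec x v)

@[simp] theorem base_ofVec (V : Bun X ι) (x : X) (v : ι → ℂ) : base (V.ofVec x v) = x := rfl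
@[simp] theorem vec_ofVec (V : Bun X ι) (x : X) (v : ι → ℂ) :
    vec (V.ofVec x v) = V.P x *ᵥ v := rfl

theorem continuous_ofVec (V : Bun X ι) : Continuous fun p : X × (ι → ℂ) => V.ofVec p.1 p.2 :=
  continuous_mkE continuous_fst ((V.cont.comp continuous_fst).matrix_mulVec continuous_snd) _

/-- the zero section -/
def zeroSec (V : Bun X ι) (x : X) : V.E := V.mkE x 0 (by simp)

@[simp] theorem base_zeroSec (V : Bun X ι) (x : X) : base (V.zeroSec x) = x := rfl
@[simp] theorem vec_zeroSec (V : Bun X ι) (x : X) : vec (V.zeroSec x) = 0 := rfl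

theorem continuous_zeroSec (V : Bun X ι) : Continuous V.zeroSec :=
  continuous_mkE continuous_id continuous_const _

theorem isClosedEmbedding_zeroSec (V : Bun X ι) : IsClosedEmbedding V.zeroSec := by
  refine Topology.IsClosedEmbedding.of_continuous_injective_isClosedMap V.continuous_zeroSec
    (fun x y h => congrArg base h) ?_
  intro C hC
  have : V.zeroSec '' C = base ⁻¹' C ∩ vec ⁻¹' {0} := by
    ext p
    constructor
    · rintro ⟨x, hx, rfl⟩; exact ⟨hx, rfl⟩
    · rintro ⟨h1, h2⟩; exact ⟨base p, h1, E_ext rfl h2.symm⟩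
  rw [this]
  exact (hC.preimage continuous_base).inter (isClosed_singleton.preimage continuous_vec)

/-- scalar multiplication on the total space -/
def smulE {V : Bun X ι} (c : ℂ) (p : V.E) : V.E :=
  V.mkE (base p) (c • vec p) (by rw [mulVec_smul, P_vec])

@[simp] theorem base_smulE {V : Bun X ι} (c : ℂ) (p : V.E) : base (smulE c p) = base p := rfl
@[simp] theorem vec_smulE {V : Bun X ι} (c : ℂ) (p : V.E) : vec (smulE c p) = c • vec p := rfl

theorem continuous_smulE {V : Bun X ι} : Continuous fun q : ℂ × V.E => smulE q.1 q.2 :=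
  continuous_mkE (continuous_base.comp continuous_snd)
    (continuous_fst.smul (continuous_vec.comp continuous_snd)) _

/-- the total space of the trivial bundle -/
def trivHomeo (X : Type) [TopologicalSpace X] (ι : Type) [Fintype ι] [DecidableEq ι] :
    (triv X ι).E ≃ₜ X × (ι → ℂ) where
  toFun p := (base p, vec p)
  invFun q := mkE _ q.1 q.2 (by simp)
  left_inv p := rfl
  right_inv q := rfl
  continuous_toFun := continuous_base.prodMk continuous_vec
  continuous_invFun := continuous_mkE continuous_fst continuous_snd _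

/-- the total space of the zero bundle -/
def zeroHomeo (X : Type) [TopologicalSpace X] (ι : Type) [Fintype ι] :
    (zero X ι).E ≃ₜ X where
  toFun p := base p
  invFun x := zeroSec _ x
  left_inv p := E_ext rfl (by
    have := P_vec p
    rw [zero_P, zero_mulVec] at this
    exact this)
  right_inv q := rfl
  continuous_toFun := continuous_base
  continuous_invFun := continuous_zeroSec _

end Bun

end Vale.Agent.P251.G
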