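import Vale.Agent.P251.G.PowAlg
import Vale.Agent.P251.G.Bundle

/-!
# P251, part G: families of orthonormal frames up to permutation (G6)

`Frames B κ J`: a compact space `S` over `B` and a continuous family of orthonormal `J`-frames of
`ℂ^κ` parametrized by `S`, which changes by a permutation of `J` along the fibres of `S → B`
(in the application `S = S(ℂ^{k+1})`, `B = S/μ_p`).  They span a bundle `ρ` over `B`
(the bundle associated to the permutation representation `ℂ^J`), and the sum of the frame is a
section `s` of `ρ`.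
-/

open Matrix Filter Topology

set_option linter.unusedSectionVars false

namespace Vale.Agent.P251.G

/-- Orthonormal `J`-frames of `ℂ^κ`, up to permutation, over `B`. -/
structure Frames (B : Type) [TopologicalSpace B] (κ J : Type) [Fintype κ] [Fintype J]
    [DecidableEq J] where
  /-- the space of labelled frames -/
  S : Type
  [top : TopologicalSpace S]
  [compact : CompactSpace S]
  [t2 : T2Space S]
  /-- the projection -/
  π : S → B
  cont_π : Continuous π
  surj : Function.Surjective π
  /-- the frame -/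
  Φ : S → Matrix κ J ℂ
  cont_Φ : Continuous Φ
  isom : ∀ e, (Φ e)ᴴ * Φ e = 1
  perm : ∀ e e', π e = π e' → ∃ σ : Equiv.Perm J, Φ e' = (Φ e).submatrix id σ

attribute [instance] Frames.top Frames.compact Frames.t2

namespace Frames

variable {B : Type} [TopologicalSpace B] [CompactSpace B] [T2Space B]
variable {κ κ' J ι W : Type} [Fintype κ] [Fintype κ'] [Fintype J] [Fintype ι] [Fintype W]
  [DecidableEq J] [DecidableEq W]

variable (F : Frames B κ J)

theorem isProperMap_π : IsProperMap F.π := F.cont_π.isProperMap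

theorem isQuotientMap_π : IsQuotientMap F.π :=
  F.isProperMap_π.isClosedMap.isQuotientMap F.cont_π F.surj

/-- a choice of a frame over each point -/
noncomputable def lift (b : B) : F.S := (F.surj b).choose

theorem π_lift (b : B) : F.π (F.lift b) = b := (F.surj b).choose_spec

/-- the projection onto the span of the frame -/
noncomputable def projB (b : B) : Matrix κ κ ℂ := F.Φ (F.lift b) * (F.Φ (F.lift b))ᴴ

theorem projB_π (e : F.S) : F.projB (F.π e) = F.Φ e * (F.Φ e)ᴴ := by
  obtain ⟨σ, hσ⟩ := F.perm e (F.lift (F.π e)) (F.π_lift _).symm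
  rw [projB, hσ]
  funext c d
  rw [Matrix.mul_apply, Matrix.mul_apply]
  simp only [submatrix_apply, id, conjTranspose_apply]
  exact Equiv.sum_comp σ fun j => F.Φ e c j * star (F.Φ e d j)

theorem continuous_projB : Continuous F.projB := by
  refine F.isQuotientMap_π.continuous_iff.2 ?_
  have : F.projB ∘ F.π = fun e => F.Φ e * (F.Φ e)ᴴ := funext F.projB_π
  rw [this]
  exact F.cont_Φ.matrix_mul F.cont_Φ.matrix_conjTranspose

/-- the bundle spanned by the frames -/
noncomputable def ρ : Bun B κ where
  P := F.projB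
  cont := F.continuous_projB
  idem b := by
    unfold projB
    rw [Matrix.mul_assoc, ← Matrix.mul_assoc _ (F.Φ _), F.isom, Matrix.one_mul]
  herm b := by
    unfold projB
    rw [conjTranspose_mul, conjTranspose_conjTranspose]

theorem ρ_P_π (e : F.S) : F.ρ.P (F.π e) = F.Φ e * (F.Φ e)ᴴ := F.projB_π e

/-- the section `∑ⱼ f_j` -/
noncomputable def s (b : B) : κ → ℂ := fun c => ∑ j, F.Φ (F.lift b) c j

theorem s_π (e : F.S) : F.s (F.π e) = fun c => ∑ j, F.Φ e c j := by
  obtain ⟨σ, hσ⟩ := F.perm e (F.lift (F.π e)) (F.π_lift _).symm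
  funext c
  rw [s, hσ]
  simp only [submatrix_apply, id]
  exact Equiv.sum_comp σ fun j => F.Φ e c j

theorem continuous_s : Continuous F.s := by
  refine F.isQuotientMap_π.continuous_iff.2 ?_
  have : F.s ∘ F.π = fun e c => ∑ j, F.Φ e c j := funext F.s_π
  rw [this]
  refine continuous_pi fun c => continuous_finsetSum _ fun j _ => ?_
  exact (continuous_apply j).comp ((continuous_apply c).comp F.cont_Φ)

theorem star_s_dotProduct_s (b : B) : star (F.s b) ⬝ᵥ F.s b = Fintype.card J := by
  have h : ∀ i k, ∑ c, star (F.Φ (F.lift b) c i) * F.Φ (F.lift b) c k = if i = k then 1 else 0 := by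
    intro i k
    have h2 := congrFun (congrFun (F.isom (F.lift b)) i) k
    rw [Matrix.mul_apply, Matrix.one_apply] at h2
    simpa only [conjTranspose_apply] using h2
  have h3 : star (F.s b) ⬝ᵥ F.s b =
      ∑ i, ∑ k, ∑ c, star (F.Φ (F.lift b) c i) * F.Φ (F.lift b) c k := by
    simp only [dotProduct, Pi.star_apply, s, star_sum, Finset.sum_mul_sum]
    rw [Finset.sum_comm]
    refine Finset.sum_congr rfl fun i _ => ?_
    rw [Finset.sum_comm]
  rw [h3]
  simp only [h]
  simp

/-- the bundle `W ⊗ ρ` -/
noncomputable def ρW (W : Type) [Fintype W] [DecidableEq W] : Bun B (W × κ) :=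
  (Bun.triv B W).tensor F.ρ

theorem ρW_P (b : B) : (F.ρW W).P b = kroneckerMap (· * ·) (1 : Matrix W W ℂ) (F.ρ.P b) := rfl

theorem ρW_powVec (e : F.S) (w : J → W → ℂ) :
    (F.ρW W).P (F.π e) *ᵥ powVec (F.Φ e) w = powVec (F.Φ e) w := by
  rw [ρW_P, ρ_P_π, ← powVec_coordVec, coordVec_powVec (F.isom e)]

/-- the map `S × (J → ℂ^W) → E(W ⊗ ρ)` -/
noncomputable def q (a : F.S × (J → W → ℂ)) : (F.ρW W).E :=
  (F.ρW W).mkE (F.π a.1) (powVec (F.Φ a.1) a.2) (F.ρW_powVec a.1 a.2)

@[simp] theorem base_q (a : F.S × (J → W → ℂ)) : Bun.base (F.q a) = F.π a.1 := rfl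
@[simp] theorem vec_q (a : F.S × (J → W → ℂ)) : Bun.vec (F.q a) = powVec (F.Φ a.1) a.2 := rfl

theorem continuous_q : Continuous (F.q : F.S × (J → W → ℂ) → (F.ρW W).E) :=
  Bun.continuous_mkE (F.cont_π.comp continuous_fst)
    (continuous_powVec (F.cont_Φ.comp continuous_fst) continuous_snd) _

theorem surjective_q : Function.Surjective (F.q : F.S × (J → W → ℂ) → (F.ρW W).E) := by
  intro p
  refine ⟨(F.lift (Bun.base p), coordVec (F.Φ (F.lift (Bun.base p))) (Bun.vec p)), ?_⟩
  refine Bun.E_ext (F.π_lift _) ?_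
  rw [vec_q, powVec_coordVec]
  exact Bun.P_vec p

theorem isProperMap_q : IsProperMap (F.q : F.S × (J → W → ℂ) → (F.ρW W).E) := by
  -- the closed embedding into `S × ℂ^(W × κ)`
  let c : F.S × (J → W → ℂ) → F.S × (W × κ → ℂ) := fun a => (a.1, powVec (F.Φ a.1) a.2)
  let d : F.S × (W × κ → ℂ) → F.S × (J → W → ℂ) := fun a => (a.1, coordVec (F.Φ a.1) a.2)
  have hc : Continuous c :=
    continuous_fst.prodMk (continuous_powVec (F.cont_Φ.comp continuous_fst) continuous_snd)
  have hd : Continuous d :=
    continuous_fst.prodMk (continuous_coordVec (F.cont_Φ.comp continuous_fst) continuous_snd)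
  have hdc : Function.LeftInverse d c := fun a => by
    simp only [c, d, coordVec_powVec (F.isom a.1)]
  have h1 : IsProperMap c := (hdc.isClosedEmbedding hd hc).isProperMap
  have h2 : IsProperMap (Prod.map F.π (id : (W × κ → ℂ) → _)) :=
    F.isProperMap_π.prodMap isProperMap_id
  have h3 : IsProperMap ((Subtype.val : (F.ρW W).E → B × (W × κ → ℂ)) ∘ F.q) := h2.comp h1
  exact isProperMap_of_comp_of_inj F.continuous_q continuous_subtype_val h3
    Subtype.val_injective

/-- value of the constant family -/
theorem powVec_const_π {b : B} {e : F.S} (h : F.π e = b) (w : ι → ℂ) :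
    powVec (F.Φ e) (fun _ => w) = fun x => w x.1 * F.s b x.2 := by
  subst h
  rw [powVec_const, s_π]

theorem ρW_mulVec_s (b : B) (w : W → ℂ) :
    ((F.ρW W).P b *ᵥ fun x : W × κ => w x.1 * F.s b x.2) = fun x => w x.1 * F.s b x.2 := by
  rw [← F.powVec_const_π (F.π_lift b) w]
  have := F.ρW_powVec (F.lift b) (fun _ => w)
  rwa [F.π_lift b] at this

/-- the diagonal `(w, b) ↦ w ⊗ s(b)` -/
noncomputable def diagFun (a : (W → ℂ) × B) : (F.ρW W).E :=
  (F.ρW W).mkE a.2 (fun x => a.1 x.1 * F.s a.2 x.2) (F.ρW_mulVec_s a.2 a.1)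

@[simp] theorem base_diagFun (a : (W → ℂ) × B) : Bun.base (F.diagFun a) = a.2 := rfl
@[simp] theorem vec_diagFun (a : (W → ℂ) × B) :
    Bun.vec (F.diagFun a) = fun x => a.1 x.1 * F.s a.2 x.2 := rfl

theorem continuous_diagFun : Continuous (F.diagFun : (W → ℂ) × B → (F.ρW W).E) := by
  refine Bun.continuous_mkE continuous_snd (continuous_pi fun x => ?_) _
  exact ((continuous_apply x.1).comp continuous_fst).mul
    ((continuous_apply x.2).comp (F.continuous_s.comp continuous_snd))

theorem isProperMap_diagFun [Nonempty J] :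
    IsProperMap (F.diagFun : (W → ℂ) × B → (F.ρW W).E) := by
  let l : (F.ρW W).E → (W → ℂ) × B := fun p =>
    (fun a => (Fintype.card J : ℂ)⁻¹ * ∑ c, star (F.s (Bun.base p) c) * Bun.vec p (a, c),
      Bun.base p)
  have hl : Continuous l := by
    refine Continuous.prodMk (continuous_pi fun a => continuous_const.mul ?_) Bun.continuous_base
    refine continuous_finsetSum _ fun c _ => ?_
    exact (((continuous_apply c).comp (F.continuous_s.comp Bun.continuous_base)).star).mul
      ((continuous_apply (a, c)).comp Bun.continuous_vec)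
  have hlr : Function.LeftInverse l F.diagFun := by
    rintro ⟨w, b⟩
    refine Prod.ext ?_ rfl
    funext a
    simp only [l, vec_diagFun, base_diagFun]
    have h1 : ∑ c, star (F.s b c) * (w a * F.s b c) = w a * (Fintype.card J : ℂ) := by
      rw [← F.star_s_dotProduct_s b, dotProduct, Finset.mul_sum]
      exact Finset.sum_congr rfl fun c _ => by rw [Pi.star_apply]; ring
    rw [h1]
    have h2 : (Fintype.card J : ℂ) ≠ 0 := by
      exact_mod_cast Fintype.card_ne_zero
    field_simp
  exact (hlr.isClosedEmbedding hl F.continuous_diagFun).isProperMap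

end Frames

end Vale.Agent.P251.G
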