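import Vale.Agent.P251.G.Lens
import Vale.Agent.P251.G.BunSigma
import Vale.Agent.P251.G.Frames

/-!
# P251, part G: the frames over the lens space

For `x` in the unit sphere of `ℂ^κ` the vectors
`f_j = p^{-1/2} (1, (ζ^{(i+1) j} x^{⊗(i+1)})_{i < p-1})`, `j : Fin p`, form an orthonormal frame of
`ρ = 1 ⊕ L ⊕ L² ⊕ … ⊕ L^{p-1}` at the point `x.lens p`, and multiplication of `x` by a `p`-th root
of unity permutes them.
-/

open Matrix Filter Topology CategoryTheory

namespace Vale.Agent.P251.G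

variable {X Y Z : Type} [TopologicalSpace X] [TopologicalSpace Y] [TopologicalSpace Z]
variable {ι κ μ : Type} [Fintype ι] [Fintype κ] [Fintype μ]

noncomputable section

/-- a primitive `p`-th root of unity -/
def zetaC (p : ℕ) : ℂ := Complex.exp (2 * Real.pi * Complex.I / p)

theorem isPrimitiveRoot_zetaC {p : ℕ} (hp : p ≠ 0) : IsPrimitiveRoot (zetaC p) p :=
  Complex.isPrimitiveRoot_exp p hp

theorem zetaC_pow_self (p : ℕ) : zetaC p ^ p = 1 := by
  rcases eq_or_ne p 0 with rfl | hp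
  · simp
  · exact (isPrimitiveRoot_zetaC hp).pow_eq_one

theorem star_zetaC_mul {p : ℕ} (hp : p ≠ 0) : star (zetaC p) * zetaC p = 1 := by
  have h := normSq_of_pow_eq hp (c := 1) (by simp) (zetaC_pow_self p)
  have h2 := Complex.normSq_eq_conj_mul_self (z := zetaC p)
  rw [h] at h2
  exact h2.symm.trans (by simp)

theorem zetaC_orth {p : ℕ} (hp : p ≠ 0) {a b : ℕ} (ha : a < p) (hb : b < p) :
    ∑ i ∈ Finset.range p, star (zetaC p ^ (i * a)) * zetaC p ^ (i * b) =
      if a = b then (p : ℂ) else 0 := by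
  have h1 : ∀ i, star (zetaC p ^ (i * a)) * zetaC p ^ (i * b) =
      (star (zetaC p ^ a) * zetaC p ^ b) ^ i := by
    intro i
    rw [mul_pow, ← star_pow, ← pow_mul, ← pow_mul, mul_comm a i, mul_comm b i]
  simp only [h1]
  have h0 : star (zetaC p ^ a) * zetaC p ^ a = 1 := by
    rw [star_pow, ← mul_pow, star_zetaC_mul hp, one_pow]
  split_ifs with h
  · subst h
    rw [h0]
    simp
  · have h2 : star (zetaC p ^ a) * zetaC p ^ b ≠ 1 := by
      intro h3
      apply h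
      have h4 : zetaC p ^ b = zetaC p ^ a := by
        have h5 : zetaC p ^ a * (star (zetaC p ^ a) * zetaC p ^ b) = zetaC p ^ a := by
          rw [h3, mul_one]
        rw [← mul_assoc, mul_comm (zetaC p ^ a) (star _), h0, one_mul] at h5
        exact h5
      exact ((isPrimitiveRoot_zetaC hp).pow_inj hb ha h4).symm
    have h3 := geom_sum_mul (star (zetaC p ^ a) * zetaC p ^ b) p
    have h4 : (star (zetaC p ^ a) * zetaC p ^ b) ^ p = 1 := by
      rw [mul_pow, star_pow, ← pow_mul, ← pow_mul, mul_comm a p, mul_comm b p, pow_mul, pow_mul,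
        ← star_pow, zetaC_pow_self, star_one, one_pow, one_mul, one_pow]
    rw [h4, sub_self] at h3
    exact (mul_eq_zero.mp h3).resolve_right (sub_ne_zero.mpr h2)

/-- the index type of `ρ̄ = L ⊕ … ⊕ L^{p-1}` -/
abbrev RbarIdx (p : ℕ) (κ : Type) : Type := Σ i : Fin (p - 1), (Fin ((i : ℕ) + 1) → κ)

/-- the index type of `ρ = 1 ⊕ L ⊕ … ⊕ L^{p-1}` -/
abbrev RhoIdx (p : ℕ) (κ : Type) : Type := Unit ⊕ RbarIdx p κ

/-- the reciprocal of the square root of `p` -/
def rsp (p : ℕ) : ℂ := ((Real.sqrt p)⁻¹ : ℝ)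

theorem star_rsp (p : ℕ) : star (rsp p) = rsp p := Complex.conj_ofReal _

theorem rsp_mul_rsp (p : ℕ) : rsp p * rsp p = (p : ℂ)⁻¹ := by
  unfold rsp
  rw [← Complex.ofReal_mul, ← mul_inv, Real.mul_self_sqrt (Nat.cast_nonneg p)]
  push_cast
  rfl

/-- the frame at a unit vector `x` -/
def frameΦ (p : ℕ) (x : κ → ℂ) : Matrix (RhoIdx p κ) (Fin p) ℂ := fun a j =>
  a.elim (fun _ => rsp p)
    (fun b => rsp p * (zetaC p ^ ((j : ℕ) * (b.1 + 1)) * tp (b.1 + 1) x b.2))

omit [Fintype κ] in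
@[simp] theorem frameΦ_inl (p : ℕ) (x : κ → ℂ) (a : Unit) (j : Fin p) :
    frameΦ p x (Sum.inl a) j = rsp p := rfl

omit [Fintype κ] in
@[simp] theorem frameΦ_inr (p : ℕ) (x : κ → ℂ) (b : RbarIdx p κ) (j : Fin p) :
    frameΦ p x (Sum.inr b) j =
      rsp p * (zetaC p ^ ((j : ℕ) * (b.1 + 1)) * tp (b.1 + 1) x b.2) := rfl

omit [Fintype κ] in
theorem continuous_frameΦ (p : ℕ) :
    Continuous (frameΦ p : (κ → ℂ) → Matrix (RhoIdx p κ) (Fin p) ℂ) := by
  refine continuous_matrix fun a j => ?_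
  rcases a with a | b
  · exact continuous_const
  · simp only [frameΦ_inr]
    exact continuous_const.mul (continuous_const.mul
      ((continuous_apply b.2).comp (continuous_tp _)))

theorem sum_star_tp_mul_tp {n : ℕ} {x : κ → ℂ} (hx : nsq x = 1) :
    ∑ t, star (tp n x t) * tp n x t = 1 := by
  have h := nsq_eq_dotProduct (tp n x)
  rw [nsq_tp, hx, one_pow] at h
  exact h.symm.trans (by simp)

theorem frameΦ_isom {p : ℕ} (hp : p ≠ 0) {x : κ → ℂ} (hx : nsq x = 1) :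
    (frameΦ p x)ᴴ * frameΦ p x = 1 := by
  ext j k
  rw [Matrix.mul_apply, Matrix.one_apply, Fintype.sum_sum_type]
  simp only [conjTranspose_apply, frameΦ_inl, frameΦ_inr, star_rsp, Finset.univ_unique,
    Finset.sum_singleton]
  rw [Fintype.sum_sigma]
  have h1 : ∀ i : Fin (p - 1), ∑ t : Fin ((i : ℕ) + 1) → κ,
      star (rsp p * (zetaC p ^ ((j : ℕ) * (i + 1)) * tp (i + 1) x t)) *
        (rsp p * (zetaC p ^ ((k : ℕ) * (i + 1)) * tp (i + 1) x t)) =
      (p : ℂ)⁻¹ * (star (zetaC p ^ ((i + 1) * (j : ℕ))) * zetaC p ^ ((i + 1) * (k : ℕ))) := by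
    intro i
    have h2 : ∀ t : Fin ((i : ℕ) + 1) → κ,
        star (rsp p * (zetaC p ^ ((j : ℕ) * (i + 1)) * tp (i + 1) x t)) *
          (rsp p * (zetaC p ^ ((k : ℕ) * (i + 1)) * tp (i + 1) x t)) =
        ((p : ℂ)⁻¹ * (star (zetaC p ^ ((i + 1) * (j : ℕ))) * zetaC p ^ ((i + 1) * (k : ℕ)))) *
          (star (tp (i + 1) x t) * tp (i + 1) x t) := by
      intro t
      rw [← rsp_mul_rsp, star_mul', star_mul', star_rsp, mul_comm (j : ℕ), mul_comm (k : ℕ)]
      ring
    rw [Finset.sum_congr rfl fun t _ => h2 t, ← Finset.mul_sum, sum_star_tp_mul_tp hx, mul_one]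
  rw [Finset.sum_congr rfl fun i _ => h1 i, ← Finset.mul_sum, rsp_mul_rsp]
  have h3 := zetaC_orth hp j.2 k.2
  obtain ⟨q, rfl⟩ := Nat.exists_eq_succ_of_ne_zero hp
  rw [Finset.sum_range_succ'] at h3
  simp only [zero_mul, pow_zero, star_one, mul_one] at h3
  have h4 : ∑ i : Fin (q.succ - 1), star (zetaC q.succ ^ (((i : ℕ) + 1) * (j : ℕ))) *
      zetaC q.succ ^ (((i : ℕ) + 1) * (k : ℕ)) =
      ∑ i ∈ Finset.range q, star (zetaC q.succ ^ ((i + 1) * (j : ℕ))) *
        zetaC q.succ ^ ((i + 1) * (k : ℕ)) :=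
    Fin.sum_univ_eq_sum_range (fun i => star (zetaC q.succ ^ ((i + 1) * (j : ℕ))) *
      zetaC q.succ ^ ((i + 1) * (k : ℕ))) q
  rw [h4]
  have h5 : (q.succ : ℂ) ≠ 0 := by exact_mod_cast q.succ_ne_zero
  have h6 : (j : ℕ) = (k : ℕ) ↔ j = k := Fin.ext_iff.symm
  rw [← mul_one_add, add_comm (1 : ℂ), h3]
  simp only [h6]
  split_ifs
  · exact inv_mul_cancel₀ h5
  · exact mul_zero _

theorem frameΦ_perm {p : ℕ} (hp : p ≠ 0) {x y : SS κ} (h : x.lens p = y.lens p) :
    ∃ σ : Equiv.Perm (Fin p), frameΦ p y.v = (frameΦ p x.v).submatrix id σ := by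
  have : NeZero p := ⟨hp⟩
  obtain ⟨c, hc, hy⟩ := (SS.lens_eq_iff hp).mp h
  obtain ⟨m, hm, rfl⟩ := (isPrimitiveRoot_zetaC hp).eq_pow_of_pow_eq_one hc
  refine ⟨Equiv.addRight (⟨m, hm⟩ : Fin p), ?_⟩
  ext a j
  rw [submatrix_apply, id]
  rcases a with a | b
  · rfl
  · rw [frameΦ_inr, frameΦ_inr, hy, tp_smul, Equiv.coe_addRight, Fin.val_add]
    have h1 : zetaC p ^ ((((j : ℕ) + m) % p) * (b.1 + 1)) =
        zetaC p ^ (((j : ℕ) + m) * (b.1 + 1)) := by
      rw [pow_mul, pow_mul]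
      congr 1
      conv_rhs => rw [← Nat.mod_add_div ((j : ℕ) + m) p]
      rw [pow_add, pow_mul, zetaC_pow_self, one_pow, mul_one]
    rw [h1, Pi.smul_apply, smul_eq_mul, add_mul, pow_add (zetaC p) ((j : ℕ) * _),
      pow_mul (zetaC p) m]
    ring

/-- The frames of `ρ` over the lens space. -/
def lensFrames (p : ℕ) (hp : p ≠ 0) (κ : Type) [Fintype κ] :
    Frames (Lens p κ) (RhoIdx p κ) (Fin p) where
  S := SS κ
  π := SS.lens p
  cont_π := SS.continuous_lens p
  surj := SS.lens_surjective hp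
  Φ x := frameΦ p x.v
  cont_Φ := (continuous_frameΦ p).comp SS.continuous_v
  isom x := frameΦ_isom hp x.nsq_v
  perm _ _ h := frameΦ_perm hp h

@[simp] theorem lensFrames_S (p : ℕ) (hp : p ≠ 0) (κ : Type) [Fintype κ] :
    (lensFrames p hp κ).S = SS κ := rfl

@[simp] theorem lensFrames_π (p : ℕ) (hp : p ≠ 0) (x : SS κ) :
    (lensFrames p hp κ).π x = x.lens p := rfl

@[simp] theorem lensFrames_Φ (p : ℕ) (hp : p ≠ 0) (x : SS κ) :
    (lensFrames p hp κ).Φ x = frameΦ p x.v := rfl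

/-- the projection of the lens space to the projective space -/
def Lens.toGr (p : ℕ) (κ : Type) [Fintype κ] : C(Lens p κ, Gr 1 κ) := ⟨Lens.Q, Lens.continuous_Q⟩

@[simp] theorem Lens.toGr_apply (p : ℕ) (κ : Type) [Fintype κ] (y : Lens p κ) :
    Lens.toGr p κ y = y.Q := rfl

/-- the bundle `ρ̄ = L ⊕ L² ⊕ … ⊕ L^{p-1}` over the lens space -/
def rhobar (p : ℕ) (κ : Type) [Fintype κ] : Bun (Lens p κ) (RbarIdx p κ) :=
  Bun.sigma fun i : Fin (p - 1) => ((taut 1 κ).tpow ((i : ℕ) + 1)).pullback (Lens.toGr p κ)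

theorem rhobar_isRank (p : ℕ) (κ : Type) [Fintype κ] : (rhobar p κ).IsRank (p - 1) := by
  have h : (rhobar p κ).IsRank (∑ _i : Fin (p - 1), 1) := by
    apply Bun.IsRank.sigma (n := fun _ => 1)
    intro i x
    have := ((taut_isRank 1 κ).tpow ((i : ℕ) + 1)) (Lens.toGr p κ x)
    rw [one_pow] at this
    exact this
  simpa using h

theorem sum_star_zeta {p : ℕ} (hp : p ≠ 0) {a b : ℕ} (ha : a < p) (hb : b < p) :
    ∑ j : Fin p, zetaC p ^ ((j : ℕ) * a) * star (zetaC p ^ ((j : ℕ) * b)) =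
      if a = b then (p : ℂ) else 0 := by
  rw [Fin.sum_univ_eq_sum_range (fun j => zetaC p ^ (j * a) * star (zetaC p ^ (j * b))) p]
  have := zetaC_orth hp hb ha
  simp only [eq_comm (a := b) (b := a)] at this
  rw [← this]
  exact Finset.sum_congr rfl fun i _ => mul_comm _ _

omit [Fintype κ] in
theorem frameΦ_mul_conjTranspose {p : ℕ} (hp : p ≠ 0) (x : κ → ℂ) :
    frameΦ p x * (frameΦ p x)ᴴ = fromBlocks 1 0 0
      (blockDiagonal' fun i : Fin (p - 1) => tpow ((i : ℕ) + 1) (lineP x)) := by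
  have hp' : (p : ℂ) ≠ 0 := by exact_mod_cast hp
  have hlt : ∀ i : Fin (p - 1), (i : ℕ) + 1 < p := fun i => by have := i.2; omega
  have hpos : 0 < p := Nat.pos_of_ne_zero hp
  have h0 : ∀ n : ℕ, zetaC p ^ (n * 0) = 1 := fun n => by rw [mul_zero, pow_zero]
  ext a b
  rw [Matrix.mul_apply]
  rcases a with a | a <;> rcases b with b | b
  · rw [fromBlocks_apply₁₁]
    simp only [conjTranspose_apply, frameΦ_inl, star_rsp, rsp_mul_rsp, Finset.sum_const,
      Finset.card_univ, Fintype.card_fin, nsmul_eq_mul]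
    rw [mul_inv_cancel₀ hp', Subsingleton.elim a b, Matrix.one_apply_eq]
  · rw [fromBlocks_apply₁₂, Matrix.zero_apply]
    simp only [conjTranspose_apply, frameΦ_inl, frameΦ_inr]
    have h1 := sum_star_zeta hp hpos (hlt b.1)
    rw [if_neg (by omega)] at h1
    simp only [h0, one_mul] at h1
    have h2 : ∀ j : Fin p, rsp p * star (rsp p * (zetaC p ^ ((j : ℕ) * (b.1 + 1)) *
        tp (b.1 + 1) x b.2)) = star (zetaC p ^ ((j : ℕ) * (b.1 + 1))) *
          (rsp p * star (rsp p) * star (tp (b.1 + 1) x b.2)) := by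
      intro j
      rw [star_mul', star_mul']
      ring
    rw [Finset.sum_congr rfl fun j _ => h2 j, ← Finset.sum_mul, h1, zero_mul]
  · rw [fromBlocks_apply₂₁, Matrix.zero_apply]
    simp only [conjTranspose_apply, frameΦ_inl, frameΦ_inr]
    have h1 := sum_star_zeta hp (hlt a.1) hpos
    rw [if_neg (by omega)] at h1
    simp only [h0, star_one, mul_one] at h1
    have h2 : ∀ j : Fin p, rsp p * (zetaC p ^ ((j : ℕ) * (a.1 + 1)) *
        tp (a.1 + 1) x a.2) * star (rsp p) = zetaC p ^ ((j : ℕ) * (a.1 + 1)) *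
          (rsp p * star (rsp p) * tp (a.1 + 1) x a.2) := by
      intro j
      ring
    rw [Finset.sum_congr rfl fun j _ => h2 j, ← Finset.sum_mul, h1, zero_mul]
  · rw [fromBlocks_apply₂₂]
    simp only [conjTranspose_apply, frameΦ_inr]
    obtain ⟨i, s⟩ := a
    obtain ⟨k, t⟩ := b
    have h1 := sum_star_zeta hp (hlt i) (hlt k)
    have h2 : ∀ j : Fin p, rsp p * (zetaC p ^ ((j : ℕ) * (i + 1)) * tp (i + 1) x s) *
        star (rsp p * (zetaC p ^ ((j : ℕ) * (k + 1)) * tp (k + 1) x t)) =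
        (zetaC p ^ ((j : ℕ) * (i + 1)) * star (zetaC p ^ ((j : ℕ) * (k + 1)))) *
          ((p : ℂ)⁻¹ * (tp (i + 1) x s * star (tp (k + 1) x t))) := by
      intro j
      rw [star_mul', star_mul', star_rsp, ← rsp_mul_rsp]
      ring
    rw [Finset.sum_congr rfl fun j _ => h2 j, ← Finset.sum_mul, h1]
    by_cases h : i = k
    · subst h
      rw [if_pos rfl, blockDiagonal'_apply_eq, ← mul_assoc, mul_inv_cancel₀ hp', one_mul]
      unfold lineP
      rw [tpow_vecMulVec, ← star_tp]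
      rfl
    · rw [if_neg (fun h' => h (Fin.ext (by omega))), zero_mul, blockDiagonal'_apply_ne _ _ _ h]

/-- `ρ = 1 ⊕ ρ̄` -/
theorem lensFrames_ρ (p : ℕ) (hp : p ≠ 0) (κ : Type) [Fintype κ] :
    (lensFrames p hp κ).ρ = (Bun.triv (Lens p κ) Unit).sum (rhobar p κ) := by
  apply Bun.ext
  funext y
  obtain ⟨x, rfl⟩ := SS.lens_surjective hp y
  have h1 := (lensFrames p hp κ).ρ_P_π x
  rw [lensFrames_π, lensFrames_Φ] at h1
  rw [h1, frameΦ_mul_conjTranspose hp]
  rfl

/-- The section `s` is `√p` times the unit vector of the trivial summand. -/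
theorem lensFrames_s (p : ℕ) (hp : p ≠ 0) (κ : Type) [Fintype κ] (y : Lens p κ) :
    (lensFrames p hp κ).s y = Sum.elim (fun _ => ((Real.sqrt p : ℝ) : ℂ)) (fun _ => 0) := by
  obtain ⟨x, rfl⟩ := SS.lens_surjective hp y
  have h1 := (lensFrames p hp κ).s_π x
  rw [lensFrames_π, lensFrames_Φ] at h1
  rw [h1]
  have hpos : 0 < p := Nat.pos_of_ne_zero hp
  funext a
  rcases a with a | a
  · simp only [frameΦ_inl, Finset.sum_const, Finset.card_univ, Fintype.card_fin, nsmul_eq_mul,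
      Sum.elim_inl]
    unfold rsp
    have h2 : (p : ℝ) * (Real.sqrt p)⁻¹ = Real.sqrt p := by
      have h3 : Real.sqrt p ≠ 0 := (Real.sqrt_pos.mpr (by exact_mod_cast hpos)).ne'
      rw [mul_inv_eq_iff_eq_mul₀ h3, Real.mul_self_sqrt (Nat.cast_nonneg p)]
    exact_mod_cast h2
  · simp only [frameΦ_inr, Sum.elim_inr]
    have hlt : (a.1 : ℕ) + 1 < p := by have := a.1.2; omega
    have h2 := sum_star_zeta hp hlt hpos
    rw [if_neg (by omega)] at h2
    simp only [mul_zero, pow_zero, star_one, mul_one] at h2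
    have h3 : ∀ j : Fin p, rsp p * (zetaC p ^ ((j : ℕ) * (a.1 + 1)) * tp (a.1 + 1) x.v a.2) =
        zetaC p ^ ((j : ℕ) * (a.1 + 1)) * (rsp p * tp (a.1 + 1) x.v a.2) := fun j => by ring
    rw [Finset.sum_congr rfl fun j _ => h3 j, ← Finset.sum_mul, h2, zero_mul]

end

end Vale.Agent.P251.G
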