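import Vale.Agent.P251.G.Gr
import Mathlib.Data.Matrix.Block

/-!
# P251, part G: block sums of bundles and the map `(CP)^J → Gr`

* `Bun.blockSum V` : the direct sum of a finite family `V : J → Bun X I`, index type `I × J`
  (block diagonal matrices);
* `Bun.lam a` : the `a`-th tautological line bundle over `J → Gr 1 I`;
* `CPpow.toGr : C(J → Gr 1 I, Gr (card J) (I × J))`, which pulls the tautological bundle back to the
  block sum of the `lam a`.
-/

open Matrix Filter Topology CategoryTheory

namespace Vale.Agent.P251.G

variable {X Y Z : Type} [TopologicalSpace X] [TopologicalSpace Y] [TopologicalSpace Z]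
variable {I J K : Type} [Fintype I] [Fintype J] [Fintype K]

namespace Bun

/-- direct sum of a finite family -/
@[simps] def blockSum [DecidableEq J] (V : J → Bun X I) : Bun X (I × J) where
  P x := blockDiagonal fun a => (V a).P x
  cont := Continuous.matrix_blockDiagonal (continuous_pi fun a => (V a).cont)
  idem x := by
    rw [← blockDiagonal_mul]
    congr 1
    funext a
    exact (V a).idem x
  herm x := by
    rw [blockDiagonal_conjTranspose]
    congr 1
    funext a
    exact (V a).herm x

theorem blockSum_isRank [DecidableEq J] {V : J → Bun X I} {n : J → ℕ}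
    (h : ∀ a, (V a).IsRank (n a)) : (blockSum V).IsRank (∑ a, n a) := by
  intro x
  rw [blockSum_P, trace_blockDiagonal]
  push_cast
  exact Finset.sum_congr rfl fun a _ => h a x

theorem blockSum_isRank_one [DecidableEq J] {V : J → Bun X I}
    (h : ∀ a, (V a).IsRank 1) : (blockSum V).IsRank (Fintype.card J) := by
  have := blockSum_isRank h
  simpa using this

theorem pullback_blockSum [DecidableEq J] (V : J → Bun X I) (f : C(Y, X)) :
    (blockSum V).pullback f = blockSum fun a => (V a).pullback f := rfl

theorem blockDiagonal_mulVec_apply [DecidableEq J] {R : Type*} [NonUnitalNonAssocSemiring R]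
    {m n : Type*} [Fintype n]
    (M : J → Matrix m n R) (w : n × J → R) (i : m) (a : J) :
    (blockDiagonal M *ᵥ w) (i, a) = (M a *ᵥ fun k => w (k, a)) i := by
  rw [mulVec, dotProduct, Fintype.sum_prod_type]
  simp only [blockDiagonal_apply, mulVec, dotProduct, ite_mul, zero_mul, Finset.sum_ite_eq,
    Finset.mem_univ, if_true]

theorem blockSum_fixed [DecidableEq J] (V : J → Bun X I) (x : X) (w : I × J → ℂ) :
    (blockSum V).P x *ᵥ w = w ↔ ∀ a, (V a).P x *ᵥ (fun i => w (i, a)) = fun i => w (i, a) := by
  constructor
  · intro h a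
    funext i
    have := congrFun h (i, a)
    rwa [blockSum_P, blockDiagonal_mulVec_apply] at this
  · intro h
    funext ⟨i, a⟩
    rw [blockSum_P, blockDiagonal_mulVec_apply, h a]

end Bun

/-- the product of projective spaces, mapped to the Grassmannian -/
def CPpow.toGr (I J : Type) [Fintype I] [Fintype J] [DecidableEq J] :
    C(J → Gr 1 I, Gr (Fintype.card J) (I × J)) where
  toFun L := ⟨blockDiagonal fun a => (L a).P, by
    refine ⟨?_, ?_, ?_⟩
    · rw [← blockDiagonal_mul]
      congr 1
      funext a
      exact (L a).isProj.idem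
    · rw [blockDiagonal_conjTranspose]
      congr 1
      funext a
      exact (L a).isProj.herm
    · rw [trace_blockDiagonal, Finset.sum_congr rfl fun a _ => (L a).isProj.trace]
      simp⟩
  continuous_toFun := (Continuous.matrix_blockDiagonal (continuous_pi fun a =>
    Gr.continuous_P.comp (continuous_apply a))).subtype_mk _

/-- the `a`-th tautological line bundle on the product of projective spaces -/
def Bun.lam (I : Type) {J : Type} [Fintype I] (a : J) : Bun (J → Gr 1 I) I :=
  (taut 1 I).pullback ⟨fun L => L a, continuous_apply a⟩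

omit [Fintype J] in
@[simp] theorem Bun.lam_P (a : J) (L : J → Gr 1 I) : (Bun.lam I a).P L = (L a).P := rfl

omit [Fintype J] in
theorem Bun.lam_isRank (a : J) : (Bun.lam I a).IsRank 1 := fun L => (L a).isProj.trace

theorem CPpow.pullback_taut [DecidableEq J] :
    (taut (Fintype.card J) (I × J)).pullback (CPpow.toGr I J) =
      Bun.blockSum (fun a : J => Bun.lam I a) := rfl

/-! ### Tensor product of a block sum with a bundle -/

/-- the reindexing `(I × J) × K ≃ (I × K) × J` -/
def blockTensorEquiv (I J K : Type) : (I × J) × K ≃ (I × K) × J where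
  toFun p := ((p.1.1, p.2), p.1.2)
  invFun p := ((p.1.1, p.2), p.1.2)
  left_inv _ := rfl
  right_inv _ := rfl

theorem Bun.blockSum_tensor [DecidableEq J] (V : J → Bun X I) (W : Bun X K) :
    ((blockSum V).tensor W).reindex (blockTensorEquiv I J K) =
      blockSum fun a => (V a).tensor W := by
  refine Bun.ext ?_
  funext x
  ext ⟨⟨i, k⟩, a⟩ ⟨⟨i', k'⟩, a'⟩
  simp only [reindex_P, tensor_P, blockSum_P, blockTensorEquiv, submatrix_apply,
    Equiv.coe_fn_symm_mk, kroneckerMap_apply, blockDiagonal_apply, ite_mul, zero_mul]

/-- the reindexing `K × (I × J) ≃ (K × I) × J` -/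
theorem Bun.tensor_blockSum [DecidableEq J] (V : J → Bun X I) (W : Bun X K) :
    (W.tensor (blockSum V)).reindex (Equiv.prodAssoc K I J).symm =
      blockSum fun a => W.tensor (V a) := by
  refine Bun.ext ?_
  funext x
  ext ⟨⟨k, i⟩, a⟩ ⟨⟨k', i'⟩, a'⟩
  simp only [reindex_P, tensor_P, blockSum_P, submatrix_apply, Equiv.symm_symm,
    Equiv.prodAssoc_apply, kroneckerMap_apply, blockDiagonal_apply, mul_ite, mul_zero]

/-- splitting off the last summand -/
def blockOptionEquiv (I J : Type) : I × Option J ≃ I ⊕ (I × J) where
  toFun p := p.2.elim (Sum.inl p.1) (fun a => Sum.inr (p.1, a))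
  invFun p := p.elim (fun i => (i, none)) (fun q => (q.1, some q.2))
  left_inv p := by rcases p with ⟨i, _ | a⟩ <;> rfl
  right_inv p := by rcases p with i | ⟨i, a⟩ <;> rfl

theorem Bun.blockSum_option [DecidableEq J] (V : Option J → Bun X I) :
    (blockSum V).reindex (blockOptionEquiv I J) =
      (V none).sum (blockSum fun a => V (some a)) := by
  refine Bun.ext ?_
  funext x
  ext p q
  rcases p with i | ⟨i, a⟩ <;> rcases q with k | ⟨k, b⟩ <;>
    simp [blockOptionEquiv, blockDiagonal_apply]

/-- reindexing the summands -/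
theorem Bun.blockSum_equiv [DecidableEq J] [DecidableEq K] (V : J → Bun X I) (e : J ≃ K) :
    (blockSum V).reindex ((Equiv.refl I).prodCongr e) = blockSum fun a => V (e.symm a) := by
  refine Bun.ext ?_
  funext x
  ext ⟨i, a⟩ ⟨k, b⟩
  simp [blockDiagonal_apply]

/-- the sum of no summands has rank zero -/
theorem Bun.blockSum_isEmpty [DecidableEq J] [IsEmpty J] (V : J → Bun X I) :
    blockSum V = zero X (I × J) := by
  refine Bun.ext ?_
  funext x
  ext ⟨i, a⟩ q
  exact isEmptyElim a

/-! ### Pull backs -/

theorem Bun.pullback_sum (V : Bun X I) (W : Bun X K) (f : C(Y, X)) :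
    (V.sum W).pullback f = (V.pullback f).sum (W.pullback f) := rfl

theorem Bun.pullback_tensor (V : Bun X I) (W : Bun X K) (f : C(Y, X)) :
    (V.tensor W).pullback f = (V.pullback f).tensor (W.pullback f) := rfl

theorem Bun.pullback_pullback (V : Bun X I) (f : C(Y, X)) (g : C(Z, Y)) :
    (V.pullback f).pullback g = V.pullback (f.comp g) := rfl

theorem Bun.pullback_reindex (V : Bun X I) (e : I ≃ K) (f : C(Y, X)) :
    (V.reindex e).pullback f = (V.pullback f).reindex e := rfl

end Vale.Agent.P251.G
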