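import Vale.Agent.P251.G.Homotopy
import Mathlib.Topology.ContinuousMap.Basic
import Mathlib.Topology.Separation.Hausdorff

/-!
# P251, part G: cofibrations in `LC`, part 1

* `cofib_iff'`: `Cofib i` iff `app i` is injective and the cylinder `B ⊗ II` retracts onto the
  mapping cylinder (`IsRetr`).
* closure properties: composition, isomorphisms, tensor with any object, pushout product with an
  NDR pair (`PNDR`).
-/

open CategoryTheory MonoidalCategory Filter Topology OnePoint

namespace Vale.Agent.P251.G

namespace LC

section smash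

theorem smash_surjective {X Y : Type} (p : OnePoint (X × Y)) :
    ∃ (x : OnePoint X) (y : OnePoint Y), smash x y = p := by
  induction p using OnePoint.rec with
  | infty => exact ⟨∞, ∞, rfl⟩
  | coe p => exact ⟨p.1, p.2, rfl⟩

theorem smash_coe_surjective {X Y : Type} [Nonempty Y] (p : OnePoint (X × Y)) :
    ∃ (x : OnePoint X) (y : Y), smash x (y : OnePoint Y) = p := by
  induction p using OnePoint.rec with
  | infty => exact ⟨∞, Classical.arbitrary Y, rfl⟩
  | coe p => exact ⟨p.1, p.2, rfl⟩

theorem smash_coe_eq_iff {X Y : Type} {x x' : OnePoint X} {y y' : Y} :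
    smash x (y : OnePoint Y) = smash x' (y' : OnePoint Y) ↔ x = x' ∧ (x = ∞ ∨ y = y') := by
  induction x using OnePoint.rec with
  | infty =>
    induction x' using OnePoint.rec with
    | infty => simp
    | coe x' => simp [OnePoint.infty_ne_coe]
  | coe x =>
    induction x' using OnePoint.rec with
    | infty => simp [OnePoint.coe_ne_infty]
    | coe x' => simp

theorem smash_left_coe_eq_iff {X Y : Type} {y y' : OnePoint Y} {x x' : X} :
    smash (x : OnePoint X) y = smash (x' : OnePoint X) y' ↔ y = y' ∧ (y = ∞ ∨ x = x') := by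
  induction y using OnePoint.rec with
  | infty =>
    induction y' using OnePoint.rec with
    | infty => simp
    | coe x' => simp [OnePoint.infty_ne_coe]
  | coe x =>
    induction y' using OnePoint.rec with
    | infty => simp [OnePoint.coe_ne_infty]
    | coe x' => simp [and_comm]

variable (X : LC)

/-- the canonical map `OnePoint X × I → OnePoint (X × I)` -/
def smashII (p : OnePoint X × unitInterval) : OnePoint (X × unitInterval) :=
  smash p.1 (p.2 : OnePoint unitInterval)

theorem continuous_smashII : Continuous (smashII X) :=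
  continuous_smash.comp (continuous_fst.prodMk (OnePoint.continuous_coe.comp continuous_snd))

theorem surjective_smashII : Function.Surjective (smashII X) := by
  intro p
  obtain ⟨x, t, h⟩ := smash_coe_surjective p
  exact ⟨(x, t), h⟩

theorem isQuotientMap_smashII : IsQuotientMap (smashII X) :=
  IsQuotientMap.of_surjective_continuous (surjective_smashII X) (continuous_smashII X)

end smash

section basic

variable {A B C D X Y Z : LC}

/-- Two morphisms agree if they agree on all points of the compactification. -/
theorem hom_ext' {f g : X ⟶ Y} (h : ∀ x : OnePoint X, app f x = app g x) : f = g :=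
  hom_ext fun x => h x

theorem isClosedEmbedding_app' {i : A ⟶ B} (h : Function.Injective (app i)) :
    IsClosedEmbedding (app i) :=
  (continuous_app i).isClosedEmbedding h

theorem isClosed_range_app (i : A ⟶ B) : IsClosed (Set.range (app i)) :=
  (isCompact_range (continuous_app i)).isClosed

theorem infty_mem_range_app (i : A ⟶ B) : (∞ : OnePoint B) ∈ Set.range (app i) :=
  ⟨∞, app_infty i⟩

theorem eq_infty_of_app_eq_infty {i : A ⟶ B} (h : Function.Injective (app i)) {a : OnePoint A}
    (ha : app i a = ∞) : a = ∞ :=
  h (ha.trans (app_infty i).symm)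

theorem mono_of_injective {i : A ⟶ B} (h : Function.Injective (app i)) : Mono i := by
  constructor
  intro Z f g hfg
  apply hom_ext'
  intro x
  apply h
  rw [← app_comp, ← app_comp, hfg]

/-- A morphism whose image is contained in the image of an injective morphism factors. -/
noncomputable def factor (m : A ⟶ B) (hm : Function.Injective (app m)) (g : X ⟶ B)
    (hg : ∀ x, app g x ∈ Set.range (app m)) : X ⟶ A :=
  ⟨⟨fun x => (hg x).choose, by
    rw [(isClosedEmbedding_app' hm).isInducing.continuous_iff]
    have : app m ∘ (fun x => (hg x).choose) = app g := by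
      funext x; exact (hg x).choose_spec
    rw [this]
    exact continuous_app g⟩, by
    apply hm
    exact (hg ∞).choose_spec.trans ((app_infty g).trans (app_infty m).symm)⟩

theorem app_factor (m : A ⟶ B) (hm : Function.Injective (app m)) (g : X ⟶ B)
    (hg : ∀ x, app g x ∈ Set.range (app m)) (x : OnePoint X) :
    app m (app (factor m hm g hg) x) = app g x := (hg x).choose_spec

@[reassoc (attr := simp)]
theorem factor_comp (m : A ⟶ B) (hm : Function.Injective (app m)) (g : X ⟶ B)
    (hg : ∀ x, app g x ∈ Set.range (app m)) : factor m hm g hg ≫ m = g :=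
  hom_ext' fun x => app_factor m hm g hg x

/-- Two injective morphisms with the same image are isomorphic. -/
noncomputable def isoOfRange {i : A ⟶ B} {i' : X ⟶ B} (hi : Function.Injective (app i))
    (hi' : Function.Injective (app i')) (h : Set.range (app i) = Set.range (app i')) :
    A ≅ X where
  hom := factor i' hi' i (fun x => h ▸ ⟨x, rfl⟩)
  inv := factor i hi i' (fun x => h ▸ ⟨x, rfl⟩)
  hom_inv_id := by
    have := mono_of_injective hi
    rw [← cancel_mono i]; simp
  inv_hom_id := by
    have := mono_of_injective hi'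
    rw [← cancel_mono i']; simp

@[reassoc (attr := simp)]
theorem isoOfRange_hom_comp {i : A ⟶ B} {i' : X ⟶ B} (hi : Function.Injective (app i))
    (hi' : Function.Injective (app i')) (h : Set.range (app i) = Set.range (app i')) :
    (isoOfRange hi hi' h).hom ≫ i' = i := factor_comp i' hi' i _

@[reassoc (attr := simp)]
theorem isoOfRange_inv_comp {i : A ⟶ B} {i' : X ⟶ B} (hi : Function.Injective (app i))
    (hi' : Function.Injective (app i')) (h : Set.range (app i) = Set.range (app i')) :
    (isoOfRange hi hi' h).inv ≫ i = i' := factor_comp i hi i' _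

/-- Two morphisms which together are onto: descent of a compatible pair of morphisms. -/
theorem exists_desc (a : X ⟶ D) (b : Y ⟶ D)
    (hsurj : ∀ p, (∃ x, app a x = p) ∨ ∃ y, app b y = p) (f : X ⟶ Z) (g : Y ⟶ Z)
    (haa : ∀ x x', app a x = app a x' → app f x = app f x')
    (hbb : ∀ y y', app b y = app b y' → app g y = app g y')
    (hab : ∀ x y, app a x = app b y → app f x = app g y) :
    ∃ k : D ⟶ Z, a ≫ k = f ∧ b ≫ k = g := by
  let Q : OnePoint X ⊕ OnePoint Y → OnePoint D := Sum.elim (app a) (app b)
  have hQ : IsQuotientMap Q := by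
    apply IsQuotientMap.of_surjective_continuous
    · intro p
      rcases hsurj p with ⟨x, hx⟩ | ⟨y, hy⟩
      · exact ⟨Sum.inl x, hx⟩
      · exact ⟨Sum.inr y, hy⟩
    · exact (continuous_app a).sumElim (continuous_app b)
  let F : C(OnePoint X ⊕ OnePoint Y, OnePoint Z) :=
    ⟨Sum.elim (app f) (app g), (continuous_app f).sumElim (continuous_app g)⟩
  have hF : Function.FactorsThrough F (⟨Q, hQ.continuous⟩ : C(_, _)) := by
    rintro (x | y) (x' | y') h
    · exact haa x x' h
    · exact hab x y' h
    · exact (hab x' y h.symm).symm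
    · exact hbb y y' h
  have hlift : ∀ w, IsQuotientMap.lift (f := ⟨Q, hQ.continuous⟩) hQ F hF (Q w) = F w := by
    intro w
    exact DFunLike.congr_fun (IsQuotientMap.lift_comp (f := ⟨Q, hQ.continuous⟩) hQ F hF) w
  refine ⟨⟨IsQuotientMap.lift (f := ⟨Q, hQ.continuous⟩) hQ F hF, ?_⟩, ?_, ?_⟩
  · have := hlift (Sum.inl ∞)
    have h1 : Q (Sum.inl ∞) = ∞ := app_infty a
    rw [h1] at this
    rw [this]
    exact app_infty f
  · apply hom_ext'
    intro x
    exact hlift (Sum.inl x)
  · apply hom_ext'
    intro x
    exact hlift (Sum.inr x)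

/-- A morphism out of the cylinder `X ⊗ II`. -/
def homII (F : OnePoint X × unitInterval → OnePoint Z) (hF : Continuous F)
    (h : ∀ t, F (∞, t) = ∞) : X ⊗ II ⟶ Z :=
  ofCompactification (X := LC.of (X × unitInterval))
    (fun p => ((p.1 : OnePoint X), p.2))
    (OnePoint.isOpenEmbedding_coe.prodMap IsOpenEmbedding.id) F hF (by
      rintro ⟨x, t⟩ hk
      have hx : x = ∞ := by
        by_contra hx
        obtain ⟨y, rfl⟩ := OnePoint.ne_infty_iff_exists.mp hx
        exact hk ⟨(y, t), rfl⟩
      subst hx
      exact h t)

theorem app_homII (F : OnePoint X × unitInterval → OnePoint Z) (hF : Continuous F)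
    (h : ∀ t, F (∞, t) = ∞) (x : OnePoint X) (t : unitInterval) :
    app (homII F hF h) (smash x (t : OnePoint unitInterval)) = F (x, t) := by
  induction x using OnePoint.rec with
  | infty => rw [h]; exact app_infty _
  | coe x => rfl

theorem cyl_ext {f g : X ⊗ II ⟶ Z}
    (h : ∀ (x : OnePoint X) (t : unitInterval), app f (smash x (t : OnePoint unitInterval)) =
      app g (smash x (t : OnePoint unitInterval))) : f = g :=
  tensor_ext fun x t => h x t

/-- A closed subspace as an object of `LC`. -/
def sub {S : Set Y} (hS : IsClosed S) : LC :=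
  haveI : LocallyCompactSpace S := hS.isClosedEmbedding_subtypeVal.locallyCompactSpace
  LC.of S

theorem isClosedEmbedding_subι {S : Set Y} (hS : IsClosed S) :
    IsClosedEmbedding (fun u : sub hS => (u.1 : Y)) := hS.isClosedEmbedding_subtypeVal

/-- the inclusion of a closed subspace -/
def subι {S : Set Y} (hS : IsClosed S) : sub hS ⟶ Y :=
  ofClosed (X := sub hS) (fun u => u.1) (isClosedEmbedding_subι hS)

@[simp] theorem app_subι_coe {S : Set Y} (hS : IsClosed S) (u : sub hS) :
    app (subι hS) (u : OnePoint (sub hS)) = ((u.1 : Y) : OnePoint Y) := rfl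

theorem injective_subι {S : Set Y} (hS : IsClosed S) : Function.Injective (app (subι hS)) := by
  intro a b h
  induction a using OnePoint.rec with
  | infty =>
    induction b using OnePoint.rec with
    | infty => rfl
    | coe b => exact absurd ((app_infty (subι hS)).symm.trans h) (OnePoint.infty_ne_coe _)
  | coe a =>
    induction b using OnePoint.rec with
    | infty => exact absurd (h.trans (app_infty (subι hS))) (OnePoint.coe_ne_infty _)
    | coe b => exact congrArg _ (Subtype.ext (OnePoint.coe_injective h))

theorem mem_range_subι {S : Set Y} (hS : IsClosed S) (y : OnePoint Y) :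
    y ∈ Set.range (app (subι hS)) ↔ ∀ z : Y, y = z → z ∈ S := by
  induction y using OnePoint.rec with
  | infty =>
    simp only [infty_mem_range_app, true_iff]
    intro z hz
    exact absurd hz (OnePoint.infty_ne_coe _)
  | coe y =>
    constructor
    · rintro ⟨u, hu⟩ z hz
      induction u using OnePoint.rec with
      | infty => exact absurd ((app_infty (subι hS)).symm.trans hu) (OnePoint.infty_ne_coe _)
      | coe u =>
        have h1 : (u.1 : Y) = y := OnePoint.coe_injective hu
        have h2 : y = z := OnePoint.coe_injective hz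
        rw [← h2, ← h1]
        exact u.2
    · intro h
      exact ⟨OnePoint.some (X := sub hS) ⟨y, h y rfl⟩, rfl⟩

end basic

section retraction

variable {A B C D X Y Z : LC}

/-- `r` retracts the cylinder of `B` onto the mapping cylinder of a subset `T` of `OnePoint B`. -/
structure IsRetr (T : Set (OnePoint B)) (r : B ⊗ II ⟶ B ⊗ II) : Prop where
  zero : ∀ b : OnePoint B, app r (smash b ((0 : unitInterval) : OnePoint unitInterval)) =
    smash b ((0 : unitInterval) : OnePoint unitInterval)
  mem : ∀ b ∈ T, ∀ t : unitInterval, app r (smash b (t : OnePoint unitInterval)) =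
    smash b (t : OnePoint unitInterval)
  range : ∀ p, ∃ (b : OnePoint B) (t : unitInterval),
    app r p = smash b (t : OnePoint unitInterval) ∧ (t = 0 ∨ b ∈ T)

/-- The open embedding `HH → II`, `s ↦ 1 / (1 + s)`. -/
noncomputable def coneFun (s : NNReal) : unitInterval :=
  ⟨1 / (1 + (s : ℝ)), by
    have hs : (0 : ℝ) ≤ s := s.2
    constructor
    · positivity
    · rw [div_le_one (by positivity)]; linarith⟩

theorem isOpenEmbedding_coneFun : IsOpenEmbedding coneFun := by
  have hc : Continuous coneFun := by
    apply Continuous.subtype_mk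
    apply Continuous.div continuous_const (continuous_const.add NNReal.continuous_coe)
    intro s
    have hs : (0 : ℝ) ≤ s := s.2
    have h1 : 0 < 1 + NNReal.toReal s := by linarith
    exact h1.ne'
  let U : Set unitInterval := {t | 0 < (t : ℝ)}
  have hU : IsOpen U := isOpen_lt continuous_const continuous_subtype_val
  let inv : U → NNReal := fun t => ⟨1 / (t.1 : ℝ) - 1, by
    have h0 : 0 < (t.1 : ℝ) := t.2
    have h1 : (t.1 : ℝ) ≤ 1 := t.1.2.2
    rw [sub_nonneg, le_div_iff₀ h0]; linarith⟩
  have hinv : Continuous inv := by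
    apply Continuous.subtype_mk
    apply Continuous.sub _ continuous_const
    apply Continuous.div continuous_const
    · exact continuous_subtype_val.comp continuous_subtype_val
    · intro t
      exact ne_of_gt t.2
  let fwd : NNReal → U := fun s => ⟨coneFun s, by
    change 0 < 1 / (1 + (s : ℝ))
    have hs : (0 : ℝ) ≤ s := s.2
    positivity⟩
  let e : NNReal ≃ₜ U :=
    { toFun := fwd
      invFun := inv
      left_inv := by
        intro s
        apply NNReal.eq
        change 1 / (1 / (1 + (s : ℝ))) - 1 = s
        rw [one_div_one_div]; ring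
      right_inv := by
        intro t
        apply Subtype.ext
        apply Subtype.ext
        change 1 / (1 + (1 / (t.1 : ℝ) - 1)) = t.1
        rw [add_sub_cancel, one_div_one_div]
      continuous_toFun := hc.subtype_mk _
      continuous_invFun := hinv }
  exact hU.isOpenEmbedding_subtypeVal.comp e.isOpenEmbedding

/-- The collapse `II ⟶ HH` of the end `0` to the base point: the cone coordinate. -/
noncomputable def coneMap' : II ⟶ HH := ofOpen (X := II) (Y := HH) coneFun isOpenEmbedding_coneFun

theorem app_coneMap_zero : app coneMap' ((0 : unitInterval) : OnePoint unitInterval) = ∞ := by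
  apply app_ofOpen_of_notMem (X := II) (Y := HH)
  rintro ⟨s, hs⟩
  have h := congrArg Subtype.val hs
  change 1 / (1 + (NNReal.toReal s)) = 0 at h
  have hs : (0 : ℝ) ≤ NNReal.toReal s := s.2
  have : 0 < 1 / (1 + (NNReal.toReal s)) := by positivity
  linarith

theorem app_coneMap_one :
    app coneMap' ((1 : unitInterval) : OnePoint unitInterval) = ((0 : NNReal) : OnePoint NNReal) := by
  have h : (1 : unitInterval) = coneFun (0 : NNReal) := by
    apply Subtype.ext
    change (1 : ℝ) = 1 / (1 + ((0 : NNReal) : ℝ))
    simp
  rw [h]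
  exact app_ofOpen_coe (X := II) (Y := HH) _ _ _

theorem app_whiskerRight_cyl (i : A ⟶ B) (a : OnePoint A) (t : unitInterval) :
    app (i ▷ II) (smash a (t : OnePoint unitInterval)) =
      smash (app i a) (t : OnePoint unitInterval) :=
  app_whiskerRight_smash i II a _

/-- Cofibrations are injective. -/
theorem Cofib.injective' {i : A ⟶ B} (hi : Cofib i) : Function.Injective (app i) := by
  obtain ⟨K, -, hK⟩ := hi (A ⊗ HH) 0 (A ◁ coneMap') (by
    apply hom_ext'
    intro a
    rw [app_comp, app_incl, app_comp, app_zero]
    refine (app_whiskerLeft_smash A coneMap' a _).trans ?_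
    exact (congrArg (smash a) app_coneMap_zero).trans (smash_infty_right a))
  intro a a' h
  have key : ∀ a : OnePoint A,
      app K (smash (app i a) ((1 : unitInterval) : OnePoint unitInterval)) =
      smash a ((0 : NNReal) : OnePoint NNReal) := by
    intro a
    rw [← app_whiskerRight_cyl, ← app_comp, hK]
    exact (app_whiskerLeft_smash A coneMap' a _).trans (congrArg (smash a) app_coneMap_one)
  have h2 := (key a).symm.trans ((congrArg _ (by rw [h])).trans (key a'))
  exact (smash_coe_eq_iff.mp h2).1

theorem isClosed_cylSet' {T : Set (OnePoint B)} (hT : IsClosed T) :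
    IsClosed {p : B × unitInterval | p.2 = 0 ∨ (p.1 : OnePoint B) ∈ T} :=
  (isClosed_eq continuous_snd continuous_const).union
    (hT.preimage (OnePoint.continuous_coe.comp continuous_fst))

theorem Cofib.exists_isRetr {i : A ⟶ B} (hi : Cofib i) :
    ∃ r : B ⊗ II ⟶ B ⊗ II, IsRetr (Set.range (app i)) r := by
  have hS := isClosed_cylSet' (isClosed_range_app i)
  let m : sub (Y := B ⊗ II) hS ⟶ B ⊗ II := subι (Y := B ⊗ II) hS
  have hm : Function.Injective (app m) := injective_subι (Y := B ⊗ II) hS
  have hmem : ∀ (b : OnePoint B) (t : unitInterval), (t = 0 ∨ b ∈ Set.range (app i)) →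
      smash b (t : OnePoint unitInterval) ∈ Set.range (app m) := by
    intro b t h
    refine (mem_range_subι (Y := B ⊗ II) hS _).mpr ?_
    rintro ⟨b', t'⟩ hz
    have h1 : smash b (t : OnePoint unitInterval) =
      smash (b' : OnePoint B) (t' : OnePoint unitInterval) := hz
    obtain ⟨rfl, h2⟩ := smash_coe_eq_iff.mp h1
    have h3 : t = t' := h2.resolve_left (OnePoint.coe_ne_infty _)
    subst h3
    exact h
  obtain ⟨K, hK0, hK1⟩ := hi (sub (Y := B ⊗ II) hS)
    (factor m hm (incl 0 B) (by
      intro b
      rw [app_incl]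
      exact hmem b 0 (Or.inl rfl)))
    (factor m hm (i ▷ II) (by
      intro p
      obtain ⟨a, t, rfl⟩ := smash_coe_surjective (X := A) (Y := unitInterval) p
      rw [app_whiskerRight_cyl]
      exact hmem _ t (Or.inr ⟨a, rfl⟩)))
    (by
      have := mono_of_injective hm
      rw [← cancel_mono m, Category.assoc, Category.assoc, factor_comp, factor_comp,
        incl_naturality])
  refine ⟨K ≫ m, ?_, ?_, ?_⟩
  · intro b
    rw [← app_incl, ← app_comp, ← Category.assoc, hK0, factor_comp]
  · rintro _ ⟨a, rfl⟩ t
    rw [← app_whiskerRight_cyl, ← app_comp, ← Category.assoc, hK1, factor_comp]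
  · intro p
    obtain ⟨b, t, hbt⟩ := smash_coe_surjective (X := B) (Y := unitInterval) (app (K ≫ m) p)
    refine ⟨b, t, hbt.symm, ?_⟩
    have h1 : smash b (t : OnePoint unitInterval) ∈ Set.range (app m) := by
      rw [hbt]; exact ⟨_, rfl⟩
    by_cases hb : b = ∞
    · subst hb
      exact Or.inr (infty_mem_range_app i)
    · obtain ⟨b', rfl⟩ := OnePoint.ne_infty_iff_exists.mp hb
      exact (mem_range_subι (Y := B ⊗ II) hS _).mp h1 (b', t) rfl

/-- A retraction onto the mapping cylinder gives the homotopy extension property. -/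
theorem cofib_of_isRetr {i : A ⟶ B} (hi : Function.Injective (app i)) {r : B ⊗ II ⟶ B ⊗ II}
    (hr : IsRetr (Set.range (app i)) r) : Cofib i := by
  intro Z f H hfH
  have hS := isClosed_cylSet' (isClosed_range_app i)
  let m : sub (Y := B ⊗ II) hS ⟶ B ⊗ II := subι (Y := B ⊗ II) hS
  have hm : Function.Injective (app m) := injective_subι (Y := B ⊗ II) hS
  have hmem : ∀ (b : OnePoint B) (t : unitInterval), (t = 0 ∨ b ∈ Set.range (app i)) →
      smash b (t : OnePoint unitInterval) ∈ Set.range (app m) := by
    intro b t h
    refine (mem_range_subι (Y := B ⊗ II) hS _).mpr ?_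
    rintro ⟨b', t'⟩ hz
    have h1 : smash b (t : OnePoint unitInterval) =
      smash (b' : OnePoint B) (t' : OnePoint unitInterval) := hz
    obtain ⟨rfl, h2⟩ := smash_coe_eq_iff.mp h1
    have h3 : t = t' := h2.resolve_left (OnePoint.coe_ne_infty _)
    subst h3
    exact h
  have h0 : ∀ b, app (incl 0 B) b ∈ Set.range (app m) := by
    intro b
    rw [app_incl]
    exact hmem b 0 (Or.inl rfl)
  have h1 : ∀ p, app (i ▷ II) p ∈ Set.range (app m) := by
    intro p
    obtain ⟨a, t, rfl⟩ := smash_coe_surjective (X := A) (Y := unitInterval) p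
    rw [app_whiskerRight_cyl]
    exact hmem _ t (Or.inr ⟨a, rfl⟩)
  have hr' : ∀ p, app r p ∈ Set.range (app m) := by
    intro p
    obtain ⟨b, t, h, hbt⟩ := hr.range p
    rw [h]
    exact hmem b t hbt
  have hfH' : ∀ a : OnePoint A, app H (smash a ((0 : unitInterval) : OnePoint unitInterval)) =
      app f (app i a) := by
    intro a
    rw [← app_incl, ← app_comp, hfH, app_comp]
  obtain ⟨k, hk0, hk1⟩ := exists_desc (factor m hm (incl 0 B) h0) (factor m hm (i ▷ II) h1)
    (by
      intro p
      obtain ⟨b, t, hbt⟩ := smash_coe_surjective (X := B) (Y := unitInterval) (app m p)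
      by_cases hb : b = ∞
      · left
        refine ⟨∞, hm ?_⟩
        rw [app_factor, ← hbt, hb, app_infty]
        rfl
      · obtain ⟨b', rfl⟩ := OnePoint.ne_infty_iff_exists.mp hb
        have h2 := (mem_range_subι (Y := B ⊗ II) hS _).mp ⟨p, rfl⟩ (b', t) hbt.symm
        rcases h2 with h2 | ⟨a, ha⟩
        · left
          refine ⟨(b' : OnePoint B), hm ?_⟩
          change t = 0 at h2
          rw [app_factor, ← hbt, h2, app_incl]
        · right
          refine ⟨smash a (t : OnePoint unitInterval), hm ?_⟩
          change app i a = (b' : OnePoint B) at ha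
          rw [app_factor, ← hbt, app_whiskerRight_cyl, ha])
    f H
    (by
      intro b b' h
      have h2 := congrArg (app m) h
      rw [app_factor, app_factor, app_incl, app_incl] at h2
      rw [(smash_coe_eq_iff.mp h2).1])
    (by
      intro p p' h
      have h2 := congrArg (app m) h
      obtain ⟨a, t, rfl⟩ := smash_coe_surjective (X := A) (Y := unitInterval) p
      obtain ⟨a', t', rfl⟩ := smash_coe_surjective (X := A) (Y := unitInterval) p'
      rw [app_factor, app_factor, app_whiskerRight_cyl, app_whiskerRight_cyl] at h2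
      obtain ⟨h3, h4⟩ := smash_coe_eq_iff.mp h2
      have h5 := hi h3
      subst h5
      rcases h4 with h4 | h4
      · have h6 := eq_infty_of_app_eq_infty hi h4
        subst h6
        rfl
      · rw [h4])
    (by
      intro b p h
      have h2 := congrArg (app m) h
      obtain ⟨a, t, rfl⟩ := smash_coe_surjective (X := A) (Y := unitInterval) p
      rw [app_factor, app_factor, app_whiskerRight_cyl, app_incl] at h2
      obtain ⟨h3, h4⟩ := smash_coe_eq_iff.mp h2
      rcases h4 with h4 | h4
      · have h6 : a = ∞ := eq_infty_of_app_eq_infty hi (h3.symm.trans h4)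
        subst h6
        rw [h4, app_infty]
        exact (app_infty H).symm
      · rw [← h4, hfH', h3])
  refine ⟨factor m hm r hr' ≫ k, ?_, ?_⟩
  · rw [← hk0, ← Category.assoc]
    congr 1
    have := mono_of_injective hm
    rw [← cancel_mono m, Category.assoc, factor_comp, factor_comp]
    apply hom_ext'
    intro b
    rw [app_comp, app_incl, hr.zero]
  · rw [← hk1, ← Category.assoc]
    congr 1
    have := mono_of_injective hm
    rw [← cancel_mono m, Category.assoc, factor_comp, factor_comp]
    apply cyl_ext
    intro a t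
    rw [app_comp, app_whiskerRight_cyl, hr.mem _ ⟨a, rfl⟩]

theorem cofib_iff' {i : A ⟶ B} : Cofib i ↔ Function.Injective (app i) ∧
    ∃ r : B ⊗ II ⟶ B ⊗ II, IsRetr (Set.range (app i)) r :=
  ⟨fun h => ⟨h.injective', h.exists_isRetr⟩, fun ⟨h, _, hr⟩ => cofib_of_isRetr h hr⟩

theorem Cofib.isClosedEmbedding {i : A ⟶ B} (hi : Cofib i) : IsClosedEmbedding (app i) :=
  isClosedEmbedding_app' hi.injective'

/-- Being a cofibration only depends on the image. -/
theorem Cofib.of_range_eq {i : A ⟶ B} {i' : X ⟶ B} (hi : Cofib i)
    (hi' : Function.Injective (app i')) (h : Set.range (app i) = Set.range (app i')) :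
    Cofib i' := by
  obtain ⟨r, hr⟩ := hi.exists_isRetr
  rw [h] at hr
  exact cofib_of_isRetr hi' hr

theorem Cofib.comp' {i : A ⟶ B} {j : B ⟶ C} (hi : Cofib i) (hj : Cofib j) : Cofib (i ≫ j) := by
  intro Z f H h
  obtain ⟨K, k0, k1⟩ := hi Z (j ≫ f) H (by rw [h, Category.assoc])
  obtain ⟨L, l0, l1⟩ := hj Z f K k0
  exact ⟨L, l0, by rw [MonoidalCategory.comp_whiskerRight, Category.assoc, l1, k1]⟩

theorem cofib_of_iso (e : A ≅ B) : Cofib e.hom := by
  intro Z f H h
  refine ⟨e.inv ▷ II ≫ H, ?_, ?_⟩
  · rw [incl_naturality_assoc, h, Iso.inv_hom_id_assoc]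
  · rw [← Category.assoc, ← MonoidalCategory.comp_whiskerRight, Iso.hom_inv_id,
      MonoidalCategory.id_whiskerRight, Category.id_comp]

theorem cofib_of_isIso' (i : A ⟶ B) [IsIso i] : Cofib i := cofib_of_iso (asIso i)

theorem cofib_id (A : LC) : Cofib (𝟙 A) := cofib_of_isIso' _

theorem cofib_of_isEmpty' [IsEmpty A] (i : A ⟶ B) : Cofib i := by
  intro Z f H _
  refine ⟨homII (fun p => app f p.1) ((continuous_app f).comp continuous_fst)
    (fun _ => app_infty f), ?_, ?_⟩
  · apply hom_ext'
    intro b
    rw [app_comp, app_incl, app_homII]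
  · apply hom_ext
    intro p
    exact isEmptyElim (α := A) p.1

theorem injective_whiskerRight' {i : A ⟶ B} (hi : Function.Injective (app i)) (X : LC) :
    Function.Injective (app (i ▷ X)) := by
  intro p p' h
  induction p using OnePoint.rec with
  | infty =>
    induction p' using OnePoint.rec with
    | infty => rfl
    | coe p' =>
      exfalso
      have h2 : smash (app i (p'.1 : OnePoint A)) (p'.2 : OnePoint X) = ∞ :=
        h.symm.trans (app_infty (i ▷ X))
      rcases smash_eq_infty.mp h2 with h3 | h3
      · exact OnePoint.coe_ne_infty _ (eq_infty_of_app_eq_infty hi h3)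
      · exact OnePoint.coe_ne_infty _ h3
  | coe p =>
    induction p' using OnePoint.rec with
    | infty =>
      exfalso
      have h2 : smash (app i (p.1 : OnePoint A)) (p.2 : OnePoint X) = ∞ :=
        h.trans (app_infty (i ▷ X))
      rcases smash_eq_infty.mp h2 with h3 | h3
      · exact OnePoint.coe_ne_infty _ (eq_infty_of_app_eq_infty hi h3)
      · exact OnePoint.coe_ne_infty _ h3
    | coe p' =>
      have h2 : smash (app i (p.1 : OnePoint A)) (p.2 : OnePoint X) =
        smash (app i (p'.1 : OnePoint A)) (p'.2 : OnePoint X) := h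
      obtain ⟨h3, h4⟩ := smash_coe_eq_iff.mp h2
      have h5 : p.1 = p'.1 := OnePoint.coe_injective (hi h3)
      have h6 : p.2 = p'.2 := by
        rcases h4 with h4 | h4
        · exact absurd (eq_infty_of_app_eq_infty hi h4) (OnePoint.coe_ne_infty _)
        · exact h4
      exact congrArg _ (Prod.ext h5 h6)

theorem injective_whiskerLeft' {i : A ⟶ B} (hi : Function.Injective (app i)) (X : LC) :
    Function.Injective (app (X ◁ i)) := by
  have h1 : X ◁ i = (β_ X A).hom ≫ i ▷ X ≫ (β_ X B).inv := by
    rw [← Category.assoc, ← BraidedCategory.braiding_naturality_right, Category.assoc,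
      Iso.hom_inv_id, Category.comp_id]
  have h2 : ∀ {P Q : LC} (e : P ≅ Q), Function.Injective (app e.hom) := by
    intro P Q e x y h
    have := congrArg (app e.inv) h
    rwa [← app_comp, ← app_comp, Iso.hom_inv_id] at this
  rw [h1]
  intro x y h
  rw [app_comp, app_comp, app_comp, app_comp] at h
  exact h2 (β_ X A) (injective_whiskerRight' hi X (h2 (β_ X B).symm h))

theorem mem_range_whiskerLeft_smash (X : LC) (i : A ⟶ B) {x : OnePoint X} {b : OnePoint B}
    (h : x = ∞ ∨ b ∈ Set.range (app i)) : smash x b ∈ Set.range (app (X ◁ i)) := by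
  rcases h with rfl | ⟨a, rfl⟩
  · exact infty_mem_range_app (X ◁ i)
  · exact ⟨smash x a, app_whiskerLeft_smash X i x a⟩

theorem smash_mem_range_whiskerLeft (X : LC) (i : A ⟶ B) (x : OnePoint X) (b : OnePoint B) :
    smash x b ∈ Set.range (app (X ◁ i)) ↔ x = ∞ ∨ b ∈ Set.range (app i) := by
  refine ⟨?_, mem_range_whiskerLeft_smash X i⟩
  rintro ⟨p, hp⟩
  by_cases hx : x = ∞
  · exact Or.inl hx
  right
  obtain ⟨x', rfl⟩ := OnePoint.ne_infty_iff_exists.mp hx
  obtain ⟨y, a, rfl⟩ := smash_surjective (X := X) (Y := A) p
  have hp2 : smash y (app i a) = smash (x' : OnePoint X) b :=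
    (app_whiskerLeft_smash X i y a).symm.trans hp
  induction y using OnePoint.rec with
  | infty =>
    rcases smash_eq_infty.mp hp2.symm with h | h
    · exact absurd h (OnePoint.coe_ne_infty _)
    · rw [h]; exact infty_mem_range_app i
  | coe y => exact ⟨a, (smash_left_coe_eq_iff.mp hp2).1⟩

/-- Tensoring a cofibration with any object gives a cofibration. -/
theorem Cofib.whiskerLeft' {i : A ⟶ B} (hi : Cofib i) (X : LC) : Cofib (X ◁ i) := by
  obtain ⟨r, hr⟩ := hi.exists_isRetr
  refine cofib_of_isRetr (injective_whiskerLeft' hi.injective' X)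
    (r := (α_ X B II).hom ≫ X ◁ r ≫ (α_ X B II).inv) ⟨?_, ?_, ?_⟩
  · intro p
    obtain ⟨x, b, rfl⟩ := smash_surjective (X := X) (Y := B) p
    rw [app_comp, app_comp]
    refine (congrArg _ (congrArg _ (app_associator_smash X B II x b _))).trans ?_
    rw [app_whiskerLeft_smash, hr.zero]
    exact app_associator_inv_smash X B II x b _
  · intro p hp t
    obtain ⟨x, b, rfl⟩ := smash_surjective (X := X) (Y := B) p
    rw [app_comp, app_comp]
    refine (congrArg _ (congrArg _ (app_associator_smash X B II x b _))).trans ?_
    rcases (smash_mem_range_whiskerLeft X i x b).mp hp with rfl | h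
    · exact (congrArg _ (app_whiskerLeft_smash X r ∞ _)).trans (app_infty (α_ X B II).inv)
    · rw [app_whiskerLeft_smash, hr.mem b h]
      exact app_associator_inv_smash X B II x b _
  · intro p
    obtain ⟨p', t, rfl⟩ := smash_coe_surjective (X := (X ⊗ B : LC)) (Y := unitInterval) p
    obtain ⟨x, b, rfl⟩ := smash_surjective (X := X) (Y := B) p'
    obtain ⟨b', t', h1, h2⟩ := hr.range (smash b (t : OnePoint unitInterval))
    refine ⟨smash x b', t', ?_, ?_⟩
    · rw [app_comp, app_comp]
      refine (congrArg _ (congrArg _ (app_associator_smash X B II x b _))).trans ?_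
      rw [app_whiskerLeft_smash, h1]
      exact app_associator_inv_smash X B II x b' _
    · rcases h2 with h2 | h2
      · exact Or.inl h2
      · exact Or.inr (mem_range_whiskerLeft_smash X i (Or.inr h2))

theorem Cofib.whiskerRight' {i : A ⟶ B} (hi : Cofib i) (X : LC) : Cofib (i ▷ X) := by
  have h1 : i ▷ X = (β_ A X).hom ≫ X ◁ i ≫ (β_ B X).inv := by
    rw [← Category.assoc, ← BraidedCategory.braiding_naturality_left, Category.assoc,
      Iso.hom_inv_id, Category.comp_id]
  rw [h1]
  exact (cofib_of_isIso' _).comp' ((hi.whiskerLeft' X).comp' (cofib_of_isIso' _))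

theorem mem_range_whiskerRight_smash (i : A ⟶ B) (X : LC) {x : OnePoint X} {b : OnePoint B}
    (h : x = ∞ ∨ b ∈ Set.range (app i)) : smash b x ∈ Set.range (app (i ▷ X)) := by
  rcases h with rfl | ⟨a, rfl⟩
  · rw [smash_infty_right]
    exact infty_mem_range_app (i ▷ X)
  · exact ⟨smash a x, app_whiskerRight_smash i X a x⟩

end retraction

end LC

end Vale.Agent.P251.G
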