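import Vale.Agent.P251.G.Cell
import Vale.Agent.P251.G.NDR
import Vale.Agent.P251.G.Pushout
import Vale.Agent.P251.G.RelCell
import Mathlib.Analysis.Normed.Module.Ball.Homeomorph

/-!
# From chains of cells to relative cell complexes in `LC`

`relCell_of_chain`: if `i : A ⟶ B` is injective and `OnePoint B` is obtained from the image of `i`
by attaching cells with dimensions in `D`, then `LC.RelCell D i`.  In particular `i` is a
cofibration and `FC A → FC B`.
-/

open CategoryTheory MonoidalCategory Filter Topology OnePoint Set Metric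

namespace Vale.Agent.P251.G.Cell

open LC

/-- A morphism which is bijective on one-point compactifications is an isomorphism. -/
theorem isIso_of_bijective {X Y : LC} (f : X ⟶ Y) (h : Function.Bijective (app f)) : IsIso f := by
  let e : OnePoint X ≃ OnePoint Y := Equiv.ofBijective (app f) h
  have hc : Continuous e.symm :=
    (Continuous.homeoOfEquivCompactToT2 (f := e) (continuous_app f)).symm.continuous
  have h0 : e.symm ∞ = ∞ := by
    rw [Equiv.symm_apply_eq]; exact (app_infty f).symm
  refine ⟨homMk e.symm hc h0, ?_, ?_⟩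
  · apply app_ext
    intro x
    rw [app_comp, app_homMk, app_id]
    exact e.symm_apply_apply x
  · apply app_ext
    intro x
    rw [app_comp, app_homMk, app_id]
    exact e.apply_symm_apply x

section glue

variable {K : Type} [TopologicalSpace K] [T2Space K]

open scoped Classical in
/-- Gluing functions on `(B ∪ φ(D^a)) × T`. -/
theorem exists_glue {T Z : Type} [TopologicalSpace T] [CompactSpace T] [T2Space T]
    [TopologicalSpace Z] {a : ℕ} {B C : Set K} (hB : IsClosed B) {φ : Euc a → K}
    (h1 : ContinuousOn φ (closedBall 0 1)) (h2 : MapsTo φ (sphere 0 1) B)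
    (h3 : InjOn φ (ball 0 1)) (h4 : φ '' ball 0 1 = C \ B)
    (f : K × T → Z) (g : Euc a × T → Z) (hf : ContinuousOn f (B ×ˢ univ))
    (hg : ContinuousOn g (closedBall 0 1 ×ˢ univ))
    (hfg : ∀ y ∈ sphere (0 : Euc a) 1, ∀ t, g (y, t) = f (φ y, t)) :
    ∃ F : K × T → Z, ContinuousOn F (C ×ˢ univ) ∧ (∀ b ∈ B, ∀ t, F (b, t) = f (b, t)) ∧
      ∀ y ∈ closedBall (0 : Euc a) 1, ∀ t, F (φ y, t) = g (y, t) := by
  have hex : ∀ x ∈ C \ B, ∃ y ∈ ball (0 : Euc a) 1, φ y = x := by
    intro x hx
    rw [← h4] at hx
    exact hx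
  have hφb : ∀ y ∈ ball (0 : Euc a) 1, φ y ∈ C \ B := fun y hy => by
    rw [← h4]; exact mem_image_of_mem _ hy
  let inv : K → Euc a := fun x => if hx : x ∈ C \ B then (hex x hx).choose else 0
  have hinv : ∀ y ∈ ball (0 : Euc a) 1, inv (φ y) = y := by
    intro y hy
    have hx := hφb y hy
    simp only [inv, hx, dite_true]
    exact h3 (hex _ hx).choose_spec.1 hy (hex _ hx).choose_spec.2
  let F : K × T → Z := fun p => if p.1 ∈ B then f p else g (inv p.1, p.2)
  have hFB : ∀ b ∈ B, ∀ t, F (b, t) = f (b, t) := fun b hb t => if_pos hb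
  have hFg : ∀ y ∈ closedBall (0 : Euc a) 1, ∀ t, F (φ y, t) = g (y, t) := by
    intro y hy t
    rcases (mem_closedBall.1 hy).lt_or_eq with hy' | hy'
    · have h5 : φ y ∉ B := (hφb y (mem_ball.2 hy')).2
      simp only [F, h5, if_false, hinv y (mem_ball.2 hy')]
    · rw [hFB _ (h2 (mem_sphere.2 hy')), hfg y (mem_sphere.2 hy')]
  refine ⟨F, ?_, hFB, hFg⟩
  rw [continuousOn_iff_isClosed]
  intro W hW
  obtain ⟨u, hu, hu'⟩ := (continuousOn_iff_isClosed.1 hf) W hW
  obtain ⟨v, hv, hv'⟩ := (continuousOn_iff_isClosed.1 hg) W hW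
  have hvc : IsCompact (v ∩ (closedBall (0 : Euc a) 1 ×ˢ (univ : Set T))) :=
    ((isCompact_closedBall _ _).prod isCompact_univ).inter_left hv
  have hΦ : ContinuousOn (fun p : Euc a × T => (φ p.1, p.2)) (closedBall 0 1 ×ˢ univ) :=
    (h1.comp continuousOn_fst fun p hp => hp.1).prodMk continuousOn_snd
  have hcl : IsClosed ((fun p : Euc a × T => (φ p.1, p.2)) ''
      (v ∩ (closedBall (0 : Euc a) 1 ×ˢ (univ : Set T)))) :=
    (hvc.image_of_continuousOn (hΦ.mono inter_subset_right)).isClosed
  have hcl2 : IsClosed (u ∩ (B ×ˢ (univ : Set T))) := hu.inter (hB.prod isClosed_univ)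
  refine ⟨(u ∩ (B ×ˢ (univ : Set T))) ∪ ((fun p : Euc a × T => (φ p.1, p.2)) ''
      (v ∩ (closedBall (0 : Euc a) 1 ×ˢ (univ : Set T)))), hcl2.union hcl, ?_⟩
  rw [← hu', ← hv']
  ext ⟨x, t⟩
  constructor
  · rintro ⟨hx, hxC, -⟩
    refine ⟨?_, hxC, mem_univ _⟩
    by_cases hxB : x ∈ B
    · left
      refine ⟨?_, hxB, mem_univ _⟩
      rw [mem_preimage, ← hFB x hxB]
      exact hx
    · right
      obtain ⟨y, hy, rfl⟩ := hex x ⟨hxC, hxB⟩
      refine ⟨(y, t), ⟨?_, ball_subset_closedBall hy, mem_univ _⟩, rfl⟩
      rw [mem_preimage, ← hFg y (ball_subset_closedBall hy)]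
      exact hx
  · rintro ⟨⟨hx, hxB, -⟩ | ⟨⟨y, t'⟩, ⟨hy, hyb, -⟩, heq⟩, hxC, -⟩
    · refine ⟨?_, hxC, mem_univ _⟩
      rw [mem_preimage, hFB x hxB]
      exact hx
    · refine ⟨?_, hxC, mem_univ _⟩
      simp only [Prod.mk.injEq] at heq
      obtain ⟨rfl, rfl⟩ := heq
      rw [mem_preimage, hFg y hyb]
      exact hy

end glue

section step

variable {A B : LC}

/-- A homotopy from a function on `OnePoint B × I`. -/
def homJ {X Y : LC} (H : OnePoint X × unitInterval → OnePoint Y) (hH : Continuous H)
    (h : ∀ t, H (∞, t) = ∞) : X ⊗ II ⟶ Y :=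
  ofCompactification (X := LC.of (X × unitInterval))
    (fun p : X × unitInterval => ((p.1 : OnePoint X), p.2))
    (OnePoint.isOpenEmbedding_coe.prodMap IsOpenEmbedding.id) H hH (by
      rintro ⟨x, t⟩ hk
      have hx : x = ∞ := by
        by_contra hx
        obtain ⟨y, rfl⟩ := OnePoint.ne_infty_iff_exists.mp hx
        exact hk ⟨(y, t), rfl⟩
      subst hx
      exact h t)

theorem app_homJ {X Y : LC} (H : OnePoint X × unitInterval → OnePoint Y) (hH : Continuous H)
    (h : ∀ t, H (∞, t) = ∞) (x : OnePoint X) (t : unitInterval) :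
    app (homJ H hH h) (smash x (t : OnePoint unitInterval)) = H (x, t) := by
  induction x using OnePoint.rec with
  | infty => rw [smash_infty_left, h]; exact app_infty _
  | coe x => rfl

/-- the radial expansion of the ball -/
noncomputable def rad {a : ℕ} (p : Euc a × unitInterval) : Euc a :=
  (max (1 + (p.2 : ℝ))⁻¹ ‖p.1‖)⁻¹ • p.1

theorem rad_pos {a : ℕ} (p : Euc a × unitInterval) : 0 < max (1 + (p.2 : ℝ))⁻¹ ‖p.1‖ := by
  have h1 : (0 : ℝ) < 1 + (p.2 : ℝ) := by have := p.2.2.1; linarith
  exact lt_of_lt_of_le (inv_pos.2 h1) (le_max_left _ _)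

theorem continuous_rad {a : ℕ} : Continuous (rad : Euc a × unitInterval → Euc a) := by
  have h1 : Continuous fun p : Euc a × unitInterval => (1 + (p.2 : ℝ)) :=
    continuous_const.add (continuous_subtype_val.comp continuous_snd)
  have h2 : Continuous fun p : Euc a × unitInterval => (1 + (p.2 : ℝ))⁻¹ := by
    refine h1.inv₀ fun p => ?_
    have := p.2.2.1
    linarith
  exact ((h2.max continuous_fst.norm).inv₀ fun p => (rad_pos p).ne').smul continuous_fst

theorem norm_rad {a : ℕ} (p : Euc a × unitInterval) :
    ‖rad p‖ = (max (1 + (p.2 : ℝ))⁻¹ ‖p.1‖)⁻¹ * ‖p.1‖ := by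
  rw [rad, norm_smul, Real.norm_eq_abs, abs_of_pos (inv_pos.2 (rad_pos p))]

theorem rad_mem {a : ℕ} (p : Euc a × unitInterval) : rad p ∈ closedBall (0 : Euc a) 1 := by
  rw [mem_closedBall_zero_iff, norm_rad, inv_mul_le_iff₀ (rad_pos p), mul_one]
  exact le_max_right _ _

theorem rad_zero {a : ℕ} {y : Euc a} (hy : ‖y‖ ≤ 1) : rad (y, (0 : unitInterval)) = y := by
  simp [rad, max_eq_left hy]

theorem rad_sphere {a : ℕ} {y : Euc a} (hy : ‖y‖ = 1) (t : unitInterval) : rad (y, t) = y := by
  have h1 : (1 + (t : ℝ))⁻¹ ≤ 1 := inv_le_one_of_one_le₀ (by have := t.2.1; linarith)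
  simp [rad, hy, max_eq_right h1]

theorem rad_one {a : ℕ} {y : Euc a} (hy : 1 / 2 < ‖y‖) :
    rad (y, (1 : unitInterval)) ∈ sphere (0 : Euc a) 1 := by
  rw [mem_sphere_zero_iff_norm, norm_rad]
  have h1 : (1 + ((1 : unitInterval) : ℝ))⁻¹ ≤ ‖y‖ := by
    rw [show ((1 : unitInterval) : ℝ) = 1 from rfl]
    norm_num
    linarith
  rw [max_eq_right h1]
  exact inv_mul_cancel₀ (by linarith)

/-- The open embedding `ℝᵃ → Euc a` onto the open unit ball. -/
noncomputable def jE (a : ℕ) (v : Fin a → ℝ) : Euc a :=
  (Homeomorph.unitBall (WithLp.toLp 2 v : Euc a) : Euc a)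

theorem isOpenEmbedding_jE (a : ℕ) : IsOpenEmbedding (jE a) := by
  have h1 : IsOpenEmbedding (Subtype.val : ball (0 : Euc a) 1 → Euc a) :=
    isOpen_ball.isOpenEmbedding_subtypeVal
  have h2 : IsOpenEmbedding (Homeomorph.unitBall (E := Euc a)) :=
    Homeomorph.unitBall.isOpenEmbedding
  have h3 : IsOpenEmbedding fun v : Fin a → ℝ => (WithLp.toLp 2 v : Euc a) :=
    (EuclideanSpace.equiv (Fin a) ℝ).symm.toHomeomorph.isOpenEmbedding
  exact h1.comp (h2.comp h3)

theorem range_jE (a : ℕ) : range (jE a) = ball 0 1 := by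
  apply Subset.antisymm
  · rintro _ ⟨v, rfl⟩
    exact (Homeomorph.unitBall (WithLp.toLp 2 v : Euc a)).2
  · intro y hy
    refine ⟨WithLp.ofLp (Homeomorph.unitBall.symm ⟨y, hy⟩ : Euc a), ?_⟩
    unfold jE
    rw [WithLp.toLp_ofLp, Homeomorph.apply_symm_apply]

/-- One cell: the inclusion is a cofibration with strict cofibre `ℝᵃ`. -/
theorem cofib_of_cellStep {i : A ⟶ B} (hi : Function.Injective (app i)) {a : ℕ}
    (h : CellStep a (range (app i)) univ) : Cofib i := by
  obtain ⟨-, φ, h1, h2, h3, h4⟩ := h
  have hB : IsClosed (range (app i)) := (isCompact_range (continuous_app i)).isClosed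
  have hcase : ∀ x : OnePoint B, x ∈ range (app i) ∨ ∃ y ∈ ball (0 : Euc a) 1, φ y = x := by
    intro x
    by_cases hx : x ∈ range (app i)
    · exact Or.inl hx
    · right
      have : x ∈ φ '' ball 0 1 := by rw [h4]; exact ⟨mem_univ _, hx⟩
      exact this
  have hφn : ∀ y ∈ ball (0 : Euc a) 1, φ y ∉ range (app i) := fun y hy => by
    have : φ y ∈ univ \ range (app i) := by rw [← h4]; exact mem_image_of_mem _ hy
    exact this.2
  -- the function `u`
  obtain ⟨U, hU, hUB, hUφ⟩ := exists_glue (T := Unit) (Z := ℝ) hB h1 h2 h3 h4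
    (fun _ => 0) (fun p => 2 * (1 - ‖p.1‖)) continuousOn_const (by fun_prop) (by
      intro y hy t
      rw [mem_sphere_zero_iff_norm.1 hy]; norm_num)
  -- the homotopy
  obtain ⟨H, hH, hHB, hHφ⟩ := exists_glue (T := unitInterval) (Z := OnePoint B) hB h1 h2 h3 h4
    (fun p => p.1) (fun p => φ (rad p)) continuousOn_fst
    (h1.comp continuous_rad.continuousOn fun p _ => rad_mem p) (by
      intro y hy t
      dsimp only
      rw [rad_sphere (mem_sphere_zero_iff_norm.1 hy)])
  have hinf : (∞ : OnePoint B) ∈ range (app i) := ⟨∞, app_infty i⟩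
  have hHc : Continuous H := by
    rw [← continuousOn_univ, ← univ_prod_univ]
    exact hH
  refine cofib_of_ndr hi (fun b => U ((b : OnePoint B), ())) ?_ ?_ ?_
    (homJ H hHc fun t => hHB _ hinf t) ?_ ?_ ?_
  · have hUc : Continuous U := by
      rw [← continuousOn_univ, ← univ_prod_univ]
      exact hU
    exact hUc.comp (OnePoint.continuous_coe.prodMk continuous_const)
  · intro b
    rcases hcase b with hb | ⟨y, hy, hb⟩
    · rw [hUB _ hb]
    · rw [← hb, hUφ y (ball_subset_closedBall hy)]
      have := mem_ball_zero_iff.1 hy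
      dsimp only
      linarith
  · intro b
    constructor
    · intro hb0
      rcases hcase b with hb | ⟨y, hy, hb⟩
      · exact hb
      · rw [← hb, hUφ y (ball_subset_closedBall hy)] at hb0
        have := mem_ball_zero_iff.1 hy
        dsimp only at hb0
        linarith
    · intro hb
      rw [hUB _ hb]
  · apply app_ext
    intro x
    rw [app_comp, app_incl, app_homJ, app_id]
    rcases hcase x with hx | ⟨y, hy, rfl⟩
    · exact hHB _ hx _
    · rw [hHφ y (ball_subset_closedBall hy), rad_zero (mem_ball_zero_iff.1 hy).le]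
  · intro b t hb0
    rw [app_homJ]
    rcases hcase b with hb | ⟨y, hy, hb⟩
    · exact hHB _ hb _
    · rw [← hb, hUφ y (ball_subset_closedBall hy)] at hb0
      have := mem_ball_zero_iff.1 hy
      dsimp only at hb0
      linarith
  · intro b hb1
    rw [app_homJ]
    rcases hcase b with hb | ⟨y, hy, hb⟩
    · rw [hHB _ hb]; exact hb
    · rw [← hb, hUφ y (ball_subset_closedBall hy)] at hb1
      rw [← hb, hHφ y (ball_subset_closedBall hy)]
      dsimp only at hb1 ⊢
      exact h2 (rad_one (by linarith))

theorem cof_of_cellStep {i : A ⟶ B} {a : ℕ}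
    (h : CellStep a (range (app i)) univ) : Nonempty (cof i ≅ Sph a) := by
  obtain ⟨-, φ, h1, h2, h3, h4⟩ := h
  have hB : IsClosed (range (app i)) := (isCompact_range (continuous_app i)).isClosed
  have hinf : (∞ : OnePoint B) ∈ range (app i) := ⟨∞, app_infty i⟩
  obtain ⟨F, hF, hFB, hFφ⟩ := exists_glue (T := Unit) (Z := OnePoint (Fin a → ℝ)) hB h1 h2 h3 h4
    (fun _ => ∞) (fun p => collapseFun (X := LC.of (Euc a)) (Y := LC.of (Fin a → ℝ)) (jE a)
      (p.1 : OnePoint (Euc a))) continuousOn_const
    ((continuous_collapseFun (X := LC.of (Euc a)) (Y := LC.of (Fin a → ℝ))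
      (isOpenEmbedding_jE a)).comp (OnePoint.continuous_coe.comp continuous_fst)).continuousOn (by
      intro y hy t
      dsimp only
      apply collapseFun_of_notMem
      rw [range_jE, mem_ball_zero_iff, mem_sphere_zero_iff_norm.1 hy]
      exact lt_irrefl _)
  have hFc : Continuous fun x : OnePoint B => F (x, ()) := by
    have : Continuous F := by
      rw [← continuousOn_univ, ← univ_prod_univ]
      exact hF
    exact this.comp (continuous_id.prodMk continuous_const)
  let f : B ⟶ Sph a := homMk (fun x => F (x, ())) hFc (hFB _ hinf _)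
  have hf : i ≫ f = 0 := by
    apply app_ext
    intro x
    rw [app_comp, app_zero]
    exact hFB _ (mem_range_self x) _
  have hfv : ∀ v : Fin a → ℝ, app f (φ (jE a v)) = (v : OnePoint (Fin a → ℝ)) := by
    intro v
    have hv : jE a v ∈ ball (0 : Euc a) 1 := by rw [← range_jE]; exact mem_range_self v
    change F (φ (jE a v), ()) = _
    rw [hFφ _ (ball_subset_closedBall hv)]
    exact collapseFun_coe_of_injective (X := LC.of (Euc a)) (Y := LC.of (Fin a → ℝ))
      (isOpenEmbedding_jE a).injective v
  have hcase : ∀ u : cof i, ∃ v : Fin a → ℝ, φ (jE a v) = ((u.1 : B) : OnePoint B) := by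
    intro u
    have : ((u.1 : B) : OnePoint B) ∈ φ '' ball 0 1 := by rw [h4]; exact ⟨mem_univ _, u.2⟩
    obtain ⟨y, hy, hyu⟩ := this
    rw [← range_jE] at hy
    obtain ⟨v, rfl⟩ := hy
    exact ⟨v, hyu⟩
  have hbij : Function.Bijective (app (cofDesc i f hf)) := by
    constructor
    · intro x x' hxx
      induction x using OnePoint.rec with
      | infty =>
        induction x' using OnePoint.rec with
        | infty => rfl
        | coe u =>
          obtain ⟨v, hv⟩ := hcase u
          rw [app_infty, app_cofDesc_coe, ← hv, hfv] at hxx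
          exact absurd hxx.symm (OnePoint.coe_ne_infty v)
      | coe u =>
        obtain ⟨v, hv⟩ := hcase u
        rw [app_cofDesc_coe, ← hv, hfv] at hxx
        induction x' using OnePoint.rec with
        | infty =>
          rw [app_infty] at hxx
          exact absurd hxx (OnePoint.coe_ne_infty v)
        | coe u' =>
          obtain ⟨v', hv'⟩ := hcase u'
          rw [app_cofDesc_coe, ← hv', hfv] at hxx
          have h5 : v = v' := OnePoint.coe_injective hxx
          subst h5
          rw [hv] at hv'
          rw [Subtype.ext (OnePoint.coe_injective hv')]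
    · intro z
      induction z using OnePoint.rec with
      | infty => exact ⟨∞, app_infty _⟩
      | coe v =>
        have hv : jE a v ∈ ball (0 : Euc a) 1 := by rw [← range_jE]; exact mem_range_self v
        have h5 : φ (jE a v) ∈ univ \ range (app i) := by rw [← h4]; exact mem_image_of_mem _ hv
        have h6 : φ (jE a v) ≠ ∞ := fun h => h5.2 (h ▸ hinf)
        obtain ⟨b, hb⟩ := OnePoint.ne_infty_iff_exists.mp h6
        have h7 : (b : OnePoint B) ∉ range (app i) := by rw [hb]; exact h5.2
        let u : cof i := ⟨b, h7⟩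
        refine ⟨(u : OnePoint (cof i)), ?_⟩
        refine (app_cofDesc_coe i f hf u).trans ?_
        rw [← hfv v]
        exact congrArg (app f) hb
  have := isIso_of_bijective _ hbij
  exact ⟨asIso (cofDesc i f hf)⟩

end step

section chain

/-- Chains of cells give relative cell complexes: general form. -/
theorem relCell_of_chain_aux {K : Type} [TopologicalSpace K] [T2Space K] {D : Set ℕ}
    {S T : Set K} (h : CellChain D S T) : ∀ {A B : LC} (i : A ⟶ B) (ν : OnePoint B → K),
    Continuous ν → Function.Injective ν → Function.Injective (app i) →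
    range (fun x => ν (app i x)) = S → range ν = T → RelCell D i := by
  induction h with
  | refl =>
    intro A B i ν _ hν hi hS hT
    have hbij : Function.Bijective (app i) := by
      refine ⟨hi, fun y => ?_⟩
      have h1 : ν y ∈ range (fun x => ν (app i x)) := by rw [hS, ← hT]; exact mem_range_self y
      obtain ⟨x, hx⟩ := h1
      exact ⟨x, hν hx⟩
    have := isIso_of_bijective i hbij
    exact RelCell.iso i
  | @step T' T a ha hc hs ih =>
    intro A B i ν hνc hν hi hS hT
    have hScl : IsClosed (range (fun x => ν (app i x))) :=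
      (isCompact_range (hνc.comp (continuous_app i))).isClosed
    have hT'cl : IsClosed T' := hc.isClosed (hS ▸ hScl)
    have hinf : ν ∞ ∈ T' := by
      apply hc.subset
      rw [← hS]
      exact ⟨∞, by dsimp only; rw [app_infty]⟩
    let P : Set B := {b | ν (b : OnePoint B) ∈ T'}
    have hP : IsClosed P := hT'cl.preimage (hνc.comp OnePoint.continuous_coe)
    have hPc : LocallyCompactSpace P := hP.isClosedEmbedding_subtypeVal.locallyCompactSpace
    let M : LC := LC.of P
    let j : M ⟶ B := ofClosed (X := M) (Subtype.val : P → B) hP.isClosedEmbedding_subtypeVal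
    have hj : Function.Injective (app j) :=
      app_injective_ofClosed (X := M) (f := (Subtype.val : P → B)) hP.isClosedEmbedding_subtypeVal
    have hjr : range (app j) = ν ⁻¹' T' := by
      ext x
      constructor
      · rintro ⟨m, rfl⟩
        induction m using OnePoint.rec with
        | infty => rw [mem_preimage, app_infty]; exact hinf
        | coe m => exact m.2
      · intro hx
        induction x using OnePoint.rec with
        | infty => exact ⟨∞, app_infty j⟩
        | coe b => exact ⟨((⟨b, hx⟩ : P) : OnePoint M), rfl⟩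
    obtain ⟨k, hk⟩ := exists_lift_of_injective j hj i (by
      intro x
      rw [hjr, mem_preimage]
      apply hc.subset
      rw [← hS]
      exact mem_range_self _)
    have hk' : ∀ x, app j (app k x) = app i x := by
      intro x
      rw [← app_comp, hk]
    have hRk : RelCell D k := by
      refine ih k (fun x => ν (app j x)) (hνc.comp (continuous_app j)) (hν.comp hj) ?_ ?_ ?_
      · intro x x' hxx
        apply hi
        rw [← hk', ← hk', hxx]
      · rw [← hS]
        simp only [hk']
      · have : (fun x => ν (app j x)) = ν ∘ app j := rfl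
        rw [this, range_comp, hjr, image_preimage_eq_inter_range, hT]
        exact inter_eq_left.2 hs.subset
    have hemb : IsEmbedding ν := (hνc.isClosedEmbedding hν).isEmbedding
    have hstep : CellStep a (range (app j)) univ := by
      have h5 := hs.preimage hemb (by rw [hT])
      rw [← hT, preimage_range, ← hjr] at h5
      exact h5
    rw [← hk]
    exact RelCell.comp hRk (RelCell.step j a ha (cofib_of_cellStep hj hstep)
      (cof_of_cellStep hstep))

/-- Chains of cells give relative cell complexes. -/
theorem relCell_of_chain {A B : LC} (i : A ⟶ B) (hi : Function.Injective (app i)) {D : Set ℕ}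
    (h : CellChain D (range (app i)) univ) : RelCell D i :=
  relCell_of_chain_aux h i id continuous_id Function.injective_id hi rfl range_id

/-- `X` is a finite cell space with cells of dimensions in `D` if `OnePoint X` is obtained
from the point at infinity by attaching cells. -/
def Cells (D : Set ℕ) (X : LC) : Prop := CellChain D {∞} (univ : Set (OnePoint X))

theorem Cells.mono {D D' : Set ℕ} (h : D ⊆ D') {X : LC} (hX : Cells D X) : Cells D' X :=
  CellChain.mono h hX

theorem Cells.relCell {D : Set ℕ} {X : LC} (hX : Cells D X) :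
    RelCell D (0 : LC.of Empty ⟶ X) := by
  refine relCell_of_chain _ ?_ ?_
  · intro x y _
    induction x using OnePoint.rec with
    | infty =>
      induction y using OnePoint.rec with
      | infty => rfl
      | coe y => exact y.elim
    | coe x => exact x.elim
  · have : range (app (0 : LC.of Empty ⟶ X)) = {∞} := by
      ext x
      constructor
      · rintro ⟨y, rfl⟩; exact app_zero y
      · rintro rfl; exact ⟨∞, app_zero _⟩
    rw [this]
    exact hX

theorem Cells.fc {D : Set ℕ} {X : LC} (hX : Cells D X) : FC X := hX.relCell.fc FC.empty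

/-- A relative chain over a space with cells. -/
theorem Cells.of_chain {D : Set ℕ} {A B : LC} (hA : Cells D A) (i : A ⟶ B)
    (hi : Function.Injective (app i)) (h : CellChain D (range (app i)) univ) : Cells D B := by
  have h1 := hA.image (f := app i) (continuous_app i).continuousOn hi.injOn
  rw [image_univ, image_singleton, app_infty] at h1
  exact h1.trans h

end chain

end Vale.Agent.P251.G.Cell
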