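import Vale.Agent.P251.G.Bundle

/-!
# P251, part G: maps of bundles and the induced proper maps of total spaces
-/

open Matrix Filter Topology CategoryTheory

namespace Vale.Agent.P251.G

variable {X Y Z : Type} [TopologicalSpace X] [TopologicalSpace Y] [TopologicalSpace Z]
variable {ι κ μ : Type} [Fintype ι] [Fintype κ] [Fintype μ]

/-- A map of bundles: fibrewise linear and injective, over a continuous map of the bases. -/
structure BMap (V : Bun X ι) (W : Bun Y κ) where
  /-- the map of bases -/
  f : C(X, Y)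
  /-- the linear maps -/
  A : X → Matrix κ ι ℂ
  contA : Continuous A
  maps : ∀ x v, V.P x *ᵥ v = v → W.P (f x) *ᵥ (A x *ᵥ v) = A x *ᵥ v
  inj : ∀ x v, V.P x *ᵥ v = v → A x *ᵥ v = 0 → v = 0

namespace BMap

open Bun

variable {V : Bun X ι} {W : Bun Y κ} {U : Bun Z μ}

/-- the induced map of total spaces -/
def toFun (φ : BMap V W) (p : V.E) : W.E :=
  W.mkE (φ.f (base p)) (φ.A (base p) *ᵥ vec p) (φ.maps _ _ (P_vec p))

@[simp] theorem base_toFun (φ : BMap V W) (p : V.E) : base (φ.toFun p) = φ.f (base p) := rfl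
@[simp] theorem vec_toFun (φ : BMap V W) (p : V.E) :
    vec (φ.toFun p) = φ.A (base p) *ᵥ vec p := rfl

@[continuity, fun_prop]
theorem continuous_toFun (φ : BMap V W) : Continuous φ.toFun :=
  continuous_mkE (φ.f.continuous.comp continuous_base)
    ((φ.contA.comp continuous_base).matrix_mulVec continuous_vec) _

/-- A fibrewise injective family of linear maps is bounded below on compact sets. -/
theorem _root_.Vale.Agent.P251.G.Bun.exists_lower_bound (V : Bun X ι) {A : X → Matrix κ ι ℂ}
    (hA : Continuous A) (inj : ∀ x v, V.P x *ᵥ v = v → A x *ᵥ v = 0 → v = 0)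
    {L : Set X} (hL : IsCompact L) :
    ∃ c : ℝ, 0 < c ∧ ∀ x ∈ L, ∀ v, V.P x *ᵥ v = v → c * ‖v‖ ≤ ‖A x *ᵥ v‖ := by
  let S : Set (X × (ι → ℂ)) := (L ×ˢ Metric.sphere 0 1) ∩ {p | V.P p.1 *ᵥ p.2 = p.2}
  have hS : IsCompact S := (hL.prod (isCompact_sphere _ _)).inter_right
    (isClosed_eq ((V.cont.comp continuous_fst).matrix_mulVec continuous_snd) continuous_snd)
  have hF : ContinuousOn (fun p : X × (ι → ℂ) => ‖A p.1 *ᵥ p.2‖) S :=
    (((hA.comp continuous_fst).matrix_mulVec continuous_snd).norm).continuousOn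
  rcases S.eq_empty_or_nonempty with hE | hE
  · refine ⟨1, one_pos, fun x hx v hv => ?_⟩
    by_cases h0 : v = 0
    · simp [h0]
    · exfalso
      have : (x, ((‖v‖⁻¹ : ℝ) : ℂ) • v) ∈ S := by
        refine ⟨⟨hx, ?_⟩, ?_⟩
        · rw [mem_sphere_zero_iff_norm, norm_smul, Complex.norm_real, norm_inv, norm_norm,
            inv_mul_cancel₀ (norm_ne_zero_iff.mpr h0)]
        · change V.P x *ᵥ _ = _
          rw [mulVec_smul, hv]
      rw [hE] at this
      exact this
  · obtain ⟨q, hq, hmin⟩ := hS.exists_isMinOn hE hF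
    refine ⟨‖A q.1 *ᵥ q.2‖, ?_, fun x hx v hv => ?_⟩
    · rw [norm_pos_iff]
      intro h
      have h1 := inj q.1 q.2 hq.2 h
      have h2 := hq.1.2
      rw [h1, mem_sphere_zero_iff_norm, norm_zero] at h2
      exact zero_ne_one h2
    · by_cases h0 : v = 0
      · simp [h0]
      · have hv' : ‖v‖ ≠ 0 := norm_ne_zero_iff.mpr h0
        have hm : (x, ((‖v‖⁻¹ : ℝ) : ℂ) • v) ∈ S := by
          refine ⟨⟨hx, ?_⟩, ?_⟩
          · rw [mem_sphere_zero_iff_norm, norm_smul, Complex.norm_real, norm_inv, norm_norm,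
              inv_mul_cancel₀ hv']
          · change V.P x *ᵥ _ = _
            rw [mulVec_smul, hv]
        have := hmin hm
        simp only [Set.mem_ofPred_eq] at this
        rw [mulVec_smul, norm_smul, Complex.norm_real, norm_inv, norm_norm] at this
        rw [inv_mul_eq_div, le_div_iff₀ (by positivity)] at this
        exact this

/-- The induced map of total spaces is proper if the map of bases is proper. -/
theorem tendsto_toFun (φ : BMap V W) [T2Space X] (hf : Tendsto φ.f (cocompact X) (cocompact Y)) :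
    Tendsto φ.toFun (cocompact V.E) (cocompact W.E) := by
  rw [Filter.hasBasis_cocompact.tendsto_iff Filter.hasBasis_cocompact]
  intro K hK
  have hK1 : IsCompact (base '' K) := hK.image continuous_base
  obtain ⟨L, hL, hLsub⟩ := mem_cocompact.mp (hf hK1.compl_mem_cocompact)
  obtain ⟨R, hR⟩ := (hK.image continuous_vec).isBounded.exists_norm_le
  obtain ⟨c, hc, hcb⟩ := V.exists_lower_bound φ.contA φ.inj hL
  refine ⟨Subtype.val ⁻¹' (L ×ˢ Metric.closedBall 0 (R / c)),
    V.isClosedEmbedding_val.isCompact_preimage (hL.prod (isCompact_closedBall _ _)), ?_⟩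
  intro p hp hpK
  apply hp
  have h1 : base p ∈ L := by
    by_contra h
    exact hLsub h ⟨_, hpK, rfl⟩
  refine ⟨h1, ?_⟩
  rw [mem_closedBall_zero_iff, le_div_iff₀ hc, mul_comm]
  exact (hcb _ h1 _ (P_vec p)).trans (hR _ ⟨_, hpK, rfl⟩)

/-- the morphism of `LC` induced by a bundle map over a proper map -/
def toHom [T2Space X] [LocallyCompactSpace X] [T2Space Y] [LocallyCompactSpace Y] (φ : BMap V W)
    (hf : Tendsto φ.f (cocompact X) (cocompact Y)) : V.tot ⟶ W.tot :=
  LC.ofProper (X := V.tot) (Y := W.tot) φ.toFun φ.continuous_toFun (φ.tendsto_toFun hf)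

@[simp] theorem app_toHom_coe [T2Space X] [LocallyCompactSpace X] [T2Space Y]
    [LocallyCompactSpace Y] (φ : BMap V W)
    (hf : Tendsto φ.f (cocompact X) (cocompact Y)) (p : V.E) :
    LC.app (φ.toHom hf) (p : OnePoint V.E) = (φ.toFun p : OnePoint W.E) := rfl

/-- the morphism of `LC` (Thom spaces) induced by a bundle map over a compact base -/
def thom [T2Space X] [CompactSpace X] [T2Space Y] [LocallyCompactSpace Y] (φ : BMap V W) :
    V.tot ⟶ W.tot :=
  φ.toHom (by rw [cocompact_eq_bot]; exact tendsto_bot)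

@[simp] theorem app_thom_coe [T2Space X] [CompactSpace X] [T2Space Y]
    [LocallyCompactSpace Y] (φ : BMap V W) (p : V.E) :
    LC.app φ.thom (p : OnePoint V.E) = (φ.toFun p : OnePoint W.E) := rfl

/-- Two bundle maps with the same effect on total spaces. -/
theorem thom_congr [T2Space X] [CompactSpace X] [T2Space Y]
    [LocallyCompactSpace Y] {φ ψ : BMap V W} (h1 : ∀ x, φ.f x = ψ.f x)
    (h2 : ∀ x v, V.P x *ᵥ v = v → φ.A x *ᵥ v = ψ.A x *ᵥ v) : φ.thom = ψ.thom := by
  apply LC.hom_ext
  intro p
  rw [app_thom_coe, app_thom_coe]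
  congr 1
  exact E_ext (h1 _) (h2 _ _ (P_vec p))

/-- identity -/
@[simps f A] def id [DecidableEq ι] (V : Bun X ι) : BMap V V where
  f := ContinuousMap.id X
  A _ := 1
  contA := continuous_const
  maps x v h := by simpa using h
  inj x v _ h := by simpa using h

/-- composition -/
@[simps f A] def comp (ψ : BMap W U) (φ : BMap V W) : BMap V U where
  f := ψ.f.comp φ.f
  A x := ψ.A (φ.f x) * φ.A x
  contA := (ψ.contA.comp φ.f.continuous).matrix_mul φ.contA
  maps x v h := by
    rw [← mulVec_mulVec]
    exact ψ.maps _ _ (φ.maps _ _ h)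
  inj x v h h' := by
    rw [← mulVec_mulVec] at h'
    exact φ.inj _ _ h (ψ.inj _ _ (φ.maps _ _ h) h')

theorem toFun_comp (ψ : BMap W U) (φ : BMap V W) (p : V.E) :
    (ψ.comp φ).toFun p = ψ.toFun (φ.toFun p) :=
  E_ext rfl (by simp [mulVec_mulVec])

theorem toFun_id [DecidableEq ι] (V : Bun X ι) (p : V.E) : (BMap.id V).toFun p = p :=
  E_ext rfl (by simp)

theorem thom_comp [T2Space X] [CompactSpace X] [T2Space Y] [CompactSpace Y]
    [T2Space Z] [LocallyCompactSpace Z] (ψ : BMap W U) (φ : BMap V W) :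
    (ψ.comp φ).thom = φ.thom ≫ ψ.thom := by
  apply LC.hom_ext
  intro p
  rw [app_thom_coe, LC.app_comp, app_thom_coe, app_thom_coe, toFun_comp]

theorem thom_id [DecidableEq ι] [T2Space X] [CompactSpace X] (V : Bun X ι) :
    (BMap.id V).thom = 𝟙 V.tot := by
  apply LC.hom_ext
  intro p
  rw [app_thom_coe, LC.app_id, toFun_id]

/-- the canonical map from a pull back -/
@[simps f A] def ofPullback [DecidableEq ι] (V : Bun X ι) (g : C(Y, X)) :
    BMap (V.pullback g) V where
  f := g
  A _ := 1
  contA := continuous_const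
  maps x v h := by simpa using h
  inj x v _ h := by simpa using h

/-- an isometric embedding of bundles -/
@[simps f A] def ofIsometry (V : Bun X ι) (W : Bun Y κ) (f : C(X, Y)) (u : X → Matrix κ ι ℂ)
    (hu : Continuous u) (h : ∀ x, (u x)ᴴ * u x = V.P x)
    (h' : ∀ x, W.P (f x) * u x = u x) : BMap V W where
  f := f
  A := u
  contA := hu
  maps x v _ := by rw [mulVec_mulVec, h']
  inj x v hv h0 := by
    rw [← hv, ← h, ← mulVec_mulVec, h0, mulVec_zero]

/-- a bundle map from `V` to the image of `V` under isometries -/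
@[simps! f A] def toImage (V : Bun X ι) (u : X → Matrix κ ι ℂ) (hu : Continuous u)
    (h : ∀ x, (u x)ᴴ * u x = V.P x) : BMap V (V.image u hu h) :=
  ofIsometry V _ (ContinuousMap.id X) u hu h (by
    intro x
    change u x * (u x)ᴴ * u x = u x
    rw [Matrix.mul_assoc, h, mul_of_isometry (h x) (V.herm x) (V.idem x)])

/-- a bundle map with inverse gives a homeomorphism of total spaces -/
def homeo (φ : BMap V W) (ψ : BMap W V) (h1 : ∀ p, ψ.toFun (φ.toFun p) = p)
    (h2 : ∀ p, φ.toFun (ψ.toFun p) = p) : V.E ≃ₜ W.E where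
  toFun := φ.toFun
  invFun := ψ.toFun
  left_inv := h1
  right_inv := h2
  continuous_toFun := φ.continuous_toFun
  continuous_invFun := ψ.continuous_toFun

end BMap

namespace Bun

/-! ### Products -/

/-- external direct sum -/
@[simps] def extSum (V : Bun X ι) (W : Bun Y κ) : Bun (X × Y) (ι ⊕ κ) where
  P x := fromBlocks (V.P x.1) 0 0 (W.P x.2)
  cont := (V.cont.comp continuous_fst).matrix_fromBlocks continuous_const continuous_const
    (W.cont.comp continuous_snd)
  idem x := by rw [fromBlocks_multiply]; simp [V.idem, W.idem]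
  herm x := by rw [fromBlocks_conjTranspose]; simp [V.herm, W.herm]

omit [Fintype κ] in
theorem fromBlocks_diag_mulVec_elim (A : Matrix κ ι ℂ) {ι' κ' : Type} [Fintype ι'] [Fintype κ']
    (B : Matrix κ' ι' ℂ) (v : ι → ℂ) (w : ι' → ℂ) :
    fromBlocks A 0 0 B *ᵥ Sum.elim v w = Sum.elim (A *ᵥ v) (B *ᵥ w) := by
  rw [fromBlocks_mulVec]
  simp [Sum.elim_comp_inl, Sum.elim_comp_inr]

theorem fromBlocks_diag_fixed {A : Matrix ι ι ℂ} {B : Matrix κ κ ℂ} {u : ι ⊕ κ → ℂ} :
    fromBlocks A 0 0 B *ᵥ u = u ↔ A *ᵥ (u ∘ Sum.inl) = u ∘ Sum.inl ∧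
      B *ᵥ (u ∘ Sum.inr) = u ∘ Sum.inr := by
  obtain ⟨v, w, rfl⟩ : ∃ v w, u = Sum.elim v w := ⟨_, _, (Sum.elim_comp_inl_inr u).symm⟩
  rw [fromBlocks_diag_mulVec_elim, Sum.elim_comp_inl, Sum.elim_comp_inr]
  exact Sum.elim_eq_iff

omit [Fintype ι] [Fintype κ] in
theorem continuous_sumElim {f : Z → ι → ℂ} {g : Z → κ → ℂ} (hf : Continuous f)
    (hg : Continuous g) : Continuous fun z => Sum.elim (f z) (g z) := by
  refine continuous_pi fun i => ?_
  rcases i with i | i
  · exact (continuous_apply i).comp hf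
  · exact (continuous_apply i).comp hg

/-- the total space of the external direct sum is the product of the total spaces -/
def extSumHomeo (V : Bun X ι) (W : Bun Y κ) : (V.extSum W).E ≃ₜ V.E × W.E where
  toFun p := (V.mkE (base p).1 (vec p ∘ Sum.inl) (fromBlocks_diag_fixed.mp (P_vec p)).1,
    W.mkE (base p).2 (vec p ∘ Sum.inr) (fromBlocks_diag_fixed.mp (P_vec p)).2)
  invFun q := (V.extSum W).mkE (base q.1, base q.2) (Sum.elim (vec q.1) (vec q.2)) (by
    rw [extSum_P, fromBlocks_diag_mulVec_elim, P_vec, P_vec])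
  left_inv p := E_ext rfl (by simp)
  right_inv q := Prod.ext (E_ext rfl (by simp)) (E_ext rfl (by simp))
  continuous_toFun := by
    have h1 : Continuous fun p : (V.extSum W).E => (base p).1 :=
      continuous_fst.comp continuous_base
    have h2 : Continuous fun p : (V.extSum W).E => (base p).2 :=
      continuous_snd.comp continuous_base
    refine Continuous.prodMk ?_ ?_
    · exact continuous_E_iff.mpr ⟨h1,
        continuous_pi fun i => (continuous_apply (Sum.inl i)).comp continuous_vec⟩
    · exact continuous_E_iff.mpr ⟨h2,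
        continuous_pi fun i => (continuous_apply (Sum.inr i)).comp continuous_vec⟩
  continuous_invFun := continuous_E_iff.mpr
    ⟨(continuous_base.comp continuous_fst).prodMk (continuous_base.comp continuous_snd),
    continuous_sumElim (continuous_vec.comp continuous_fst)
      (continuous_vec.comp continuous_snd)⟩

/-- pull back along the first projection -/
def fstHomeo (V : Bun X ι) (Y : Type) [TopologicalSpace Y] :
    (V.pullback (⟨Prod.fst, continuous_fst⟩ : C(X × Y, X))).E ≃ₜ V.E × Y where
  toFun p := (V.mkE (base p).1 (vec p) (P_vec p), (base p).2)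
  invFun q := mkE _ (base q.1, q.2) (vec q.1) (P_vec q.1)
  left_inv _ := rfl
  right_inv _ := rfl
  continuous_toFun := (continuous_mkE (continuous_fst.comp continuous_base)
    continuous_vec _).prodMk (continuous_snd.comp continuous_base)
  continuous_invFun := continuous_mkE ((continuous_base.comp continuous_fst).prodMk
    continuous_snd) (continuous_vec.comp continuous_fst) _

/-- pull back along the second projection -/
def sndHomeo (V : Bun X ι) (Y : Type) [TopologicalSpace Y] :
    (V.pullback (⟨Prod.snd, continuous_snd⟩ : C(Y × X, X))).E ≃ₜ Y × V.E where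
  toFun p := ((base p).1, V.mkE (base p).2 (vec p) (P_vec p))
  invFun q := mkE _ (q.1, base q.2) (vec q.2) (P_vec q.2)
  left_inv _ := rfl
  right_inv _ := rfl
  continuous_toFun := (continuous_fst.comp continuous_base).prodMk
    (continuous_mkE (continuous_snd.comp continuous_base) continuous_vec _)
  continuous_invFun := continuous_mkE (continuous_fst.prodMk
    (continuous_base.comp continuous_snd)) (continuous_vec.comp continuous_snd) _

/-- direct sum with a trivial bundle -/
def sumTrivHomeo [DecidableEq κ] (V : Bun X ι) : (V.sum (triv X κ)).E ≃ₜ V.E × (κ → ℂ) where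
  toFun p := (V.mkE (base p) (vec p ∘ Sum.inl) (fromBlocks_diag_fixed.mp (P_vec p)).1,
    vec p ∘ Sum.inr)
  invFun q := mkE _ (base q.1) (Sum.elim (vec q.1) q.2) (by
    rw [sum_P, fromBlocks_diag_mulVec_elim, P_vec, triv_P, one_mulVec])
  left_inv p := E_ext rfl (by simp)
  right_inv q := Prod.ext (E_ext rfl (by simp)) (by simp)
  continuous_toFun := by
    refine Continuous.prodMk ?_ ?_
    · exact continuous_E_iff.mpr ⟨continuous_base,
        continuous_pi fun i => (continuous_apply (Sum.inl i)).comp continuous_vec⟩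
    · exact continuous_pi fun i => (continuous_apply (Sum.inr i)).comp continuous_vec
  continuous_invFun := by
    have h1 : Continuous fun q : V.E × (κ → ℂ) => base q.1 := continuous_base.comp continuous_fst
    exact continuous_E_iff.mpr ⟨h1,
      continuous_sumElim (continuous_vec.comp continuous_fst) continuous_snd⟩

/-- direct sum of a bundle and its complement is trivial -/
def sumComplHomeo [DecidableEq ι] (V : Bun X ι) : (V.sum V.compl).E ≃ₜ X × (ι → ℂ) where
  toFun p := (base p, vec p ∘ Sum.inl + vec p ∘ Sum.inr)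
  invFun q := mkE _ q.1 (Sum.elim (V.P q.1 *ᵥ q.2) (V.compl.P q.1 *ᵥ q.2)) (by
    rw [sum_P, fromBlocks_diag_mulVec_elim, P_mulVec_mulVec, P_mulVec_mulVec])
  left_inv p := by
    have h := fromBlocks_diag_fixed.mp (P_vec p)
    have e1 : V.P (base p) *ᵥ (vec p ∘ Sum.inr) = 0 := by
      rw [← h.2, mulVec_mulVec, compl_P, mul_sub, mul_one, V.idem, sub_self, zero_mulVec]
    have e2 : V.compl.P (base p) *ᵥ (vec p ∘ Sum.inl) = 0 := by
      rw [← h.1, mulVec_mulVec, compl_P, sub_mul, one_mul, V.idem, sub_self, zero_mulVec]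
    refine E_ext rfl ?_
    rw [vec_mkE, mulVec_add, mulVec_add, h.1, h.2, e1, e2, add_zero, zero_add,
      Sum.elim_comp_inl_inr]
  right_inv q := by
    refine Prod.ext rfl ?_
    change Sum.elim _ _ ∘ Sum.inl + Sum.elim _ _ ∘ Sum.inr = q.2
    rw [Sum.elim_comp_inl, Sum.elim_comp_inr, ← add_mulVec, compl_P, add_sub_cancel, one_mulVec]
  continuous_toFun := by
    refine Continuous.prodMk continuous_base (Continuous.add ?_ ?_)
    · exact continuous_pi fun i => (continuous_apply (Sum.inl i)).comp continuous_vec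
    · exact continuous_pi fun i => (continuous_apply (Sum.inr i)).comp continuous_vec
  continuous_invFun := continuous_E_iff.mpr ⟨continuous_fst, continuous_sumElim
    ((V.cont.comp continuous_fst).matrix_mulVec continuous_snd)
    ((V.compl.cont.comp continuous_fst).matrix_mulVec continuous_snd)⟩

end Bun

end Vale.Agent.P251.G
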