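import Vale.Agent.P251.G.Homotopy

/-!
# P251, part G: strict cofibres (quotients) in `LC`

For any morphism `i : A ⟶ B` the complement `cof i` of the image is open in `B`, and the collapse
`cofMap i : B ⟶ cof i` is a cokernel of `i`.  If `i` is a cofibration and `A` is contractible then
`cofMap i` is a homotopy equivalence.
-/

open CategoryTheory MonoidalCategory Filter Topology OnePoint

namespace Vale.Agent.P251.G

namespace LC

section factor

variable {B U Z : LC}

/-- Morphisms which are `∞` outside an open subset factor through the collapse. -/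
def factorOpen (j : U → B) (hj : IsOpenEmbedding j) (f : B ⟶ Z)
    (h : ∀ b : B, b ∉ Set.range j → app f (b : OnePoint B) = ∞) : U ⟶ Z :=
  ofCompactification (fun u => (j u : OnePoint B)) (OnePoint.isOpenEmbedding_coe.comp hj)
    (app f) (continuous_app f) (by
      intro k hk
      induction k using OnePoint.rec with
      | infty => exact app_infty f
      | coe b =>
        apply h
        rintro ⟨u, rfl⟩
        exact hk ⟨u, rfl⟩)

@[simp] theorem app_factorOpen_coe (j : U → B) (hj : IsOpenEmbedding j) (f : B ⟶ Z)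
    (h : ∀ b : B, b ∉ Set.range j → app f (b : OnePoint B) = ∞) (u : U) :
    app (factorOpen j hj f h) (u : OnePoint U) = app f (j u : OnePoint B) := rfl

@[reassoc]
theorem ofOpen_factorOpen (j : U → B) (hj : IsOpenEmbedding j) (f : B ⟶ Z)
    (h : ∀ b : B, b ∉ Set.range j → app f (b : OnePoint B) = ∞) :
    ofOpen j hj ≫ factorOpen j hj f h = f := by
  apply hom_ext
  intro b
  rw [app_comp]
  by_cases hb : b ∈ Set.range j
  · obtain ⟨u, rfl⟩ := hb
    rw [app_ofOpen_coe, app_factorOpen_coe]
  · rw [app_ofOpen_of_notMem j hj hb, app_infty, h b hb]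

theorem ofOpen_epi {j : U → B} (hj : IsOpenEmbedding j) {k l : U ⟶ Z}
    (h : ofOpen j hj ≫ k = ofOpen j hj ≫ l) : k = l := by
  apply hom_ext
  intro u
  have := congrArg (fun m => app m (j u : OnePoint B)) h
  simpa using this

instance {j : U → B} (hj : IsOpenEmbedding j) : Epi (ofOpen j hj) :=
  ⟨fun _ _ h => ofOpen_epi hj h⟩

end factor

section cofibre

variable {A B Z : LC}

/-- the complement of the image of `i` -/
def cofSet (i : A ⟶ B) : Set B := {b | (b : OnePoint B) ∉ Set.range (app i)}

theorem isOpen_cofSet (i : A ⟶ B) : IsOpen (cofSet i) := by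
  have h : IsClosed (Set.range (app i)) := (isCompact_range (continuous_app i)).isClosed
  exact (h.isOpen_compl).preimage OnePoint.continuous_coe

/-- The strict cofibre (cokernel) of a morphism: the complement of its image. -/
def cof (i : A ⟶ B) : LC :=
  haveI : LocallyCompactSpace (cofSet i) := (isOpen_cofSet i).locallyCompactSpace
  LC.of (cofSet i)

theorem isOpenEmbedding_cof (i : A ⟶ B) :
    IsOpenEmbedding (fun u : cof i => (u.1 : B)) :=
  (isOpen_cofSet i).isOpenEmbedding_subtypeVal

/-- the collapse onto the strict cofibre -/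
noncomputable def cofMap (i : A ⟶ B) : B ⟶ cof i := ofOpen _ (isOpenEmbedding_cof i)

instance (i : A ⟶ B) : Epi (cofMap i) := ⟨fun _ _ h => ofOpen_epi (isOpenEmbedding_cof i) h⟩

theorem app_cofMap_coe (i : A ⟶ B) (u : cof i) : app (cofMap i) ((u.1 : B) : OnePoint B) = u :=
  app_ofOpen_coe _ (isOpenEmbedding_cof i) u

theorem app_cofMap_of_mem (i : A ⟶ B) {b : OnePoint B} (h : b ∈ Set.range (app i)) :
    app (cofMap i) b = ∞ := by
  induction b using OnePoint.rec with
  | infty => exact app_infty _
  | coe b =>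
    apply app_ofOpen_of_notMem
    rintro ⟨u, rfl⟩
    exact u.2 h

theorem app_cofMap_eq_infty_iff (i : A ⟶ B) (b : OnePoint B) :
    app (cofMap i) b = ∞ ↔ b = ∞ ∨ b ∈ Set.range (app i) := by
  constructor
  · intro h
    induction b using OnePoint.rec with
    | infty => exact Or.inl rfl
    | coe b =>
      right
      by_contra hb
      have := app_cofMap_coe i ⟨b, hb⟩
      rw [this] at h
      exact OnePoint.coe_ne_infty _ h
  · rintro (rfl | h)
    · exact app_infty _
    · exact app_cofMap_of_mem i h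

@[reassoc (attr := simp)]
theorem comp_cofMap (i : A ⟶ B) : i ≫ cofMap i = 0 := by
  apply hom_ext
  intro a
  rw [app_comp, app_zero]
  exact app_cofMap_of_mem i ⟨_, rfl⟩

/-- the universal property of the strict cofibre -/
def cofDesc (i : A ⟶ B) (f : B ⟶ Z) (h : i ≫ f = 0) : cof i ⟶ Z :=
  factorOpen _ (isOpenEmbedding_cof i) f (by
    intro b hb
    have hb' : (b : OnePoint B) ∈ Set.range (app i) := by
      by_contra hb'
      exact hb ⟨⟨b, hb'⟩, rfl⟩
    obtain ⟨a, ha⟩ := hb'
    rw [← ha, ← app_comp, h, app_zero])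

@[reassoc (attr := simp)]
theorem cofMap_cofDesc (i : A ⟶ B) (f : B ⟶ Z) (h : i ≫ f = 0) : cofMap i ≫ cofDesc i f h = f :=
  ofOpen_factorOpen _ _ _ _

theorem app_cofDesc_coe (i : A ⟶ B) (f : B ⟶ Z) (h : i ≫ f = 0) (u : cof i) :
    app (cofDesc i f h) (u : OnePoint (cof i)) = app f ((u.1 : B) : OnePoint B) := rfl

/-- The image of `i ▷ Y` in terms of the image of `i`. -/
theorem mem_range_whiskerRight (i : A ⟶ B) (Y : LC) (b : B) (y : Y) :
    (((b, y) : B × Y) : OnePoint (B × Y)) ∈ Set.range (app (i ▷ Y)) ↔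
      (b : OnePoint B) ∈ Set.range (app i) := by
  constructor
  · rintro ⟨w, hw⟩
    induction w using OnePoint.rec with
    | infty => exact absurd ((app_infty (i ▷ Y)).symm.trans hw).symm (OnePoint.coe_ne_infty _)
    | coe w =>
      obtain ⟨a, y'⟩ := w
      have h1 : app (i ▷ Y) (smash (a : OnePoint A) (y' : OnePoint Y)) =
        smash (app i a) (y' : OnePoint Y) := app_whiskerRight_smash i Y a y'
      have h2 : smash (app i a) (y' : OnePoint Y) = (((b, y) : B × Y) : OnePoint (B × Y)) :=
        h1.symm.trans hw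
      refine ⟨a, ?_⟩
      cases h : app i (a : OnePoint A) using OnePoint.rec with
      | infty => rw [h] at h2; exact absurd h2.symm (OnePoint.coe_ne_infty _)
      | coe b' =>
        rw [h] at h2
        have h3 := OnePoint.coe_injective h2
        rw [Prod.mk.injEq] at h3
        rw [h3.1]
  · rintro ⟨a, ha⟩
    exact ⟨smash a (y : OnePoint Y), by rw [app_whiskerRight_smash, ha]; rfl⟩

/-- the strict cofibre of `i ▷ Y` -/
def cofWhiskerRight (i : A ⟶ B) (Y : LC) : cof (i ▷ Y) ≅ cof i ⊗ Y :=
  ofHomeo (X := cof (i ▷ Y)) (Y := LC.of (cof i × Y))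
    { toFun := fun w => (⟨w.1.1, fun h => w.2 ((mem_range_whiskerRight i Y w.1.1 w.1.2).mpr h)⟩,
        w.1.2)
      invFun := fun w => ⟨(w.1.1, w.2), fun h => w.1.2 ((mem_range_whiskerRight i Y _ _).mp h)⟩
      left_inv := fun _ => rfl
      right_inv := fun _ => rfl
      continuous_toFun := by
        refine Continuous.prodMk ?_ (continuous_snd.comp continuous_subtype_val)
        exact Continuous.subtype_mk (continuous_fst.comp continuous_subtype_val) _
      continuous_invFun := by
        refine Continuous.subtype_mk ?_ _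
        exact (continuous_subtype_val.comp continuous_fst).prodMk continuous_snd }

@[reassoc]
theorem cofMap_cofWhiskerRight (i : A ⟶ B) (Y : LC) :
    cofMap (i ▷ Y) ≫ (cofWhiskerRight i Y).hom = cofMap i ▷ Y := by
  apply tensor_ext
  intro b y
  rw [app_comp, app_whiskerRight_smash]
  by_cases hb : (b : OnePoint B) ∈ Set.range (app i)
  · have h1 : (smash (b : OnePoint B) (y : OnePoint Y)) ∈ Set.range (app (i ▷ Y)) :=
      (mem_range_whiskerRight i Y b y).mpr hb
    rw [app_cofMap_of_mem _ h1, app_cofMap_of_mem _ hb]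
    exact app_infty _
  · have h1 : (((b, y) : B × Y) : OnePoint (B × Y)) ∉ Set.range (app (i ▷ Y)) :=
      fun h => hb ((mem_range_whiskerRight i Y b y).mp h)
    have h2 := app_cofMap_coe (i ▷ Y) ⟨(b, y), h1⟩
    have h3 := app_cofMap_coe i ⟨b, hb⟩
    exact (congrArg (app (cofWhiskerRight i Y).hom) h2).trans
      (congrArg (fun t => smash t (y : OnePoint Y)) h3).symm

instance (i : A ⟶ B) (Y : LC) : Epi (cofMap i ▷ Y) := by
  rw [← cofMap_cofWhiskerRight]
  infer_instance

/-- descent of a homotopy to the strict cofibre -/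
theorem Homotopic.cofDesc {i : A ⟶ B} {f g : cof i ⟶ Z} (H : B ⊗ II ⟶ Z)
    (h : i ▷ II ≫ H = 0) (h0 : incl 0 B ≫ H = cofMap i ≫ f) (h1 : incl 1 B ≫ H = cofMap i ≫ g) :
    Homotopic f g := by
  refine ⟨(cofWhiskerRight i II).inv ≫ LC.cofDesc (i ▷ II) H h, ?_, ?_⟩
  · rw [← cancel_epi (cofMap i), ← h0, ← incl_naturality_assoc, ← cofMap_cofWhiskerRight,
      Category.assoc, Iso.hom_inv_id_assoc, cofMap_cofDesc]
  · rw [← cancel_epi (cofMap i), ← h1, ← incl_naturality_assoc, ← cofMap_cofWhiskerRight,
      Category.assoc, Iso.hom_inv_id_assoc, cofMap_cofDesc]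

/-- Contractible objects: the identity is homotopic to the constant map. -/
def Contr (X : LC) : Prop := Homotopic (𝟙 X) 0

theorem Contr.tensor {X : LC} (h : Contr X) (Y : LC) : Contr (X ⊗ Y) := by
  have h1 := h.whiskerRight Y
  rw [MonoidalCategory.id_whiskerRight] at h1
  refine h1.trans (Homotopic.of_eq ?_)
  apply tensor_ext
  intro x y
  rw [app_whiskerRight_smash, app_zero, app_zero]
  rfl

/-- The collapse of a contractible cofibrant subspace is a homotopy equivalence. -/
theorem isHEquiv_cofMap {i : A ⟶ B} (hi : Cofib i) (hA : Contr A) : IsHEquiv (cofMap i) := by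
  obtain ⟨H, h0, h1⟩ := hA
  obtain ⟨K, k0, k1⟩ := hi B (𝟙 B) (H ≫ i) (by rw [← Category.assoc, h0, Category.id_comp,
    Category.comp_id])
  -- the end of the homotopy `K` kills `A`
  have hkill : i ≫ (incl 1 B ≫ K) = 0 := by
    rw [← incl_naturality_assoc, k1, ← Category.assoc, h1, Limits.zero_comp]
  refine ⟨cofDesc i (incl 1 B ≫ K) hkill, ?_, ?_⟩
  · rw [cofMap_cofDesc]
    exact Homotopic.symm ⟨K, k0, rfl⟩
  · apply Homotopic.symm
    refine Homotopic.cofDesc (K ≫ cofMap i) ?_ ?_ ?_
    · rw [← Category.assoc, k1, Category.assoc, comp_cofMap, Limits.comp_zero]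
    · rw [← Category.assoc, k0, Category.id_comp, Category.comp_id]
    · rw [cofMap_cofDesc_assoc, Category.assoc]

end cofibre

end LC

end Vale.Agent.P251.G
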