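import Vale.Agent.P205.TI.Deg

/-!
# The Brouwer degree (real valued) of continuous maps on bounded open sets

Extension of the smooth degree integral `J` of `P205.TI.Deg` to continuous maps.
-/

open MeasureTheory Matrix Set Topology Bornology
open scoped ContDiff Manifold

namespace Vale.Agent.P251.G

open Vale.Agent.P205.TI.Deg

variable {n : ℕ}

/-- smooth approximations of a large multiple of `f` -/
def IsApprox (f : (Fin n → ℝ) → (Fin n → ℝ)) (W : Set (Fin n → ℝ))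
    (g : (Fin n → ℝ) → (Fin n → ℝ)) : Prop :=
  ContDiff ℝ ∞ g ∧ ∃ c > (0 : ℝ), (∀ x ∈ frontier W, 3 ≤ c * ‖f x‖) ∧
    ∀ x ∈ closure W, ‖g x - c • f x‖ ≤ 1

open Classical in
/-- real-valued Brouwer degree of `f` over `0` -/
noncomputable def degR (f : (Fin n → ℝ) → (Fin n → ℝ)) (W : Set (Fin n → ℝ)) : ℝ :=
  if h : ∃ g, IsApprox f W g then J h.choose W else 0

lemma approx_hom {f₀ f₁ g₀ g₁ : (Fin n → ℝ) → (Fin n → ℝ)} {W : Set (Fin n → ℝ)}
    (hW : IsOpen W) (hWb : IsBounded W) {c : ℝ}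
    (hg₀ : ContDiff ℝ ∞ g₀) (hg₁ : ContDiff ℝ ∞ g₁)
    (h : ∀ x ∈ frontier W, ∀ t ∈ Icc (0:ℝ) 1, 3 ≤ ‖(1 - t) • (c • f₀ x) + t • (c • f₁ x)‖)
    (h₀ : ∀ x ∈ frontier W, ‖g₀ x - c • f₀ x‖ ≤ 1)
    (h₁ : ∀ x ∈ frontier W, ‖g₁ x - c • f₁ x‖ ≤ 1) : J g₀ W = J g₁ W := by
  apply J_homotopy hW hWb hg₀ hg₁
  intro x hx t ht
  have h2 := h x hx t ht
  have h3 : (1 - t) • (c • f₀ x) + t • (c • f₁ x)
      = ((1 - t) • g₀ x + t • g₁ x) - ((1 - t) • (g₀ x - c • f₀ x) + t • (g₁ x - c • f₁ x)) := by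
    simp only [smul_sub]; abel
  have h4 : ‖(1 - t) • (g₀ x - c • f₀ x) + t • (g₁ x - c • f₁ x)‖ ≤ 1 := by
    calc _ ≤ ‖(1 - t) • (g₀ x - c • f₀ x)‖ + ‖t • (g₁ x - c • f₁ x)‖ := norm_add_le _ _
      _ = (1 - t) * ‖g₀ x - c • f₀ x‖ + t * ‖g₁ x - c • f₁ x‖ := by
          rw [norm_smul, norm_smul, Real.norm_eq_abs, Real.norm_eq_abs, abs_of_nonneg ht.1,
            abs_of_nonneg (by linarith [ht.2])]
      _ ≤ (1 - t) * 1 + t * 1 := by
          gcongr
          · linarith [ht.2]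
          · exact h₀ x hx
          · exact ht.1
          · exact h₁ x hx
      _ = 1 := by ring
  rw [h3] at h2
  have h5 := norm_sub_le ((1 - t) • g₀ x + t • g₁ x)
    ((1 - t) • (g₀ x - c • f₀ x) + t • (g₁ x - c • f₁ x))
  linarith only [h2, h4, h5]

lemma IsApprox.J_eq {f g g' : (Fin n → ℝ) → (Fin n → ℝ)} {W : Set (Fin n → ℝ)}
    (hW : IsOpen W) (hWb : IsBounded W) (h : IsApprox f W g) (h' : IsApprox f W g') :
    J g W = J g' W := by
  obtain ⟨hg, c, hc, h1, h2⟩ := h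
  obtain ⟨hg', c', hc', h1', h2'⟩ := h'
  apply J_homotopy hW hWb hg hg'
  intro x hx t ht
  have h0 := frontier_subset_closure hx
  have h3 : ((1 - t) * c + t * c') • f x
      = ((1 - t) • g x + t • g' x) - ((1 - t) • (g x - c • f x) + t • (g' x - c' • f x)) := by
    simp only [smul_sub, add_smul, smul_smul]; abel
  have h4 : ‖(1 - t) • (g x - c • f x) + t • (g' x - c' • f x)‖ ≤ 1 := by
    calc _ ≤ ‖(1 - t) • (g x - c • f x)‖ + ‖t • (g' x - c' • f x)‖ := norm_add_le _ _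
      _ = (1 - t) * ‖g x - c • f x‖ + t * ‖g' x - c' • f x‖ := by
          rw [norm_smul, norm_smul, Real.norm_eq_abs, Real.norm_eq_abs, abs_of_nonneg ht.1,
            abs_of_nonneg (by linarith [ht.2])]
      _ ≤ (1 - t) * 1 + t * 1 := by
          gcongr
          · linarith [ht.2]
          · exact h2 x h0
          · exact ht.1
          · exact h2' x h0
      _ = 1 := by ring
  have h5 : 3 ≤ ‖((1 - t) * c + t * c') • f x‖ := by
    rw [norm_smul, Real.norm_eq_abs, abs_of_nonneg (by nlinarith only [hc, hc', ht.1, ht.2])]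
    have := h1 x hx
    have := h1' x hx
    (clear g g' hW hWb hg hc h2 hg' hc' h2' h0 h3 h4; nlinarith [ht.1, ht.2])
  rw [h3] at h5
  have h6 := norm_sub_le ((1 - t) • g x + t • g' x)
    ((1 - t) • (g x - c • f x) + t • (g' x - c' • f x))
  linarith only [h4, h5, h6]

lemma IsApprox.degR_eq {f g : (Fin n → ℝ) → (Fin n → ℝ)} {W : Set (Fin n → ℝ)}
    (hW : IsOpen W) (hWb : IsBounded W) (h : IsApprox f W g) : degR f W = J g W := by
  have h' : ∃ g, IsApprox f W g := ⟨g, h⟩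
  rw [degR, dif_pos h']
  exact IsApprox.J_eq hW hWb h'.choose_spec h

lemma exists_seg_lower_bound {K : Set (Fin n → ℝ)} (hK : IsCompact K)
    {f₀ f₁ : (Fin n → ℝ) → (Fin n → ℝ)} (hf₀ : ContinuousOn f₀ K) (hf₁ : ContinuousOn f₁ K)
    (h : ∀ x ∈ K, ∀ t ∈ Icc (0:ℝ) 1, (1 - t) • f₀ x + t • f₁ x ≠ 0) :
    ∃ m > 0, ∀ x ∈ K, ∀ t ∈ Icc (0:ℝ) 1, m ≤ ‖(1 - t) • f₀ x + t • f₁ x‖ := by
  rcases K.eq_empty_or_nonempty with rfl | hne
  · exact ⟨1, one_pos, by simp only [mem_empty_iff_false, mem_Icc, and_imp, IsEmpty.forall_iff, implies_true]⟩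
  · have hc : ContinuousOn (fun q : ℝ × (Fin n → ℝ) => (1 - q.1) • f₀ q.2 + q.1 • f₁ q.2)
        (Icc (0:ℝ) 1 ×ˢ K) := by
      have h0 : ContinuousOn (fun q : ℝ × (Fin n → ℝ) => f₀ q.2) (Icc (0:ℝ) 1 ×ˢ K) :=
        hf₀.comp continuousOn_snd (fun q hq => hq.2)
      have h1 : ContinuousOn (fun q : ℝ × (Fin n → ℝ) => f₁ q.2) (Icc (0:ℝ) 1 ×ˢ K) :=
        hf₁.comp continuousOn_snd (fun q hq => hq.2)
      exact ((continuous_const.sub continuous_fst).continuousOn.smul h0).add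
        (continuous_fst.continuousOn.smul h1)
    obtain ⟨x, hx, hm⟩ := (isCompact_Icc.prod hK).exists_isMinOn
      ((nonempty_Icc.2 zero_le_one).prod hne) hc.norm
    exact ⟨_, norm_pos_iff.2 (h x.2 hx.2 x.1 hx.1), fun y hy t ht => hm (a := (t, y)) ⟨ht, hy⟩⟩

lemma degR_homotopy {f₀ f₁ : (Fin n → ℝ) → (Fin n → ℝ)} {W : Set (Fin n → ℝ)}
    (hW : IsOpen W) (hWb : IsBounded W) (hf₀ : ContinuousOn f₀ (closure W))
    (hf₁ : ContinuousOn f₁ (closure W))
    (h : ∀ x ∈ frontier W, ∀ t ∈ Icc (0:ℝ) 1, (1 - t) • f₀ x + t • f₁ x ≠ 0) :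
    degR f₀ W = degR f₁ W := by
  obtain ⟨m, hm, hmb⟩ := exists_seg_lower_bound (frontier_compact hWb)
    (hf₀.mono frontier_subset_closure) (hf₁.mono frontier_subset_closure) h
  have hc : 0 < 3 / m := by positivity
  set c := 3 / m with hcdef
  have hcm : c * m = 3 := by rw [hcdef]; field_simp
  obtain ⟨g₀, hg₀, hg₀'⟩ := exists_smooth_approx (closure_compact hWb) (hf₀.const_smul c) one_pos
  obtain ⟨g₁, hg₁, hg₁'⟩ := exists_smooth_approx (closure_compact hWb) (hf₁.const_smul c) one_pos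
  have hlow : ∀ x ∈ frontier W, ∀ t ∈ Icc (0:ℝ) 1,
      3 ≤ ‖(1 - t) • (c • f₀ x) + t • (c • f₁ x)‖ := by
    intro x hx t ht
    have h1 : (1 - t) • (c • f₀ x) + t • (c • f₁ x) = c • ((1 - t) • f₀ x + t • f₁ x) := by
      rw [smul_add, smul_comm c, smul_comm c]
    rw [h1, norm_smul, Real.norm_eq_abs, abs_of_pos hc, ← hcm]
    exact mul_le_mul_of_nonneg_left (hmb x hx t ht) hc.le
  have hA₀ : IsApprox f₀ W g₀ := by
    refine ⟨hg₀, c, hc, fun x hx => ?_, fun x hx => (hg₀' x hx).le⟩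
    have := hlow x hx 0 (by simp only [mem_Icc, Std.le_refl, zero_le_one, and_self])
    simpa only [ge_iff_le, sub_zero, one_smul, zero_smul, add_zero, norm_smul, Real.norm_eq_abs,     abs_of_pos hc] using this
  have hA₁ : IsApprox f₁ W g₁ := by
    refine ⟨hg₁, c, hc, fun x hx => ?_, fun x hx => (hg₁' x hx).le⟩
    have := hlow x hx 1 (by simp only [mem_Icc, zero_le_one, Std.le_refl, and_self])
    simpa only [ge_iff_le, sub_self, zero_smul, one_smul, zero_add, norm_smul, Real.norm_eq_abs,     abs_of_pos hc] using this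
  rw [hA₀.degR_eq hW hWb, hA₁.degR_eq hW hWb]
  exact approx_hom hW hWb hg₀ hg₁ hlow
    (fun x hx => (hg₀' x (frontier_subset_closure hx)).le)
    (fun x hx => (hg₁' x (frontier_subset_closure hx)).le)

lemma degR_regular {f : (Fin n → ℝ) → (Fin n → ℝ)} (hf : ContDiff ℝ ∞ f)
    {W : Set (Fin n → ℝ)} (hW : IsOpen W) (hWb : IsBounded W)
    (hfr : ∀ x ∈ frontier W, f x ≠ 0)
    (hreg : ∀ x ∈ W, f x = 0 → (fderiv ℝ f x).det ≠ 0) :
    ∃ Z : Finset (Fin n → ℝ), (∀ z, z ∈ Z ↔ z ∈ W ∧ f z = 0) ∧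
      degR f W = ∑ z ∈ Z, (sg (fderiv ℝ f z).det : ℝ) := by
  obtain ⟨Z, hZ, Λ, hΛ, hJ⟩ := regular_formula hf hW hWb hfr hreg
  refine ⟨Z, hZ, ?_⟩
  obtain ⟨m, hm, hmb⟩ := exists_pos_lower_bound (frontier_compact hWb)
    hf.continuous.continuousOn hfr
  have hc : 0 < max Λ (3 / m) := lt_max_of_lt_left hΛ
  have hA : IsApprox f W (fun x => max Λ (3 / m) • f x) := by
    refine ⟨hf.const_smul _, max Λ (3 / m), hc, fun x hx => ?_, fun x _ => by simp only [sub_self, norm_zero, zero_le_one]⟩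
    have h1 := hmb x hx
    have h2 : 3 / m ≤ max Λ (3 / m) := le_max_right _ _
    calc (3 : ℝ) = 3 / m * m := by (clear * - hm; field_simp)
      _ ≤ max Λ (3 / m) * ‖f x‖ := by (clear * - h2 h1 hm hΛ; gcongr)
  rw [hA.degR_eq hW hWb, hJ _ (le_max_left _ _)]

lemma frontier_subset_of_pairwise {ι : Type*} {s : Finset ι} {U : ι → Set (Fin n → ℝ)}
    (hU : ∀ i ∈ s, IsOpen (U i)) (hd : (s : Set ι).PairwiseDisjoint U) {i : ι} (hi : i ∈ s)
    {x : Fin n → ℝ} (hx : x ∈ frontier (U i)) : ∀ j ∈ s, x ∉ U j := by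
  intro j hj hxj
  rw [(hU i hi).frontier_eq] at hx
  by_cases hij : i = j
  · subst hij; exact hx.2 hxj
  · have h1 : (U j ∩ U i).Nonempty := mem_closure_iff.1 hx.1 (U j) (hU j hj) hxj
    obtain ⟨z, hz1, hz2⟩ := h1
    exact disjoint_left.1 (hd hi hj hij) hz2 hz1

/-- additivity of the real-valued degree -/
lemma degR_sum {f : (Fin n → ℝ) → (Fin n → ℝ)} {W : Set (Fin n → ℝ)} (hWb : IsBounded W)
    (hW : IsOpen W) (hf : ContinuousOn f (closure W)) {ι : Type*} (s : Finset ι)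
    {U : ι → Set (Fin n → ℝ)} (hU : ∀ i ∈ s, IsOpen (U i)) (hUW : ∀ i ∈ s, U i ⊆ W)
    (hd : (s : Set ι).PairwiseDisjoint U)
    (h : ∀ x ∈ closure W, f x = 0 → ∃ i ∈ s, x ∈ U i) :
    degR f W = ∑ i ∈ s, degR f (U i) := by
  classical
  set K : Set (Fin n → ℝ) := closure W \ ⋃ i ∈ s, U i with hK
  have hKc : IsCompact K := (closure_compact hWb).diff (isOpen_biUnion fun i hi => hU i hi)
  obtain ⟨m, hm, hmb⟩ := exists_pos_lower_bound hKc (hf.mono sdiff_subset) (by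
    intro x hx hx0
    obtain ⟨i, hi, hxi⟩ := h x hx.1 hx0
    exact hx.2 (mem_iUnion₂.2 ⟨i, hi, hxi⟩))
  have hc : 0 < 3 / m := by positivity
  set c := 3 / m with hcdef
  have hcm : c * m = 3 := by rw [hcdef]; field_simp
  obtain ⟨g, hg, hg'⟩ := exists_smooth_approx (closure_compact hWb) (hf.const_smul c) one_pos
  have hlow : ∀ x ∈ K, 3 ≤ c * ‖f x‖ := by
    intro x hx
    rw [← hcm]
    exact mul_le_mul_of_nonneg_left (hmb x hx) hc.le
  have hKmem : ∀ x ∈ closure W, (∀ i ∈ s, x ∉ U i) → x ∈ K := by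
    intro x hx hxn
    refine ⟨hx, fun h2 => ?_⟩
    obtain ⟨i, hi, hxi⟩ := mem_iUnion₂.1 h2
    exact hxn i hi hxi
  have hfrW : ∀ x ∈ frontier W, x ∈ K := by
    intro x hx
    refine hKmem x (frontier_subset_closure hx) fun i hi hxi => ?_
    rw [hW.frontier_eq] at hx
    exact hx.2 (hUW i hi hxi)
  have hfrU : ∀ i ∈ s, ∀ x ∈ frontier (U i), x ∈ K := by
    intro i hi x hx
    exact hKmem x (closure_mono (hUW i hi) (frontier_subset_closure hx))
      (frontier_subset_of_pairwise hU hd hi hx)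
  have hA : IsApprox f W g :=
    ⟨hg, c, hc, fun x hx => hlow x (hfrW x hx), fun x hx => (hg' x hx).le⟩
  have hAi : ∀ i ∈ s, IsApprox f (U i) g := fun i hi =>
    ⟨hg, c, hc, fun x hx => hlow x (hfrU i hi x hx),
      fun x hx => (hg' x (closure_mono (hUW i hi) hx)).le⟩
  rw [hA.degR_eq hW hWb, J_sum hg hWb hW s hU hUW hd]
  · refine Finset.sum_congr rfl fun i hi => ?_
    rw [(hAi i hi).degR_eq (hU i hi) (hWb.subset (hUW i hi))]
  · intro x hx hxn
    have h1 := hlow x (hKmem x (subset_closure hx) hxn)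
    have h2 : ‖g x - c • f x‖ ≤ 1 := (hg' x (subset_closure hx)).le
    have h3 : ‖c • f x‖ = c * ‖f x‖ := by rw [norm_smul, Real.norm_eq_abs, abs_of_pos hc]
    have h4 : ‖c • f x‖ ≤ ‖g x‖ + ‖g x - c • f x‖ := by
      calc ‖c • f x‖ = ‖g x - (g x - c • f x)‖ := by congr 1; abel
        _ ≤ _ := norm_sub_le _ _
    linarith only [h1, h2, h3, h4]

lemma degR_empty_zero {f : (Fin n → ℝ) → (Fin n → ℝ)} {W : Set (Fin n → ℝ)} (hWb : IsBounded W)
    (hW : IsOpen W) (hf : ContinuousOn f (closure W)) (h : ∀ x ∈ closure W, f x ≠ 0) :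
    degR f W = 0 := by
  have := degR_sum hWb hW hf (∅ : Finset ℕ) (U := fun _ => ∅) (by simp only [Finset.notMem_empty, isOpen_empty, implies_true]) (by simp) (by simp)
    (fun x hx h0 => absurd h0 (h x hx))
  simpa using this

lemma degR_id_sub {W : Set (Fin n → ℝ)} (hWb : IsBounded W)
    (hW : IsOpen W) {y : Fin n → ℝ} (hy : y ∈ W) : degR (fun x => x - y) W = 1 := by
  have hf : ContDiff ℝ ∞ (fun x : Fin n → ℝ => x - y) := contDiff_id.sub contDiff_const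
  have hd : ∀ x : Fin n → ℝ, (fderiv ℝ (fun x : Fin n → ℝ => x - y) x).det = 1 := by
    intro x
    rw [fderiv_sub_const, fderiv_fun_id]
    exact LinearMap.det_id
  obtain ⟨Z, hZ, hZ'⟩ := degR_regular hf hW hWb (fun x hx h0 => by
    rw [hW.frontier_eq] at hx
    exact hx.2 (by rwa [sub_eq_zero.1 h0])) (fun x _ _ => by rw [hd]; norm_num)
  have hZe : Z = {y} := by
    ext z
    rw [hZ, Finset.mem_singleton]
    constructor
    · rintro ⟨-, h⟩; exact sub_eq_zero.1 h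
    · rintro rfl; exact ⟨hy, sub_self _⟩
  rw [hZ', hZe, Finset.sum_singleton, hd, sg_pos one_pos]
  norm_num

end Vale.Agent.P251.G
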