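import Vale.Agent.P251.G.BundleIso
import Mathlib.Topology.Homotopy.Contractible
import Mathlib.Analysis.Convex.Contractible
import Mathlib.Topology.Order.ProjIcc
import Mathlib.Topology.UnitInterval

/-!
# P251, part G: homotopy invariance of bundles

* `Bun.exists_transport`: parallel transport for a bundle over `X × I`, `X` compact;
* `Bun.exists_iso_of_homotopy`: pull backs along homotopic maps (compact source) are isomorphic;
* `Bun.exists_triv`: bundles over contractible compact spaces are trivial.
-/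

open Matrix Filter Topology

open scoped unitInterval

namespace Vale.Agent.P251.G

variable {X Y Z : Type} [TopologicalSpace X] [TopologicalSpace Y] [TopologicalSpace Z]
variable {ι κ μ : Type} [Fintype ι] [Fintype κ] [Fintype μ]

namespace Bun

section transport

variable [DecidableEq ι]

/-- the point `min t (k/N)` of the unit interval -/
noncomputable def clip (N : ℕ) (t : I) (k : ℕ) : I :=
  min t (Set.projIcc 0 1 zero_le_one ((k : ℝ) / N))

theorem clip_zero (N : ℕ) (t : I) : clip N t 0 = 0 := by
  unfold clip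
  rw [Nat.cast_zero, zero_div, Set.projIcc_left]
  exact min_eq_right bot_le

theorem clip_self {N : ℕ} (hN : 0 < N) (t : I) : clip N t N = t := by
  unfold clip
  rw [div_self (Nat.cast_ne_zero.mpr hN.ne'), Set.projIcc_right]
  exact min_eq_left le_top

theorem clip_zero_left (N : ℕ) (k : ℕ) : clip N 0 k = 0 := min_eq_left bot_le

theorem continuous_clip (N k : ℕ) : Continuous fun t : I => clip N t k :=
  continuous_id.min continuous_const

theorem abs_clip_sub {N : ℕ} (t : I) (k : ℕ) :
    |(clip N t (k + 1) : ℝ) - clip N t k| ≤ 1 / N := by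
  unfold clip
  have h1 : ∀ a b : I, ((min a b : I) : ℝ) = min (a : ℝ) b := fun a b => by
    rcases le_total a b with h | h
    · rw [min_eq_left h, min_eq_left (Subtype.coe_le_coe.mpr h)]
    · rw [min_eq_right h, min_eq_right (Subtype.coe_le_coe.mpr h)]
  rw [h1, h1]
  refine (abs_min_sub_min_le_max _ _ _ _).trans ?_
  rw [sub_self, abs_zero]
  refine max_le (by positivity) ?_
  refine (Set.abs_projIcc_sub_projIcc _).trans ?_
  rw [← sub_div, Nat.cast_add, Nat.cast_one, add_sub_cancel_left, abs_of_nonneg (by positivity)]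

theorem exists_delta [CompactSpace X] (V : Bun (X × I) ι) :
    ∃ δ : ℝ, 0 < δ ∧ ∀ (x : X) (s t : I), |(s : ℝ) - t| < δ →
      IsUnit (conjG (V.P (x, s)) (V.P (x, t))) := by
  let F : X × I × I → ℂ := fun q => (conjG (V.P (q.1, q.2.1)) (V.P (q.1, q.2.2))).det
  have hF : Continuous F := by
    refine Continuous.matrix_det (continuous_conjG.comp (Continuous.prodMk ?_ ?_))
    · exact V.cont.comp (by fun_prop)
    · exact V.cont.comp (by fun_prop)
  let K : Set (X × I × I) := F ⁻¹' {0}
  have hK : IsCompact K := (isClosed_singleton.preimage hF).isCompact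
  have hf : Continuous fun q : X × I × I => |(q.2.1 : ℝ) - q.2.2| := by fun_prop
  rcases K.eq_empty_or_nonempty with hE | hE
  · refine ⟨1, one_pos, fun x s t _ => ?_⟩
    rw [Matrix.isUnit_iff_isUnit_det, isUnit_iff_ne_zero]
    intro h
    have : (x, s, t) ∈ K := h
    rw [hE] at this
    exact this
  · obtain ⟨q, hq, hmin⟩ := hK.exists_isMinOn hE hf.continuousOn
    refine ⟨|(q.2.1 : ℝ) - q.2.2|, ?_, fun x s t hst => ?_⟩
    · rw [abs_pos, sub_ne_zero]
      intro h
      have h1 : q.2.1 = q.2.2 := Subtype.ext h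
      have h2 : F q = 0 := hq
      simp only [F] at h2
      rw [h1, conjG_self (V.idem _), det_one] at h2
      exact one_ne_zero h2
    · rw [Matrix.isUnit_iff_isUnit_det, isUnit_iff_ne_zero]
      intro h
      have h1 : (x, s, t) ∈ K := h
      exact absurd (hmin h1) (not_le.mpr hst)

/-- the transport along the first `k` of `N` steps -/
noncomputable def trans (V : Bun (X × I) ι) (N : ℕ) : ℕ → X × I → Matrix ι ι ℂ
  | 0, _ => 1
  | k + 1, q => conjG (V.P (q.1, clip N q.2 (k + 1))) (V.P (q.1, clip N q.2 k)) *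
      trans V N k q

theorem continuous_trans (V : Bun (X × I) ι) (N k : ℕ) : Continuous (V.trans N k) := by
  induction k with
  | zero => exact continuous_const
  | succ k ih =>
    refine Continuous.matrix_mul ?_ ih
    refine continuous_conjG.comp (Continuous.prodMk ?_ ?_)
    · exact V.cont.comp (continuous_fst.prodMk ((continuous_clip N (k + 1)).comp continuous_snd))
    · exact V.cont.comp (continuous_fst.prodMk ((continuous_clip N k).comp continuous_snd))

theorem trans_zero (V : Bun (X × I) ι) (N k : ℕ) (x : X) : V.trans N k (x, 0) = 1 := by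
  induction k with
  | zero => rfl
  | succ k ih =>
    rw [trans, ih, mul_one]
    simp only [clip_zero_left]
    exact conjG_self (V.idem _)

theorem trans_mul (V : Bun (X × I) ι) (N k : ℕ) (x : X) (t : I) :
    V.trans N k (x, t) * V.P (x, 0) = V.P (x, clip N t k) * V.trans N k (x, t) := by
  induction k with
  | zero => rw [trans, one_mul, mul_one, clip_zero]
  | succ k ih =>
    rw [trans, Matrix.mul_assoc, ih, ← Matrix.mul_assoc, conjG_mul (V.idem _) (V.idem _),
      Matrix.mul_assoc]

theorem isUnit_trans (V : Bun (X × I) ι) {N : ℕ} {δ : ℝ} (hN : 1 / (N : ℝ) < δ)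
    (h : ∀ (x : X) (s t : I), |(s : ℝ) - t| < δ →
      IsUnit (conjG (V.P (x, s)) (V.P (x, t)))) (k : ℕ) (q : X × I) : IsUnit (V.trans N k q) := by
  induction k with
  | zero => exact isUnit_one
  | succ k ih => exact (h _ _ _ ((abs_clip_sub q.2 k).trans_lt hN)).mul ih

/-- Parallel transport of a bundle over `X × I`, `X` compact. -/
theorem exists_transport [CompactSpace X] (V : Bun (X × I) ι) :
    ∃ L : X × I → Matrix ι ι ℂ, Continuous L ∧ (∀ x, L (x, 0) = 1) ∧ (∀ q, IsUnit (L q)) ∧
      ∀ x t, L (x, t) * V.P (x, 0) = V.P (x, t) * L (x, t) := by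
  obtain ⟨δ, hδ, h⟩ := V.exists_delta
  obtain ⟨n, hn⟩ := exists_nat_one_div_lt hδ
  have hn' : 1 / ((n + 1 : ℕ) : ℝ) < δ := by push_cast; exact hn
  refine ⟨V.trans (n + 1) (n + 1), V.continuous_trans _ _, V.trans_zero _ _,
    V.isUnit_trans hn' h _, fun x t => ?_⟩
  rw [trans_mul, clip_self (Nat.succ_pos n)]

/-- the pull back to `X × I` of the restriction to `X × {t}` -/
@[simps!] def restr (V : Bun (X × I) ι) (t : I) : Bun X ι :=
  V.pullback ⟨fun x => (x, t), by fun_prop⟩

/-- The family of isomorphisms given by parallel transport. -/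
theorem exists_isoFamily [CompactSpace X] (V : Bun (X × I) ι) :
    ∃ φ : BIso ((V.restr 0).pullback (⟨Prod.fst, continuous_fst⟩ : C(X × I, X))) V,
      ∀ x, φ.A (x, 0) = V.P (x, 0) := by
  obtain ⟨L, hL, h0, hu, h⟩ := V.exists_transport
  have hd : ∀ q, IsUnit (L q).det := fun q => (Matrix.isUnit_iff_isUnit_det _).mp (hu q)
  have hc : Continuous fun q : X × I => V.P (q.1, 0) := V.cont.comp (by fun_prop)
  have h' : ∀ x t, V.P (x, 0) * (L (x, t))⁻¹ = (L (x, t))⁻¹ * V.P (x, t) := by
    intro x t
    calc V.P (x, 0) * (L (x, t))⁻¹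
        = (L (x, t))⁻¹ * (L (x, t) * V.P (x, 0)) * (L (x, t))⁻¹ := by
          rw [← Matrix.mul_assoc, Matrix.nonsing_inv_mul _ (hd _), one_mul]
      _ = _ := by
          rw [h, Matrix.mul_assoc, Matrix.mul_assoc, Matrix.mul_nonsing_inv _ (hd _), mul_one]
  refine ⟨{ A := fun q => L q * V.P (q.1, 0)
            B := fun q => V.P (q.1, 0) * (L q)⁻¹
            contA := hL.matrix_mul hc
            contB := hc.matrix_mul (continuous_matrix_inv hL hu)
            WA := ?_
            VB := ?_
            BA := ?_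
            AB := ?_ }, ?_⟩
  · rintro ⟨x, t⟩
    change V.P (x, t) * (L (x, t) * V.P (x, 0)) = _
    rw [h, ← Matrix.mul_assoc, V.idem]
  · rintro ⟨x, t⟩
    change V.P (x, 0) * (V.P (x, 0) * (L (x, t))⁻¹) = _
    rw [← Matrix.mul_assoc, V.idem]
  · rintro ⟨x, t⟩
    change V.P (x, 0) * (L (x, t))⁻¹ * (L (x, t) * V.P (x, 0)) = V.P (x, 0)
    rw [Matrix.mul_assoc, ← Matrix.mul_assoc (L (x, t))⁻¹, Matrix.nonsing_inv_mul _ (hd _), one_mul,
      V.idem]
  · rintro ⟨x, t⟩
    change L (x, t) * V.P (x, 0) * (V.P (x, 0) * (L (x, t))⁻¹) = V.P (x, t)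
    rw [Matrix.mul_assoc, ← Matrix.mul_assoc (V.P (x, 0)), V.idem, h', ← Matrix.mul_assoc,
      Matrix.mul_nonsing_inv _ (hd _), one_mul]
  · intro x
    change L (x, 0) * V.P (x, 0) = V.P (x, 0)
    rw [h0, one_mul]

/-- Restrictions to `X × {0}` and `X × {t}` are isomorphic. -/
theorem exists_iso_restr [CompactSpace X] (V : Bun (X × I) ι) (t : I) :
    Nonempty (BIso (V.restr 0) (V.restr t)) := by
  obtain ⟨φ, -⟩ := V.exists_isoFamily
  exact ⟨φ.pullback ⟨fun x => (x, t), by fun_prop⟩⟩

end transport

/-- Pull backs along homotopic maps with compact source are isomorphic. -/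
theorem exists_iso_of_homotopic [CompactSpace X] (V : Bun Y ι) {f g : C(X, Y)}
    (h : f.Homotopic g) : Nonempty (BIso (V.pullback f) (V.pullback g)) := by
  classical
  obtain ⟨H⟩ := h
  let H' : C(X × I, Y) := ⟨fun q => H (q.2, q.1), by fun_prop⟩
  obtain ⟨φ⟩ := (V.pullback H').exists_iso_restr 1
  have h0 : (V.pullback H').restr 0 = V.pullback f := by
    apply Bun.ext
    funext x
    exact congrArg V.P (H.apply_zero x)
  have h1 : (V.pullback H').restr 1 = V.pullback g := by
    apply Bun.ext
    funext x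
    exact congrArg V.P (H.apply_one x)
  rw [h0, h1] at φ
  exact ⟨φ⟩

/-- A bundle pulled back from a point is trivial. -/
theorem exists_triv_const (V : Bun Y ι) (y : Y) :
    ∃ r : ℕ, Nonempty (BIso (triv X (Fin r)) (V.pullback (ContinuousMap.const X y))) ∧
      (V.P y).trace = r := by
  obtain ⟨r, B, h1, h2⟩ := exists_frame (V.idem y) (V.herm y)
  refine ⟨r, ⟨{ A := fun _ => B
                B := fun _ => Bᴴ
                contA := continuous_const
                contB := continuous_const
                WA := fun x => ?_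
                VB := fun x => ?_
                BA := fun x => ?_
                AB := fun x => ?_ }⟩, ?_⟩
  · change V.P y * B = B
    rw [← h1, Matrix.mul_assoc, h2, Matrix.mul_one]
  · rw [triv_P, Matrix.one_mul]
  · exact h2
  · exact h1
  · rw [← h1, trace_mul_comm, h2, trace_one, Fintype.card_fin]

/-- Bundles over contractible compact spaces are trivial. -/
theorem exists_triv [CompactSpace X] [ContractibleSpace X] (V : Bun X ι) :
    ∃ r : ℕ, Nonempty (BIso (triv X (Fin r)) V) ∧ V.IsRank r := by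
  obtain ⟨x0, hx0⟩ := id_nullhomotopic X
  obtain ⟨φ⟩ := V.exists_iso_of_homotopic hx0.symm
  obtain ⟨r, ⟨ψ⟩, hr⟩ := V.exists_triv_const (X := X) x0
  have h1 : V.pullback (ContinuousMap.id X) = V := rfl
  rw [h1] at φ
  refine ⟨r, ⟨ψ.trans φ⟩, (ψ.trans φ).isRank ?_⟩
  intro x
  rw [triv_P, trace_one, Fintype.card_fin]

/-- Bundles over `Y × C`, `C` contractible compact, `Y` compact, are pulled back from `Y`. -/
theorem exists_iso_prod [CompactSpace Y] {C : Type} [TopologicalSpace C] [CompactSpace C]
    [ContractibleSpace C] (V : Bun (Y × C) ι) :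
    ∃ c : C, Nonempty (BIso (V.pullback ⟨fun q => (q.1, c), by fun_prop⟩) V) := by
  obtain ⟨c, ⟨H⟩⟩ := id_nullhomotopic C
  refine ⟨c, ?_⟩
  let f : C(Y × C, Y × C) := ⟨fun q => (q.1, c), by fun_prop⟩
  have h : f.Homotopic (ContinuousMap.id (Y × C)) := by
    refine ⟨⟨⟨fun q => (q.2.1, H (σ q.1, q.2.2)), by fun_prop⟩, ?_, ?_⟩⟩
    · intro q
      change (q.1, H (σ 0, q.2)) = (q.1, c)
      rw [unitInterval.symm_zero, H.apply_one]
      rfl
    · intro q
      change (q.1, H (σ 1, q.2)) = q
      rw [unitInterval.symm_one, H.apply_zero]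
      rfl
  exact V.exists_iso_of_homotopic h

end Bun

end Vale.Agent.P251.G
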