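import Vale.Agent.P251.G.ProjAlg
import Vale.Agent.P251.G.SphereBundle

/-!
# P251, part G: isomorphisms of bundles

`BIso V W`: isomorphism of bundles over the same base (continuous families of matrices `A`, `B`
normalised by the projections).  Homeomorphisms of total spaces, sphere bundles, disc bundles
(norm preserving by radial rescaling), image bundle of an injective family.
-/

open Matrix Filter Topology CategoryTheory MonoidalCategory

namespace Vale.Agent.P251.G

variable {X Y Z : Type} [TopologicalSpace X] [TopologicalSpace Y] [TopologicalSpace Z]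
variable {ι κ μ : Type} [Fintype ι] [Fintype κ] [Fintype μ]

theorem continuous_matrix_inv [DecidableEq ι] {A : X → Matrix ι ι ℂ} (hA : Continuous A)
    (h : ∀ x, IsUnit (A x)) : Continuous fun x => (A x)⁻¹ := by
  rw [continuous_iff_continuousAt]
  intro x
  have hd : IsUnit (A x).det := (Matrix.isUnit_iff_isUnit_det _).mp (h x)
  have h1 : ContinuousAt Ring.inverse (A x).det := by
    rw [Ring.inverse_eq_inv']
    exact continuousAt_inv₀ hd.ne_zero
  exact ContinuousAt.comp (f := A) (continuousAt_matrix_inv _ h1) hA.continuousAt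

/-- Projections with `R Q = Q` and equal traces are equal. -/
theorem proj_eq_of_trace {Q R : Matrix ι ι ℂ} (hQ : Q * Q = Q) (hQH : Qᴴ = Q) (hR : R * R = R)
    (hRH : Rᴴ = R) (h : R * Q = Q) (ht : Q.trace = R.trace) : Q = R := by
  have h' : Q * R = Q := by
    have := congrArg conjTranspose h
    rwa [conjTranspose_mul, hQH, hRH] at this
  have h1 : (R - Q)ᴴ * (R - Q) = R - Q := by
    rw [conjTranspose_sub, hQH, hRH, sub_mul, mul_sub, mul_sub, hR, h, h', hQ, sub_self, sub_zero]
  have h2 : ((R - Q)ᴴ * (R - Q)).trace = 0 := by rw [h1, trace_sub, ht, sub_self]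
  have h3 := (proj_trace_aux (R - Q)).mp h2
  exact (sub_eq_zero.mp h3).symm
where
  proj_trace_aux (M : Matrix ι ι ℂ) : (Mᴴ * M).trace = 0 ↔ M = 0 := by
    open scoped ComplexOrder in
    exact Matrix.trace_conjTranspose_mul_self_eq_zero_iff

/-- An isomorphism of bundles over the same base. -/
structure BIso (V : Bun X ι) (W : Bun X κ) where
  /-- the isomorphism (zero on the orthogonal complement) -/
  A : X → Matrix κ ι ℂ
  /-- the inverse -/
  B : X → Matrix ι κ ℂ
  contA : Continuous A
  contB : Continuous B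
  WA : ∀ x, W.P x * A x = A x
  VB : ∀ x, V.P x * B x = B x
  BA : ∀ x, B x * A x = V.P x
  AB : ∀ x, A x * B x = W.P x

namespace BIso

open Bun

variable {V : Bun X ι} {W : Bun X κ} {U : Bun X μ}

theorem AV (φ : BIso V W) (x : X) : φ.A x * V.P x = φ.A x := by
  rw [← φ.BA, ← Matrix.mul_assoc, φ.AB, φ.WA]

theorem BW (φ : BIso V W) (x : X) : φ.B x * W.P x = φ.B x := by
  rw [← φ.AB, ← Matrix.mul_assoc, φ.BA, φ.VB]

/-- identity -/
@[simps] def refl (V : Bun X ι) : BIso V V where
  A := V.P
  B := V.P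
  contA := V.cont
  contB := V.cont
  WA := V.idem
  VB := V.idem
  BA := V.idem
  AB := V.idem

/-- inverse -/
@[simps] def symm (φ : BIso V W) : BIso W V where
  A := φ.B
  B := φ.A
  contA := φ.contB
  contB := φ.contA
  WA := φ.VB
  VB := φ.WA
  BA := φ.AB
  AB := φ.BA

/-- composition -/
@[simps] def trans (φ : BIso V W) (ψ : BIso W U) : BIso V U where
  A x := ψ.A x * φ.A x
  B x := φ.B x * ψ.B x
  contA := ψ.contA.matrix_mul φ.contA
  contB := φ.contB.matrix_mul ψ.contB
  WA x := by rw [← Matrix.mul_assoc, ψ.WA]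
  VB x := by rw [← Matrix.mul_assoc, φ.VB]
  BA x := by
    rw [Matrix.mul_assoc, ← Matrix.mul_assoc (ψ.B x), ψ.BA, φ.WA, φ.BA]
  AB x := by
    rw [Matrix.mul_assoc, ← Matrix.mul_assoc (φ.A x), φ.AB, ψ.VB, ψ.AB]

/-- pull back -/
@[simps] def pullback (φ : BIso V W) (f : C(Y, X)) : BIso (V.pullback f) (W.pullback f) where
  A y := φ.A (f y)
  B y := φ.B (f y)
  contA := φ.contA.comp f.continuous
  contB := φ.contB.comp f.continuous
  WA _ := φ.WA _
  VB _ := φ.VB _
  BA _ := φ.BA _
  AB _ := φ.AB _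

/-- direct sum -/
@[simps] def sum {ι' κ' : Type} [Fintype ι'] [Fintype κ'] {V' : Bun X ι'} {W' : Bun X κ'}
    (φ : BIso V W) (ψ : BIso V' W') : BIso (V.sum V') (W.sum W') where
  A x := fromBlocks (φ.A x) 0 0 (ψ.A x)
  B x := fromBlocks (φ.B x) 0 0 (ψ.B x)
  contA := φ.contA.matrix_fromBlocks continuous_const continuous_const ψ.contA
  contB := φ.contB.matrix_fromBlocks continuous_const continuous_const ψ.contB
  WA x := by rw [sum_P, fromBlocks_multiply]; simp [φ.WA, ψ.WA]
  VB x := by rw [sum_P, fromBlocks_multiply]; simp [φ.VB, ψ.VB]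
  BA x := by rw [sum_P, fromBlocks_multiply]; simp [φ.BA, ψ.BA]
  AB x := by rw [sum_P, fromBlocks_multiply]; simp [φ.AB, ψ.AB]

theorem isRank (φ : BIso V W) {n : ℕ} (h : V.IsRank n) : W.IsRank n := by
  intro x
  rw [← φ.AB, trace_mul_comm, φ.BA, h x]

/-- the underlying bundle map -/
@[simps A f] def toBMap (φ : BIso V W) : BMap V W where
  f := ContinuousMap.id X
  A := φ.A
  contA := φ.contA
  maps x v _ := by rw [mulVec_mulVec]; exact congrArg (· *ᵥ v) (φ.WA x)
  inj x v hv h := by
    rw [← hv, ← φ.BA, ← mulVec_mulVec, h, mulVec_zero]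

/-- the map of total spaces -/
def toFun (φ : BIso V W) (p : V.E) : W.E := φ.toBMap.toFun p

@[simp] theorem base_toFun (φ : BIso V W) (p : V.E) : Bun.base (φ.toFun p) = Bun.base p := rfl
@[simp] theorem vec_toFun (φ : BIso V W) (p : V.E) :
    Bun.vec (φ.toFun p) = φ.A (Bun.base p) *ᵥ Bun.vec p := rfl

@[fun_prop] theorem continuous_toFun (φ : BIso V W) : Continuous φ.toFun :=
  φ.toBMap.continuous_toFun

theorem symm_toFun_toFun (φ : BIso V W) (p : V.E) : φ.symm.toFun (φ.toFun p) = p := by
  refine E_ext rfl ?_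
  rw [vec_toFun, vec_toFun, base_toFun, mulVec_mulVec, symm_A, φ.BA, Bun.P_vec]

/-- the homeomorphism of total spaces -/
def homeo (φ : BIso V W) : V.E ≃ₜ W.E where
  toFun := φ.toFun
  invFun := φ.symm.toFun
  left_inv := φ.symm_toFun_toFun
  right_inv := φ.symm.symm_toFun_toFun
  continuous_toFun := φ.continuous_toFun
  continuous_invFun := φ.symm.continuous_toFun

@[simp] theorem homeo_apply (φ : BIso V W) (p : V.E) : φ.homeo p = φ.toFun p := rfl
@[simp] theorem homeo_symm_apply (φ : BIso V W) (p : W.E) : φ.homeo.symm p = φ.symm.toFun p := rfl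

/-- the isomorphism of Thom spaces -/
def totIso [LocallyCompactSpace X] [T2Space X] (φ : BIso V W) : V.tot ≅ W.tot :=
  LC.ofHomeo (X := V.tot) (Y := W.tot) φ.homeo

@[simp] theorem app_totIso_hom_coe [LocallyCompactSpace X] [T2Space X] (φ : BIso V W) (p : V.E) :
    LC.app φ.totIso.hom (p : OnePoint V.E) = (φ.toFun p : OnePoint W.E) := rfl

@[simp] theorem app_totIso_inv_coe [LocallyCompactSpace X] [T2Space X] (φ : BIso V W) (p : W.E) :
    LC.app φ.totIso.inv (p : OnePoint W.E) = (φ.symm.toFun p : OnePoint V.E) := rfl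

/-! ### Norm preserving version -/

theorem toFun_ne_zero (φ : BIso V W) {p : V.E} (h : Bun.vec p ≠ 0) : Bun.vec (φ.toFun p) ≠ 0 :=
  fun h' => h (φ.toBMap.inj _ _ (Bun.P_vec p) h')

theorem vec_toFun_eq_zero (φ : BIso V W) {p : V.E} :
    Bun.vec (φ.toFun p) = 0 ↔ Bun.vec p = 0 := by
  constructor
  · intro h; by_contra h'; exact φ.toFun_ne_zero h' h
  · intro h; rw [vec_toFun, h, mulVec_zero]

theorem toFun_rsmul (φ : BIso V W) (c : ℝ) (p : V.E) :
    φ.toFun (Bun.rsmul c p) = Bun.rsmul c (φ.toFun p) := by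
  refine E_ext rfl ?_
  rw [vec_toFun, vec_rsmul, vec_rsmul, vec_toFun, mulVec_smul, base_rsmul]

/-- the norm preserving map with the same directions -/
noncomputable def radialFun (φ : BIso V W) (p : V.E) : W.E :=
  Bun.rsmul ((Bun.len p : ℝ) / (Bun.len (φ.toFun p) : ℝ)) (φ.toFun p)

@[simp] theorem base_radialFun (φ : BIso V W) (p : V.E) :
    Bun.base (φ.radialFun p) = Bun.base p := rfl

theorem nsq_radialFun (φ : BIso V W) (p : V.E) :
    nsq (Bun.vec (φ.radialFun p)) = nsq (Bun.vec p) := by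
  rw [radialFun, nsq_rsmul, ← coe_len_sq, ← coe_len_sq, div_pow]
  by_cases h : Bun.vec p = 0
  · rw [len_eq_zero.mpr h]; simp
  · have h1 : (Bun.len (φ.toFun p) : ℝ) ≠ 0 :=
      NNReal.coe_ne_zero.mpr (len_pos (φ.toFun_ne_zero h)).ne'
    field_simp

theorem len_radialFun (φ : BIso V W) (p : V.E) : Bun.len (φ.radialFun p) = Bun.len p := by
  apply NNReal.coe_injective
  change Real.sqrt _ = Real.sqrt _
  rw [nsq_radialFun]

theorem len_rsmul {c : ℝ} (hc : 0 ≤ c) (p : V.E) :
    (Bun.len (Bun.rsmul c p) : ℝ) = c * Bun.len p := by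
  change Real.sqrt (nsq (Bun.vec (Bun.rsmul c p))) = c * Real.sqrt (nsq (Bun.vec p))
  rw [nsq_rsmul, Real.sqrt_mul (sq_nonneg c), Real.sqrt_sq hc]

theorem rsmul_rsmul (a b : ℝ) (p : V.E) : Bun.rsmul a (Bun.rsmul b p) = Bun.rsmul (a * b) p := by
  refine E_ext rfl ?_
  rw [vec_rsmul, vec_rsmul, vec_rsmul, smul_smul]

theorem radialFun_rsmul (φ : BIso V W) {c : ℝ} (hc : 0 ≤ c) (p : V.E) :
    φ.radialFun (Bun.rsmul c p) = Bun.rsmul c (φ.radialFun p) := by
  rw [radialFun, radialFun, toFun_rsmul, len_rsmul hc, len_rsmul hc, rsmul_rsmul, rsmul_rsmul]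
  by_cases h : c = 0
  · subst h; congr 1; simp
  · congr 1
    by_cases h' : (Bun.len (φ.toFun p) : ℝ) = 0
    · rw [h']; simp
    · field_simp

theorem symm_radialFun_radialFun (φ : BIso V W) (p : V.E) :
    φ.symm.radialFun (φ.radialFun p) = p := by
  rw [radialFun, len_radialFun]
  unfold radialFun
  rw [toFun_rsmul, symm_toFun_toFun, rsmul_rsmul, len_rsmul (by positivity)]
  refine E_ext rfl ?_
  rw [vec_rsmul]
  by_cases h : Bun.vec p = 0
  · rw [h, smul_zero]
  · have h1 : (Bun.len (φ.toFun p) : ℝ) ≠ 0 :=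
      NNReal.coe_ne_zero.mpr (len_pos (φ.toFun_ne_zero h)).ne'
    have h2 : (Bun.len p : ℝ) ≠ 0 := NNReal.coe_ne_zero.mpr (len_pos h).ne'
    have h3 : (Bun.len p : ℝ) / ((Bun.len p : ℝ) / (Bun.len (φ.toFun p) : ℝ) * (Bun.len p : ℝ)) *
        ((Bun.len p : ℝ) / (Bun.len (φ.toFun p) : ℝ)) = 1 := by
      field_simp
    rw [h3, one_smul]

theorem continuous_radialFun (φ : BIso V W) : Continuous φ.radialFun := by
  refine continuous_E_iff.mpr ⟨continuous_base, ?_⟩
  rw [continuous_iff_continuousAt]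
  intro p
  have hl : Continuous fun p : V.E => (Bun.len p : ℝ) :=
    NNReal.continuous_coe.comp continuous_len
  have hl' : Continuous fun p : V.E => (Bun.len (φ.toFun p) : ℝ) :=
    NNReal.continuous_coe.comp (continuous_len.comp φ.continuous_toFun)
  by_cases h : Bun.vec p = 0
  · have h0 : Bun.vec (φ.radialFun p) = 0 := by
      rw [← nsq_eq_zero, nsq_radialFun, h, nsq_zero]
    rw [ContinuousAt, h0, tendsto_zero_iff_norm_tendsto_zero]
    have h1 : ∀ q : V.E, ‖Bun.vec (φ.radialFun q)‖ ≤ Bun.len q := by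
      intro q
      have h2 := norm_sq_le_nsq (Bun.vec (φ.radialFun q))
      rw [nsq_radialFun, ← coe_len_sq] at h2
      exact le_of_sq_le_sq h2 (NNReal.coe_nonneg _)
    have h3 : Tendsto (fun q : V.E => (Bun.len q : ℝ)) (𝓝 p) (𝓝 0) := by
      have := hl.tendsto p
      rwa [len_eq_zero.mpr h, NNReal.coe_zero] at this
    exact squeeze_zero (fun q => norm_nonneg _) h1 h3
  · have h1 : (Bun.len (φ.toFun p) : ℝ) ≠ 0 :=
      NNReal.coe_ne_zero.mpr (len_pos (φ.toFun_ne_zero h)).ne'
    have h2 : Continuous fun q : V.E => Bun.vec (φ.toFun q) :=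
      Bun.continuous_vec.comp φ.continuous_toFun
    exact (hl.continuousAt.div hl'.continuousAt h1).smul h2.continuousAt
where
  le_of_sq_le_sq {a b : ℝ} (h : a ^ 2 ≤ b ^ 2) (hb : 0 ≤ b) : a ≤ b :=
    (abs_le_of_sq_le_sq' h hb).2

/-- norm preserving homeomorphism of total spaces -/
noncomputable def radial (φ : BIso V W) : V.E ≃ₜ W.E where
  toFun := φ.radialFun
  invFun := φ.symm.radialFun
  left_inv := φ.symm_radialFun_radialFun
  right_inv := φ.symm.symm_radialFun_radialFun
  continuous_toFun := φ.continuous_radialFun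
  continuous_invFun := φ.symm.continuous_radialFun

@[simp] theorem radial_apply (φ : BIso V W) (p : V.E) : φ.radial p = φ.radialFun p := rfl

/-- the map of sphere bundles -/
noncomputable def sphFun (φ : BIso V W) (s : V.Sph) : W.Sph :=
  ⟨φ.radialFun s.1, (φ.nsq_radialFun s.1).trans s.2⟩

/-- the map of disc bundles -/
noncomputable def discFun (φ : BIso V W) (s : V.Disc) : W.Disc :=
  ⟨φ.radialFun s.1, (φ.nsq_radialFun s.1).le.trans s.2⟩

theorem continuous_sphFun (φ : BIso V W) : Continuous φ.sphFun :=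
  (φ.continuous_radialFun.comp continuous_subtype_val).subtype_mk _

theorem continuous_discFun (φ : BIso V W) : Continuous φ.discFun :=
  (φ.continuous_radialFun.comp continuous_subtype_val).subtype_mk _

/-- homeomorphism of sphere bundles -/
noncomputable def sphHomeo (φ : BIso V W) : V.Sph ≃ₜ W.Sph where
  toFun := φ.sphFun
  invFun := φ.symm.sphFun
  left_inv s := Subtype.ext (φ.symm_radialFun_radialFun s.1)
  right_inv s := Subtype.ext (φ.symm.symm_radialFun_radialFun s.1)
  continuous_toFun := φ.continuous_sphFun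
  continuous_invFun := φ.symm.continuous_sphFun

/-- homeomorphism of disc bundles -/
noncomputable def discHomeo (φ : BIso V W) : V.Disc ≃ₜ W.Disc where
  toFun := φ.discFun
  invFun := φ.symm.discFun
  left_inv s := Subtype.ext (φ.symm_radialFun_radialFun s.1)
  right_inv s := Subtype.ext (φ.symm.symm_radialFun_radialFun s.1)
  continuous_toFun := φ.continuous_discFun
  continuous_invFun := φ.symm.continuous_discFun

end BIso

namespace Bun

/-! ### Image of an injective family -/

section

variable [DecidableEq ι] (V : Bun X ι) (A : X → Matrix κ ι ℂ) (hA : Continuous A)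
  (inj : ∀ x v, V.P x *ᵥ v = v → A x *ᵥ v = 0 → v = 0)

include inj in
theorem isUnit_gram (x : X) : IsUnit (gramM (A x * V.P x) (V.P x)) :=
  isUnit_gramM (V.idem x) (V.herm x) fun v hv h0 => inj x v hv (by
    rw [← mulVec_mulVec, hv] at h0; exact h0)

theorem mul_P_mul_P (x : X) : A x * V.P x * V.P x = A x * V.P x := by
  rw [Matrix.mul_assoc, V.idem]

/-- the image of a bundle under an injective family of linear maps -/
noncomputable def im : Bun X κ where
  P x := imProj (A x * V.P x) (V.P x)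
  cont := by
    have h1 : Continuous fun x => A x * V.P x := hA.matrix_mul V.cont
    have h2 : Continuous fun x => gramM (A x * V.P x) (V.P x) :=
      (h1.matrix_conjTranspose.matrix_mul h1).add (continuous_const.sub V.cont)
    exact (h1.matrix_mul (continuous_matrix_inv h2 (V.isUnit_gram A inj))).matrix_mul
      h1.matrix_conjTranspose
  idem x := imProj_idem (V.idem x) (V.mul_P_mul_P A x) (V.isUnit_gram A inj x)
  herm x := imProj_herm (V.herm x)

theorem im_P (x : X) : (V.im A hA inj).P x = imProj (A x * V.P x) (V.P x) := rfl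

/-- a bundle is isomorphic to its image under an injective family -/
noncomputable def imIso : BIso V (V.im A hA inj) where
  A x := A x * V.P x
  B x := imInv (A x * V.P x) (V.P x)
  contA := hA.matrix_mul V.cont
  contB := by
    have h1 : Continuous fun x => A x * V.P x := hA.matrix_mul V.cont
    have h2 : Continuous fun x => gramM (A x * V.P x) (V.P x) :=
      (h1.matrix_conjTranspose.matrix_mul h1).add (continuous_const.sub V.cont)
    exact (continuous_matrix_inv h2 (V.isUnit_gram A inj)).matrix_mul h1.matrix_conjTranspose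
  WA x := imProj_mul (V.idem x) (V.mul_P_mul_P A x) (V.isUnit_gram A inj x)
  VB x := mul_imInv_self (V.idem x) (V.herm x) (V.mul_P_mul_P A x) (V.isUnit_gram A inj x)
  BA x := imInv_mul (V.idem x) (V.mul_P_mul_P A x) (V.isUnit_gram A inj x)
  AB x := mul_imInv

@[simp] theorem imIso_A (x : X) : (V.imIso A hA inj).A x = A x * V.P x := rfl

theorem im_P_eq_of_isometry (x : X) (h : (A x)ᴴ * A x = V.P x) :
    (V.im A hA inj).P x = A x * (A x)ᴴ := by
  have h1 : A x * V.P x = A x := mul_of_isometry h (V.herm x) (V.idem x)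
  rw [im_P, h1, imProj_isometry h]

end

/-- An injective family between bundles of the same rank is an isomorphism. -/
noncomputable def isoOfInj [DecidableEq ι] (V : Bun X ι) (W : Bun X κ) (A : X → Matrix κ ι ℂ)
    (hA : Continuous A)
    (hW : ∀ x v, V.P x *ᵥ v = v → W.P x *ᵥ (A x *ᵥ v) = A x *ᵥ v)
    (inj : ∀ x v, V.P x *ᵥ v = v → A x *ᵥ v = 0 → v = 0)
    (ht : ∀ x, (V.P x).trace = (W.P x).trace) : BIso V W :=
  have hW' : ∀ x, W.P x * (A x * V.P x) = A x * V.P x := fun x => by
    refine Matrix.ext_of_mulVec_single fun i => ?_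
    rw [← mulVec_mulVec, ← mulVec_mulVec]
    exact hW x _ (V.P_mulVec_mulVec x _)
  have hP : ∀ x, (V.im A hA inj).P x = W.P x := fun x => by
    refine proj_eq_of_trace ((V.im A hA inj).idem x) ((V.im A hA inj).herm x) (W.idem x)
      (W.herm x) ?_ ?_
    · rw [im_P, imProj, ← Matrix.mul_assoc, ← Matrix.mul_assoc, hW']
    · rw [im_P, imProj_trace (V.idem x) (V.mul_P_mul_P A x) (V.isUnit_gram A inj x), ht]
  { A := fun x => A x * V.P x
    B := (V.imIso A hA inj).B
    contA := hA.matrix_mul V.cont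
    contB := (V.imIso A hA inj).contB
    WA := hW'
    VB := (V.imIso A hA inj).VB
    BA := (V.imIso A hA inj).BA
    AB := fun x => by rw [← hP]; exact (V.imIso A hA inj).AB x }

@[simp] theorem isoOfInj_A [DecidableEq ι] (V : Bun X ι) (W : Bun X κ) (A : X → Matrix κ ι ℂ)
    (hA : Continuous A)
    (hW : ∀ x v, V.P x *ᵥ v = v → W.P x *ᵥ (A x *ᵥ v) = A x *ᵥ v)
    (inj : ∀ x v, V.P x *ᵥ v = v → A x *ᵥ v = 0 → v = 0)
    (ht : ∀ x, (V.P x).trace = (W.P x).trace) (x : X) :
    (V.isoOfInj W A hA hW inj ht).A x = A x * V.P x := rfl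

end Bun

end Vale.Agent.P251.G
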