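import Mathlib.Analysis.Convex.GaugeRescale
import Mathlib.Analysis.InnerProductSpace.PiL2
import Mathlib.Analysis.Normed.Module.FiniteDimension
import Mathlib.Analysis.Normed.Module.Convex
import Mathlib.Topology.Compactness.Compact

/-!
# Relative cell structures by closed subsets

Everything happens inside one fixed space `X`.  `CellStep a B C` says that the subset `C` is
obtained from the subset `B` by attaching one cell of dimension `a`, and `CellChain D B C` says
that `C` is obtained from `B` by attaching finitely many cells, whose dimensions lie in `D`.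
-/

namespace Vale.Agent.P251.G.Cell

open Set Metric Topology

/-- The Euclidean space of dimension `a`. -/
abbrev Euc (a : ℕ) : Type := EuclideanSpace ℝ (Fin a)

/-- `C` is obtained from `B` by attaching one cell of dimension `a` (all inside `X`). -/
def CellStep {X : Type} [TopologicalSpace X] (a : ℕ) (B C : Set X) : Prop :=
  B ⊆ C ∧ ∃ φ : Euc a → X, ContinuousOn φ (closedBall 0 1) ∧ MapsTo φ (sphere 0 1) B ∧
    InjOn φ (ball 0 1) ∧ φ '' ball 0 1 = C \ B

/-- `C` is obtained from `B` by attaching finitely many cells with dimensions in `D`. -/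
inductive CellChain {X : Type} [TopologicalSpace X] (D : Set ℕ) : Set X → Set X → Prop
  | refl (A : Set X) : CellChain D A A
  | step {A B C : Set X} {a : ℕ} (ha : a ∈ D) (h : CellChain D A B) (hs : CellStep a B C) :
      CellChain D A C

/-- Any convex body of dimension `a` is homeomorphic to the Euclidean ball (ambiently). -/
theorem exists_body_homeo {E : Type} [NormedAddCommGroup E] [NormedSpace ℝ E]
    [FiniteDimensional ℝ E] {a : ℕ} (hE : Module.finrank ℝ E = a) {K : Set E}
    (hK : Convex ℝ K) (hc : IsCompact K) (hne : (interior K).Nonempty) :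
    ∃ g : E ≃ₜ Euc a, g '' interior K = ball 0 1 ∧ g '' K = closedBall 0 1 ∧
      g '' frontier K = sphere 0 1 := by
  have hfr : Module.finrank ℝ E = Module.finrank ℝ (Euc a) := by simp [hE]
  let e : E ≃L[ℝ] Euc a := ContinuousLinearEquiv.ofFinrankEq hfr
  have he : ∀ s : Set E, e '' s = e.toHomeomorph '' s := fun s => rfl
  have hint : interior (e '' K) = e '' interior K := by
    rw [he, he, Homeomorph.image_interior]
  have hcl : closure (e '' K) = e '' K := by
    rw [he, ← Homeomorph.image_closure, hc.isClosed.closure_eq]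
  have hfront : frontier (e '' K) = e '' frontier K := by
    rw [he, he, Homeomorph.image_frontier]
  have hK' : Convex ℝ (e '' K) := hK.is_linear_image e.toLinearMap.isLinear
  have hc' : IsCompact (e '' K) := hc.image e.continuous
  have hne' : (interior (e '' K)).Nonempty := by rw [hint]; exact hne.image _
  obtain ⟨h, h1, h2, h3⟩ :=
    exists_homeomorph_image_interior_closure_frontier_eq_unitBall hK' hne' hc'.isBounded
  refine ⟨e.toHomeomorph.trans h, ?_, ?_, ?_⟩
  · rw [← h1, hint, ← image_comp]; rfl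
  · rw [← h2, hcl, ← image_comp]; rfl
  · rw [← h3, hfront, ← image_comp]; rfl

section Step

variable {X Y : Type} [TopologicalSpace X] [TopologicalSpace Y]

theorem CellStep.subset {a : ℕ} {B C : Set X} (h : CellStep a B C) : B ⊆ C := h.1

/-- A cell step from a convex body in any real normed space of the right dimension. -/
theorem CellStep.of_body {E : Type} [NormedAddCommGroup E] [NormedSpace ℝ E]
    [FiniteDimensional ℝ E] {a : ℕ} (hE : Module.finrank ℝ E = a) {K : Set E}
    (hK : Convex ℝ K) (hc : IsCompact K) (hne : (interior K).Nonempty) {B C : Set X}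
    (hBC : B ⊆ C) (φ : E → X) (hφ : ContinuousOn φ K) (hs : MapsTo φ (frontier K) B)
    (hi : InjOn φ (interior K)) (him : φ '' interior K = C \ B) : CellStep a B C := by
  obtain ⟨g, h1, h2, h3⟩ := exists_body_homeo hE hK hc hne
  refine ⟨hBC, φ ∘ g.symm, ?_, ?_, ?_, ?_⟩
  · refine hφ.comp g.symm.continuous.continuousOn ?_
    rw [← h2]
    rintro _ ⟨x, hx, rfl⟩
    simpa using hx
  · rw [← h3]
    rintro _ ⟨x, hx, rfl⟩
    simpa using hs hx
  · rw [← h1]
    rintro _ ⟨x, hx, rfl⟩ _ ⟨y, hy, rfl⟩ hxy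
    simp only [Function.comp_apply, Homeomorph.symm_apply_apply] at hxy
    rw [hi hx hy hxy]
  · rw [← h1, ← him]
    ext x
    simp

theorem CellStep.isClosed [T2Space X] {a : ℕ} {B C : Set X} (h : CellStep a B C)
    (hB : IsClosed B) : IsClosed C := by
  obtain ⟨hBC, φ, h1, h2, h3, h4⟩ := h
  have : C = B ∪ φ '' closedBall 0 1 := by
    apply Subset.antisymm
    · intro x hx
      by_cases hxB : x ∈ B
      · exact Or.inl hxB
      · right
        have : x ∈ φ '' ball 0 1 := by rw [h4]; exact ⟨hx, hxB⟩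
        exact image_mono ball_subset_closedBall this
    · rintro x (hx | ⟨y, hy, rfl⟩)
      · exact hBC hx
      · rcases (mem_closedBall.1 hy).lt_or_eq with hy' | hy'
        · have : φ y ∈ C \ B := by rw [← h4]; exact ⟨y, mem_ball.2 hy', rfl⟩
          exact this.1
        · exact hBC (h2 (mem_sphere.2 hy'))
  rw [this]
  exact hB.union ((isCompact_closedBall _ _).image_of_continuousOn h1).isClosed

/-- Image of a cell step under a continuous map, injective on the larger set. -/
theorem CellStep.image {a : ℕ} {B C : Set X} (h : CellStep a B C) {f : X → Y}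
    (hf : ContinuousOn f C) (hi : InjOn f C) : CellStep a (f '' B) (f '' C) := by
  obtain ⟨hBC, φ, h1, h2, h3, h4⟩ := h
  have hbC : MapsTo φ (closedBall 0 1) C := by
    intro y hy
    rcases (mem_closedBall.1 hy).lt_or_eq with hy' | hy'
    · have : φ y ∈ C \ B := by rw [← h4]; exact ⟨y, mem_ball.2 hy', rfl⟩
      exact this.1
    · exact hBC (h2 (mem_sphere.2 hy'))
  refine ⟨image_mono hBC, f ∘ φ, hf.comp h1 hbC, ?_, ?_, ?_⟩
  · intro y hy; exact mem_image_of_mem _ (h2 hy)
  · exact hi.comp h3 (hbC.mono_left ball_subset_closedBall)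
  · rw [image_comp, h4, hi.image_sdiff_subset hBC]

/-- Adding a disjoint (or any) set `Z` to both sides, when it does not meet the open cell. -/
theorem CellStep.union {a : ℕ} {B C : Set X} (h : CellStep a B C) {Z : Set X}
    (hZ : Z ∩ C ⊆ B) : CellStep a (Z ∪ B) (Z ∪ C) := by
  obtain ⟨hBC, φ, h1, h2, h3, h4⟩ := h
  refine ⟨union_subset_union_right _ hBC, φ, h1, fun y hy => Or.inr (h2 hy), h3, ?_⟩
  rw [h4]
  ext x
  simp only [mem_sdiff, mem_union, not_or]
  constructor
  · rintro ⟨hx, hxB⟩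
    exact ⟨Or.inr hx, fun hxZ => hxB (hZ ⟨hxZ, hx⟩), hxB⟩
  · rintro ⟨hx | hx, hxZ, hxB⟩
    · exact absurd hx hxZ
    · exact ⟨hx, hxB⟩

end Step

section Chain

variable {X Y : Type} [TopologicalSpace X] [TopologicalSpace Y] {D D' : Set ℕ}

theorem CellChain.single {a : ℕ} (ha : a ∈ D) {B C : Set X} (h : CellStep a B C) :
    CellChain D B C := CellChain.step ha (CellChain.refl _) h

theorem CellChain.subset {A B : Set X} (h : CellChain D A B) : A ⊆ B := by
  induction h with
  | refl => exact Subset.rfl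
  | step ha h hs ih => exact ih.trans hs.subset

theorem CellChain.mono (hD : D ⊆ D') {A B : Set X} (h : CellChain D A B) :
    CellChain D' A B := by
  induction h with
  | refl => exact CellChain.refl _
  | step ha h hs ih => exact CellChain.step (hD ha) ih hs

theorem CellChain.trans {A B C : Set X} (h : CellChain D A B) (h' : CellChain D B C) :
    CellChain D A C := by
  induction h' with
  | refl => exact h
  | step ha _ hs ih => exact CellChain.step ha ih hs

theorem CellChain.isClosed [T2Space X] {A B : Set X} (h : CellChain D A B)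
    (hA : IsClosed A) : IsClosed B := by
  induction h with
  | refl => exact hA
  | step ha h hs ih => exact hs.isClosed ih

theorem CellChain.image {A B : Set X} (h : CellChain D A B) {f : X → Y}
    (hf : ContinuousOn f B) (hi : InjOn f B) : CellChain D (f '' A) (f '' B) := by
  induction h with
  | refl => exact CellChain.refl _
  | step ha h hs ih =>
    exact CellChain.step ha (ih (hf.mono hs.subset) (hi.mono hs.subset)) (hs.image hf hi)

theorem CellChain.union {A B : Set X} (h : CellChain D A B) {Z : Set X}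
    (hZ : Z ∩ B ⊆ A) : CellChain D (Z ∪ A) (Z ∪ B) := by
  induction h with
  | refl => exact CellChain.refl _
  | step ha h hs ih =>
    refine CellChain.step ha (ih ?_) (hs.union ?_)
    · exact (inter_subset_inter_right _ hs.subset).trans hZ
    · exact hZ.trans h.subset

end Chain

/-! ### Passing to a subspace -/

section Preimage

variable {X S : Type} [TopologicalSpace X] [TopologicalSpace S]

open scoped Classical in
theorem CellStep.preimage {a : ℕ} {B C : Set X} (h : CellStep a B C) {e : S → X}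
    (he : IsEmbedding e) (hC : C ⊆ range e) : CellStep a (e ⁻¹' B) (e ⁻¹' C) := by
  obtain ⟨hBC, φ, h1, h2, h3, h4⟩ := h
  have hφC : MapsTo φ (closedBall 0 1) C := by
    intro y hy
    rcases (mem_closedBall.1 hy).lt_or_eq with hy' | hy'
    · have : φ y ∈ C \ B := by rw [← h4]; exact mem_image_of_mem _ (mem_ball.2 hy')
      exact this.1
    · exact hBC (h2 (mem_sphere.2 hy'))
  obtain ⟨s0, -⟩ := hC (hφC (mem_closedBall_self zero_le_one))
  have hex : ∀ y ∈ closedBall (0 : Euc a) 1, ∃ s, e s = φ y := fun y hy => hC (hφC hy)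
  let ψ : Euc a → S := fun y => if hy : ∃ s, e s = φ y then hy.choose else s0
  have hψ : ∀ y ∈ closedBall (0 : Euc a) 1, e (ψ y) = φ y := by
    intro y hy
    simp only [ψ, hex y hy, dite_true]
    exact (hex y hy).choose_spec
  refine ⟨preimage_mono hBC, ψ, ?_, ?_, ?_, ?_⟩
  · rw [he.continuousOn_iff]
    exact h1.congr fun y hy => hψ y hy
  · intro y hy
    rw [mem_preimage, hψ y (sphere_subset_closedBall hy)]
    exact h2 hy
  · intro y hy z hz hyz
    apply h3 hy hz
    rw [← hψ y (ball_subset_closedBall hy), ← hψ z (ball_subset_closedBall hz), hyz]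
  · ext s
    constructor
    · rintro ⟨y, hy, rfl⟩
      have : φ y ∈ C \ B := by rw [← h4]; exact mem_image_of_mem _ hy
      rw [← hψ y (ball_subset_closedBall hy)] at this
      exact this
    · intro hs
      have : e s ∈ φ '' ball 0 1 := by rw [h4]; exact hs
      obtain ⟨y, hy, hys⟩ := this
      refine ⟨y, hy, he.injective ?_⟩
      rw [hψ y (ball_subset_closedBall hy), hys]

theorem CellChain.preimage {D : Set ℕ} {A B : Set X} (h : CellChain D A B) {e : S → X}
    (he : IsEmbedding e) (hB : B ⊆ range e) : CellChain D (e ⁻¹' A) (e ⁻¹' B) := by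
  induction h with
  | refl => exact CellChain.refl _
  | step ha h hs ih =>
    exact CellChain.step ha (ih (hs.subset.trans hB)) (hs.preimage he hB)

end Preimage

/-! ### Products of cells -/

section Fibre

variable {X F : Type} [TopologicalSpace X] [TopologicalSpace F]

theorem frontier_prod_closedBall (a b : ℕ) :
    frontier ((closedBall (0 : Euc a) 1) ×ˢ (closedBall (0 : Euc b) 1)) =
      (closedBall 0 1 ×ˢ sphere 0 1) ∪ (sphere 0 1 ×ˢ closedBall 0 1) := by
  rw [frontier_prod_eq, frontier_closedBall _ one_ne_zero, frontier_closedBall _ one_ne_zero,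
    isClosed_closedBall.closure_eq, isClosed_closedBall.closure_eq]

theorem CellStep.fibre {a b : ℕ} {F₀ F₁ G G' : Set F} (hs' : CellStep b G G')
    (hF0G : F₀ ⊆ G) (hG' : G' ⊆ F₁)
    {B C : Set X} (Θ : Euc a × F → X)
    (hΘ : ContinuousOn Θ (closedBall 0 1 ×ˢ F₁))
    (hs : ∀ t ∈ sphere (0 : Euc a) 1, ∀ g ∈ F₁, Θ (t, g) ∈ B)
    (h0 : ∀ t ∈ closedBall (0 : Euc a) 1, ∀ g ∈ F₀, Θ (t, g) ∈ B)
    (hi : ∀ t ∈ ball (0 : Euc a) 1, ∀ g ∈ F₁ \ F₀, ∀ t' ∈ ball (0 : Euc a) 1, ∀ g' ∈ F₁ \ F₀,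
      Θ (t, g) = Θ (t', g') → t = t' ∧ g = g')
    (him : ∀ t ∈ ball (0 : Euc a) 1, ∀ g ∈ F₁ \ F₀, Θ (t, g) ∈ C \ B) :
    CellStep (a + b) (B ∪ Θ '' (closedBall 0 1 ×ˢ G)) (B ∪ Θ '' (closedBall 0 1 ×ˢ G')) := by
  obtain ⟨hGG', ψ, h1, h2, h3, h4⟩ := hs'
  have hψb : ∀ s ∈ ball (0 : Euc b) 1, ψ s ∈ G' \ G := fun s hs => by
    rw [← h4]; exact mem_image_of_mem _ hs
  have hψc : MapsTo ψ (closedBall 0 1) G' := by
    intro y hy
    rcases (mem_closedBall.1 hy).lt_or_eq with hy' | hy'
    · exact (hψb y (mem_ball.2 hy')).1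
    · exact hGG' (h2 (mem_sphere.2 hy'))
  have hdiff : ∀ s ∈ ball (0 : Euc b) 1, ψ s ∈ F₁ \ F₀ := fun s hs =>
    ⟨hG' (hψb s hs).1, fun h => (hψb s hs).2 (hF0G h)⟩
  have hfr : Module.finrank ℝ (Euc a × Euc b) = a + b := by simp
  have hint : interior ((closedBall (0 : Euc a) 1) ×ˢ (closedBall (0 : Euc b) 1)) =
      ball 0 1 ×ˢ ball 0 1 := by
    rw [interior_prod_eq, interior_closedBall _ one_ne_zero, interior_closedBall _ one_ne_zero]
  refine CellStep.of_body (E := Euc a × Euc b) hfr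
    (K := closedBall 0 1 ×ˢ closedBall 0 1)
    ((convex_closedBall _ _).prod (convex_closedBall _ _))
    ((isCompact_closedBall _ _).prod (isCompact_closedBall _ _)) ?_
    (union_subset_union_right _ (image_mono (prod_mono_right hGG')))
    (fun p => Θ (p.1, ψ p.2)) ?_ ?_ ?_ ?_
  · rw [hint]
    exact ⟨(0, 0), mem_ball_self one_pos, mem_ball_self one_pos⟩
  · refine hΘ.comp (continuousOn_fst.prodMk (h1.comp continuousOn_snd ?_)) ?_
    · rintro ⟨t, s⟩ ⟨_, hs⟩; exact hs
    · rintro ⟨t, s⟩ ⟨ht, hs⟩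
      exact ⟨ht, hG' (hψc hs)⟩
  · rw [frontier_prod_closedBall]
    rintro ⟨t, s⟩ (⟨ht, hs'⟩ | ⟨ht, hs'⟩)
    · exact Or.inr ⟨(t, ψ s), ⟨ht, h2 hs'⟩, rfl⟩
    · exact Or.inl (hs t ht _ (hG' (hψc hs')))
  · rw [hint]
    rintro ⟨t, s⟩ ⟨ht, hs'⟩ ⟨t', s'⟩ ⟨ht', hs''⟩ heq
    obtain ⟨e1, e2⟩ := hi t ht _ (hdiff s hs') t' ht' _ (hdiff s' hs'') heq
    rw [Prod.mk.injEq]
    exact ⟨e1, h3 hs' hs'' e2⟩
  · rw [hint]
    apply Subset.antisymm
    · rintro _ ⟨⟨t, s⟩, ⟨ht, hs'⟩, rfl⟩
      have hCB : Θ (t, ψ s) ∈ C \ B := him t ht _ (hdiff s hs')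
      refine ⟨Or.inr ⟨(t, ψ s), ⟨ball_subset_closedBall ht, (hψb s hs').1⟩, rfl⟩, ?_⟩
      rintro (hB | ⟨⟨t', g⟩, ⟨ht', hg⟩, heq⟩)
      · exact hCB.2 hB
      · change Θ (t', g) = Θ (t, ψ s) at heq
        rw [← heq] at hCB
        by_cases hg0 : g ∈ F₀
        · exact hCB.2 (h0 t' ht' g hg0)
        · rcases (mem_closedBall.1 ht').lt_or_eq with ht'' | ht''
          · obtain ⟨-, e2⟩ := hi t' (mem_ball.2 ht'') g ⟨hG' (hGG' hg), hg0⟩ t ht _
              (hdiff s hs') heq
            exact (hψb s hs').2 (e2 ▸ hg)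
          · exact hCB.2 (hs t' (mem_sphere.2 ht'') g (hG' (hGG' hg)))
    · rintro _ ⟨hB | ⟨⟨t, g⟩, ⟨ht, hg⟩, rfl⟩, hn⟩
      · exact absurd (Or.inl hB) hn
      · have hgG : g ∉ G := fun hgG => hn (Or.inr ⟨(t, g), ⟨ht, hgG⟩, rfl⟩)
        rcases (mem_closedBall.1 ht).lt_or_eq with ht'' | ht''
        · have : g ∈ ψ '' ball 0 1 := by rw [h4]; exact ⟨hg, hgG⟩
          obtain ⟨s, hs', rfl⟩ := this
          exact ⟨(t, s), ⟨mem_ball.2 ht'', hs'⟩, rfl⟩
        · exact absurd (Or.inl (hs t (mem_sphere.2 ht'') g (hG' hg))) hn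

/-- The key gluing lemma: a family `Θ : D^a × F → X` whose restriction to the open part
`int D^a × (F₁ \ F₀)` is a bijection onto `X_C \ X_B`, and which maps the rest to `X_B`;
if `F₁` is obtained from `F₀` by attaching cells, then so is `X_C` from `X_B`. -/
theorem CellChain.fibre {D : Set ℕ} {a : ℕ} {F₀ F₁ : Set F} (h : CellChain D F₀ F₁)
    {B C : Set X} (hBC : B ⊆ C) (Θ : Euc a × F → X)
    (hΘ : ContinuousOn Θ (closedBall 0 1 ×ˢ F₁))
    (hs : ∀ t ∈ sphere (0 : Euc a) 1, ∀ g ∈ F₁, Θ (t, g) ∈ B)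
    (h0 : ∀ t ∈ closedBall (0 : Euc a) 1, ∀ g ∈ F₀, Θ (t, g) ∈ B)
    (hi : ∀ t ∈ ball (0 : Euc a) 1, ∀ g ∈ F₁ \ F₀, ∀ t' ∈ ball (0 : Euc a) 1, ∀ g' ∈ F₁ \ F₀,
      Θ (t, g) = Θ (t', g') → t = t' ∧ g = g')
    (him : ∀ t ∈ ball (0 : Euc a) 1, ∀ g ∈ F₁ \ F₀, Θ (t, g) ∈ C \ B)
    (hsurj : ∀ x ∈ C \ B, ∃ t ∈ ball (0 : Euc a) 1, ∃ g ∈ F₁ \ F₀, Θ (t, g) = x) :
    CellChain ((fun n => a + n) '' D) B C := by
  have key : ∀ G : Set F, CellChain D F₀ G → G ⊆ F₁ →
      CellChain ((fun n => a + n) '' D) B (B ∪ Θ '' (closedBall 0 1 ×ˢ G)) := by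
    intro G hG
    induction hG with
    | refl =>
      intro _
      have : B ∪ Θ '' (closedBall 0 1 ×ˢ F₀) = B := by
        apply union_eq_left.2
        rintro _ ⟨⟨t, g⟩, ⟨ht, hg⟩, rfl⟩
        exact h0 t ht g hg
      rw [this]
      exact CellChain.refl _
    | @step G G' b hb hG1 hs' ih =>
      intro hG'
      exact CellChain.step (mem_image_of_mem _ hb) (ih (hs'.subset.trans hG'))
        (hs'.fibre hG1.subset hG' Θ hΘ hs h0 hi him)
  have := key F₁ h Subset.rfl
  have heq : B ∪ Θ '' (closedBall 0 1 ×ˢ F₁) = C := by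
    apply Subset.antisymm
    · rintro x (hx | ⟨⟨t, g⟩, ⟨ht, hg⟩, rfl⟩)
      · exact hBC hx
      · by_cases hg0 : g ∈ F₀
        · exact hBC (h0 t ht g hg0)
        · rcases (mem_closedBall.1 ht).lt_or_eq with ht'' | ht''
          · exact (him t (mem_ball.2 ht'') g ⟨hg, hg0⟩).1
          · exact hBC (hs t (mem_sphere.2 ht'') g hg)
    · intro x hx
      by_cases hxB : x ∈ B
      · exact Or.inl hxB
      · obtain ⟨t, ht, g, hg, rfl⟩ := hsurj x ⟨hx, hxB⟩
        exact Or.inr ⟨(t, g), ⟨ball_subset_closedBall ht, hg.1⟩, rfl⟩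
  rwa [heq] at this

end Fibre

end Vale.Agent.P251.G.Cell
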