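import Vale.Agent.P251.G.CellTriv

/-!
# Attaching the disc bundle of a vector bundle over a cell complex

If `Y` is built from cells of dimensions `a ∈ D` and `P` is a family of projections of rank `r`
on `Y`, then attaching the disc bundle of `P` attaches cells of dimensions `a + 2 r`; the sphere
bundle has cells of dimensions `a` and `a + 2 r - 1`.
-/

namespace Vale.Agent.P251.G.Cell

open Set Metric Topology Matrix

variable {n : Type} [Fintype n] {X Y : Type} [TopologicalSpace X] [TopologicalSpace Y]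

/-- The closed disc bundle of `P` over the subset `B`. -/
def discB (P : Y → Matrix n n ℂ) (B : Set Y) : Set (Y × (n → ℂ)) :=
  {p | p.1 ∈ B ∧ P p.1 *ᵥ p.2 = p.2 ∧ nsq p.2 ≤ 1}

/-- The open disc bundle of `P` over the subset `B`. -/
def odiscB (P : Y → Matrix n n ℂ) (B : Set Y) : Set (Y × (n → ℂ)) :=
  {p | p.1 ∈ B ∧ P p.1 *ᵥ p.2 = p.2 ∧ nsq p.2 < 1}

/-- The unit sphere bundle of `P` over the subset `B`. -/
def sphB (P : Y → Matrix n n ℂ) (B : Set Y) : Set (Y × (n → ℂ)) :=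
  {p | p.1 ∈ B ∧ P p.1 *ᵥ p.2 = p.2 ∧ nsq p.2 = 1}

omit [TopologicalSpace Y] in
theorem discB_mono (P : Y → Matrix n n ℂ) {B C : Set Y} (h : B ⊆ C) : discB P B ⊆ discB P C :=
  fun _ hp => ⟨h hp.1, hp.2⟩

omit [TopologicalSpace Y] in
theorem odiscB_mono (P : Y → Matrix n n ℂ) {B C : Set Y} (h : B ⊆ C) :
    odiscB P B ⊆ odiscB P C := fun _ hp => ⟨h hp.1, hp.2⟩

omit [TopologicalSpace Y] in
theorem sphB_mono (P : Y → Matrix n n ℂ) {B C : Set Y} (h : B ⊆ C) : sphB P B ⊆ sphB P C :=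
  fun _ hp => ⟨h hp.1, hp.2⟩

omit [TopologicalSpace Y] in
theorem odiscB_subset (P : Y → Matrix n n ℂ) (B : Set Y) : odiscB P B ⊆ discB P B :=
  fun _ hp => ⟨hp.1, hp.2.1, hp.2.2.le⟩

omit [TopologicalSpace Y] in
theorem sphB_subset (P : Y → Matrix n n ℂ) (B : Set Y) : sphB P B ⊆ discB P B :=
  fun _ hp => ⟨hp.1, hp.2.1, hp.2.2.le⟩

/-- The ball is one cell attached to the sphere. -/
theorem cellStep_ball (b : ℕ) : CellStep b (sphere (0 : Euc b) 1) (closedBall (0 : Euc b) 1) := by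
  refine ⟨sphere_subset_closedBall, id, continuousOn_id, fun _ h => h, injOn_id _, ?_⟩
  rw [image_id]
  ext x
  simp only [mem_ball_zero_iff, mem_sdiff, mem_closedBall_zero_iff, mem_sphere_zero_iff_norm]
  constructor
  · intro h; exact ⟨h.le, h.ne⟩
  · rintro ⟨h1, h2⟩; exact lt_of_le_of_ne h1 h2

omit [TopologicalSpace Y] in
theorem CellStep.mapsTo_closedBall {a : ℕ} {B C : Set Y} {φ : Euc a → Y} (hBC : B ⊆ C)
    (h2 : MapsTo φ (sphere 0 1) B) (h4 : φ '' ball 0 1 = C \ B) :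
    MapsTo φ (closedBall 0 1) C := by
  intro y hy
  rcases (mem_closedBall.1 hy).lt_or_eq with hy' | hy'
  · have : φ y ∈ C \ B := by rw [← h4]; exact mem_image_of_mem _ (mem_ball.2 hy')
    exact this.1
  · exact hBC (h2 (mem_sphere.2 hy'))

/-- Attaching the disc bundle over one more cell of the base. -/
theorem CellStep.discBundle [DecidableEq n] {a r : ℕ} {B C : Set Y} (h : CellStep a B C)
    (P : Y → Matrix n n ℂ) (hP : ContinuousOn P C) (hPP : ∀ y ∈ C, P y * P y = P y)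
    (hr : ∀ y ∈ C \ B, (P y).trace = r) {Z : Set X} (Ψ : Y × (n → ℂ) → X)
    (hΨ : ContinuousOn Ψ (discB P C)) (hs : MapsTo Ψ (sphB P C) Z)
    (hi : InjOn Ψ (odiscB P C)) (hZ : MapsTo Ψ (odiscB P C) Zᶜ) :
    CellStep (a + 2 * r) (Z ∪ Ψ '' discB P B) (Z ∪ Ψ '' discB P C) := by
  obtain ⟨hBC, φ, h1, h2, h3, h4⟩ := h
  have hφC : MapsTo φ (closedBall 0 1) C := CellStep.mapsTo_closedBall hBC h2 h4
  have hφb : ∀ t ∈ ball (0 : Euc a) 1, φ t ∈ C \ B := fun t ht => by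
    rw [← h4]; exact mem_image_of_mem _ ht
  obtain ⟨τ, hτ, hτt⟩ := exists_triv_ball (r := r) (fun t => P (φ t)) (hP.comp h1 hφC)
    (fun t ht => hPP _ (hφC ht)) (hr _ (hφb 0 (mem_ball_self one_pos)))
  have hmem : ∀ t ∈ closedBall (0 : Euc a) 1, ∀ w ∈ closedBall (0 : Euc (2 * r)) 1,
      (φ t, τ (t, w)) ∈ discB P C := fun t ht w hw =>
    ⟨hφC ht, (hτt t ht).1 w, by
      dsimp only; rw [(hτt t ht).2.1]
      exact (sq_le_one_iff₀ (norm_nonneg _)).2 (mem_closedBall_zero_iff.1 hw)⟩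
  have hmems : ∀ t ∈ closedBall (0 : Euc a) 1, ∀ w ∈ sphere (0 : Euc (2 * r)) 1,
      (φ t, τ (t, w)) ∈ sphB P C := fun t ht w hw =>
    ⟨hφC ht, (hτt t ht).1 w, by
      dsimp only; rw [(hτt t ht).2.1, mem_sphere_zero_iff_norm.1 hw, one_pow]⟩
  have hmemo : ∀ t ∈ closedBall (0 : Euc a) 1,
      ∀ w ∈ closedBall (0 : Euc (2 * r)) 1 \ sphere (0 : Euc (2 * r)) 1,
      (φ t, τ (t, w)) ∈ odiscB P C := fun t ht w hw =>
    ⟨hφC ht, (hτt t ht).1 w, by
      dsimp only; rw [(hτt t ht).2.1]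
      exact (sq_lt_one_iff₀ (norm_nonneg _)).2 (lt_of_le_of_ne (mem_closedBall_zero_iff.1 hw.1)
        fun h => hw.2 (mem_sphere_zero_iff_norm.2 h))⟩
  let Θ : Euc a × Euc (2 * r) → X := fun p => Ψ (φ p.1, τ p)
  have hΘ : ContinuousOn Θ (closedBall 0 1 ×ˢ closedBall 0 1) := by
    refine hΨ.comp ?_ ?_
    · exact (h1.comp continuousOn_fst fun p hp => hp.1).prodMk
        (hτ.mono (prod_mono_right (subset_univ _)))
    · rintro ⟨t, w⟩ ⟨ht, hw⟩
      exact hmem t ht w hw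
  have hB' : ∀ t ∈ sphere (0 : Euc a) 1, ∀ w ∈ closedBall (0 : Euc (2 * r)) 1,
      Θ (t, w) ∈ Z ∪ Ψ '' discB P B := fun t ht w hw =>
    Or.inr ⟨_, ⟨h2 ht, (hmem t (sphere_subset_closedBall ht) w hw).2⟩, rfl⟩
  have h0' : ∀ t ∈ closedBall (0 : Euc a) 1, ∀ w ∈ sphere (0 : Euc (2 * r)) 1,
      Θ (t, w) ∈ Z ∪ Ψ '' discB P B := fun t ht w hw => Or.inl (hs (hmems t ht w hw))
  have hnB : ∀ t ∈ ball (0 : Euc a) 1,
      ∀ w ∈ closedBall (0 : Euc (2 * r)) 1 \ sphere (0 : Euc (2 * r)) 1,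
      Θ (t, w) ∈ (Z ∪ Ψ '' discB P C) \ (Z ∪ Ψ '' discB P B) := by
    intro t ht w hw
    have htc := ball_subset_closedBall ht
    have hnZ : Θ (t, w) ∉ Z := hZ (hmemo t htc w hw)
    refine ⟨Or.inr ⟨_, hmem t htc w hw.1, rfl⟩, ?_⟩
    rintro (h | ⟨⟨y, v⟩, hyv, heq⟩)
    · exact hnZ h
    · change Ψ (y, v) = Ψ (φ t, τ (t, w)) at heq
      rcases hyv.2.2.lt_or_eq with hv | hv
      · have := hi (x₁ := (y, v)) (x₂ := (φ t, τ (t, w))) ⟨hBC hyv.1, hyv.2.1, hv⟩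
          (hmemo t htc w hw) heq
        rw [Prod.mk.injEq] at this
        exact (hφb t ht).2 (this.1 ▸ hyv.1)
      · apply hnZ
        change Ψ (φ t, τ (t, w)) ∈ Z
        rw [← heq]
        exact hs ⟨hBC hyv.1, hyv.2.1, hv⟩
  have := (cellStep_ball (2 * r)).fibre (F₀ := sphere 0 1) (F₁ := closedBall 0 1) Subset.rfl
    Subset.rfl (C := Z ∪ Ψ '' discB P C) Θ hΘ hB' h0' ?_ hnB
  · have e1 : Z ∪ Ψ '' discB P B ∪ Θ '' (closedBall 0 1 ×ˢ sphere 0 1) =
        Z ∪ Ψ '' discB P B := by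
      apply union_eq_left.2
      rintro _ ⟨⟨t, w⟩, ⟨ht, hw⟩, rfl⟩
      exact h0' t ht w hw
    have e2 : Z ∪ Ψ '' discB P B ∪ Θ '' (closedBall 0 1 ×ˢ closedBall 0 1) =
        Z ∪ Ψ '' discB P C := by
      apply Subset.antisymm
      · apply union_subset (union_subset_union_right _ (image_mono (discB_mono P hBC)))
        rintro _ ⟨⟨t, w⟩, ⟨ht, hw⟩, rfl⟩
        exact Or.inr ⟨_, hmem t ht w hw, rfl⟩
      · rintro x (hx | ⟨⟨y, v⟩, hyv, rfl⟩)
        · exact Or.inl (Or.inl hx)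
        · by_cases hy : y ∈ B
          · exact Or.inl (Or.inr ⟨(y, v), ⟨hy, hyv.2⟩, rfl⟩)
          · have : y ∈ φ '' ball 0 1 := by rw [h4]; exact ⟨hyv.1, hy⟩
            obtain ⟨t, ht, rfl⟩ := this
            obtain ⟨w, rfl⟩ := (hτt t (ball_subset_closedBall ht)).2.2.2 v hyv.2.1
            refine Or.inr ⟨(t, w), ⟨ball_subset_closedBall ht, ?_⟩, rfl⟩
            rw [mem_closedBall_zero_iff, ← sq_le_one_iff₀ (norm_nonneg _),
              ← (hτt t (ball_subset_closedBall ht)).2.1]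
            exact hyv.2.2
    rwa [e1, e2] at this
  · intro t ht w hw t' ht' w' hw' heq
    have := hi (hmemo t (ball_subset_closedBall ht) w hw)
      (hmemo t' (ball_subset_closedBall ht') w' hw') heq
    rw [Prod.mk.injEq] at this
    have e := h3 ht ht' this.1
    subst e
    exact ⟨rfl, (hτt t (ball_subset_closedBall ht)).2.2.1 _ _ this.2⟩

/-- Attaching the disc bundle of a bundle of rank `r` over a cell complex. -/
theorem CellChain.discBundle [DecidableEq n] {D : Set ℕ} {r : ℕ} {B C : Set Y}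
    (h : CellChain D B C)
    (P : Y → Matrix n n ℂ) (hP : ContinuousOn P C) (hPP : ∀ y ∈ C, P y * P y = P y)
    (hr : ∀ y ∈ C, (P y).trace = r) {Z : Set X} (Ψ : Y × (n → ℂ) → X)
    (hΨ : ContinuousOn Ψ (discB P C)) (hs : MapsTo Ψ (sphB P C) Z)
    (hi : InjOn Ψ (odiscB P C)) (hZ : MapsTo Ψ (odiscB P C) Zᶜ) :
    CellChain ((fun a => a + 2 * r) '' D) (Z ∪ Ψ '' discB P B) (Z ∪ Ψ '' discB P C) := by
  induction h with
  | refl => exact CellChain.refl _
  | @step B' C' a ha hc hst ih =>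
    have hsub := hst.subset
    refine CellChain.step (mem_image_of_mem _ ha)
      (ih (hP.mono hsub) (fun y hy => hPP y (hsub hy)) (fun y hy => hr y (hsub hy))
        (hΨ.mono (discB_mono P hsub)) (hs.mono_left (sphB_mono P hsub))
        (hi.mono (odiscB_mono P hsub)) (hZ.mono_left (odiscB_mono P hsub)))
      (hst.discBundle P hP hPP (fun y hy => hr y hy.1) Ψ hΨ hs hi hZ)

theorem CellStep.exists_rank [DecidableEq n] {a : ℕ} {B C : Set Y} (h : CellStep a B C)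
    (P : Y → Matrix n n ℂ) (hP : ContinuousOn P C) (hPP : ∀ y ∈ C, P y * P y = P y) :
    ∃ r : ℕ, ∀ y ∈ C \ B, (P y).trace = r := by
  obtain ⟨hBC, φ, h1, h2, h3, h4⟩ := h
  have hφC : MapsTo φ (closedBall 0 1) C := CellStep.mapsTo_closedBall hBC h2 h4
  obtain ⟨r, hr⟩ := exists_trace_eq (hPP _ (hφC (mem_closedBall_self zero_le_one)))
  refine ⟨r, fun y hy => ?_⟩
  rw [← h4] at hy
  obtain ⟨t, ht, rfl⟩ := hy
  rw [← hr]
  exact trace_ball (fun t => P (φ t)) (hP.comp h1 hφC) (fun t ht => hPP _ (hφC ht)) t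
    (ball_subset_closedBall ht)

/-- Attaching the disc bundle of a bundle of any rank over a cell complex. -/
theorem CellChain.discBundle' [DecidableEq n] {D : Set ℕ} {B C : Set Y}
    (h : CellChain D B C)
    (P : Y → Matrix n n ℂ) (hP : ContinuousOn P C) (hPP : ∀ y ∈ C, P y * P y = P y)
    {Z : Set X} (Ψ : Y × (n → ℂ) → X)
    (hΨ : ContinuousOn Ψ (discB P C)) (hs : MapsTo Ψ (sphB P C) Z)
    (hi : InjOn Ψ (odiscB P C)) (hZ : MapsTo Ψ (odiscB P C) Zᶜ) :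
    CellChain {k | ∃ a ∈ D, ∃ r, k = a + 2 * r} (Z ∪ Ψ '' discB P B) (Z ∪ Ψ '' discB P C) := by
  induction h with
  | refl => exact CellChain.refl _
  | @step B' C' a ha hc hst ih =>
    have hsub := hst.subset
    obtain ⟨r, hr⟩ := hst.exists_rank P hP hPP
    exact CellChain.step ⟨a, ha, r, rfl⟩
      (ih (hP.mono hsub) (fun y hy => hPP y (hsub hy))
        (hΨ.mono (discB_mono P hsub)) (hs.mono_left (sphB_mono P hsub))
        (hi.mono (odiscB_mono P hsub)) (hZ.mono_left (odiscB_mono P hsub)))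
      (hst.discBundle P hP hPP hr Ψ hΨ hs hi hZ)

end Vale.Agent.P251.G.Cell
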