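import Mathlib.Topology.Instances.Matrix
import Mathlib.Topology.Connected.Clopen
import Mathlib.Topology.UnitInterval
import Mathlib.Analysis.Complex.Basic
import Mathlib.Analysis.Normed.Module.Convex
import Mathlib.Analysis.InnerProductSpace.PiL2
import Mathlib.LinearAlgebra.Matrix.NonsingularInverse
import Vale.Agent.P251.G.Cell

/-!
# Families of idempotent matrices

Homotopy invariance of vector bundles, presented by families of idempotent matrices: two
idempotent families joined by a homotopy over a compact base are conjugate.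
-/

namespace Vale.Agent.P251.G.Cell

open Set Metric Topology Matrix

variable {n : Type} [Fintype n] [DecidableEq n]

/-- The intertwiner between two idempotents. -/
def zz (p q : Matrix n n ℂ) : Matrix n n ℂ := q * p + (1 - q) * (1 - p)

theorem zz_self {p : Matrix n n ℂ} (hp : p * p = p) : zz p p = 1 := by
  unfold zz; noncomm_ring; rw [hp]; simp

theorem zz_mul {p q : Matrix n n ℂ} (hp : p * p = p) (hq : q * q = q) :
    zz p q * p = q * zz p q := by
  have h1 : zz p q * p = q * p := by
    unfold zz
    rw [add_mul, mul_assoc, hp, mul_assoc, sub_mul 1 p p, one_mul, hp, sub_self, mul_zero, add_zero]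
  have h2 : q * zz p q = q * p := by
    unfold zz
    rw [mul_add, ← mul_assoc, hq, ← mul_assoc, mul_sub q 1 q, mul_one, hq, sub_self, zero_mul,
      add_zero]
  rw [h1, h2]

/-- Two families of idempotents are conjugate by a continuous family of invertible matrices. -/
def ConjFam {Y : Type} [TopologicalSpace Y] (P Q : Y → Matrix n n ℂ) : Prop :=
  ∃ G : Y → Matrix n n ℂ, Continuous G ∧ ∀ y, IsUnit (G y) ∧ G y * P y = Q y * G y

theorem ConjFam.trans {Y : Type} [TopologicalSpace Y] {P Q R : Y → Matrix n n ℂ}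
    (h : ConjFam P Q) (h' : ConjFam Q R) : ConjFam P R := by
  obtain ⟨G, hG, hGu⟩ := h
  obtain ⟨H, hH, hHu⟩ := h'
  refine ⟨fun y => H y * G y, hH.matrix_mul hG, fun y => ⟨(hHu y).1.mul (hGu y).1, ?_⟩⟩
  rw [mul_assoc, (hGu y).2, ← mul_assoc, (hHu y).2, mul_assoc]

theorem conjFam_of_det {Y : Type} [TopologicalSpace Y] {P Q : Y → Matrix n n ℂ}
    (hP : Continuous P) (hQ : Continuous Q) (hPP : ∀ y, P y * P y = P y)
    (hQQ : ∀ y, Q y * Q y = Q y) (hd : ∀ y, (zz (P y) (Q y)).det ≠ 0) : ConjFam P Q := by
  refine ⟨fun y => zz (P y) (Q y), ?_, fun y => ⟨?_, zz_mul (hPP y) (hQQ y)⟩⟩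
  · unfold zz
    exact (hQ.matrix_mul hP).add ((continuous_const.sub hQ).matrix_mul (continuous_const.sub hP))
  · rw [Matrix.isUnit_iff_isUnit_det]
    exact isUnit_iff_ne_zero.2 (hd y)

/-- Homotopy invariance: a family of idempotents over `T × Y`, `T` connected, `Y` compact, has
conjugate restrictions to any two points of `T`. -/
theorem conjFam_of_homotopy {T Y : Type} [TopologicalSpace T] [TopologicalSpace Y]
    [PreconnectedSpace T] [CompactSpace Y] (P : T → Y → Matrix n n ℂ)
    (hP : Continuous (fun p : T × Y => P p.1 p.2)) (hPP : ∀ t y, P t y * P t y = P t y)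
    (s t : T) : ConjFam (P s) (P t) := by
  have hPt : ∀ t, Continuous (P t) := fun t => hP.comp (Continuous.prodMk_right t)
  refine PreconnectedSpace.induction₂' (fun s t => ConjFam (P s) (P t)) ?_ ?_ s t
  · intro s
    have hc : Continuous (fun p : T × T × Y => (zz (P p.1 p.2.2) (P p.2.1 p.2.2)).det) := by
      unfold zz
      have h1 : Continuous (fun p : T × T × Y => P p.1 p.2.2) :=
        hP.comp (continuous_fst.prodMk (continuous_snd.comp continuous_snd))
      have h2 : Continuous (fun p : T × T × Y => P p.2.1 p.2.2) := hP.comp continuous_snd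
      exact ((h2.matrix_mul h1).add ((continuous_const.sub h2).matrix_mul
        (continuous_const.sub h1))).matrix_det
    have key : ∀ᶠ t in 𝓝 s, ∀ y ∈ (univ : Set Y), (zz (P s y) (P t y)).det ≠ 0 ∧
        (zz (P t y) (P s y)).det ≠ 0 := by
      refine isCompact_univ.eventually_forall_of_forall_eventually ?_
      intro y _
      have h1 : Continuous (fun p : T × Y => (zz (P s p.2) (P p.1 p.2)).det) :=
        hc.comp (continuous_const.prodMk (continuous_fst.prodMk continuous_snd))
      have h2 : Continuous (fun p : T × Y => (zz (P p.1 p.2) (P s p.2)).det) :=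
        hc.comp (continuous_fst.prodMk (continuous_const.prodMk continuous_snd))
      have e1 : (zz (P s y) (P s y)).det ≠ 0 := by rw [zz_self (hPP s y)]; simp
      exact ((h1.continuousAt (x := (s, y))).eventually_ne e1).and
        ((h2.continuousAt (x := (s, y))).eventually_ne e1)
    filter_upwards [key] with t ht
    exact ⟨conjFam_of_det (hPt s) (hPt t) (hPP s) (hPP t) fun y => (ht y (mem_univ y)).1,
      conjFam_of_det (hPt t) (hPt s) (hPP t) (hPP s) fun y => (ht y (mem_univ y)).2⟩
  · exact ⟨fun a b c hab hbc => ConjFam.trans hab hbc⟩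

/-! ### The Euclidean norm on `n → ℂ` -/

/-- The Euclidean norm of a vector `v : n → ℂ`. -/
noncomputable def en (v : n → ℂ) : ℝ := ‖(WithLp.toLp 2 v : EuclideanSpace ℂ n)‖

omit [DecidableEq n] in
theorem en_nonneg (v : n → ℂ) : 0 ≤ en v := norm_nonneg _

omit [DecidableEq n] in
theorem en_zero : en (0 : n → ℂ) = 0 := by simp [en]

omit [DecidableEq n] in
theorem en_eq_zero {v : n → ℂ} : en v = 0 ↔ v = 0 := by
  unfold en
  rw [norm_eq_zero]
  exact WithLp.toLp_eq_zero 2

omit [DecidableEq n] in
theorem en_smul (c : ℝ) (v : n → ℂ) : en (c • v) = |c| * en v := by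
  unfold en
  rw [WithLp.toLp_smul, norm_smul, Real.norm_eq_abs]

omit [DecidableEq n] in
theorem en_csmul (c : ℂ) (v : n → ℂ) : en (c • v) = ‖c‖ * en v := by
  unfold en
  rw [WithLp.toLp_smul, norm_smul]

omit [DecidableEq n] in
theorem continuous_en : Continuous (en : (n → ℂ) → ℝ) :=
  (PiLp.continuous_toLp 2 _).norm

omit [DecidableEq n] in
theorem en_sq (v : n → ℂ) : en v ^ 2 = ∑ i, ‖v i‖ ^ 2 := by
  unfold en
  rw [EuclideanSpace.norm_sq_eq]

omit [DecidableEq n] in
theorem en_sq_dot (v : n → ℂ) : ((en v ^ 2 : ℝ) : ℂ) = star v ⬝ᵥ v := by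
  rw [en_sq, dotProduct]
  push_cast
  refine Finset.sum_congr rfl fun i _ => ?_
  rw [Pi.star_apply, Complex.star_def, ← Complex.conj_mul']

end Vale.Agent.P251.G.Cell
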