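import Vale.Agent.P251.G.CellDisc

/-!
# The sphere bundle of a vector bundle over a cell complex
-/

namespace Vale.Agent.P251.G.Cell

open Set Metric Topology Matrix

/-! ### The standard cell structure of a sphere -/

/-- The north pole. -/
noncomputable def npole (N : ℕ) : Euc (N + 1) := WithLp.toLp 2 (Fin.cons 1 0)

/-- The characteristic map of the top cell of the sphere. -/
noncomputable def sphChar (N : ℕ) (x : Euc N) : Euc (N + 1) :=
  WithLp.toLp 2 (Fin.cons (2 * ‖x‖ ^ 2 - 1) fun i => 2 * Real.sqrt (1 - ‖x‖ ^ 2) * x i)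

theorem norm_sq_cons {N : ℕ} (s : ℝ) (z : Fin N → ℝ) :
    ‖(WithLp.toLp 2 (Fin.cons s z) : Euc (N + 1))‖ ^ 2 = s ^ 2 + ∑ i, z i ^ 2 := by
  rw [EuclideanSpace.norm_sq_eq, Fin.sum_univ_succ]
  simp

theorem norm_sq_euc {N : ℕ} (x : Euc N) : ‖x‖ ^ 2 = ∑ i, x i ^ 2 := by
  rw [EuclideanSpace.norm_sq_eq]; simp

theorem continuous_sphChar (N : ℕ) : Continuous (sphChar N) := by
  unfold sphChar
  refine (PiLp.continuous_toLp 2 _).comp ?_
  refine continuous_pi fun i => ?_
  refine Fin.cases ?_ (fun j => ?_) i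
  · simp only [Fin.cons_zero]
    fun_prop
  · simp only [Fin.cons_succ]
    have h1 : Continuous fun x : Euc N => x j :=
      (continuous_apply j).comp (PiLp.continuous_ofLp 2 _)
    have h2 : Continuous fun x : Euc N => Real.sqrt (1 - ‖x‖ ^ 2) := by fun_prop
    exact (continuous_const.mul h2).mul h1

theorem norm_sphChar {N : ℕ} {x : Euc N} (hx : ‖x‖ ≤ 1) : ‖sphChar N x‖ = 1 := by
  have h1 : ‖sphChar N x‖ ^ 2 = 1 := by
    unfold sphChar
    rw [norm_sq_cons]
    have h2 : ∑ i, (2 * Real.sqrt (1 - ‖x‖ ^ 2) * x i) ^ 2 =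
        4 * (1 - ‖x‖ ^ 2) * ‖x‖ ^ 2 := by
      rw [norm_sq_euc x, Finset.mul_sum]
      refine Finset.sum_congr rfl fun i _ => ?_
      rw [← norm_sq_euc x, mul_pow, mul_pow, Real.sq_sqrt]
      · ring
      · have := (sq_le_one_iff₀ (norm_nonneg x)).2 hx
        linarith
    rw [h2]; ring
  have h2 := norm_nonneg (sphChar N x)
  nlinarith

theorem sphChar_zero {N : ℕ} (x : Euc N) : sphChar N x 0 = 2 * ‖x‖ ^ 2 - 1 := rfl

theorem sphChar_succ {N : ℕ} (x : Euc N) (i : Fin N) :
    sphChar N x i.succ = 2 * Real.sqrt (1 - ‖x‖ ^ 2) * x i := rfl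

theorem npole_zero (N : ℕ) : npole N 0 = 1 := rfl

theorem npole_succ {N : ℕ} (i : Fin N) : npole N i.succ = 0 := rfl

theorem norm_npole (N : ℕ) : ‖npole N‖ = 1 := by
  have h1 : ‖npole N‖ ^ 2 = 1 := by
    unfold npole
    rw [norm_sq_cons]; simp
  have h2 := norm_nonneg (npole N)
  nlinarith

theorem cellStep_sphere (N : ℕ) :
    CellStep N {npole N} (sphere (0 : Euc (N + 1)) 1) := by
  refine ⟨?_, sphChar N, (continuous_sphChar N).continuousOn, ?_, ?_, ?_⟩
  · rintro _ rfl
    exact mem_sphere_zero_iff_norm.2 (norm_npole N)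
  · intro x hx
    have hn := mem_sphere_zero_iff_norm.1 hx
    rw [mem_singleton_iff]
    ext i
    refine Fin.cases ?_ (fun j => ?_) i
    · rw [sphChar_zero, hn, npole_zero]; norm_num
    · rw [sphChar_succ, hn, npole_succ]; simp
  · intro x hx y hy h
    have hx' := mem_ball_zero_iff.1 hx
    have hy' := mem_ball_zero_iff.1 hy
    have h0 : 2 * ‖x‖ ^ 2 - 1 = 2 * ‖y‖ ^ 2 - 1 := by
      rw [← sphChar_zero, ← sphChar_zero, h]
    have hn : ‖x‖ ^ 2 = ‖y‖ ^ 2 := by linarith
    have hpos : 0 < Real.sqrt (1 - ‖x‖ ^ 2) := by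
      apply Real.sqrt_pos.2
      have := (sq_lt_one_iff₀ (norm_nonneg x)).2 hx'
      linarith
    ext i
    have hi : sphChar N x i.succ = sphChar N y i.succ := by rw [h]
    rw [sphChar_succ, sphChar_succ, ← hn] at hi
    have : (2 * Real.sqrt (1 - ‖x‖ ^ 2)) ≠ 0 := by positivity
    exact mul_left_cancel₀ this hi
  · apply Subset.antisymm
    · rintro _ ⟨x, hx, rfl⟩
      have hx' := mem_ball_zero_iff.1 hx
      refine ⟨mem_sphere_zero_iff_norm.2 (norm_sphChar hx'.le), ?_⟩
      intro h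
      have h0 : sphChar N x 0 = 1 := by rw [mem_singleton_iff.1 h]; rfl
      rw [sphChar_zero] at h0
      have := (sq_lt_one_iff₀ (norm_nonneg x)).2 hx'
      linarith
    · rintro y ⟨hy, hyn⟩
      have hy1 := mem_sphere_zero_iff_norm.1 hy
      have hsum : y 0 ^ 2 + ∑ i : Fin N, y i.succ ^ 2 = 1 := by
        rw [← Fin.sum_univ_succ (fun i => y i ^ 2), ← norm_sq_euc, hy1, one_pow]
      have hs1 : y 0 < 1 := by
        have hle : y 0 ^ 2 ≤ 1 := by
          have : 0 ≤ ∑ i : Fin N, y i.succ ^ 2 := Finset.sum_nonneg fun i _ => sq_nonneg _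
          linarith
        have hle' : y 0 ≤ 1 := by nlinarith
        refine lt_of_le_of_ne hle' fun h => hyn ?_
        rw [mem_singleton_iff]
        ext i
        refine Fin.cases ?_ (fun j => ?_) i
        · rw [npole_zero]; exact h
        · rw [npole_succ]
          rw [h] at hsum
          have hz : ∑ i : Fin N, y i.succ ^ 2 = 0 := by linarith
          have := (Finset.sum_eq_zero_iff_of_nonneg fun i _ => sq_nonneg (y i.succ)).1 hz j
            (Finset.mem_univ j)
          exact pow_eq_zero_iff two_ne_zero |>.1 this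
      have hs0 : -1 ≤ y 0 := by
        have : 0 ≤ ∑ i : Fin N, y i.succ ^ 2 := Finset.sum_nonneg fun i _ => sq_nonneg _
        nlinarith
      -- the preimage
      let c : ℝ := Real.sqrt ((1 - y 0) / 2)
      have hc2 : c ^ 2 = (1 - y 0) / 2 := Real.sq_sqrt (by linarith)
      have hc : 0 < c := Real.sqrt_pos.2 (by linarith)
      let x : Euc N := WithLp.toLp 2 fun i => y i.succ / (2 * c)
      have hxi : ∀ i, x i = y i.succ / (2 * c) := fun i => rfl
      have hxn : ‖x‖ ^ 2 = (1 + y 0) / 2 := by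
        rw [norm_sq_euc]
        have : ∑ i, x i ^ 2 = (∑ i : Fin N, y i.succ ^ 2) / (4 * c ^ 2) := by
          rw [Finset.sum_div]
          refine Finset.sum_congr rfl fun i _ => ?_
          rw [hxi, div_pow, mul_pow]; norm_num
        rw [this, hc2]
        have h2 : ∑ i : Fin N, y i.succ ^ 2 = (1 - y 0) * (1 + y 0) := by linarith
        rw [h2]
        have : (1 - y 0) ≠ 0 := by linarith
        field_simp
        ring
      have h1x : 1 - ‖x‖ ^ 2 = (1 - y 0) / 2 := by rw [hxn]; ring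
      refine ⟨x, ?_, ?_⟩
      · rw [mem_ball_zero_iff, ← sq_lt_one_iff₀ (norm_nonneg x), hxn]
        linarith
      · ext i
        refine Fin.cases ?_ (fun j => ?_) i
        · rw [sphChar_zero, hxn]; ring
        · rw [sphChar_succ, h1x, hxi]
          change 2 * c * (y j.succ / (2 * c)) = _
          field_simp

theorem cellStep_point {X : Type} [TopologicalSpace X] {B : Set X} (x : X) (hx : x ∉ B) :
    CellStep 0 B (insert x B) := by
  refine ⟨subset_insert _ _, fun _ => x, continuousOn_const, ?_, ?_, ?_⟩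
  · intro y hy
    exfalso
    have h1 := mem_sphere_zero_iff_norm.1 hy
    have h2 : y = 0 := Subsingleton.elim _ _
    rw [h2, norm_zero] at h1
    exact zero_ne_one h1
  · intro y _ z _ _
    exact Subsingleton.elim _ _
  · ext z
    constructor
    · rintro ⟨_, _, rfl⟩
      exact ⟨mem_insert _ _, hx⟩
    · rintro ⟨rfl | hz, hzB⟩
      · exact ⟨0, mem_ball_self one_pos, rfl⟩
      · exact absurd hz hzB

/-- The sphere in dimension `m` has one `0`-cell and one `(m-1)`-cell (none if `m = 0`). -/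
theorem chain_sphere (m : ℕ) : CellChain {0, m - 1} ∅ (sphere (0 : Euc m) 1) := by
  cases m with
  | zero =>
    have : sphere (0 : Euc 0) 1 = ∅ := by
      ext y
      simp only [mem_sphere_iff_norm, mem_empty_iff_false, iff_false]
      have h2 : y = 0 := Subsingleton.elim _ _
      rw [h2]; simp
    rw [this]
    exact CellChain.refl _
  | succ N =>
    refine CellChain.step (a := N) (B := {npole N}) (by simp) ?_ (cellStep_sphere N)
    have := cellStep_point (B := (∅ : Set (Euc (N + 1)))) (npole N) (by simp)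
    rw [insert_empty_eq] at this
    exact CellChain.single (by simp) this

/-! ### Sphere bundles -/

variable {n : Type} [Fintype n] {X Y : Type} [TopologicalSpace X] [TopologicalSpace Y]

/-- The unit sphere bundle over one more cell of the base. -/
theorem CellStep.sphereBundle [DecidableEq n] {a r : ℕ} {B C : Set Y} (h : CellStep a B C)
    (P : Y → Matrix n n ℂ) (hP : ContinuousOn P C) (hPP : ∀ y ∈ C, P y * P y = P y)
    (hr : ∀ y ∈ C \ B, (P y).trace = r) (Ψ : Y × (n → ℂ) → X)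
    (hΨ : ContinuousOn Ψ (sphB P C)) (hi : InjOn Ψ (sphB P C)) :
    CellChain ((fun k => a + k) '' {0, 2 * r - 1}) (Ψ '' sphB P B) (Ψ '' sphB P C) := by
  obtain ⟨hBC, φ, h1, h2, h3, h4⟩ := h
  have hφC : MapsTo φ (closedBall 0 1) C := CellStep.mapsTo_closedBall hBC h2 h4
  have hφb : ∀ t ∈ ball (0 : Euc a) 1, φ t ∈ C \ B := fun t ht => by
    rw [← h4]; exact mem_image_of_mem _ ht
  obtain ⟨τ, hτ, hτt⟩ := exists_triv_ball (r := r) (fun t => P (φ t)) (hP.comp h1 hφC)
    (fun t ht => hPP _ (hφC ht)) (hr _ (hφb 0 (mem_ball_self one_pos)))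
  have hmem : ∀ t ∈ closedBall (0 : Euc a) 1, ∀ w ∈ sphere (0 : Euc (2 * r)) 1,
      (φ t, τ (t, w)) ∈ sphB P C := fun t ht w hw =>
    ⟨hφC ht, (hτt t ht).1 w, by
      dsimp only; rw [(hτt t ht).2.1, mem_sphere_zero_iff_norm.1 hw, one_pow]⟩
  refine CellChain.fibre (chain_sphere (2 * r)) (image_mono (sphB_mono P hBC))
    (fun p => Ψ (φ p.1, τ p)) ?_ ?_ ?_ ?_ ?_ ?_
  · refine hΨ.comp ?_ ?_
    · exact (h1.comp continuousOn_fst fun p hp => hp.1).prodMk
        (hτ.mono (prod_mono_right (subset_univ _)))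
    · rintro ⟨t, w⟩ ⟨ht, hw⟩
      exact hmem t ht w hw
  · intro t ht w hw
    exact ⟨_, ⟨h2 ht, (hmem t (sphere_subset_closedBall ht) w hw).2⟩, rfl⟩
  · intro t _ w hw
    exact absurd hw (notMem_empty _)
  · intro t ht w hw t' ht' w' hw' heq
    have := hi (hmem t (ball_subset_closedBall ht) w hw.1)
      (hmem t' (ball_subset_closedBall ht') w' hw'.1) heq
    rw [Prod.mk.injEq] at this
    have e := h3 ht ht' this.1
    subst e
    exact ⟨rfl, (hτt t (ball_subset_closedBall ht)).2.2.1 _ _ this.2⟩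
  · intro t ht w hw
    refine ⟨⟨_, hmem t (ball_subset_closedBall ht) w hw.1, rfl⟩, ?_⟩
    rintro ⟨⟨y, v⟩, hyv, heq⟩
    have := hi (x₁ := (y, v)) (x₂ := (φ t, τ (t, w))) (sphB_mono P hBC hyv)
      (hmem t (ball_subset_closedBall ht) w hw.1) heq
    rw [Prod.mk.injEq] at this
    exact (hφb t ht).2 (this.1 ▸ hyv.1)
  · rintro _ ⟨⟨⟨y, v⟩, hyv, rfl⟩, hn⟩
    have hyB : y ∉ B := fun hy => hn ⟨(y, v), ⟨hy, hyv.2⟩, rfl⟩
    have : y ∈ φ '' ball 0 1 := by rw [h4]; exact ⟨hyv.1, hyB⟩
    obtain ⟨t, ht, rfl⟩ := this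
    obtain ⟨w, rfl⟩ := (hτt t (ball_subset_closedBall ht)).2.2.2 v hyv.2.1
    refine ⟨t, ht, w, ⟨?_, notMem_empty _⟩, rfl⟩
    have h5 := hyv.2.2
    dsimp only at h5
    rw [(hτt t (ball_subset_closedBall ht)).2.1] at h5
    rw [mem_sphere_zero_iff_norm]
    have := norm_nonneg w
    nlinarith

/-- The unit sphere bundle of a bundle of rank `r` over a cell complex with cells of
dimensions `a ∈ D` has cells of dimensions `a` and `a + (2 r - 1)`. -/
theorem CellChain.sphereBundle [DecidableEq n] {D : Set ℕ} {r : ℕ} {B C : Set Y}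
    (h : CellChain D B C)
    (P : Y → Matrix n n ℂ) (hP : ContinuousOn P C) (hPP : ∀ y ∈ C, P y * P y = P y)
    (hr : ∀ y ∈ C, (P y).trace = r) (Ψ : Y × (n → ℂ) → X)
    (hΨ : ContinuousOn Ψ (sphB P C)) (hi : InjOn Ψ (sphB P C)) :
    CellChain {k | ∃ a ∈ D, k = a ∨ k = a + (2 * r - 1)} (Ψ '' sphB P B) (Ψ '' sphB P C) := by
  induction h with
  | refl => exact CellChain.refl _
  | @step B' C' a ha hc hst ih =>
    have hsub := hst.subset
    refine (ih (hP.mono hsub) (fun y hy => hPP y (hsub hy)) (fun y hy => hr y (hsub hy))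
        (hΨ.mono (sphB_mono P hsub)) (hi.mono (sphB_mono P hsub))).trans ?_
    refine (hst.sphereBundle P hP hPP (fun y hy => hr y hy.1) Ψ hΨ hi).mono ?_
    rintro _ ⟨k, hk | hk, rfl⟩
    · refine ⟨a, ha, Or.inl ?_⟩
      subst hk
      rfl
    · refine ⟨a, ha, Or.inr ?_⟩
      rw [mem_singleton_iff] at hk
      subst hk
      rfl

/-- The unit sphere bundle of a bundle of any rank over a cell complex. -/
theorem CellChain.sphereBundle' [DecidableEq n] {D : Set ℕ} {B C : Set Y}
    (h : CellChain D B C)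
    (P : Y → Matrix n n ℂ) (hP : ContinuousOn P C) (hPP : ∀ y ∈ C, P y * P y = P y)
    (Ψ : Y × (n → ℂ) → X)
    (hΨ : ContinuousOn Ψ (sphB P C)) (hi : InjOn Ψ (sphB P C)) :
    CellChain univ (Ψ '' sphB P B) (Ψ '' sphB P C) := by
  induction h with
  | refl => exact CellChain.refl _
  | @step B' C' a ha hc hst ih =>
    have hsub := hst.subset
    obtain ⟨r, hr⟩ := hst.exists_rank P hP hPP
    exact (ih (hP.mono hsub) (fun y hy => hPP y (hsub hy))
      (hΨ.mono (sphB_mono P hsub)) (hi.mono (sphB_mono P hsub))).trans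
      ((hst.sphereBundle P hP hPP hr Ψ hΨ hi).mono (subset_univ _))

end Vale.Agent.P251.G.Cell
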