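import Vale.Agent.P251.G.CellSphere
import Vale.Agent.P251.G.Gr

/-!
# Cells of Thom spaces and of sphere bundles, in terms of `Bun`

`thomChain`: if the compact space `Y` has a chain of cells from `B` to `C` with dimensions in
`D` and `V` is a bundle of rank `r` on `Y`, then the one-point compactification of the total
space has a chain of cells from `{∞} ∪ V.E|_B` to `{∞} ∪ V.E|_C` with dimensions in `D + 2 r`.
-/

open Set Filter Topology Matrix OnePoint

namespace Vale.Agent.P251.G.Cell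

variable {ι : Type} [Fintype ι] {Y : Type} [TopologicalSpace Y]

/-- The part of the total space over `B`, with the point at infinity. -/
def overSet (V : Bun Y ι) (B : Set Y) : Set (OnePoint V.E) :=
  {∞} ∪ (fun p : V.E => (p : OnePoint V.E)) '' {p | Bun.base p ∈ B}

theorem overSet_univ (V : Bun Y ι) : overSet V univ = univ := by
  ext x
  simp only [overSet, mem_univ, iff_true]
  induction x using OnePoint.rec with
  | infty => exact Or.inl rfl
  | coe p => exact Or.inr ⟨p, mem_univ _, rfl⟩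

theorem overSet_empty (V : Bun Y ι) : overSet V ∅ = {∞} := by
  simp [overSet]

open scoped Classical in
/-- The map from the disc bundle to the one-point compactification of the total space. -/
noncomputable def thomPt (V : Bun Y ι) (q : Y × (ι → ℂ)) : OnePoint V.E :=
  if nsq q.2 < 1 then ((V.ofVec q.1 ((Real.sqrt (1 - nsq q.2))⁻¹ • q.2) : V.E) : OnePoint V.E)
  else ∞

theorem thomPt_of_lt (V : Bun Y ι) {q : Y × (ι → ℂ)} (h : nsq q.2 < 1) :
    thomPt V q = ((V.ofVec q.1 ((Real.sqrt (1 - nsq q.2))⁻¹ • q.2) : V.E) : OnePoint V.E) :=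
  if_pos h

theorem thomPt_of_le (V : Bun Y ι) {q : Y × (ι → ℂ)} (h : 1 ≤ nsq q.2) :
    thomPt V q = ∞ := if_neg (not_lt.2 h)

/-- the vector in the fibre -/
theorem vec_ofVec_of_mem (V : Bun Y ι) {y : Y} {v : ι → ℂ} (hv : V.P y *ᵥ v = v) (c : ℝ) :
    Bun.vec (V.ofVec y (c • v)) = c • v := by
  rw [Bun.vec_ofVec, Matrix.mulVec_smul, hv]

/-- `V.ofVec` away from the unit sphere is continuous. -/
theorem continuousAt_ofVec_scale (V : Bun Y ι) {q : Y × (ι → ℂ)} (h : nsq q.2 < 1) :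
    ContinuousAt (fun q : Y × (ι → ℂ) =>
      (V.ofVec q.1 ((Real.sqrt (1 - nsq q.2))⁻¹ • q.2) : V.E)) q := by
  have h1 : ContinuousAt (fun q : Y × (ι → ℂ) => (Real.sqrt (1 - nsq q.2))⁻¹) q := by
    refine ContinuousAt.inv₀ ?_ ?_
    · exact (Real.continuous_sqrt.comp (continuous_const.sub
        (continuous_nsq.comp continuous_snd))).continuousAt
    · exact (Real.sqrt_pos.2 (by linarith)).ne'
  have h2 : ContinuousAt (fun q : Y × (ι → ℂ) =>
      (q.1, (Real.sqrt (1 - nsq q.2))⁻¹ • q.2)) q :=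
    continuousAt_fst.prodMk (h1.smul continuousAt_snd)
  exact (V.continuous_ofVec.continuousAt (x := (q.1, (Real.sqrt (1 - nsq q.2))⁻¹ • q.2))).comp
    (f := fun q : Y × (ι → ℂ) => (q.1, (Real.sqrt (1 - nsq q.2))⁻¹ • q.2)) h2

theorem continuousOn_thomPt [T2Space Y] (V : Bun Y ι) :
    ContinuousOn (thomPt V) (discB V.P univ) := by
  rintro ⟨y, v⟩ ⟨-, hv, hn⟩
  rcases hn.lt_or_eq with hn' | hn'
  · have h1 := continuousAt_ofVec_scale V (q := (y, v)) hn'
    have h2 : ContinuousAt (fun q : Y × (ι → ℂ) =>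
        ((V.ofVec q.1 ((Real.sqrt (1 - nsq q.2))⁻¹ • q.2) : V.E) : OnePoint V.E)) (y, v) :=
      OnePoint.continuous_coe.continuousAt.comp h1
    refine (h2.congr ?_).continuousWithinAt
    have h3 : ∀ᶠ q in 𝓝 ((y, v) : Y × (ι → ℂ)), nsq q.2 < 1 :=
      (continuous_nsq.comp continuous_snd).continuousAt.eventually_lt continuousAt_const hn'
    filter_upwards [h3] with q hq
    exact (thomPt_of_lt V hq).symm
  · rw [ContinuousWithinAt, thomPt_of_le V hn'.ge,
      OnePoint.hasBasis_nhds_infty.tendsto_right_iff]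
    rintro K ⟨-, hK⟩
    obtain ⟨R, hR⟩ := (hK.image (continuous_nsq.comp (Bun.continuous_vec (V := V)))).bddAbove
    -- beyond the level `R`
    have h3 : ∀ᶠ q in 𝓝 ((y, v) : Y × (ι → ℂ)), |R| / (1 + |R|) < nsq q.2 := by
      refine ContinuousAt.eventually_lt continuousAt_const
        (continuous_nsq.comp continuous_snd).continuousAt ?_
      change |R| / (1 + |R|) < nsq v
      rw [hn', div_lt_one (by positivity)]
      linarith
    filter_upwards [h3.filter_mono nhdsWithin_le_nhds, self_mem_nhdsWithin] with q hq hqd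
    rcases lt_or_ge (nsq q.2) 1 with hq1 | hq1
    · rw [thomPt_of_lt V hq1]
      refine Or.inl ⟨_, ?_, rfl⟩
      intro hmem
      have h4 := hR ⟨_, hmem, rfl⟩
      have h5 : nsq (Bun.vec (V.ofVec q.1 ((Real.sqrt (1 - nsq q.2))⁻¹ • q.2))) =
          nsq q.2 / (1 - nsq q.2) := by
        rw [vec_ofVec_of_mem V hqd.2.1, nsq_real_smul, inv_pow, Real.sq_sqrt (by linarith)]
        ring
      simp only [Function.comp_apply] at h4
      rw [h5, div_le_iff₀ (by linarith)] at h4
      rw [div_lt_iff₀ (by positivity)] at hq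
      have h6 := le_abs_self R
      nlinarith [abs_nonneg R]
    · rw [thomPt_of_le V hq1]
      exact Or.inr rfl

theorem thomPt_injOn (V : Bun Y ι) : InjOn (thomPt V) (odiscB V.P univ) := by
  rintro ⟨y, v⟩ ⟨-, hv, hn⟩ ⟨y', v'⟩ ⟨-, hv', hn'⟩ h
  dsimp only at hv hn hv' hn'
  rw [thomPt_of_lt V (q := (y, v)) hn, thomPt_of_lt V (q := (y', v')) hn'] at h
  have h1 := OnePoint.coe_injective h
  have h2 : y = y' := by
    have := congrArg Bun.base h1
    simpa using this
  subst h2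
  have h3 : (Real.sqrt (1 - nsq v))⁻¹ • v = (Real.sqrt (1 - nsq v'))⁻¹ • v' := by
    have := congrArg Bun.vec h1
    rwa [vec_ofVec_of_mem V hv, vec_ofVec_of_mem V hv'] at this
  have h4 : nsq v / (1 - nsq v) = nsq v' / (1 - nsq v') := by
    have := congrArg nsq h3
    rw [nsq_real_smul, nsq_real_smul, inv_pow, inv_pow, Real.sq_sqrt (by linarith),
      Real.sq_sqrt (by linarith)] at this
    rw [div_eq_inv_mul, div_eq_inv_mul]; exact this
  have h5 : nsq v = nsq v' := by
    rw [div_eq_div_iff (by linarith) (by linarith)] at h4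
    linarith
  rw [h5] at h3
  have h6 : (Real.sqrt (1 - nsq v'))⁻¹ ≠ 0 :=
    inv_ne_zero (Real.sqrt_pos.2 (by linarith)).ne'
  have h7 := smul_right_injective (ι → ℂ) h6 h3
  rw [h7]

theorem thomPt_surj (V : Bun Y ι) (p : V.E) :
    ∃ v, V.P (Bun.base p) *ᵥ v = v ∧ nsq v < 1 ∧ thomPt V (Bun.base p, v) = p := by
  have h0 := nsq_nonneg (Bun.vec p)
  let s : ℝ := Real.sqrt (1 + nsq (Bun.vec p))
  have hs : 0 < s := Real.sqrt_pos.2 (by linarith)
  have hs2 : s ^ 2 = 1 + nsq (Bun.vec p) := Real.sq_sqrt (by linarith)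
  have hn : nsq (s⁻¹ • Bun.vec p) = nsq (Bun.vec p) / (1 + nsq (Bun.vec p)) := by
    rw [nsq_real_smul, inv_pow, hs2]; ring
  have hlt : nsq (s⁻¹ • Bun.vec p) < 1 := by
    rw [hn, div_lt_one (by linarith)]; linarith
  refine ⟨s⁻¹ • Bun.vec p, ?_, hlt, ?_⟩
  · rw [Matrix.mulVec_smul, Bun.P_vec]
  · rw [thomPt_of_lt V (q := (Bun.base p, s⁻¹ • Bun.vec p)) hlt]
    congr 1
    refine Bun.E_ext (by simp) ?_
    have h1 : (Real.sqrt (1 - nsq (s⁻¹ • Bun.vec p)))⁻¹ = s := by
      rw [hn]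
      have : 1 - nsq (Bun.vec p) / (1 + nsq (Bun.vec p)) = (s ^ 2)⁻¹ := by
        rw [hs2]
        have : (1 + nsq (Bun.vec p)) ≠ 0 := by linarith
        field_simp
        ring
      rw [this, Real.sqrt_inv, Real.sqrt_sq hs.le, inv_inv]
    dsimp only
    rw [h1, smul_smul, mul_inv_cancel₀ hs.ne', one_smul, Bun.vec_ofVec, Bun.P_vec]

theorem thomPt_image (V : Bun Y ι) (B : Set Y) :
    {∞} ∪ thomPt V '' discB V.P B = overSet V B := by
  apply Subset.antisymm
  · rintro x (hx | ⟨⟨y, v⟩, ⟨hy, hv, hn⟩, rfl⟩)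
    · exact Or.inl hx
    · dsimp only at hy hv hn
      rcases hn.lt_or_eq with hn' | hn'
      · rw [thomPt_of_lt V (q := (y, v)) hn']
        exact Or.inr ⟨_, by simpa using hy, rfl⟩
      · rw [thomPt_of_le V (q := (y, v)) hn'.ge]
        exact Or.inl rfl
  · rintro x (hx | ⟨p, hp, rfl⟩)
    · exact Or.inl hx
    · obtain ⟨v, hv, hn, h⟩ := thomPt_surj V p
      exact Or.inr ⟨(Bun.base p, v), ⟨hp, hv, hn.le⟩, h⟩

/-- Cells of the Thom space of a bundle of rank `r`. -/
theorem thomChain [DecidableEq ι] [T2Space Y] (V : Bun Y ι) {r : ℕ} (hr : V.IsRank r)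
    {D : Set ℕ} {B C : Set Y} (h : CellChain D B C) :
    CellChain ((fun a => a + 2 * r) '' D) (overSet V B) (overSet V C) := by
  rw [← thomPt_image, ← thomPt_image]
  refine h.discBundle V.P V.cont.continuousOn (fun y _ => V.idem y) (fun y _ => hr y)
    (thomPt V) ((continuousOn_thomPt V).mono (discB_mono _ (subset_univ _))) ?_
    ((thomPt_injOn V).mono (odiscB_mono _ (subset_univ _))) ?_
  · rintro ⟨y, v⟩ ⟨_, _, hn⟩
    exact thomPt_of_le V (q := (y, v)) hn.ge
  · rintro ⟨y, v⟩ ⟨_, _, hn⟩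
    rw [thomPt_of_lt V (q := (y, v)) hn]
    exact fun h => OnePoint.coe_ne_infty _ (mem_singleton_iff.1 h)

/-- Cells of the Thom space of a bundle of any rank. -/
theorem thomChain' [DecidableEq ι] [T2Space Y] (V : Bun Y ι)
    {D : Set ℕ} {B C : Set Y} (h : CellChain D B C) :
    CellChain {k | ∃ a ∈ D, ∃ r, k = a + 2 * r} (overSet V B) (overSet V C) := by
  rw [← thomPt_image, ← thomPt_image]
  refine h.discBundle' V.P V.cont.continuousOn (fun y _ => V.idem y)
    (thomPt V) ((continuousOn_thomPt V).mono (discB_mono _ (subset_univ _))) ?_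
    ((thomPt_injOn V).mono (odiscB_mono _ (subset_univ _))) ?_
  · rintro ⟨y, v⟩ ⟨_, _, hn⟩
    exact thomPt_of_le V (q := (y, v)) hn.ge
  · rintro ⟨y, v⟩ ⟨_, _, hn⟩
    rw [thomPt_of_lt V (q := (y, v)) hn]
    exact fun h => OnePoint.coe_ne_infty _ (mem_singleton_iff.1 h)

end Vale.Agent.P251.G.Cell
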