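import Mathlib.LinearAlgebra.Trace
import Mathlib.LinearAlgebra.Complex.FiniteDimensional
import Vale.Agent.P251.G.CellProj
import Vale.Agent.P251.G.Bundle

/-!
# Bundles over discs are trivial

A continuous family of idempotent matrices over a closed ball admits a norm preserving
trivialisation.
-/

namespace Vale.Agent.P251.G.Cell

open Set Metric Topology Matrix

variable {n : Type} [Fintype n] [DecidableEq n]

omit [DecidableEq n] in
theorem nsq_eq_en (v : n → ℂ) : nsq v = en v ^ 2 := by
  rw [en_sq, nsq]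
  exact Finset.sum_congr rfl fun i _ => Complex.normSq_eq_norm_sq _

theorem mem_range_iff {P : Matrix n n ℂ} (hP : P * P = P) (v : n → ℂ) :
    v ∈ LinearMap.range (Matrix.toLin' P) ↔ P *ᵥ v = v := by
  constructor
  · rintro ⟨w, rfl⟩
    rw [Matrix.toLin'_apply, Matrix.mulVec_mulVec, hP]
  · intro h
    exact ⟨v, by rw [Matrix.toLin'_apply, h]⟩

theorem finrank_range {P : Matrix n n ℂ} (hP : P * P = P) {r : ℕ} (ht : P.trace = r) :
    Module.finrank ℂ (LinearMap.range (Matrix.toLin' P)) = r := by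
  have hid : IsIdempotentElem (Matrix.toLin' P) := by
    change Matrix.toLin' P ∘ₗ Matrix.toLin' P = _
    rw [← Matrix.toLin'_mul, hP]
  have h := (LinearMap.IsIdempotentElem.isProj_range _ hid).trace
  rw [Matrix.trace_toLin'_eq, ht] at h
  exact_mod_cast h.symm

omit [DecidableEq n] in
/-- The trace of an idempotent matrix is a natural number. -/
theorem exists_trace_eq {P : Matrix n n ℂ} (hP : P * P = P) : ∃ r : ℕ, P.trace = r := by
  classical
  have hid : IsIdempotentElem (Matrix.toLin' P) := by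
    change Matrix.toLin' P ∘ₗ Matrix.toLin' P = _
    rw [← Matrix.toLin'_mul, hP]
  have h := (LinearMap.IsIdempotentElem.isProj_range _ hid).trace
  rw [Matrix.trace_toLin'_eq] at h
  exact ⟨_, h⟩

/-- The trace of a family of idempotents over the closed unit ball is constant. -/
theorem trace_ball {a : ℕ} (P : Euc a → Matrix n n ℂ)
    (hP : ContinuousOn P (closedBall 0 1)) (hPP : ∀ t ∈ closedBall (0 : Euc a) 1, P t * P t = P t)
    (t : Euc a) (ht : t ∈ closedBall (0 : Euc a) 1) : (P t).trace = (P 0).trace := by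
  have : CompactSpace (closedBall (0 : Euc a) 1) := isCompact_iff_compactSpace.1
    (isCompact_closedBall _ _)
  have hsm : ∀ (s : unitInterval) (y : closedBall (0 : Euc a) 1),
      ((s : ℝ) • (y : Euc a)) ∈ closedBall (0 : Euc a) 1 := by
    intro s y
    rw [mem_closedBall_zero_iff, norm_smul, Real.norm_eq_abs, abs_of_nonneg s.2.1]
    exact mul_le_one₀ s.2.2 (norm_nonneg _) (mem_closedBall_zero_iff.1 y.2)
  have hcon : ConjFam (fun _ : closedBall (0 : Euc a) 1 => P 0)
      (fun y : closedBall (0 : Euc a) 1 => P y) := by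
    have := conjFam_of_homotopy (T := unitInterval) (Y := closedBall (0 : Euc a) 1)
      (fun s y => P ((s : ℝ) • (y : Euc a))) ?_ (fun s y => hPP _ (hsm s y)) 0 1
    · simpa using this
    · have h1 : Continuous (fun p : unitInterval × closedBall (0 : Euc a) 1 =>
          (⟨(p.1 : ℝ) • (p.2 : Euc a), hsm p.1 p.2⟩ : closedBall (0 : Euc a) 1)) := by
        refine Continuous.subtype_mk ?_ _
        exact (continuous_subtype_val.comp continuous_fst).smul
          (continuous_subtype_val.comp continuous_snd)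
      exact (continuousOn_iff_continuous_domRestrict.1 hP).comp h1
  obtain ⟨G, -, hGu⟩ := hcon
  obtain ⟨⟨u, hu⟩, hc⟩ := hGu ⟨t, ht⟩
  have h1 : P t = (u : Matrix n n ℂ) * P 0 * (↑u⁻¹ : Matrix n n ℂ) := by
    rw [← hu] at hc
    dsimp only at hc
    rw [hc, mul_assoc, Units.mul_inv, mul_one]
  rw [h1, Matrix.trace_mul_comm, ← mul_assoc, Units.inv_mul, one_mul]

/-- A norm preserving trivialisation of a family of idempotents over the closed unit ball. -/
theorem exists_triv_ball {a r : ℕ} (P : Euc a → Matrix n n ℂ)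
    (hP : ContinuousOn P (closedBall 0 1)) (hPP : ∀ t ∈ closedBall (0 : Euc a) 1, P t * P t = P t)
    (hr : (P 0).trace = r) :
    ∃ τ : Euc a × Euc (2 * r) → (n → ℂ), ContinuousOn τ (closedBall 0 1 ×ˢ univ) ∧
      ∀ t ∈ closedBall (0 : Euc a) 1, (∀ w, P t *ᵥ τ (t, w) = τ (t, w)) ∧
        (∀ w, nsq (τ (t, w)) = ‖w‖ ^ 2) ∧ (∀ w w', τ (t, w) = τ (t, w') → w = w') ∧
        (∀ v, P t *ᵥ v = v → ∃ w, τ (t, w) = v) := by
  classical
  have h0 : (0 : Euc a) ∈ closedBall (0 : Euc a) 1 := mem_closedBall_self zero_le_one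
  have : CompactSpace (closedBall (0 : Euc a) 1) := isCompact_iff_compactSpace.1
    (isCompact_closedBall _ _)
  -- the contraction
  have hsm : ∀ (s : unitInterval) (y : closedBall (0 : Euc a) 1),
      ((s : ℝ) • (y : Euc a)) ∈ closedBall (0 : Euc a) 1 := by
    intro s y
    rw [mem_closedBall_zero_iff, norm_smul, Real.norm_eq_abs, abs_of_nonneg s.2.1]
    exact mul_le_one₀ s.2.2 (norm_nonneg _) (mem_closedBall_zero_iff.1 y.2)
  have hcon : ConjFam (fun _ : closedBall (0 : Euc a) 1 => P 0)
      (fun y : closedBall (0 : Euc a) 1 => P y) := by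
    have := conjFam_of_homotopy (T := unitInterval) (Y := closedBall (0 : Euc a) 1)
      (fun s y => P ((s : ℝ) • (y : Euc a))) ?_ (fun s y => hPP _ (hsm s y)) 0 1
    · simpa using this
    · have h1 : Continuous (fun p : unitInterval × closedBall (0 : Euc a) 1 =>
          (⟨(p.1 : ℝ) • (p.2 : Euc a), hsm p.1 p.2⟩ : closedBall (0 : Euc a) 1)) := by
        refine Continuous.subtype_mk ?_ _
        exact (continuous_subtype_val.comp continuous_fst).smul
          (continuous_subtype_val.comp continuous_snd)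
      exact (continuousOn_iff_continuous_domRestrict.1 hP).comp h1
  obtain ⟨G, hG, hGu⟩ := hcon
  -- linear coordinates on the range of `P 0`
  let R := LinearMap.range (Matrix.toLin' (P 0))
  have hfr : Module.finrank ℝ (Euc (2 * r)) = Module.finrank ℝ R := by
    rw [finrank_real_of_complex, finrank_range (hPP 0 h0) hr]; simp
  let L : Euc (2 * r) ≃L[ℝ] R := ContinuousLinearEquiv.ofFinrankEq hfr
  let g : Euc a × Euc (2 * r) → (n → ℂ) := fun p =>
    (if h : p.1 ∈ closedBall (0 : Euc a) 1 then G ⟨p.1, h⟩ else 1) *ᵥ (L p.2 : n → ℂ)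
  have hg : ContinuousOn g (closedBall 0 1 ×ˢ univ) := by
    rw [continuousOn_iff_continuous_domRestrict]
    have : (closedBall (0 : Euc a) 1 ×ˢ (univ : Set (Euc (2 * r)))).domRestrict g =
        fun p => G ⟨p.1.1, p.2.1⟩ *ᵥ (L p.1.2 : n → ℂ) := by
      funext p
      simp only [domRestrict_apply, g, p.2.1, dite_true]
    rw [this]
    refine Continuous.matrix_mulVec (hG.comp ?_) ?_
    · exact Continuous.subtype_mk (continuous_fst.comp continuous_subtype_val) _
    · exact continuous_subtype_val.comp (L.continuous.comp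
        (continuous_snd.comp continuous_subtype_val))
  have hgt : ∀ t (ht : t ∈ closedBall (0 : Euc a) 1) w, g (t, w) = G ⟨t, ht⟩ *ᵥ (L w : n → ℂ) := by
    intro t ht w
    simp only [g, ht, dite_true]
  have hinj : ∀ t (_ : t ∈ closedBall (0 : Euc a) 1) w w', g (t, w) = g (t, w') → w = w' := by
    intro t ht w w' h
    rw [hgt t ht, hgt t ht] at h
    have := Matrix.mulVec_injective_of_isUnit (hGu ⟨t, ht⟩).1 h
    exact L.injective (Subtype.ext this)
  have hg0 : ∀ t, g (t, 0) = 0 := by
    intro t; simp [g]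
  have hne : ∀ t ∈ closedBall (0 : Euc a) 1, ∀ w, w ≠ 0 → 0 < en (g (t, w)) := by
    intro t ht w hw
    refine lt_of_le_of_ne (en_nonneg _) (Ne.symm ?_)
    rw [Ne, en_eq_zero]
    intro h
    exact hw (hinj t ht w 0 (by rw [h, hg0]))
  have hgs : ∀ t (c : ℝ) w, g (t, c • w) = c • g (t, w) := by
    intro t c w
    simp only [g, map_smul, Submodule.coe_smul_of_tower, Matrix.mulVec_smul]
  let τ : Euc a × Euc (2 * r) → (n → ℂ) := fun p => (‖p.2‖ / en (g p)) • g p
  have hen : ∀ t ∈ closedBall (0 : Euc a) 1, ∀ w, en (τ (t, w)) = ‖w‖ := by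
    intro t ht w
    by_cases hw : w = 0
    · simp [τ, hw, en_zero]
    · have := hne t ht w hw
      simp only [τ]
      rw [en_smul, abs_of_nonneg (by positivity), div_mul_cancel₀ _ this.ne']
  refine ⟨τ, ?_, fun t ht => ⟨?_, fun w => by rw [nsq_eq_en, hen t ht], ?_, ?_⟩⟩
  · rintro ⟨t, w⟩ ⟨ht, -⟩
    by_cases hw : w = 0
    · subst hw
      have hz : τ (t, 0) = 0 := by simp [τ]
      rw [ContinuousWithinAt, hz]
      have key : Filter.Tendsto (fun p : Euc a × Euc (2 * r) => en (τ p))
          (𝓝[closedBall 0 1 ×ˢ univ] (t, 0)) (𝓝 0) := by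
        have h1 : Filter.Tendsto (fun p : Euc a × Euc (2 * r) => ‖p.2‖)
            (𝓝[closedBall 0 1 ×ˢ univ] (t, 0)) (𝓝 0) := by
          have : Continuous (fun p : Euc a × Euc (2 * r) => ‖p.2‖) := continuous_snd.norm
          have h2 := this.tendsto (t, 0)
          rw [show ‖((t, 0) : Euc a × Euc (2 * r)).2‖ = 0 by simp] at h2
          exact h2.mono_left nhdsWithin_le_nhds
        refine h1.congr' ?_
        filter_upwards [self_mem_nhdsWithin] with p hp
        exact (hen p.1 hp.1 p.2).symm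
      have h3 : Filter.Tendsto (fun p : Euc a × Euc (2 * r) =>
          (WithLp.toLp 2 (τ p) : EuclideanSpace ℂ n)) (𝓝[closedBall 0 1 ×ˢ univ] (t, 0)) (𝓝 0) :=
        tendsto_zero_iff_norm_tendsto_zero.2 key
      have h4 := ((PiLp.continuous_ofLp 2 (fun _ : n => ℂ)).tendsto 0).comp h3
      simpa [Function.comp_def] using h4
    · have hgc := hg (t, w) ⟨ht, mem_univ _⟩
      have h1 : ContinuousWithinAt (fun p => en (g p)) (closedBall 0 1 ×ˢ univ) (t, w) :=
        continuous_en.continuousAt.comp_continuousWithinAt hgc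
      have h2 : ContinuousWithinAt (fun p : Euc a × Euc (2 * r) => ‖p.2‖)
          (closedBall 0 1 ×ˢ univ) (t, w) := continuous_snd.norm.continuousWithinAt
      exact (h2.div h1 (hne t ht w hw).ne').smul hgc
  · intro w
    have h1 : P t *ᵥ g (t, w) = g (t, w) := by
      rw [hgt t ht, Matrix.mulVec_mulVec, ← (hGu ⟨t, ht⟩).2, ← Matrix.mulVec_mulVec,
        (mem_range_iff (hPP 0 h0) _).1 (L w).2]
    simp only [τ]
    rw [Matrix.mulVec_smul, h1]
  · intro w w' h
    have hn : ‖w‖ = ‖w'‖ := by rw [← hen t ht w, ← hen t ht w', h]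
    by_cases hw : w = 0
    · subst hw
      rw [norm_zero] at hn
      exact (norm_eq_zero.1 hn.symm).symm
    · have hw' : w' ≠ 0 := by
        intro h'; apply hw; rw [h', norm_zero] at hn; exact norm_eq_zero.1 hn
      have e1 := hne t ht w hw
      have e2 := hne t ht w' hw'
      have hnw : 0 < ‖w‖ := norm_pos_iff.2 hw
      simp only [τ] at h
      rw [← hgs, ← hgs, ← hn] at h
      have h2 := hinj t ht _ _ h
      -- norms: the two scalars are equal
      have h3 : ‖w‖ / en (g (t, w)) = ‖w‖ / en (g (t, w')) := by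
        have := congrArg norm h2
        rw [norm_smul, norm_smul, ← hn, Real.norm_eq_abs, Real.norm_eq_abs,
          abs_of_pos (by positivity), abs_of_pos (by positivity)] at this
        exact mul_right_cancel₀ hnw.ne' this
      rw [h3] at h2
      exact smul_right_injective _ (div_pos hnw e2).ne' h2
  · intro v hv
    have hmem : ∃ w, g (t, w) = v := by
      obtain ⟨⟨u, hu⟩, hGy⟩ := hGu ⟨t, ht⟩
      -- `v = G u'` with `u' = G⁻¹ v` in the range of `P 0`
      let u' : n → ℂ := (↑u⁻¹ : Matrix n n ℂ) *ᵥ v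
      have hGu' : G ⟨t, ht⟩ *ᵥ u' = v := by
        simp only [u']
        rw [Matrix.mulVec_mulVec, ← hu, Units.mul_inv, Matrix.one_mulVec]
      have hPu' : P 0 *ᵥ u' = u' := by
        apply Matrix.mulVec_injective_of_isUnit (A := G ⟨t, ht⟩) ⟨u, hu⟩
        rw [Matrix.mulVec_mulVec, hGy, ← Matrix.mulVec_mulVec, hGu']
        exact hv
      refine ⟨L.symm ⟨u', (mem_range_iff (hPP 0 h0) _).2 hPu'⟩, ?_⟩
      rw [hgt t ht, ContinuousLinearEquiv.apply_symm_apply, hGu']
    obtain ⟨w, rfl⟩ := hmem
    by_cases hw : w = 0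
    · refine ⟨0, ?_⟩
      subst hw
      simp [τ, hg0]
    · have e1 := hne t ht w hw
      have hnw : 0 < ‖w‖ := norm_pos_iff.2 hw
      refine ⟨(en (g (t, w)) / ‖w‖) • w, ?_⟩
      simp only [τ]
      rw [hgs, en_smul, norm_smul, Real.norm_eq_abs, abs_of_pos (by positivity), smul_smul]
      rw [show en (g (t, w)) / ‖w‖ * ‖w‖ / (en (g (t, w)) / ‖w‖ * en (g (t, w))) *
        (en (g (t, w)) / ‖w‖) = 1 by field_simp]
      exact one_smul _ _

end Vale.Agent.P251.G.Cell
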