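import Vale.Agent.P251.G.DegreeW

/-!
# P251, G7(c): the degree of endomorphisms of Euclidean spaces in `LC`

`LC.deg f : ℝ` for `f : LC.of E ⟶ LC.of E`, `E` a finite-dimensional real normed space.
-/

open Set Topology Bornology Filter CategoryTheory MonoidalCategory
open scoped unitInterval OnePoint

namespace Vale.Agent.P251.G

open Vale.Agent.P205.TI.Deg

namespace LC

variable {E F : Type} [NormedAddCommGroup E] [NormedSpace ℝ E] [FiniteDimensional ℝ E]
  [NormedAddCommGroup F] [NormedSpace ℝ F] [FiniteDimensional ℝ F]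

/-- the degree of an endomorphism of `LC.of E` -/
noncomputable def deg (f : LC.of E ⟶ LC.of E) : ℝ := degV (E := E) (app f)

theorem deg_id : deg (𝟙 (LC.of E)) = 1 := degV_id

theorem deg_homotopic {f g : LC.of E ⟶ LC.of E} (h : Homotopic f g) : deg f = deg g := by
  obtain ⟨H, h0, h1⟩ := h
  have key := degV_homotopy (E := E)
    (H := fun p => app H (smash p.2 (p.1 : OnePoint unitInterval)))
    ((continuous_app H).comp (continuous_smash.comp
      (continuous_snd.prodMk (OnePoint.continuous_coe.comp continuous_fst))))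
    (fun t => by rw [smash_infty_left]; exact app_infty H)
  have e0 : (fun x : OnePoint E => app H (smash x ((0 : unitInterval) : OnePoint unitInterval))) =
      app f := by
    funext x
    rw [← h0, app_comp, app_incl]
  have e1 : (fun x : OnePoint E => app H (smash x ((1 : unitInterval) : OnePoint unitInterval))) =
      app g := by
    funext x
    rw [← h1, app_comp, app_incl]
  rw [deg, deg, ← e0, ← e1]
  exact key

theorem deg_zero : deg (0 : LC.of E ⟶ LC.of E) = 0 :=
  degV_eq_zero (continuous_app _) (app_infty _) fun x => by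
    rw [app_zero]
    exact OnePoint.infty_ne_coe _

/-- an endomorphism which omits the value `0` has degree zero -/
theorem deg_eq_zero {f : LC.of E ⟶ LC.of E}
    (h : ∀ x : E, app f (x : OnePoint E) ≠ ((0 : E) : OnePoint E)) : deg f = 0 :=
  degV_eq_zero (continuous_app _) (app_infty _) fun x => by
    induction x using OnePoint.rec with
    | infty =>
      have : app f (∞ : OnePoint E) = ∞ := app_infty f
      rw [this]
      exact OnePoint.infty_ne_coe _
    | coe x => exact h x

/-- multiplicativity for tensor products -/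
theorem deg_tensor (f : LC.of E ⟶ LC.of E) (g : LC.of F ⟶ LC.of F) :
    deg (E := E × F) (f ⊗ₘ g) = deg f * deg g :=
  degV_prod (continuous_app f) (app_infty f) (continuous_app g) (app_infty g)
    (continuous_app (f ⊗ₘ g)) (app_infty (f ⊗ₘ g)) fun x y => app_tensorHom_coe f g x y

theorem deg_whiskerRight (f : LC.of E ⟶ LC.of E) : deg (E := E × F) (f ▷ LC.of F) = deg f := by
  have h : deg (E := E × F) (f ⊗ₘ 𝟙 (LC.of F)) = deg f := by
    rw [deg_tensor, deg_id, mul_one]
  rwa [tensorHom_id] at h

theorem deg_whiskerLeft (f : LC.of E ⟶ LC.of E) : deg (E := F × E) (LC.of F ◁ f) = deg f := by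
  have h : deg (E := F × E) (𝟙 (LC.of F) ⊗ₘ f) = deg f := by
    rw [deg_tensor, deg_id, one_mul]
  rwa [id_tensorHom] at h

/-- invariance under linear isomorphisms -/
theorem deg_conj (e : E ≃L[ℝ] F) (f : LC.of E ⟶ LC.of E) :
    deg ((ofHomeo (X := LC.of E) (Y := LC.of F) e.toHomeomorph).inv ≫ f ≫
      (ofHomeo (X := LC.of E) (Y := LC.of F) e.toHomeomorph).hom) = deg f :=
  degV_conj e (continuous_app f) (app_infty f)

/-- linear isomorphisms -/
theorem deg_linear (L : E ≃L[ℝ] E) :
    deg (ofHomeo (X := LC.of E) (Y := LC.of E) L.toHomeomorph).hom =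
      (sg (L : E →L[ℝ] E).det : ℝ) :=
  degV_linear L

/-- additivity for morphisms with disjoint supports -/
theorem deg_sum {ι : Type*} (s : Finset ι) {f : LC.of E ⟶ LC.of E}
    {g : ι → (LC.of E ⟶ LC.of E)} {U : ι → Set E}
    (hd : (s : Set ι).PairwiseDisjoint U)
    (h1 : ∀ i ∈ s, ∀ x ∈ U i, app f (x : OnePoint E) = app (g i) x)
    (h2 : ∀ i ∈ s, ∀ x : E, x ∉ U i → app (g i) (x : OnePoint E) = ∞)
    (h3 : ∀ x : E, (∀ i ∈ s, x ∉ U i) → app f (x : OnePoint E) = ∞) :
    deg f = ∑ i ∈ s, deg (g i) :=
  degV_sum s (continuous_app f) (app_infty f) (fun i _ => continuous_app (g i))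
    (fun i _ => app_infty (g i)) hd h1 h2 h3

/-- The identity of a Euclidean space is not null-homotopic, not even after any suspension. -/
theorem not_homotopic_id_zero : ¬ Homotopic (𝟙 (LC.of E)) 0 := fun h => by
  have := deg_homotopic h
  rw [deg_id, deg_zero] at this
  exact one_ne_zero this

end LC

end Vale.Agent.P251.G
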