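import Vale.Agent.P251.G.BrDeg

/-!
# P251, G7(c): the degree of pointed self-maps of the one-point compactification of `ℝⁿ`

For a continuous `f : OnePoint (Fin n → ℝ) → OnePoint (Fin n → ℝ)` with `f ∞ = ∞` the real number
`deg f` is defined, it is invariant under pointed homotopies, additive for maps with disjoint
supports, and the identity has degree `1`.
-/

open Set Topology Bornology Filter
open scoped unitInterval OnePoint

namespace Vale.Agent.P251.G

open Vale.Agent.P205.TI.Deg

/-! ### finite parts -/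

section Fin

variable {X Y E : Type*} [TopologicalSpace X] [NormedAddCommGroup E]

/-- the finite part of a point of the one-point compactification (`0` at `∞`) -/
noncomputable def fpt (y : OnePoint E) : E := Option.elim y 0 id

@[simp] lemma fpt_coe (y : E) : fpt (y : OnePoint E) = y := rfl

lemma coe_fpt {y : OnePoint E} (h : y ≠ ∞) : ((fpt y : E) : OnePoint E) = y := by
  obtain ⟨z, rfl⟩ := OnePoint.ne_infty_iff_exists.1 h
  rfl

lemma continuousAt_fpt {y : OnePoint E} (h : y ≠ ∞) : ContinuousAt (fpt : OnePoint E → E) y := by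
  obtain ⟨z, rfl⟩ := OnePoint.ne_infty_iff_exists.1 h
  rw [OnePoint.continuousAt_coe]
  exact continuousAt_id

lemma continuousAt_fpt_comp {f : Y → OnePoint E} [TopologicalSpace Y] {y : Y}
    (hf : ContinuousAt f y) (h : f y ≠ ∞) : ContinuousAt (fun z => fpt (f z)) y :=
  ContinuousAt.comp (f := f) (g := fpt) (continuousAt_fpt h) hf

/-- the finite part of a map -/
noncomputable def fin (f : OnePoint X → OnePoint E) (x : X) : E := fpt (f x)

omit [TopologicalSpace X] in
lemma coe_fin {f : OnePoint X → OnePoint E} {x : X} (h : f x ≠ ∞) :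
    ((fin f x : E) : OnePoint E) = f x := coe_fpt h

omit [TopologicalSpace X] in
lemma fin_eq {f : OnePoint X → OnePoint E} {x : X} {y : E} (h : f x = y) : fin f x = y := by
  rw [fin, h, fpt_coe]

lemma continuousAt_fin {f : OnePoint X → OnePoint E} {x : X}
    (hf : Continuous f) (h : f x ≠ ∞) : ContinuousAt (fin f) x :=
  continuousAt_fpt_comp (f := fun z : X => f (z : OnePoint X))
    (hf.continuousAt.comp OnePoint.continuous_coe.continuousAt) h

lemma continuousOn_fin {f : OnePoint X → OnePoint E} {s : Set X}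
    (hf : Continuous f) (h : ∀ x ∈ s, f x ≠ ∞) : ContinuousOn (fin f) s :=
  fun x hx => (continuousAt_fin hf (h x hx)).continuousWithinAt

end Fin

/-! ### the basic open set -/

variable {n : ℕ}

/-- the space -/
abbrev Eu (n : ℕ) : Type := Fin n → ℝ

/-- preimage of the open unit ball -/
def Wf (f : OnePoint (Eu n) → OnePoint (Eu n)) : Set (Eu n) :=
  {x | f x ≠ ∞ ∧ ‖fin f x‖ < 1}

/-- preimage of the closed unit ball -/
def Cf (f : OnePoint (Eu n) → OnePoint (Eu n)) : Set (Eu n) :=
  {x | f x ≠ ∞ ∧ ‖fin f x‖ ≤ 1}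

lemma Wf_subset_Cf (f : OnePoint (Eu n) → OnePoint (Eu n)) : Wf f ⊆ Cf f :=
  fun _ hx => ⟨hx.1, hx.2.le⟩

lemma isOpen_finite {f : OnePoint (Eu n) → OnePoint (Eu n)} (hf : Continuous f) :
    IsOpen {x : Eu n | f x ≠ ∞} :=
  (OnePoint.isClosed_infty.isOpen_compl.preimage hf).preimage OnePoint.continuous_coe

lemma isOpen_Wf {f : OnePoint (Eu n) → OnePoint (Eu n)} (hf : Continuous f) : IsOpen (Wf f) := by
  have h1 : ContinuousOn (fun x => ‖fin f x‖) {x : Eu n | f x ≠ ∞} :=
    (continuousOn_fin hf fun x hx => hx).norm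
  exact h1.isOpen_inter_preimage (isOpen_finite hf) (isOpen_Iio (a := (1 : ℝ)))

lemma preimage_ball_eq (f : OnePoint (Eu n) → OnePoint (Eu n)) :
    {x : Eu n | f x ∈ ((↑) : Eu n → OnePoint (Eu n)) '' Metric.closedBall 0 1} = Cf f := by
  ext x
  constructor
  · rintro ⟨y, hy, hxy⟩
    rw [mem_closedBall_zero_iff] at hy
    refine ⟨by rw [← hxy]; exact OnePoint.coe_ne_infty y, ?_⟩
    rw [fin_eq hxy.symm]
    exact hy
  · rintro ⟨h1, h2⟩
    exact ⟨fin f x, mem_closedBall_zero_iff.2 h2, coe_fin h1⟩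

lemma isCompact_Cf {f : OnePoint (Eu n) → OnePoint (Eu n)} (hf : Continuous f) (h0 : f ∞ = ∞) :
    IsCompact (Cf f) := by
  have h1 : IsClosed (((↑) : Eu n → OnePoint (Eu n)) '' Metric.closedBall 0 1) :=
    OnePoint.isClosed_image_coe.2 ⟨Metric.isClosed_closedBall, isCompact_closedBall _ _⟩
  have h2 : IsClosed (f ⁻¹' (((↑) : Eu n → OnePoint (Eu n)) '' Metric.closedBall 0 1)) :=
    h1.preimage hf
  have h3 : f ⁻¹' (((↑) : Eu n → OnePoint (Eu n)) '' Metric.closedBall 0 1) =
      ((↑) : Eu n → OnePoint (Eu n)) '' Cf f := by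
    rw [← preimage_ball_eq]
    ext x
    constructor
    · intro hx
      have hx' : x ≠ ∞ := by
        rintro rfl
        rw [mem_preimage, h0] at hx
        exact OnePoint.infty_notMem_image_coe hx
      obtain ⟨z, rfl⟩ := OnePoint.ne_infty_iff_exists.1 hx'
      exact ⟨z, hx, rfl⟩
    · rintro ⟨z, hz, rfl⟩
      exact hz
  rw [h3] at h2
  exact (OnePoint.isClosed_image_coe.1 h2).2

lemma closure_Wf_subset {f : OnePoint (Eu n) → OnePoint (Eu n)} (hf : Continuous f)
    (h0 : f ∞ = ∞) : closure (Wf f) ⊆ Cf f :=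
  closure_minimal (Wf_subset_Cf f) (isCompact_Cf hf h0).isClosed

lemma isBounded_Wf {f : OnePoint (Eu n) → OnePoint (Eu n)} (hf : Continuous f) (h0 : f ∞ = ∞) :
    IsBounded (Wf f) :=
  (isCompact_Cf hf h0).isBounded.subset (Wf_subset_Cf f)

lemma frontier_Wf {f : OnePoint (Eu n) → OnePoint (Eu n)} (hf : Continuous f) (h0 : f ∞ = ∞)
    {x : Eu n} (hx : x ∈ frontier (Wf f)) : f x ≠ ∞ ∧ ‖fin f x‖ = 1 := by
  rw [(isOpen_Wf hf).frontier_eq] at hx
  obtain ⟨h1, h2⟩ := closure_Wf_subset hf h0 hx.1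
  refine ⟨h1, le_antisymm h2 (not_lt.1 fun h3 => hx.2 ⟨h1, h3⟩)⟩

/-! ### elementary properties of `degR` -/

lemma degR_excision {f : Eu n → Eu n} {W U : Set (Eu n)} (hWb : IsBounded W) (hW : IsOpen W)
    (hf : ContinuousOn f (closure W)) (hU : IsOpen U) (hUW : U ⊆ W)
    (h : ∀ x ∈ closure W, f x = 0 → x ∈ U) : degR f W = degR f U := by
  have := degR_sum hWb hW hf ({()} : Finset Unit) (U := fun _ => U) (fun _ _ => hU)
    (fun _ _ => hUW) (by simp) (fun x hx h0 => ⟨(), by simp, h x hx h0⟩)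
  simpa using this

lemma degR_congr {f g : Eu n → Eu n} {W : Set (Eu n)} (hWb : IsBounded W) (hW : IsOpen W)
    (hf : ContinuousOn f (closure W)) (hfg : ∀ x ∈ closure W, f x = g x)
    (h : ∀ x ∈ frontier W, f x ≠ 0) : degR f W = degR g W := by
  refine degR_homotopy hW hWb hf (hf.congr fun x hx => (hfg x hx).symm) fun x hx t _ => ?_
  rw [← hfg x (frontier_subset_closure hx), ← add_smul, sub_add_cancel, one_smul]
  exact h x hx

/-! ### the degree -/

/-- the degree of a pointed self-map of the one-point compactification of `ℝⁿ` -/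
noncomputable def deg (f : OnePoint (Eu n) → OnePoint (Eu n)) : ℝ := degR (fin f) (Wf f)

/-- The degree can be computed on any bounded open neighbourhood of the zeros on the closure of
which the map is finite. -/
theorem deg_eq {f : OnePoint (Eu n) → OnePoint (Eu n)} (hf : Continuous f) (h0 : f ∞ = ∞)
    {W : Set (Eu n)} (hW : IsOpen W) (hWb : IsBounded W) (hfin : ∀ x ∈ closure W, f x ≠ ∞)
    (hz : ∀ x : Eu n, f x = ((0 : Eu n) : OnePoint (Eu n)) → x ∈ W) : deg f = degR (fin f) W := by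
  have h1 : ∀ x : Eu n, f x ≠ ∞ → fin f x = 0 → x ∈ W ∩ Wf f := by
    intro x hx hx0
    have h2 : f x = ((0 : Eu n) : OnePoint (Eu n)) := by rw [← coe_fin hx, hx0]
    exact ⟨hz x h2, hx, by rw [hx0, norm_zero]; exact one_pos⟩
  rw [deg, degR_excision (isBounded_Wf hf h0) (isOpen_Wf hf)
      (continuousOn_fin hf fun x hx => (closure_Wf_subset hf h0 hx).1) (hW.inter (isOpen_Wf hf))
      inter_subset_right fun x hx => h1 x (closure_Wf_subset hf h0 hx).1,
    degR_excision hWb hW (continuousOn_fin hf hfin) (hW.inter (isOpen_Wf hf)) inter_subset_left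
      fun x hx => h1 x (hfin x hx)]

/-- The identity has degree one. -/
theorem deg_id : deg (id : OnePoint (Eu n) → OnePoint (Eu n)) = 1 := by
  rw [deg_eq continuous_id rfl (W := Metric.ball 0 1) Metric.isOpen_ball Metric.isBounded_ball
    (fun x _ => OnePoint.coe_ne_infty x) (fun x hx => by
      have : x = 0 := OnePoint.coe_injective hx
      rw [this]; exact Metric.mem_ball_self one_pos)]
  have h1 : fin (id : OnePoint (Eu n) → OnePoint (Eu n)) = fun x : Eu n => x - 0 := by
    ext x i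
    simp [fin]
  rw [h1, degR_id_sub Metric.isBounded_ball Metric.isOpen_ball (Metric.mem_ball_self one_pos)]

/-- A map which does not take the value `0` has degree zero. -/
theorem deg_eq_zero {f : OnePoint (Eu n) → OnePoint (Eu n)} (hf : Continuous f) (h0 : f ∞ = ∞)
    (h : ∀ x, f x ≠ ((0 : Eu n) : OnePoint (Eu n))) : deg f = 0 := by
  refine degR_empty_zero (isBounded_Wf hf h0) (isOpen_Wf hf)
    (continuousOn_fin hf fun x hx => (closure_Wf_subset hf h0 hx).1) fun x hx h1 => ?_
  apply h x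
  rw [← coe_fin (closure_Wf_subset hf h0 hx).1, h1]

/-! ### homotopy invariance -/

theorem eventually_deg_eq {T : Type*} [TopologicalSpace T]
    {H : T × OnePoint (Eu n) → OnePoint (Eu n)} (hH : Continuous H) (h0 : ∀ t, H (t, ∞) = ∞)
    (t0 : T) : ∀ᶠ t in 𝓝 t0, deg (fun x => H (t, x)) = deg (fun x => H (t0, x)) := by
  set f0 : OnePoint (Eu n) → OnePoint (Eu n) := fun x => H (t0, x) with hf0
  have hf0c : Continuous f0 := hH.comp (by fun_prop)
  have hK0 : IsCompact (closure (Wf f0)) :=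
    closure_compact (isBounded_Wf hf0c (h0 t0))
  -- near `t0` the maps are finite on the closure of `W` and close to `f0`
  have h1 : ∀ᶠ t in 𝓝 t0, ∀ x ∈ closure (Wf f0),
      H (t, (x : OnePoint (Eu n))) ≠ ∞ ∧ ‖fpt (H (t, (x : OnePoint (Eu n)))) - fin f0 x‖ < 1 / 2 := by
    refine hK0.eventually_forall_of_forall_eventually
      (P := fun t x => H (t, (x : OnePoint (Eu n))) ≠ ∞ ∧
        ‖fpt (H (t, (x : OnePoint (Eu n)))) - fin f0 x‖ < 1 / 2) fun y hy => ?_
    have hy1 : f0 y ≠ ∞ := (closure_Wf_subset hf0c (h0 t0) hy).1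
    have hc : Continuous fun z : T × Eu n => H (z.1, (z.2 : OnePoint (Eu n))) :=
      hH.comp (continuous_fst.prodMk (OnePoint.continuous_coe.comp continuous_snd))
    have h2 : ∀ᶠ z : T × Eu n in 𝓝 (t0, y), H (z.1, (z.2 : OnePoint (Eu n))) ≠ ∞ :=
      hc.continuousAt.eventually_ne hy1
    have h3 : ContinuousAt (fun z : T × Eu n =>
        fpt (H (z.1, (z.2 : OnePoint (Eu n)))) - fin f0 z.2) (t0, y) := by
      refine ContinuousAt.sub (continuousAt_fpt_comp hc.continuousAt hy1) ?_
      exact ContinuousAt.comp (f := fun z : T × Eu n => z.2) (g := fin f0)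
        (continuousAt_fin hf0c hy1) continuous_snd.continuousAt
    have h4 : ‖fpt (H (t0, (y : OnePoint (Eu n)))) - fin f0 y‖ < 1 / 2 := by
      have : fpt (H (t0, (y : OnePoint (Eu n)))) = fin f0 y := rfl
      rw [this, sub_self, norm_zero]; norm_num
    exact h2.and (h3.norm.eventually_lt_const h4)
  -- near `t0` all zeros are in `W`
  have h2 : ∀ᶠ t in 𝓝 t0, ∀ x ∈ (((↑) : Eu n → OnePoint (Eu n)) '' Wf f0)ᶜ,
      H (t, x) ≠ ((0 : Eu n) : OnePoint (Eu n)) := by
    have hK1 : IsCompact (((↑) : Eu n → OnePoint (Eu n)) '' Wf f0)ᶜ :=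
      (OnePoint.isOpen_image_coe.2 (isOpen_Wf hf0c)).isClosed_compl.isCompact
    refine hK1.eventually_forall_of_forall_eventually
      (P := fun t x => H (t, x) ≠ ((0 : Eu n) : OnePoint (Eu n))) fun y hy => ?_
    refine hH.continuousAt.eventually_ne fun h3 => hy ?_
    have hy' : y ≠ ∞ := by
      rintro rfl
      rw [h0 t0] at h3
      exact OnePoint.infty_ne_coe _ h3
    obtain ⟨z, rfl⟩ := OnePoint.ne_infty_iff_exists.1 hy'
    have h4 : f0 z = ((0 : Eu n) : OnePoint (Eu n)) := h3
    refine ⟨z, ⟨by rw [h4]; exact OnePoint.coe_ne_infty _, ?_⟩, rfl⟩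
    rw [fin_eq h4, norm_zero]
    exact one_pos
  filter_upwards [h1, h2] with t ht1 ht2
  have hfc : Continuous fun x => H (t, x) := hH.comp (by fun_prop)
  rw [deg_eq (f := fun x => H (t, x)) hfc (h0 t) (isOpen_Wf hf0c) (isBounded_Wf hf0c (h0 t0))
    (fun x hx => (ht1 x hx).1) (fun x hx => by
      by_contra hxW
      refine ht2 x ?_ hx
      rintro ⟨z, hz, hzx⟩
      rw [OnePoint.coe_injective hzx] at hz
      exact hxW hz)]
  symm
  refine degR_homotopy (isOpen_Wf hf0c) (isBounded_Wf hf0c (h0 t0))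
    (continuousOn_fin hf0c fun x hx => (closure_Wf_subset hf0c (h0 t0) hx).1)
    (continuousOn_fin hfc fun x hx => (ht1 x hx).1) fun x hx s hs h3 => ?_
  have h4 := (ht1 x (frontier_subset_closure hx)).2
  have h5 := (frontier_Wf hf0c (h0 t0) hx).2
  have h6 : fin f0 x = -(s • (fin (fun x => H (t, x)) x - fin f0 x)) := by
    have : (1 - s) • fin f0 x + s • fin (fun x => H (t, x)) x =
      fin f0 x + s • (fin (fun x => H (t, x)) x - fin f0 x) := by
      rw [smul_sub, sub_smul, one_smul]; abel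
    rw [this] at h3
    exact eq_neg_of_add_eq_zero_left h3
  have h7 : ‖fin f0 x‖ ≤ 1 / 2 := by
    rw [h6, norm_neg, norm_smul, Real.norm_eq_abs, abs_of_nonneg hs.1]
    calc s * ‖fin (fun x => H (t, x)) x - fin f0 x‖ ≤ 1 * (1 / 2) := by
          refine mul_le_mul hs.2 h4.le (norm_nonneg _) zero_le_one
      _ = 1 / 2 := one_mul _
  rw [h5] at h7
  norm_num at h7

/-- **Homotopy invariance of the degree.** -/
theorem deg_homotopy {H : I × OnePoint (Eu n) → OnePoint (Eu n)} (hH : Continuous H)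
    (h0 : ∀ t, H (t, ∞) = ∞) : deg (fun x => H (0, x)) = deg (fun x => H (1, x)) := by
  have h1 : IsLocallyConstant fun t : I => deg fun x => H (t, x) := by
    rw [IsLocallyConstant.iff_eventually_eq]
    intro t
    exact eventually_deg_eq hH h0 t
  exact h1.apply_eq_of_preconnectedSpace 0 1

/-! ### additivity -/

/-- **Additivity**: if `f` is the union of the maps `g i` which are supported in pairwise disjoint
open sets `U i`, then its degree is the sum of the degrees of the `g i`. -/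
theorem deg_sum {ι : Type*} (s : Finset ι) {f : OnePoint (Eu n) → OnePoint (Eu n)}
    {g : ι → OnePoint (Eu n) → OnePoint (Eu n)} (hf : Continuous f) (h0 : f ∞ = ∞)
    (hg : ∀ i ∈ s, Continuous (g i)) (hg0 : ∀ i ∈ s, g i ∞ = ∞) {U : ι → Set (Eu n)}
    (hd : (s : Set ι).PairwiseDisjoint U)
    (h1 : ∀ i ∈ s, ∀ x ∈ U i, f x = g i x) (h2 : ∀ i ∈ s, ∀ x : Eu n, x ∉ U i → g i x = ∞)
    (h3 : ∀ x : Eu n, (∀ i ∈ s, x ∉ U i) → f x = ∞) : deg f = ∑ i ∈ s, deg (g i) := by
  have hW : ∀ i ∈ s, Wf (g i) = Wf f ∩ U i := by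
    intro i hi
    ext x
    constructor
    · rintro ⟨ha, hb⟩
      have hx : x ∈ U i := by
        by_contra hx
        exact ha (h2 i hi x hx)
      refine ⟨⟨by rw [h1 i hi x hx]; exact ha, ?_⟩, hx⟩
      rw [fin, h1 i hi x hx]
      exact hb
    · rintro ⟨⟨ha, hb⟩, hx⟩
      rw [h1 i hi x hx] at ha
      rw [fin, h1 i hi x hx] at hb
      exact ⟨ha, hb⟩
  have hfin : ∀ x ∈ closure (Wf f), f x ≠ ∞ := fun x hx => (closure_Wf_subset hf h0 hx).1
  rw [deg, degR_sum (isBounded_Wf hf h0) (isOpen_Wf hf) (continuousOn_fin hf hfin) s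
    (U := fun i => Wf (g i)) (fun i hi => isOpen_Wf (hg i hi))
    (fun i hi => by rw [hW i hi]; exact inter_subset_left) ?_ ?_]
  · refine Finset.sum_congr rfl fun i hi => ?_
    have hcl : ∀ x ∈ closure (Wf (g i)), x ∈ U i := by
      intro x hx
      by_contra hxU
      exact (closure_Wf_subset (hg i hi) (hg0 i hi) hx).1 (h2 i hi x hxU)
    refine degR_congr (isBounded_Wf (hg i hi) (hg0 i hi)) (isOpen_Wf (hg i hi)) ?_ ?_ ?_
    · refine (continuousOn_fin hf hfin).mono (closure_mono ?_)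
      rw [hW i hi]; exact inter_subset_left
    · intro x hx
      rw [fin, h1 i hi x (hcl x hx)]
      rfl
    · intro x hx h4
      have h5 := (frontier_Wf (hg i hi) (hg0 i hi) hx).2
      have h6 : fin f x = fin (g i) x := by
        rw [fin, h1 i hi x (hcl x (frontier_subset_closure hx))]
        rfl
      rw [← h6, h4, norm_zero] at h5
      exact zero_ne_one h5
  · intro i hi j hj hij
    refine (hd hi hj hij).mono ?_ ?_
    · show Wf (g i) ⊆ U i
      rw [hW i hi]; exact inter_subset_right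
    · show Wf (g j) ⊆ U j
      rw [hW j hj]; exact inter_subset_right
  · intro x hx h4
    have h5 : ∃ i ∈ s, x ∈ U i := by
      by_contra hcon
      push Not at hcon
      exact hfin x hx (h3 x hcon)
    obtain ⟨i, hi, hxi⟩ := h5
    refine ⟨i, hi, ?_⟩
    rw [hW i hi]
    exact ⟨⟨hfin x hx, by rw [h4, norm_zero]; exact one_pos⟩, hxi⟩

end Vale.Agent.P251.G
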