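import Vale.Agent.P251.G.Degree

/-!
# P251, G7(c): the degree for finite-dimensional spaces, regular data, products

`degV f` for `f : OnePoint E → OnePoint E`, `E` a finite-dimensional real normed space; it is
computed by counting the zeros of a smooth approximation with signs (`Reg.degV_eq`), does not
depend on coordinates, and is multiplicative for products.
-/

open Set Topology Bornology Filter
open scoped unitInterval OnePoint

namespace Vale.Agent.P251.G

open Vale.Agent.P205.TI.Deg

section Conj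

variable {E F : Type*} [NormedAddCommGroup E] [NormedAddCommGroup F]

/-- the conjugate of a map by a homeomorphism of the spaces -/
def conj (e : E ≃ₜ F) (f : OnePoint E → OnePoint E) : OnePoint F → OnePoint F :=
  fun y => OnePoint.map e (f (OnePoint.map e.symm y))

lemma conj_coe (e : E ≃ₜ F) (f : OnePoint E → OnePoint E) (y : F) :
    conj e f y = OnePoint.map e (f (e.symm y)) := rfl

lemma conj_infty (e : E ≃ₜ F) {f : OnePoint E → OnePoint E} (h0 : f ∞ = ∞) :
    conj e f ∞ = ∞ := by
  show OnePoint.map e (f ∞) = ∞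
  rw [h0]
  rfl

lemma continuous_conj (e : E ≃ₜ F) {f : OnePoint E → OnePoint E} (hf : Continuous f) :
    Continuous (conj e f) := by
  have h1 : Continuous (OnePoint.map (e : E → F)) :=
    OnePoint.continuous_map e.continuous (by
      rw [coclosedCompact_eq_cocompact, coclosedCompact_eq_cocompact]
      exact e.isClosedEmbedding.tendsto_cocompact)
  have h2 : Continuous (OnePoint.map (e.symm : F → E)) :=
    OnePoint.continuous_map e.symm.continuous (by
      rw [coclosedCompact_eq_cocompact, coclosedCompact_eq_cocompact]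
      exact e.symm.isClosedEmbedding.tendsto_cocompact)
  exact h1.comp (hf.comp h2)

lemma map_eq_infty (e : E ≃ₜ F) {y : OnePoint E} : OnePoint.map e y = ∞ ↔ y = ∞ := by
  induction y using OnePoint.rec with
  | infty => exact ⟨fun _ => rfl, fun _ => rfl⟩
  | coe y => exact ⟨fun h => absurd h (OnePoint.coe_ne_infty _), fun h =>
      absurd h (OnePoint.coe_ne_infty _)⟩

lemma fin_conj (e : E ≃ₜ F) (f : OnePoint E → OnePoint E) {y : F}
    (h : f (e.symm y) ≠ ∞) : fin (conj e f) y = e (fin f (e.symm y)) := by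
  obtain ⟨z, hz⟩ := OnePoint.ne_infty_iff_exists.1 h
  have h1 : conj e f y = (e z : OnePoint F) := by
    rw [conj_coe, ← hz]
    rfl
  rw [fin_eq h1, fin_eq hz.symm]

end Conj

/-! ### regular data -/

section Reg

variable {E : Type*} [NormedAddCommGroup E] [NormedSpace ℝ E]

/-- A regular smooth replacement `g` of `f` on the bounded open set `W`, with zero set `Z`. -/
structure Reg (f : OnePoint E → OnePoint E) (W : Set E) (g : E → E) (Z : Finset E) : Prop where
  isOpen : IsOpen W
  bdd : IsBounded W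
  finite : ∀ x ∈ closure W, f x ≠ ∞
  zeros : ∀ x : E, f x = ((0 : E) : OnePoint E) → x ∈ W
  smooth : ContDiff ℝ (((⊤ : ℕ∞) : WithTop ℕ∞)) g
  ne : ∀ x ∈ frontier W, ∀ t ∈ Icc (0 : ℝ) 1, (1 - t) • fin f x + t • g x ≠ 0
  mem : ∀ z, z ∈ Z ↔ z ∈ W ∧ g z = 0
  reg : ∀ z ∈ Z, (fderiv ℝ g z).det ≠ 0

end Reg

variable {n : ℕ}

/-- Regular data exist. -/
theorem exists_reg {f : OnePoint (Eu n) → OnePoint (Eu n)} (hf : Continuous f) (h0 : f ∞ = ∞) :
    ∃ W g Z, Reg f W g Z := by
  have hfin : ∀ x ∈ closure (Wf f), f x ≠ ∞ := fun x hx => (closure_Wf_subset hf h0 hx).1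
  obtain ⟨g, hg, hg'⟩ := exists_smooth_approx (closure_compact (isBounded_Wf hf h0))
    (continuousOn_fin hf hfin) (show (0 : ℝ) < 1 / 4 by norm_num)
  -- Sard
  have hgd : Differentiable ℝ g := hg.differentiable (by simp)
  have hnull := MeasureTheory.addHaar_image_eq_zero_of_det_fderivWithin_eq_zero
    (MeasureTheory.volume : MeasureTheory.Measure (Eu n)) (f := g) (f' := fderiv ℝ g)
    (s := {x | (fderiv ℝ g x).det = 0})
    (fun x _ => (hgd x).hasFDerivAt.hasFDerivWithinAt) (fun x hx => hx)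
  have hball : 0 < (MeasureTheory.volume : MeasureTheory.Measure (Eu n))
      (Metric.ball (0 : Eu n) (1 / 4)) :=
    Metric.measure_ball_pos _ _ (by norm_num)
  obtain ⟨v, hv, hv'⟩ : ∃ v ∈ Metric.ball (0 : Eu n) (1 / 4),
      v ∉ g '' {x | (fderiv ℝ g x).det = 0} := by
    by_contra hcon
    push Not at hcon
    have h1 : Metric.ball (0 : Eu n) (1 / 4) ⊆ g '' {x | (fderiv ℝ g x).det = 0} := hcon
    have h2 := MeasureTheory.measure_mono (μ := (MeasureTheory.volume :
      MeasureTheory.Measure (Eu n))) h1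
    rw [hnull] at h2
    exact absurd hball (not_lt.2 h2)
  rw [mem_ball_zero_iff] at hv
  have hgv : ContDiff ℝ (((⊤ : ℕ∞) : WithTop ℕ∞)) (fun x => g x - v) := hg.sub contDiff_const
  have hfd : ∀ x, fderiv ℝ (fun x => g x - v) x = fderiv ℝ g x := fun x => by
    rw [fderiv_sub_const]
  have hreg : ∀ x, (fun x => g x - v) x = 0 → (fderiv ℝ (fun x => g x - v) x).det ≠ 0 := by
    intro x hx h
    rw [hfd] at h
    exact hv' ⟨x, h, sub_eq_zero.1 hx⟩
  have hne : ∀ x ∈ frontier (Wf f), ∀ t ∈ Icc (0 : ℝ) 1,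
      (1 - t) • fin f x + t • (g x - v) ≠ 0 := by
    intro x hx t ht h
    have h1 := (frontier_Wf hf h0 hx).2
    have h2 := hg' x (frontier_subset_closure hx)
    have h3 : fin f x = -(t • ((g x - v) - fin f x)) := by
      have : (1 - t) • fin f x + t • (g x - v) = fin f x + t • ((g x - v) - fin f x) := by
        rw [smul_sub t (g x - v), sub_smul, one_smul]; abel
      rw [this] at h
      exact eq_neg_of_add_eq_zero_left h
    have h4 : ‖(g x - v) - fin f x‖ ≤ 1 / 2 := by
      calc ‖(g x - v) - fin f x‖ = ‖(g x - fin f x) - v‖ := by congr 1; abel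
        _ ≤ ‖g x - fin f x‖ + ‖v‖ := norm_sub_le _ _
        _ ≤ 1 / 2 := by linarith
    have h5 : ‖fin f x‖ ≤ 1 / 2 := by
      rw [h3, norm_neg, norm_smul, Real.norm_eq_abs, abs_of_nonneg ht.1]
      calc t * ‖(g x - v) - fin f x‖ ≤ 1 * (1 / 2) :=
            mul_le_mul ht.2 h4 (norm_nonneg _) zero_le_one
        _ = 1 / 2 := one_mul _
    rw [h1] at h5
    norm_num at h5
  have hfr : ∀ x ∈ frontier (Wf f), (fun x => g x - v) x ≠ 0 := by
    intro x hx h
    apply hne x hx 1 ⟨zero_le_one, le_rfl⟩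
    rw [sub_self, zero_smul, zero_add, one_smul]
    exact h
  obtain ⟨Z, hZ, -⟩ := degR_regular hgv (isOpen_Wf hf) (isBounded_Wf hf h0) hfr
    (fun x _ hx => hreg x hx)
  refine ⟨Wf f, fun x => g x - v, Z, isOpen_Wf hf, isBounded_Wf hf h0, hfin, ?_, hgv, hne, hZ,
    fun z hz => hreg z ((hZ z).1 hz).2⟩
  intro x hx
  refine ⟨by rw [hx]; exact OnePoint.coe_ne_infty _, ?_⟩
  rw [fin_eq hx, norm_zero]
  exact one_pos

/-- The degree in terms of regular data. -/
theorem Reg.deg_eq {f : OnePoint (Eu n) → OnePoint (Eu n)} (hf : Continuous f) (h0 : f ∞ = ∞)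
    {W : Set (Eu n)} {g : Eu n → Eu n} {Z : Finset (Eu n)} (h : Reg f W g Z) :
    deg f = ∑ z ∈ Z, (sg (fderiv ℝ g z).det : ℝ) := by
  have hfr : ∀ x ∈ frontier W, g x ≠ 0 := by
    intro x hx h1
    apply h.ne x hx 1 ⟨zero_le_one, le_rfl⟩
    rw [sub_self, zero_smul, zero_add, one_smul]
    exact h1
  rw [Vale.Agent.P251.G.deg_eq hf h0 h.isOpen h.bdd h.finite h.zeros,
    degR_homotopy h.isOpen h.bdd (continuousOn_fin hf h.finite) h.smooth.continuous.continuousOn
      h.ne]
  obtain ⟨Z', hZ', hd⟩ := degR_regular h.smooth h.isOpen h.bdd hfr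
    (fun x hx hx0 => h.reg x ((h.mem x).2 ⟨hx, hx0⟩))
  rw [hd]
  refine Finset.sum_congr ?_ fun _ _ => rfl
  ext z
  rw [hZ', h.mem]

section Map

variable {E F : Type*} [NormedAddCommGroup E] [NormedSpace ℝ E] [NormedAddCommGroup F]
  [NormedSpace ℝ F]

/-- transport of regular data by a linear isomorphism -/
theorem Reg.map [DecidableEq F] (e : E ≃L[ℝ] F) {f : OnePoint E → OnePoint E}
    {W : Set E} {g : E → E} {Z : Finset E} (h : Reg f W g Z) :
    Reg (conj e.toHomeomorph f) (e '' W) (fun y => e (g (e.symm y))) (Z.image e) where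
  isOpen := e.toHomeomorph.isOpenMap _ h.isOpen
  bdd := e.lipschitz.isBounded_image h.bdd
  finite := by
    intro y hy
    have h1 : closure (e '' W) = e '' closure W := (e.toHomeomorph.image_closure W).symm
    rw [h1] at hy
    obtain ⟨x, hx, rfl⟩ := hy
    rw [conj_coe]
    intro h2
    rw [map_eq_infty] at h2
    have h3 : e.toHomeomorph.symm (e x) = x := e.symm_apply_apply x
    rw [h3] at h2
    exact h.finite x hx h2
  zeros := by
    intro y hy
    refine ⟨e.symm y, h.zeros _ ?_, e.apply_symm_apply y⟩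
    rw [conj_coe] at hy
    have h1 : f (e.symm y) ≠ ∞ := by
      intro h2
      have h3 : f (e.toHomeomorph.symm y) = ∞ := h2
      rw [h3] at hy
      exact OnePoint.infty_ne_coe _ hy
    obtain ⟨z, hz⟩ := OnePoint.ne_infty_iff_exists.1 h1
    have h3 : f (e.toHomeomorph.symm y) = z := hz.symm
    rw [h3] at hy
    have h4 : e z = 0 := OnePoint.coe_injective hy
    have h5 : z = 0 := by rwa [← e.map_zero, e.injective.eq_iff] at h4
    rw [← hz, h5]
  smooth := e.contDiff.comp (h.smooth.comp e.symm.contDiff)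
  ne := by
    intro y hy t ht h1
    have h2 : frontier (e '' W) = e '' frontier W := (e.toHomeomorph.image_frontier W).symm
    rw [h2] at hy
    obtain ⟨x, hx, rfl⟩ := hy
    have h3 : f (e.toHomeomorph.symm (e x)) ≠ ∞ := by
      have h3 : e.toHomeomorph.symm (e x) = x := e.symm_apply_apply x
      rw [h3]
      exact h.finite x (frontier_subset_closure hx)
    rw [fin_conj _ _ h3] at h1
    have h4 : e.toHomeomorph.symm (e x) = x := e.symm_apply_apply x
    rw [h4] at h1
    have h5 : e ((1 - t) • fin f x + t • g x) = 0 := by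
      rw [map_add, map_smul, map_smul]
      rw [e.symm_apply_apply] at h1
      exact h1
    rw [← e.map_zero, e.injective.eq_iff] at h5
    exact h.ne x hx t ht h5
  mem := by
    intro y
    rw [Finset.mem_image]
    constructor
    · rintro ⟨z, hz, rfl⟩
      obtain ⟨h1, h2⟩ := (h.mem z).1 hz
      refine ⟨mem_image_of_mem _ h1, ?_⟩
      rw [e.symm_apply_apply, h2, e.map_zero]
    · rintro ⟨⟨z, hz, rfl⟩, h1⟩
      refine ⟨z, (h.mem z).2 ⟨hz, ?_⟩, rfl⟩
      rw [e.symm_apply_apply, ← e.map_zero, e.injective.eq_iff] at h1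
      exact h1
  reg := by
    intro y hy
    obtain ⟨z, hz, rfl⟩ := Finset.mem_image.1 hy
    have h1 : fderiv ℝ (fun y => e (g (e.symm y))) (e z) =
        (e : E →L[ℝ] F).comp ((fderiv ℝ g z).comp (e.symm : F →L[ℝ] E)) := by
      have hg : DifferentiableAt ℝ g (e.symm (e z)) :=
        (h.smooth.differentiable (by simp)) _
      have h2 := (e.hasFDerivAt (x := g (e.symm (e z)))).comp (e z)
        (hg.hasFDerivAt.comp (e z) (e.symm.hasFDerivAt (x := e z)))
      rw [e.symm_apply_apply] at h2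
      exact h2.fderiv
    rw [h1]
    have h2 : ((e : E →L[ℝ] F).comp ((fderiv ℝ g z).comp (e.symm : F →L[ℝ] E))).det =
        (fderiv ℝ g z).det := by
      exact LinearMap.det_conj (fderiv ℝ g z : E →ₗ[ℝ] E) e.toLinearEquiv
    rw [h2]
    exact h.reg z hz

theorem fderiv_conj_det (e : E ≃L[ℝ] F) {g : E → E} {z : E} (hg : DifferentiableAt ℝ g z) :
    (fderiv ℝ (fun y => e (g (e.symm y))) (e z)).det = (fderiv ℝ g z).det := by
  have h1 : fderiv ℝ (fun y => e (g (e.symm y))) (e z) =
      (e : E →L[ℝ] F).comp ((fderiv ℝ g z).comp (e.symm : F →L[ℝ] E)) := by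
    have hg' : DifferentiableAt ℝ g (e.symm (e z)) := by rwa [e.symm_apply_apply]
    have h2 := (e.hasFDerivAt (x := g (e.symm (e z)))).comp (e z)
      (hg'.hasFDerivAt.comp (e z) (e.symm.hasFDerivAt (x := e z)))
    rw [e.symm_apply_apply] at h2
    exact h2.fderiv
  rw [h1]
  exact LinearMap.det_conj (fderiv ℝ g z : E →ₗ[ℝ] E) e.toLinearEquiv

end Map

end Vale.Agent.P251.G
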