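import Vale.Agent.P251.G.DegreeV
import Vale.Agent.P251.G.Homotopy

/-!
# P251, G7(c): the degree on finite-dimensional spaces, products, and on morphisms of `LC`
-/

open Set Topology Bornology Filter
open scoped unitInterval OnePoint

namespace Vale.Agent.P251.G

open Vale.Agent.P205.TI.Deg

section DegV

variable {n : ℕ} {E F : Type} [NormedAddCommGroup E] [NormedSpace ℝ E] [FiniteDimensional ℝ E]
  [NormedAddCommGroup F] [NormedSpace ℝ F] [FiniteDimensional ℝ F]

/-- coordinates -/
noncomputable def coord (E : Type*) [NormedAddCommGroup E] [NormedSpace ℝ E]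
    [FiniteDimensional ℝ E] : E ≃L[ℝ] Eu (Module.finrank ℝ E) :=
  (Module.finBasis ℝ E).equivFunL

/-- the degree of a pointed self-map of the one-point compactification of a finite-dimensional
real space -/
noncomputable def degV (f : OnePoint E → OnePoint E) : ℝ := deg (conj (coord E).toHomeomorph f)

omit [NormedSpace ℝ E] [NormedSpace ℝ F] [FiniteDimensional ℝ E] [FiniteDimensional ℝ F] in
lemma conj_symm_conj (e : E ≃ₜ F) (f : OnePoint E → OnePoint E) :
    conj e.symm (conj e f) = f := by
  have h1 : ∀ y : OnePoint E, OnePoint.map e.symm (OnePoint.map e y) = y := by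
    intro y
    induction y using OnePoint.rec with
    | infty => rfl
    | coe y =>
      show ((e.symm (e y) : E) : OnePoint E) = y
      rw [e.symm_apply_apply]
  funext x
  show OnePoint.map e.symm (OnePoint.map e (f (OnePoint.map e.symm (OnePoint.map e.symm.symm x))))
    = f x
  rw [h1]
  have h2 : OnePoint.map e.symm (OnePoint.map e.symm.symm x) = x := h1 x
  rw [h2]

/-- Regular data exist. -/
theorem exists_regV {f : OnePoint E → OnePoint E} (hf : Continuous f) (h0 : f ∞ = ∞) :
    ∃ W g Z, Reg f W g Z := by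
  classical
  obtain ⟨W, g, Z, h⟩ := exists_reg (continuous_conj (coord E).toHomeomorph hf)
    (conj_infty (coord E).toHomeomorph h0)
  have h1 := h.map (coord E).symm
  have h2 : conj (coord E).symm.toHomeomorph (conj (coord E).toHomeomorph f) = f :=
    conj_symm_conj (coord E).toHomeomorph f
  rw [h2] at h1
  exact ⟨_, _, _, h1⟩

/-- The degree in terms of regular data. -/
theorem Reg.degV_eq {f : OnePoint E → OnePoint E} (hf : Continuous f) (h0 : f ∞ = ∞)
    {W : Set E} {g : E → E} {Z : Finset E} (h : Reg f W g Z) :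
    degV f = ∑ z ∈ Z, (sg (fderiv ℝ g z).det : ℝ) := by
  classical
  rw [degV, (h.map (coord E)).deg_eq (continuous_conj _ hf) (conj_infty _ h0),
    Finset.sum_image fun x _ y _ hxy => (coord E).injective hxy]
  refine Finset.sum_congr rfl fun z _ => ?_
  rw [fderiv_conj_det (coord E) (h.smooth.differentiable (by simp) z)]

/-- On `ℝⁿ` both degrees agree. -/
theorem degV_eq_deg {f : OnePoint (Eu n) → OnePoint (Eu n)} (hf : Continuous f) (h0 : f ∞ = ∞) :
    degV f = deg f := by
  obtain ⟨W, g, Z, h⟩ := exists_reg hf h0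
  rw [h.degV_eq hf h0, h.deg_eq hf h0]

/-- The degree does not change under linear isomorphisms. -/
theorem degV_conj (e : E ≃L[ℝ] F) {f : OnePoint E → OnePoint E} (hf : Continuous f)
    (h0 : f ∞ = ∞) : degV (conj e.toHomeomorph f) = degV f := by
  classical
  obtain ⟨W, g, Z, h⟩ := exists_regV hf h0
  rw [h.degV_eq hf h0, (h.map e).degV_eq (continuous_conj _ hf) (conj_infty _ h0),
    Finset.sum_image fun x _ y _ hxy => e.injective hxy]
  refine Finset.sum_congr rfl fun z _ => ?_
  rw [fderiv_conj_det e (h.smooth.differentiable (by simp) z)]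

theorem degV_id : degV (id : OnePoint E → OnePoint E) = 1 := by
  have h1 : conj (coord E).toHomeomorph (id : OnePoint E → OnePoint E) = id := by
    funext y
    induction y using OnePoint.rec with
    | infty => rfl
    | coe y =>
      show (((coord E) ((coord E).symm y) : Eu (Module.finrank ℝ E)) :
        OnePoint (Eu (Module.finrank ℝ E))) = (y : OnePoint (Eu (Module.finrank ℝ E)))
      rw [(coord E).apply_symm_apply]
  rw [degV, h1, deg_id]

theorem degV_eq_zero {f : OnePoint E → OnePoint E} (hf : Continuous f) (h0 : f ∞ = ∞)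
    (h : ∀ x, f x ≠ ((0 : E) : OnePoint E)) : degV f = 0 := by
  refine deg_eq_zero (continuous_conj _ hf) (conj_infty _ h0) fun x hx => ?_
  have h1 : OnePoint.map (coord E) (f (OnePoint.map (coord E).symm x)) =
      ((0 : Eu (Module.finrank ℝ E)) : OnePoint (Eu (Module.finrank ℝ E))) := hx
  have h2 : f (OnePoint.map (coord E).symm x) ≠ ∞ := by
    intro h3
    rw [h3] at h1
    exact OnePoint.infty_ne_coe _ h1
  obtain ⟨z, hz⟩ := OnePoint.ne_infty_iff_exists.1 h2
  rw [← hz] at h1
  have h3 : (coord E) z = 0 := OnePoint.coe_injective h1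
  rw [← (coord E).map_zero, (coord E).injective.eq_iff] at h3
  exact h _ (by rw [← hz, h3])

/-- homotopy invariance -/
theorem degV_homotopy {H : I × OnePoint E → OnePoint E} (hH : Continuous H)
    (h0 : ∀ t, H (t, ∞) = ∞) : degV (fun x => H (0, x)) = degV (fun x => H (1, x)) := by
  let e := (coord E).toHomeomorph
  have h1 : Continuous (OnePoint.map (e : E → Eu _)) :=
    OnePoint.continuous_map e.continuous (by
      rw [coclosedCompact_eq_cocompact, coclosedCompact_eq_cocompact]
      exact e.isClosedEmbedding.tendsto_cocompact)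
  have h2 : Continuous (OnePoint.map (e.symm : Eu _ → E)) :=
    OnePoint.continuous_map e.symm.continuous (by
      rw [coclosedCompact_eq_cocompact, coclosedCompact_eq_cocompact]
      exact e.symm.isClosedEmbedding.tendsto_cocompact)
  exact deg_homotopy (H := fun p => OnePoint.map e (H (p.1, OnePoint.map e.symm p.2)))
    (h1.comp (hH.comp (continuous_fst.prodMk (h2.comp continuous_snd)))) (fun t => by
      show OnePoint.map e (H (t, ∞)) = ∞
      rw [h0]; rfl)

/-- additivity for maps with disjoint supports -/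
theorem degV_sum {ι : Type*} (s : Finset ι) {f : OnePoint E → OnePoint E}
    {g : ι → OnePoint E → OnePoint E} (hf : Continuous f) (h0 : f ∞ = ∞)
    (hg : ∀ i ∈ s, Continuous (g i)) (hg0 : ∀ i ∈ s, g i ∞ = ∞) {U : ι → Set E}
    (hd : (s : Set ι).PairwiseDisjoint U)
    (h1 : ∀ i ∈ s, ∀ x ∈ U i, f x = g i x) (h2 : ∀ i ∈ s, ∀ x : E, x ∉ U i → g i x = ∞)
    (h3 : ∀ x : E, (∀ i ∈ s, x ∉ U i) → f x = ∞) : degV f = ∑ i ∈ s, degV (g i) := by
  refine deg_sum s (continuous_conj _ hf) (conj_infty _ h0) (fun i hi => continuous_conj _ (hg i hi))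
    (fun i hi => conj_infty _ (hg0 i hi)) (U := fun i => (coord E) '' U i) ?_ ?_ ?_ ?_
  · intro i hi j hj hij
    exact (disjoint_image_iff (coord E).injective).2 (hd hi hj hij)
  · rintro i hi _ ⟨x, hx, rfl⟩
    rw [conj_coe, conj_coe]
    have h4 : (coord E).toHomeomorph.symm ((coord E) x) = x := (coord E).symm_apply_apply x
    rw [h4, h1 i hi x hx]
  · intro i hi y hy
    rw [conj_coe, h2 i hi ((coord E).toHomeomorph.symm y)]
    · rfl
    · intro hx
      exact hy ⟨_, hx, (coord E).apply_symm_apply y⟩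
  · intro y hy
    rw [conj_coe, h3 ((coord E).toHomeomorph.symm y)]
    · rfl
    · intro i hi hx
      exact hy i hi ⟨_, hx, (coord E).apply_symm_apply y⟩

/-- The degree is multiplicative for products. -/
theorem degV_prod {f : OnePoint E → OnePoint E} (hf : Continuous f) (h0 : f ∞ = ∞)
    {g : OnePoint F → OnePoint F} (hg : Continuous g) (hg0 : g ∞ = ∞)
    {h : OnePoint (E × F) → OnePoint (E × F)} (hh : Continuous h) (hh0 : h ∞ = ∞)
    (hc : ∀ (x : E) (y : F), h ((x, y) : E × F) = LC.smash (f x) (g y)) :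
    degV h = degV f * degV g := by
  classical
  obtain ⟨W₁, u, Z₁, hu⟩ := exists_regV hf h0
  obtain ⟨W₂, v, Z₂, hv⟩ := exists_regV hg hg0
  have hfinp : ∀ (x : E) (y : F), f x ≠ ∞ → g y ≠ ∞ → fin h ((x, y) : E × F) =
      (fin f x, fin g y) := by
    intro x y hx hy
    apply fin_eq
    rw [hc, ← coe_fin hx, ← coe_fin hy]
    rfl
  have hreg : Reg h (W₁ ×ˢ W₂) (Prod.map u v) (Z₁ ×ˢ Z₂) := by
    refine ⟨hu.isOpen.prod hv.isOpen, hu.bdd.prod hv.bdd, ?_, ?_, hu.smooth.prodMap hv.smooth,
      ?_, ?_, ?_⟩
    · rintro ⟨x, y⟩ hxy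
      rw [closure_prod_eq] at hxy
      rw [hc]
      intro h1
      rw [LC.smash_eq_infty] at h1
      rcases h1 with h1 | h1
      · exact hu.finite x hxy.1 h1
      · exact hv.finite y hxy.2 h1
    · rintro ⟨x, y⟩ hxy
      rw [hc] at hxy
      have hx : f x ≠ ∞ := by
        intro h1
        rw [h1, LC.smash_infty_left] at hxy
        exact OnePoint.infty_ne_coe _ hxy
      have hy : g y ≠ ∞ := by
        intro h1
        rw [h1, LC.smash_infty_right] at hxy
        exact OnePoint.infty_ne_coe _ hxy
      rw [← coe_fin hx, ← coe_fin hy, LC.smash_coe_coe] at hxy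
      have h1 : ((fin f x, fin g y) : E × F) = 0 := OnePoint.coe_injective hxy
      rw [Prod.mk_eq_zero] at h1
      refine ⟨hu.zeros x ?_, hv.zeros y ?_⟩
      · rw [← coe_fin hx, h1.1]
      · rw [← coe_fin hy, h1.2]
    · rintro ⟨x, y⟩ hxy t ht h1
      rw [frontier_prod_eq] at hxy
      have hxc : x ∈ closure W₁ := by
        rcases hxy with hxy | hxy
        · exact hxy.1
        · exact frontier_subset_closure hxy.1
      have hyc : y ∈ closure W₂ := by
        rcases hxy with hxy | hxy
        · exact frontier_subset_closure hxy.2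
        · exact hxy.2
      rw [hfinp x y (hu.finite x hxc) (hv.finite y hyc)] at h1
      rw [Prod.map_apply, Prod.smul_mk, Prod.smul_mk, Prod.mk_add_mk, Prod.mk_eq_zero] at h1
      rcases hxy with hxy | hxy
      · exact hv.ne y hxy.2 t ht h1.2
      · exact hu.ne x hxy.1 t ht h1.1
    · rintro ⟨x, y⟩
      rw [Finset.mem_product, hu.mem, hv.mem, Prod.map_apply, Prod.mk_eq_zero, mem_prod]
      tauto
    · rintro ⟨x, y⟩ hxy
      rw [Finset.mem_product] at hxy
      have h1 : fderiv ℝ (Prod.map u v) (x, y) = (fderiv ℝ u x).prodMap (fderiv ℝ v y) :=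
        (HasFDerivAt.prodMap (x, y) ((hu.smooth.differentiable (by simp) x).hasFDerivAt)
          ((hv.smooth.differentiable (by simp) y).hasFDerivAt)).fderiv
      rw [h1]
      have h2 : ((fderiv ℝ u x).prodMap (fderiv ℝ v y)).det =
          (fderiv ℝ u x).det * (fderiv ℝ v y).det :=
        LinearMap.det_prodMap (fderiv ℝ u x : E →ₗ[ℝ] E) (fderiv ℝ v y : F →ₗ[ℝ] F)
      rw [h2]
      exact mul_ne_zero (hu.reg x hxy.1) (hv.reg y hxy.2)
  rw [hreg.degV_eq hh hh0, hu.degV_eq hf h0, hv.degV_eq hg hg0, Finset.sum_mul_sum,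
    ← Finset.sum_product']
  refine Finset.sum_congr rfl ?_
  rintro ⟨x, y⟩ -
  have h1 : fderiv ℝ (Prod.map u v) (x, y) = (fderiv ℝ u x).prodMap (fderiv ℝ v y) :=
    (HasFDerivAt.prodMap (x, y) ((hu.smooth.differentiable (by simp) x).hasFDerivAt)
      ((hv.smooth.differentiable (by simp) y).hasFDerivAt)).fderiv
  have h2 : ((fderiv ℝ u x).prodMap (fderiv ℝ v y)).det =
      (fderiv ℝ u x).det * (fderiv ℝ v y).det :=
    LinearMap.det_prodMap (fderiv ℝ u x : E →ₗ[ℝ] E) (fderiv ℝ v y : F →ₗ[ℝ] F)
  rw [h1, h2, sg_mul]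
  push_cast
  rfl

/-- The degree of a linear isomorphism. -/
theorem degV_linear (L : E ≃L[ℝ] E) : degV (OnePoint.map L) = (sg (L : E →L[ℝ] E).det : ℝ) := by
  have hc : Continuous (OnePoint.map (L : E → E)) :=
    OnePoint.continuous_map L.continuous (by
      rw [coclosedCompact_eq_cocompact]
      exact L.toHomeomorph.isClosedEmbedding.tendsto_cocompact)
  have hdet : (L : E →L[ℝ] E).det ≠ 0 := by
    have := (LinearEquiv.isUnit_det' L.toLinearEquiv).ne_zero
    exact this
  have hreg : Reg (OnePoint.map (L : E → E)) (Metric.ball 0 1) L {0} := by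
    refine ⟨Metric.isOpen_ball, Metric.isBounded_ball, fun x _ => OnePoint.coe_ne_infty _, ?_,
      L.contDiff, ?_, ?_, ?_⟩
    · intro x hx
      have h1 : L x = 0 := OnePoint.coe_injective hx
      have h2 : x = 0 := by rwa [← L.map_zero, L.injective.eq_iff] at h1
      rw [h2]
      exact Metric.mem_ball_self one_pos
    · intro x hx t _ h1
      have h2 : fin (OnePoint.map (L : E → E)) x = L x := rfl
      rw [h2, ← add_smul, sub_add_cancel, one_smul] at h1
      have h3 : x = 0 := by rwa [← L.map_zero, L.injective.eq_iff] at h1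
      rw [Metric.isOpen_ball.frontier_eq] at hx
      exact hx.2 (by rw [h3]; exact Metric.mem_ball_self one_pos)
    · intro z
      rw [Finset.mem_singleton]
      constructor
      · rintro rfl
        exact ⟨Metric.mem_ball_self one_pos, L.map_zero⟩
      · rintro ⟨-, h1⟩
        rwa [← L.map_zero, L.injective.eq_iff] at h1
    · intro z _
      rw [L.fderiv]
      exact hdet
  rw [hreg.degV_eq hc rfl, Finset.sum_singleton, L.fderiv]

end DegV

end Vale.Agent.P251.G
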