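import Mathlib

/-!
# P251, part G (G7): pointed maps into one-point compactifications

Tools: extension by `∞` from an open set, perturbation `f + w`, collapse onto a small ball.
-/

open Set Topology Filter OnePoint

set_option linter.unusedSectionVars false

namespace Vale.Agent.P251.G.Gen

section ext

variable {X F : Type*} [TopologicalSpace X] [TopologicalSpace F]

open Classical in
/-- `g` on `U`, and `∞` outside of `U` -/
noncomputable def extI (U : Set X) (g : X → F) (x : X) : OnePoint F :=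
  if x ∈ U then (g x : OnePoint F) else ∞

theorem extI_of_mem {U : Set X} {g : X → F} {x : X} (h : x ∈ U) :
    extI U g x = (g x : OnePoint F) := if_pos h

theorem extI_of_notMem {U : Set X} {g : X → F} {x : X} (h : x ∉ U) :
    extI U g x = ∞ := if_neg h

theorem extI_eq_infty {U : Set X} {g : X → F} {x : X} : extI U g x = ∞ ↔ x ∉ U := by
  classical
  by_cases h : x ∈ U
  · simp [extI, h]
  · simp [extI, h]

theorem continuous_extI {U : Set X} (hU : IsOpen U) {g : X → F} (hg : ContinuousOn g U)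
    (h : ∀ K : Set F, IsCompact K → ∃ C : Set X, IsClosed C ∧ C ⊆ U ∧ ∀ x ∈ U, g x ∈ K → x ∈ C) :
    Continuous (extI U g) := by
  rw [continuous_def]
  intro s hs
  by_cases hi : (∞ : OnePoint F) ∈ s
  · rw [isOpen_iff_of_mem hi] at hs
    obtain ⟨hcl, hco⟩ := hs
    obtain ⟨C, hC, hCU, hC'⟩ := h _ hco
    have : (extI U g ⁻¹' s) = (C ∩ g ⁻¹' ((((↑) : F → OnePoint F) ⁻¹' s)ᶜ))ᶜ := by
      ext x
      simp only [mem_preimage, mem_compl_iff, mem_inter_iff, not_and, not_not]
      by_cases hx : x ∈ U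
      · rw [extI_of_mem hx]
        refine ⟨fun h1 _ => h1, fun h1 => ?_⟩
        by_contra h2
        exact h2 (h1 (hC' x hx h2))
      · rw [extI_of_notMem hx]
        exact ⟨fun _ h2 => absurd (hCU h2) hx, fun _ => hi⟩
    rw [this, isOpen_compl_iff]
    exact (hg.mono hCU).preimage_isClosed_of_isClosed hC hcl
  · rw [isOpen_iff_of_notMem hi] at hs
    have : (extI U g ⁻¹' s) = U ∩ g ⁻¹' (((↑) : F → OnePoint F) ⁻¹' s) := by
      ext x
      simp only [mem_preimage, mem_inter_iff]
      by_cases hx : x ∈ U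
      · rw [extI_of_mem hx]; simp [hx]
      · rw [extI_of_notMem hx]; simp [hx, hi]
    rw [this]
    exact hg.isOpen_inter_preimage hU hs

/-- extension by zero from an open set -/
theorem continuous_ext_zero {V : Type*} [TopologicalSpace V] [Zero V] {U C : Set X}
    (hU : IsOpen U) (hC : IsClosed C) (hCU : C ⊆ U) {w : X → V} (hw : ContinuousOn w U)
    (h0 : ∀ x, x ∉ C → w x = 0) : Continuous w := by
  rw [continuous_iff_continuousAt]
  intro x
  by_cases hx : x ∈ C
  · exact hw.continuousAt (hU.mem_nhds (hCU hx))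
  · have : w =ᶠ[𝓝 x] fun _ => 0 := by
      filter_upwards [hC.isOpen_compl.mem_nhds hx] with y hy using h0 y hy
    exact (continuousAt_const).congr this.symm

end ext

section normed

variable {X F : Type*} [TopologicalSpace X] [NormedAddCommGroup F]

/-- the finite part of a point of the one-point compactification (`0` at `∞`) -/
def val {F : Type*} [Zero F] (y : OnePoint F) : F := y.elim 0 id

@[simp] theorem val_coe {F : Type*} [Zero F] (y : F) : val (y : OnePoint F) = y := rfl

@[simp] theorem val_infty {F : Type*} [Zero F] : val (∞ : OnePoint F) = 0 := rfl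

theorem coe_val {F : Type*} [Zero F] {y : OnePoint F} (h : y ≠ ∞) : ((val y : F) : OnePoint F) = y := by
  obtain ⟨z, rfl⟩ := ne_infty_iff_exists.1 h
  rfl

theorem continuousOn_val {F : Type*} [Zero F] [TopologicalSpace F] :
    ContinuousOn (val : OnePoint F → F) {∞}ᶜ := by
  intro y hy
  obtain ⟨z, rfl⟩ := ne_infty_iff_exists.1 hy
  refine ContinuousAt.continuousWithinAt ?_
  rw [continuousAt_coe]
  exact continuousAt_id

theorem continuousOn_val_comp {F : Type*} [Zero F] [TopologicalSpace F]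
    {f : X → OnePoint F} (hf : Continuous f) :
    ContinuousOn (fun x => val (f x)) {x | f x ≠ ∞} :=
  continuousOn_val.comp hf.continuousOn fun _ hx => hx

theorem isOpen_ne_infty {F : Type*} [TopologicalSpace F] {f : X → OnePoint F}
    (hf : Continuous f) : IsOpen {x | f x ≠ ∞} := by
  have : {x | f x ≠ ∞} = f ⁻¹' ({∞}ᶜ) := by ext; simp
  rw [this]
  exact isClosed_infty.isOpen_compl.preimage hf

/-- the closed set where `f` is finite of norm at most `R` -/
theorem isClosed_le [ProperSpace F] {f : X → OnePoint F} (hf : Continuous f) (R : ℝ) :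
    IsClosed {x | f x ≠ ∞ ∧ ‖val (f x)‖ ≤ R} := by
  have h1 : IsClosed (((↑) : F → OnePoint F) '' Metric.closedBall 0 R) := by
    rw [isClosed_image_coe]
    exact ⟨Metric.isClosed_closedBall, isCompact_closedBall _ _⟩
  convert h1.preimage hf using 1
  ext x
  simp only [ne_eq, mem_ofPred_eq, mem_preimage, mem_image, Metric.mem_closedBall, dist_zero_right]
  constructor
  · rintro ⟨h2, h3⟩
    exact ⟨_, h3, coe_val h2⟩
  · rintro ⟨y, hy, h2⟩
    rw [← h2]
    exact ⟨coe_ne_infty y, hy⟩

theorem isClosed_le_subset [ProperSpace F] {f : X → OnePoint F} (R : ℝ) :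
    {x | f x ≠ ∞ ∧ ‖val (f x)‖ ≤ R} ⊆ {x | f x ≠ ∞} := fun _ h => h.1

theorem continuous_extI_norm [ProperSpace F] {U : Set X} (hU : IsOpen U) {g : X → F}
    (hg : ContinuousOn g U)
    (h : ∀ R : ℝ, 0 < R → ∃ C : Set X, IsClosed C ∧ C ⊆ U ∧ ∀ x ∈ U, ‖g x‖ ≤ R → x ∈ C) :
    Continuous (extI U g) := by
  refine continuous_extI hU hg fun K hK => ?_
  obtain ⟨R, hR⟩ := hK.isBounded.subset_closedBall (0 : F)
  obtain ⟨C, h1, h2, h3⟩ := h (max R 1) (lt_max_of_lt_right one_pos)
  refine ⟨C, h1, h2, fun x hx hxK => h3 x hx ?_⟩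
  have := hR hxK
  rw [mem_closedBall_zero_iff] at this
  exact this.trans (le_max_left _ _)

/-- perturbation of a map to `OnePoint F` by a bounded function -/
noncomputable def addw (f : X → OnePoint F) (w : X → F) : X → OnePoint F :=
  extI {x | f x ≠ ∞} (fun x => val (f x) + w x)

theorem addw_coe {f : X → OnePoint F} {w : X → F} {x : X} {y : F} (h : f x = y) :
    addw f w x = ((y + w x : F) : OnePoint F) := by
  rw [addw, extI_of_mem (by rw [mem_ofPred_eq, h]; exact coe_ne_infty y), h, val_coe]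

theorem addw_infty {f : X → OnePoint F} {w : X → F} {x : X} (h : f x = ∞) :
    addw f w x = ∞ := extI_of_notMem (by simp [h])

theorem addw_zero {f : X → OnePoint F} {w : X → F} {x : X} (h : w x = 0) :
    addw f w x = f x := by
  by_cases hf : f x = ∞
  · rw [addw_infty hf, hf]
  · obtain ⟨z, hz⟩ := ne_infty_iff_exists.1 hf
    rw [addw_coe hz.symm, h, add_zero, hz]

theorem continuous_addw [ProperSpace F] {f : X → OnePoint F} {w : X → F} (hf : Continuous f)
    (hw : Continuous w) {M : ℝ} (hM : ∀ x, ‖w x‖ ≤ M) : Continuous (addw f w) := by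
  refine continuous_extI_norm (isOpen_ne_infty hf)
    ((continuousOn_val_comp hf).add hw.continuousOn) fun R _ =>
    ⟨_, isClosed_le hf (R + M), isClosed_le_subset _, fun x hx h => ⟨hx, ?_⟩⟩
  calc ‖val (f x)‖ = ‖(val (f x) + w x) - w x‖ := by congr 1; abel
    _ ≤ ‖val (f x) + w x‖ + ‖w x‖ := norm_sub_le _ _
    _ ≤ R + M := add_le_add h (hM x)

variable [NormedSpace ℝ F]

/-- collapse of the complement of `{N < 1 / c x}`, followed by an expansion -/
noncomputable def scal (N : F → ℝ) (f : X → OnePoint F) (c : X → ℝ) : X → OnePoint F :=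
  extI {x | f x ≠ ∞ ∧ c x * N (val (f x)) < 1} (fun x => (1 - c x * N (val (f x)))⁻¹ • val (f x))

theorem scal_infty {N : F → ℝ} {f : X → OnePoint F} {c : X → ℝ} {x : X} (h : f x = ∞) :
    scal N f c x = ∞ := extI_of_notMem (by simp [h])

theorem scal_coe {N : F → ℝ} {f : X → OnePoint F} {c : X → ℝ} {x : X} {y : F} (h : f x = y)
    (h1 : c x * N y < 1) : scal N f c x = (((1 - c x * N y)⁻¹ • y : F) : OnePoint F) := by
  rw [scal, extI_of_mem (show x ∈ {x | f x ≠ ∞ ∧ c x * N (val (f x)) < 1} from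
    ⟨by rw [h]; exact coe_ne_infty _, by rw [h]; exact h1⟩), h, val_coe]

theorem scal_zero {N : F → ℝ} {f : X → OnePoint F} {c : X → ℝ} {x : X} (h : c x = 0) :
    scal N f c x = f x := by
  by_cases hf : f x = ∞
  · rw [scal_infty hf, hf]
  · rw [scal, extI_of_mem (show x ∈ {x | f x ≠ ∞ ∧ c x * N (val (f x)) < 1} from
      ⟨hf, by simp [h]⟩), h]
    simp [coe_val hf]

theorem scal_large {N : F → ℝ} {f : X → OnePoint F} {c : X → ℝ} {x : X}
    (h : f x ≠ ∞ → 1 ≤ c x * N (val (f x))) : scal N f c x = ∞ := by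
  rw [scal, extI_eq_infty]
  rintro ⟨h1, h2⟩
  exact absurd (h h1) (not_le.2 h2)

theorem scal_congr {Y : Type*} [TopologicalSpace Y] {N : F → ℝ} {f : X → OnePoint F} {c : X → ℝ}
    {f' : Y → OnePoint F} {c' : Y → ℝ} {x : X} {y : Y} (h1 : f x = f' y) (h2 : c x = c' y) :
    scal N f c x = scal N f' c' y := by
  by_cases h : y ∈ {y | f' y ≠ ∞ ∧ c' y * N (val (f' y)) < 1}
  · rw [scal, scal, extI_of_mem (by rw [mem_ofPred_eq, h1, h2]; exact h), extI_of_mem h, h1, h2]
  · rw [scal, scal, extI_of_notMem (by rw [mem_ofPred_eq, h1, h2]; exact h), extI_of_notMem h]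

theorem continuous_scal [ProperSpace F] {N : F → ℝ} (hN : Continuous N) (hN0 : ∀ y, 0 ≤ N y)
    (hN1 : N 0 = 0) {f : X → OnePoint F} {c : X → ℝ} (hf : Continuous f)
    (hc : Continuous c) (h0 : ∀ x, 0 ≤ c x) : Continuous (scal N f c) := by
  have hv := continuousOn_val_comp hf
  have hcv : ContinuousOn (fun x => c x * N (val (f x))) {x | f x ≠ ∞} :=
    hc.continuousOn.mul (hN.comp_continuousOn hv)
  have hU : IsOpen {x | f x ≠ ∞ ∧ c x * N (val (f x)) < 1} :=
    hcv.isOpen_inter_preimage (isOpen_ne_infty hf) isOpen_Iio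
  refine continuous_extI_norm hU ?_ ?_
  · have hsub : {x | f x ≠ ∞ ∧ c x * N (val (f x)) < 1} ⊆ {x | f x ≠ ∞} := fun _ h => h.1
    refine ContinuousOn.smul (ContinuousOn.inv₀ (continuousOn_const.sub (hcv.mono hsub)) ?_)
      (hv.mono hsub)
    intro x hx
    have := hx.2
    intro h
    linarith
  · intro R hR
    have hD := isClosed_le hf R
    refine ⟨{x | (f x ≠ ∞ ∧ ‖val (f x)‖ ≤ R) ∧ ‖val (f x)‖ - R * (1 - c x * N (val (f x))) ≤ 0},
      ?_, ?_, ?_⟩
    · have h1 : ContinuousOn (fun x => ‖val (f x)‖ - R * (1 - c x * N (val (f x))))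
          {x | f x ≠ ∞ ∧ ‖val (f x)‖ ≤ R} :=
        (hv.norm.sub (continuousOn_const.mul (continuousOn_const.sub hcv))).mono
          (isClosed_le_subset R)
      exact h1.preimage_isClosed_of_isClosed hD isClosed_Iic
    · rintro x ⟨⟨h1, -⟩, h2⟩
      refine ⟨h1, ?_⟩
      by_contra h3
      push Not at h3
      have h4 : R * (1 - c x * N (val (f x))) ≤ 0 :=
        mul_nonpos_of_nonneg_of_nonpos hR.le (by linarith)
      have h5 : ‖val (f x)‖ = 0 := le_antisymm (by linarith) (norm_nonneg _)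
      rw [norm_eq_zero] at h5
      rw [h5, hN1, mul_zero] at h3
      linarith
    · rintro x ⟨h1, h2⟩ h3
      have h4 : 0 < 1 - c x * N (val (f x)) := by linarith
      rw [norm_smul, norm_inv, Real.norm_eq_abs, abs_of_pos h4, inv_mul_le_iff₀ h4] at h3
      refine ⟨⟨h1, ?_⟩, by linarith⟩
      have h5 : 0 ≤ c x * N (val (f x)) := mul_nonneg (h0 x) (hN0 _)
      nlinarith

end normed

end Vale.Agent.P251.G.Gen
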