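import Vale.Agent.P251.G.Gen0

/-!
# P251, part G (G7): homotopies of pointed maps, approximation, connectivity
-/

open Set Topology Filter OnePoint

set_option linter.unusedSectionVars false

namespace Vale.Agent.P251.G.Gen

section homotopies

variable {X F : Type*} [TopologicalSpace X] [CompactSpace X] [NormedAddCommGroup F]
  [NormedSpace ℝ F] [ProperSpace F]

theorem bounded_of_compact {w : X → F} (hw : Continuous w) : ∃ M, ∀ x, ‖w x‖ ≤ M := by
  obtain ⟨M, hM⟩ := (isCompact_range hw).isBounded.exists_norm_le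
  exact ⟨M, fun x => hM _ ⟨x, rfl⟩⟩

/-- `f ≃ f + w` -/
theorem homotopic_addw {S : Set X} {f g : C(X, OnePoint F)} {w : X → F} (hw : Continuous w)
    (hg : ∀ x, g x = addw f w x) (hS : ∀ x ∈ S, f x = ∞) : f.HomotopicRel g S := by
  obtain ⟨M, hM⟩ := bounded_of_compact hw
  have hc : Continuous (addw (fun p : unitInterval × X => f p.2)
      (fun p => (p.1 : ℝ) • w p.2)) := by
    refine continuous_addw (M := M) (f.continuous.comp continuous_snd)
      ((continuous_subtype_val.comp continuous_fst).smul (hw.comp continuous_snd)) fun p => ?_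
    rw [norm_smul, Real.norm_eq_abs, abs_of_nonneg p.1.2.1]
    calc (p.1 : ℝ) * ‖w p.2‖ ≤ 1 * ‖w p.2‖ :=
          mul_le_mul_of_nonneg_right p.1.2.2 (norm_nonneg _)
      _ ≤ M := by rw [one_mul]; exact hM _
  refine ⟨⟨⟨⟨fun p => addw (fun p : unitInterval × X => f p.2)
      (fun p => (p.1 : ℝ) • w p.2) p, hc⟩, ?_, ?_⟩, ?_⟩⟩
  · intro x
    exact addw_zero (f := fun p : unitInterval × X => f p.2) (x := ((0 : unitInterval), x))
      (w := fun p => (p.1 : ℝ) • w p.2)
      (show ((0 : unitInterval) : ℝ) • w x = 0 by simp)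
  · intro x
    change addw (fun p : unitInterval × X => f p.2)
      (fun p => (p.1 : ℝ) • w p.2) ((1 : unitInterval), x) = g x
    rw [hg]
    by_cases hf : f x = ∞
    · rw [addw_infty hf, addw_infty (by exact hf)]
    · obtain ⟨y, hy⟩ := ne_infty_iff_exists.1 hf
      rw [addw_coe hy.symm, addw_coe (y := y) (by exact hy.symm)]
      simp [one_smul]
  · intro t x hx
    change addw (fun p : unitInterval × X => f p.2)
      (fun p => (p.1 : ℝ) • w p.2) (t, x) = f x
    rw [hS x hx, addw_infty (by exact hS x hx)]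

/-- `f` is homotopic to its collapse outside of a neighbourhood of zero -/
theorem homotopic_scal {N : F → ℝ} (hN : Continuous N) (hN0 : ∀ y, 0 ≤ N y)
    (hN1 : N 0 = 0) {S : Set X} {f g : C(X, OnePoint F)} {c : ℝ} (hc : 0 ≤ c)
    (hg : ∀ x, g x = scal N f (fun _ => c) x) (hS : ∀ x ∈ S, f x = ∞) : f.HomotopicRel g S := by
  have hcon : Continuous (scal N (fun p : unitInterval × X => f p.2)
      (fun p => (p.1 : ℝ) * c)) := by
    refine continuous_scal hN hN0 hN1 (f.continuous.comp continuous_snd)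
      ((continuous_subtype_val.comp continuous_fst).mul continuous_const) fun p => ?_
    exact mul_nonneg p.1.2.1 hc
  refine ⟨⟨⟨⟨fun p => scal N (fun p : unitInterval × X => f p.2)
      (fun p => (p.1 : ℝ) * c) p, hcon⟩, ?_, ?_⟩, ?_⟩⟩
  · intro x
    exact scal_zero (by simp)
  · intro x
    change scal N (fun p : unitInterval × X => f p.2)
      (fun p => (p.1 : ℝ) * c) ((1 : unitInterval), x) = g x
    rw [hg]
    exact scal_congr rfl (show ((1 : unitInterval) : ℝ) * c = c by simp)
  · intro t x hx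
    change scal N (fun p : unitInterval × X => f p.2)
      (fun p => (p.1 : ℝ) * c) (t, x) = f x
    rw [hS x hx, scal_infty (by exact hS x hx)]

/-- lower bound of a map which omits `0` on a closed set -/
theorem exists_lower_bound {f : C(X, OnePoint F)} {K : Set X} (hK : IsClosed K)
    (h0 : ∀ x ∈ K, f x ≠ ((0 : F) : OnePoint F)) :
    ∃ m > (0 : ℝ), ∀ x ∈ K, f x ≠ ∞ → m ≤ ‖val (f x)‖ := by
  have hK' : IsCompact (K ∩ {x | f x ≠ ∞ ∧ ‖val (f x)‖ ≤ 1}) :=
    (hK.inter (isClosed_le f.continuous 1)).isCompact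
  rcases Set.eq_empty_or_nonempty (K ∩ {x | f x ≠ ∞ ∧ ‖val (f x)‖ ≤ 1}) with h | h
  · refine ⟨1, one_pos, fun x hxK hx => ?_⟩
    by_contra hc
    have : x ∈ (K ∩ {x | f x ≠ ∞ ∧ ‖val (f x)‖ ≤ 1} : Set X) := ⟨hxK, hx, (not_le.1 hc).le⟩
    rw [h] at this
    exact this
  · obtain ⟨x₀, hx₀, hmin⟩ := hK'.exists_isMinOn h
      ((continuousOn_val_comp f.continuous).norm.mono
        (inter_subset_right.trans (isClosed_le_subset 1)))
    refine ⟨min ‖val (f x₀)‖ 1, lt_min (norm_pos_iff.2 ?_) one_pos, fun x hxK hx => ?_⟩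
    · intro h1
      apply h0 x₀ hx₀.1
      rw [← coe_val hx₀.2.1, h1]
    · rcases le_total ‖val (f x)‖ 1 with h1 | h1
      · exact (min_le_left _ _).trans (hmin ⟨hxK, hx, h1⟩)
      · exact (min_le_right _ _).trans h1

/-- a map which omits `0` is null homotopic -/
theorem homotopic_const {S : Set X} {f : C(X, OnePoint F)} (h0 : ∀ x, f x ≠ ((0 : F) : OnePoint F))
    (hS : ∀ x ∈ S, f x = ∞) : f.HomotopicRel (ContinuousMap.const X ∞) S := by
  obtain ⟨m, hm, hmb⟩ := exists_lower_bound (f := f) isClosed_univ (fun x _ => h0 x)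
  refine homotopic_scal continuous_norm norm_nonneg norm_zero (c := 1 / m) (by positivity)
    (fun x => ?_) hS
  rw [scal_large]
  · rfl
  · intro hx
    rw [one_div, inv_mul_eq_div, one_le_div hm]
    exact hmb x (mem_univ _) hx

end homotopies

section approx

variable {E F : Type*} [NormedAddCommGroup E] [NormedSpace ℝ E] [FiniteDimensional ℝ E]
  [NormedAddCommGroup F] [NormedSpace ℝ F] [FiniteDimensional ℝ F]

/-- the cut off function: `1` on `r ≤ 1`, `0` on `2 ≤ r` -/
noncomputable def cut (r : ℝ) : ℝ := max 0 (min 1 (2 - r))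

theorem continuous_cut : Continuous cut := by
  unfold cut; fun_prop

theorem cut_one {r : ℝ} (h : r ≤ 1) : cut r = 1 := by
  unfold cut
  rw [min_eq_left (by linarith), max_eq_right zero_le_one]

theorem cut_zero {r : ℝ} (h : 2 ≤ r) : cut r = 0 := by
  unfold cut
  rw [min_eq_right (by linarith), max_eq_left (by linarith)]

theorem cut_nonneg (r : ℝ) : 0 ≤ cut r := le_max_left _ _

theorem cut_le_one (r : ℝ) : cut r ≤ 1 := max_le zero_le_one (min_le_left _ _)

theorem exists_smooth_approx {f : E → F} {K : Set E}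
    (hK : IsCompact K) (hf : ContinuousOn f K) {ε : ℝ} (hε : 0 < ε) :
    ∃ g : E → F, ContDiff ℝ ((⊤ : ℕ∞) : WithTop ℕ∞) g ∧ ∀ x ∈ K, ‖g x - f x‖ < ε := by
  obtain ⟨G, hG⟩ := ContinuousMap.exists_restrict_eq hK.isClosed
    (⟨K.domRestrict f, continuousOn_iff_continuous_domRestrict.1 hf⟩ : C(K, F))
  have hFf : ∀ x ∈ K, G x = f x := by
    intro x hx
    exact congrArg (fun G : C(K, F) => G ⟨x, hx⟩) hG
  have hd := ContinuousMap.dense_setOfPred_contDiff (E := E) (F := F) G
  rw [mem_closure_iff_nhds_basis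
    (nhds_basis_uniformity Metric.uniformity_basis_dist.compactConvergenceUniformity)] at hd
  obtain ⟨g, hg1, hg2⟩ := hd (K, ε) ⟨hK, hε⟩
  refine ⟨g, hg1, fun x hx => ?_⟩
  have := hg2 x hx
  rw [← hFf x hx, ← dist_eq_norm]
  exact this

/-- the perturbation used to replace `f` by `g` where `‖f‖ ≤ 1` -/
noncomputable def pert (f : OnePoint E → OnePoint F) (g : E → F) (x : OnePoint E) : F :=
  cut ‖val (f x)‖ • (g (val x) - val (f x))

open Classical in
/-- the perturbation, cut off where `f = ∞` -/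
noncomputable def pert0 (f : OnePoint E → OnePoint F) (g : E → F) (x : OnePoint E) : F :=
  if f x = ∞ then 0 else pert f g x

theorem continuous_pert0 {f : OnePoint E → OnePoint F} {g : E → F} (hf : Continuous f)
    (hf0 : f ∞ = ∞) (hg : Continuous g) : Continuous (pert0 f g) := by
  have : ProperSpace F := FiniteDimensional.proper_real F
  have hU := isOpen_ne_infty hf
  refine continuous_ext_zero hU (isClosed_le hf 2) (isClosed_le_subset 2) ?_ ?_
  · have hv := continuousOn_val_comp hf
    have h1 : ContinuousOn (fun x : OnePoint E => g (val x)) {x | f x ≠ ∞} := by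
      refine hg.comp_continuousOn (continuousOn_val.mono ?_)
      rintro x hx rfl
      exact hx hf0
    have h2 : ContinuousOn (pert f g) {x | f x ≠ ∞} :=
      (continuous_cut.comp_continuousOn hv.norm).smul (h1.sub hv)
    refine h2.congr fun x hx => ?_
    rw [pert0, if_neg hx]
  · intro x hx
    rw [pert0]
    split_ifs with h
    · rfl
    · have : 2 ≤ ‖val (f x)‖ := by
        by_contra h2
        exact hx ⟨h, (not_le.1 h2).le⟩
      rw [pert, cut_zero this, zero_smul]

/-- **Approximation**: a pointed map `f` is homotopic to a pointed map `h` which, near its zeros,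
coincides with a smooth function `g - v`, for arbitrarily small `v`. -/
theorem exists_approx (f : C(OnePoint E, OnePoint F)) (hf : f ∞ = ∞) :
    ∃ g : E → F, ContDiff ℝ ((⊤ : ℕ∞) : WithTop ℕ∞) g ∧ ∀ v : F, ‖v‖ < 1 / 4 →
      ∃ h : C(OnePoint E, OnePoint F), f.HomotopicRel h {∞} ∧ h ∞ = ∞ ∧
        ∃ U : Set E, IsOpen U ∧ (∀ x ∈ U, h x = ((g x - v : F) : OnePoint F)) ∧
          ∀ x : E, h x = ((0 : F) : OnePoint F) → x ∈ U := by
  have : ProperSpace F := FiniteDimensional.proper_real F
  set K : Set E := ((↑) : E → OnePoint E) ⁻¹' {x | f x ≠ ∞ ∧ ‖val (f x)‖ ≤ 2} with hKdef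
  have hKc : IsCompact K := by
    have h1 : IsClosed {x | f x ≠ ∞ ∧ ‖val (f x)‖ ≤ 2} := isClosed_le f.continuous 2
    have h2 : (∞ : OnePoint E) ∉ {x | f x ≠ ∞ ∧ ‖val (f x)‖ ≤ 2} := fun h => h.1 hf
    exact ((isClosed_iff_of_notMem h2).1 h1).2
  have hcK : ContinuousOn (fun x : E => val (f x)) K := by
    have h1 := continuousOn_val_comp f.continuous
    exact h1.comp continuous_coe.continuousOn fun x hx => hx.1
  obtain ⟨g, hg, hgf⟩ := exists_smooth_approx hKc hcK (ε := 1 / 4) (by norm_num)
  refine ⟨g, hg, fun v hv => ?_⟩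
  set g' : E → F := fun x => g x - v with hg'
  have hg'c : Continuous g' := hg.continuous.sub continuous_const
  have hgf' : ∀ x ∈ K, ‖g' x - val (f x)‖ < 1 / 2 := by
    intro x hx
    calc ‖g' x - val (f x)‖ = ‖(g x - val (f x)) - v‖ := by
          rw [hg', sub_right_comm]
      _ ≤ ‖g x - val (f x)‖ + ‖v‖ := norm_sub_le _ _
      _ < 1 / 4 + 1 / 4 := add_lt_add (hgf x hx) hv
      _ = 1 / 2 := by norm_num
  have hwc := continuous_pert0 f.continuous hf hg'c
  obtain ⟨M, hM⟩ := bounded_of_compact hwc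
  refine ⟨⟨addw f (pert0 f g'), continuous_addw f.continuous hwc hM⟩, ?_, ?_, ?_⟩
  · exact homotopic_addw hwc (fun x => rfl) (fun x hx => by
      rw [mem_singleton_iff] at hx; rw [hx, hf])
  · exact addw_infty hf
  · refine ⟨((↑) : E → OnePoint E) ⁻¹' ({x | f x ≠ ∞} ∩ (fun x => ‖val (f x)‖) ⁻¹' Iio 1),
      ?_, ?_, ?_⟩
    · exact ((continuousOn_val_comp f.continuous).norm.isOpen_inter_preimage
        (isOpen_ne_infty f.continuous) isOpen_Iio).preimage continuous_coe
    · rintro x ⟨hx1, hx2⟩
      have hx3 : ‖val (f x)‖ ≤ 1 := le_of_lt hx2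
      change addw f (pert0 f g') x = _
      rw [addw_coe (coe_val hx1).symm, pert0, if_neg hx1, pert, cut_one hx3, one_smul, val_coe,
        add_sub_cancel]
    · intro x hx
      change addw f (pert0 f g') x = _ at hx
      have hx1 : f x ≠ ∞ := by
        intro h
        rw [addw_infty h] at hx
        exact infty_ne_coe _ hx
      rw [addw_coe (coe_val hx1).symm, coe_eq_coe, pert0, if_neg hx1, pert, val_coe] at hx
      refine ⟨hx1, ?_⟩
      change ‖val (f x)‖ < 1
      by_contra h1
      push Not at h1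
      by_cases h2 : ‖val (f x)‖ ≤ 2
      · have h3 := hgf' x ⟨hx1, h2⟩
        have h4 : val (f x) = - (cut ‖val (f x)‖ • (g' x - val (f x))) :=
          eq_neg_of_add_eq_zero_left hx
        have h5 : ‖val (f x)‖ ≤ ‖g' x - val (f x)‖ := by
          calc ‖val (f x)‖ = ‖cut ‖val (f x)‖ • (g' x - val (f x))‖ := by
                conv_lhs => rw [h4]
                rw [norm_neg]
            _ ≤ 1 * ‖g' x - val (f x)‖ := by
                rw [norm_smul, Real.norm_eq_abs, abs_of_nonneg (cut_nonneg _)]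
                exact mul_le_mul_of_nonneg_right (cut_le_one _) (norm_nonneg _)
            _ = _ := one_mul _
        linarith
      · push Not at h2
        rw [cut_zero h2.le, zero_smul, add_zero] at hx
        rw [hx, norm_zero] at h2
        linarith

/-- **Connectivity of spheres**: a pointed map of one-point compactifications is null homotopic if
the target has larger dimension. -/
theorem homotopic_const_of_finrank_lt (h : Module.finrank ℝ E < Module.finrank ℝ F)
    (f : C(OnePoint E, OnePoint F)) (hf : f ∞ = ∞) :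
    f.HomotopicRel (ContinuousMap.const _ ∞) {∞} := by
  have : ProperSpace F := FiniteDimensional.proper_real F
  obtain ⟨g, hg, hgf⟩ := exists_approx f hf
  have hd : Dense (range g)ᶜ :=
    (hg.of_le (by exact_mod_cast le_top : (1 : WithTop ℕ∞) ≤ ((⊤ : ℕ∞) : WithTop ℕ∞))).dense_compl_range_of_finrank_lt_finrank h
  obtain ⟨v, hv1, hv2⟩ := hd.exists_mem_open (Metric.isOpen_ball (x := (0 : F)) (ε := 1 / 4))
    (Metric.nonempty_ball.2 (by norm_num))
  rw [mem_ball_zero_iff] at hv2
  obtain ⟨k, hk, hk0, U, -, hU1, hU2⟩ := hgf v hv2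
  refine hk.trans (homotopic_const (fun x => ?_) (fun x hx => by
      rw [mem_singleton_iff] at hx; rw [hx, hk0]))
  intro h0
  induction x using OnePoint.rec with
  | infty => rw [hk0] at h0; exact infty_ne_coe _ h0
  | coe x =>
    have h1 := hU2 x h0
    rw [hU1 x h1, coe_eq_coe, sub_eq_zero] at h0
    exact hv1 ⟨x, h0⟩

end approx

end Vale.Agent.P251.G.Gen
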