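import Vale.Agent.P251.G.Gen1

/-!
# P251, part G (G7/G10): a pointed self map of `OnePoint E` has finitely many linear branches
-/

open Set Topology Filter OnePoint

set_option linter.unusedSectionVars false

namespace Vale.Agent.P251.G.Gen

variable {E : Type*} [NormedAddCommGroup E] [NormedSpace ℝ E] [FiniteDimensional ℝ E]

theorem exists_regular {g : E → E} (hg : ContDiff ℝ ((⊤ : ℕ∞) : WithTop ℕ∞) g) {ε : ℝ}
    (hε : 0 < ε) : ∃ v : E, ‖v‖ < ε ∧ ∀ x, g x = v → (fderiv ℝ g x).det ≠ 0 := by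
  borelize E
  let μ : MeasureTheory.Measure E := MeasureTheory.Measure.addHaar
  set s : Set E := {x | (fderiv ℝ g x).det = 0} with hs
  have hd : Differentiable ℝ g := hg.differentiable (by simp)
  have h0 : μ (g '' s) = 0 :=
    MeasureTheory.addHaar_image_eq_zero_of_det_fderivWithin_eq_zero μ (f' := fun x => fderiv ℝ g x)
      (fun x _ => (hd x).hasFDerivAt.hasFDerivWithinAt) (fun x hx => hx)
  have hD : Dense {x | x ∉ g '' s} := by
    apply MeasureTheory.Measure.dense_of_ae (μ := μ)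
    rw [MeasureTheory.ae_iff]
    convert h0 using 2
    ext a
    exact not_not
  obtain ⟨v, hv1, hv2⟩ := hD.exists_mem_open (Metric.isOpen_ball (x := (0 : E)) (ε := ε))
    (Metric.nonempty_ball.2 hε)
  rw [mem_ball_zero_iff] at hv2
  refine ⟨v, hv2, fun x hx h => hv1 ⟨x, h, hx⟩⟩

theorem exists_lower {F : Type*} [NormedAddCommGroup F] [NormedSpace ℝ F] (A : E ≃L[ℝ] F) :
    ∃ c > (0 : ℝ), ∀ v, c * ‖v‖ ≤ ‖A v‖ := by
  set K := ‖(A.symm : F →L[ℝ] E)‖ with hK
  have hK0 : 0 ≤ K := norm_nonneg _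
  have h1 : 0 < K + 1 := by linarith
  refine ⟨(K + 1)⁻¹, inv_pos.2 h1, fun v => ?_⟩
  rw [inv_mul_le_iff₀ h1]
  calc ‖v‖ = ‖(A.symm : F →L[ℝ] E) (A v)‖ := by simp
    _ ≤ K * ‖A v‖ := ContinuousLinearMap.le_opNorm _ _
    _ ≤ (K + 1) * ‖A v‖ := mul_le_mul_of_nonneg_right (by linarith) (norm_nonneg _)

/-- **Linear branches**: every pointed self map of `OnePoint E` is homotopic to a map `k` which has
finitely many zeros and is affine near each of them. -/
theorem exists_linear_approx (f : C(OnePoint E, OnePoint E)) (hf : f ∞ = ∞) :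
    ∃ (k : C(OnePoint E, OnePoint E)) (Z : Finset E) (A : E → (E ≃L[ℝ] E)) (ρ : E → ℝ),
      f.HomotopicRel k {∞} ∧ k ∞ = ∞ ∧ (∀ z ∈ Z, 0 < ρ z) ∧
      (Z : Set E).PairwiseDisjoint (fun z => Metric.ball z (ρ z)) ∧
      (∀ z ∈ Z, ∀ x ∈ Metric.ball z (ρ z), k x = ((A z (x - z) : E) : OnePoint E)) ∧
      (∀ x : E, k x = ((0 : E) : OnePoint E) → ∃ z ∈ Z, x ∈ Metric.ball z (ρ z)) := by
  classical
  have : ProperSpace E := FiniteDimensional.proper_real E
  obtain ⟨g, hg, hgf⟩ := exists_approx f hf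
  obtain ⟨v, hv, hreg⟩ := exists_regular hg (ε := 1 / 4) (by norm_num)
  obtain ⟨h, hfh, hh0, U, hU, hU1, hU2⟩ := hgf v hv
  have hgd : Differentiable ℝ g := hg.differentiable (by simp)
  set Z0 : Set E := {z | h z = ((0 : E) : OnePoint E)} with hZ0
  -- local structure
  have hloc : ∀ z ∈ Z0, ∃ (A : E ≃L[ℝ] E) (c : ℝ), 0 < c ∧ (∀ v, c * ‖v‖ ≤ ‖A v‖) ∧
      ∀ᶠ r in 𝓝[>] (0 : ℝ), Metric.closedBall z r ⊆ U ∧
        ∀ x ∈ Metric.closedBall z r, ‖(g x - v) - A (x - z)‖ ≤ c / 2 * ‖x - z‖ := by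
    intro z hz
    have hzU := hU2 z hz
    have hz0 : h z = ((0 : E) : OnePoint E) := hz
    have hgz : g z = v := by
      rw [hU1 z hzU, coe_eq_coe, sub_eq_zero] at hz0
      exact hz0
    set A := (fderiv ℝ g z).toContinuousLinearEquivOfDetNeZero (hreg z hgz) with hA
    obtain ⟨c, hc, hcA⟩ := exists_lower A
    refine ⟨A, c, hc, hcA, ?_⟩
    have h1 := (hgd z).hasFDerivAt.isLittleO.def (half_pos hc)
    have h2 : ∀ᶠ x in 𝓝 z, x ∈ U ∧ ‖(g x - v) - A (x - z)‖ ≤ c / 2 * ‖x - z‖ := by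
      filter_upwards [h1, hU.mem_nhds hzU] with x hx hxU
      refine ⟨hxU, ?_⟩
      rw [hgz] at hx
      exact hx
    obtain ⟨ε, hε, hε'⟩ := Metric.eventually_nhds_iff_ball.1 h2
    filter_upwards [Ioo_mem_nhdsGT hε] with r hr
    exact ⟨fun x hx => (hε' x (Metric.closedBall_subset_ball hr.2 hx)).1,
      fun x hx => (hε' x (Metric.closedBall_subset_ball hr.2 hx)).2⟩
  choose! A c hc hcA hev using hloc
  -- finiteness
  have hfin : Z0.Finite := by
    have hcomp : IsCompact Z0 := by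
      have h1 : IsClosed {x : OnePoint E | h x = ((0 : E) : OnePoint E)} :=
        isClosed_eq h.continuous continuous_const
      have h2 : (∞ : OnePoint E) ∉ {x : OnePoint E | h x = ((0 : E) : OnePoint E)} := by
        intro h3
        rw [mem_ofPred_eq, hh0] at h3
        exact infty_ne_coe _ h3
      exact ((isClosed_iff_of_notMem h2).1 h1).2
    have h1 : ∀ z ∈ Z0, ∃ V ∈ 𝓝 z, ∀ x ∈ V, x ∈ Z0 → x = z := by
      intro z hz
      obtain ⟨r, hr, hr0⟩ := ((hev z hz).and self_mem_nhdsWithin).exists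
      refine ⟨_, Metric.closedBall_mem_nhds z hr0, fun x hx hxZ => ?_⟩
      have h2 := hr.2 x hx
      have h3 : g x - v = 0 := by
        have h4 : h x = ((0 : E) : OnePoint E) := hxZ
        rw [hU1 x (hr.1 hx), coe_eq_coe] at h4
        exact h4
      rw [h3, zero_sub, norm_neg] at h2
      have h4 := hcA z hz (x - z)
      have h5 : ‖x - z‖ = 0 := by
        have := hc z hz
        have := norm_nonneg (x - z)
        nlinarith
      exact sub_eq_zero.1 (norm_eq_zero.1 h5)
    choose! V hV hV' using h1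
    obtain ⟨t, ht, ht'⟩ := hcomp.elim_nhds_subcover V hV
    refine t.finite_toSet.subset fun x hx => ?_
    obtain ⟨z, hz, hxz⟩ := mem_iUnion₂.1 (ht' hx)
    rw [hV' z (ht z hz) x hxz hx]
    exact hz
  obtain ⟨W, hW, hWd⟩ := hfin.t2_separation
  -- radii
  have hrad : ∀ z ∈ Z0, ∃ r > 0, Metric.closedBall z r ⊆ U ∧ Metric.closedBall z r ⊆ W z ∧
      ∀ x ∈ Metric.closedBall z r, ‖(g x - v) - A z (x - z)‖ ≤ c z / 2 * ‖x - z‖ := by
    intro z hz
    obtain ⟨ε, hε, hε'⟩ := Metric.nhds_basis_closedBall.mem_iff.1 ((hW z).2.mem_nhds (hW z).1)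
    obtain ⟨r, ⟨hr, hr0⟩, hrε⟩ := (((hev z hz).and self_mem_nhdsWithin).and
      (Ioo_mem_nhdsGT hε)).exists
    exact ⟨r, hr0, hr.1, (Metric.closedBall_subset_closedBall hrε.2.le).trans hε', hr.2⟩
  choose! r hr hrU hrW hrA using hrad
  set Z : Finset E := hfin.toFinset with hZ
  have hmemZ : ∀ z, z ∈ Z ↔ z ∈ Z0 := fun z => by rw [hZ, Set.Finite.mem_toFinset]
  have hdisj : ∀ z ∈ Z, ∀ z' ∈ Z, ∀ x, x ∈ Metric.closedBall z (r z) →
      x ∈ Metric.closedBall z' (r z') → z = z' := by
    intro z hz z' hz' x hx hx'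
    rw [hmemZ] at hz hz'
    by_contra hne
    exact disjoint_left.1 (hWd hz hz' hne) (hrW z hz hx) (hrW z' hz' hx')
  -- the perturbation
  set w0 : E → E := fun x => ∑ z ∈ Z, cut (2 * ‖x - z‖ / r z) • (A z (x - z) - (g x - v)) with hw0
  have hw0c : Continuous w0 := by
    refine continuous_finsetSum _ fun z _ => ?_
    refine (continuous_cut.comp (by fun_prop)).smul ?_
    exact ((A z).continuous.comp (continuous_id.sub continuous_const)).sub
      (hg.continuous.sub continuous_const)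
  have hcut0 : ∀ z ∈ Z, ∀ x, x ∉ Metric.closedBall z (r z) → cut (2 * ‖x - z‖ / r z) = 0 := by
    intro z hz x hx
    have hrz := hr z ((hmemZ z).1 hz)
    rw [Metric.mem_closedBall, not_le, dist_eq_norm] at hx
    apply cut_zero
    rw [le_div_iff₀ hrz]
    linarith
  set w : OnePoint E → E := fun x => x.elim 0 w0 with hw
  have hwc : Continuous w := by
    set C : Set (OnePoint E) := ((↑) : E → OnePoint E) '' (⋃ z ∈ Z, Metric.closedBall z (r z))
      with hC
    have hCc : IsCompact (⋃ z ∈ Z, Metric.closedBall z (r z)) :=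
      Z.isCompact_biUnion fun z _ => isCompact_closedBall _ _
    refine continuous_ext_zero (U := {∞}ᶜ) isClosed_infty.isOpen_compl
      (C := C) (by rw [hC, isClosed_image_coe]; exact ⟨hCc.isClosed, hCc⟩) ?_ ?_ ?_
    · rintro _ ⟨x, -, rfl⟩
      exact coe_ne_infty x
    · refine (hw0c.comp_continuousOn continuousOn_val).congr fun x hx => ?_
      obtain ⟨y, rfl⟩ := ne_infty_iff_exists.1 hx
      rfl
    · intro x hx
      induction x using OnePoint.rec with
      | infty => rfl
      | coe x =>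
        change w0 x = 0
        refine Finset.sum_eq_zero fun z hz => ?_
        rw [hcut0 z hz x, zero_smul]
        intro hxz
        exact hx ⟨x, mem_iUnion₂.2 ⟨z, hz, hxz⟩, rfl⟩
  obtain ⟨M, hM⟩ := bounded_of_compact hwc
  set k : C(OnePoint E, OnePoint E) := ⟨addw h w, continuous_addw h.continuous hwc hM⟩ with hk
  have hfk : f.HomotopicRel k {∞} :=
    hfh.trans (homotopic_addw hwc (fun x => rfl) (fun x hx => by
      rw [mem_singleton_iff] at hx; rw [hx, hh0]))
  -- values of `k`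
  have hk1 : ∀ z ∈ Z, ∀ x ∈ Metric.closedBall z (r z), k x =
      (((g x - v) + cut (2 * ‖x - z‖ / r z) • (A z (x - z) - (g x - v)) : E) : OnePoint E) := by
    intro z hz x hx
    change addw h w x = _
    rw [addw_coe (hU1 x (hrU z ((hmemZ z).1 hz) hx))]
    congr 2
    change w0 x = _
    rw [hw0]
    refine Finset.sum_eq_single z (fun z' hz' hne => ?_) (fun h => absurd hz h)
    rw [hcut0 z' hz' x, zero_smul]
    intro hx'
    exact hne (hdisj z' hz' z hz x hx' hx)
  have hk2 : ∀ x : E, (∀ z ∈ Z, x ∉ Metric.closedBall z (r z)) → k x = h x := by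
    intro x hx
    apply addw_zero
    change w0 x = 0
    refine Finset.sum_eq_zero fun z hz => ?_
    rw [hcut0 z hz x (hx z hz), zero_smul]
  refine ⟨k, Z, A, fun z => r z / 2, hfk, addw_infty hh0, fun z hz => half_pos
    (hr z ((hmemZ z).1 hz)), ?_, ?_, ?_⟩
  · intro z hz z' hz' hne
    rw [Function.onFun, disjoint_left]
    intro x hx hx'
    have h1 : ∀ y ∈ Z, x ∈ Metric.ball y (r y / 2) → x ∈ Metric.closedBall y (r y) := by
      intro y hy hxy
      have := hr y ((hmemZ y).1 hy)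
      rw [Metric.mem_ball] at hxy
      rw [Metric.mem_closedBall]
      linarith
    exact hne (hdisj z hz z' hz' x (h1 z hz hx) (h1 z' hz' hx'))
  · intro z hz x hx
    have hrz := hr z ((hmemZ z).1 hz)
    rw [Metric.mem_ball, dist_eq_norm] at hx
    rw [hk1 z hz x (by rw [Metric.mem_closedBall, dist_eq_norm]; linarith), cut_one, one_smul,
      add_sub_cancel]
    rw [div_le_one hrz]
    linarith
  · intro x hx
    by_cases hxZ : ∃ z ∈ Z, x ∈ Metric.closedBall z (r z)
    · obtain ⟨z, hz, hxz⟩ := hxZ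
      refine ⟨z, hz, ?_⟩
      rw [hk1 z hz x hxz, coe_eq_coe] at hx
      have hz0 := (hmemZ z).1 hz
      have h1 := hrA z hz0 x hxz
      have h2 := hcA z hz0 (x - z)
      have h3 := hc z hz0
      set a := A z (x - z) with ha
      set b := g x - v with hb
      set τ := cut (2 * ‖x - z‖ / r z) with hτ
      have hτ0 : 0 ≤ τ := cut_nonneg _
      have hτ1 : τ ≤ 1 := cut_le_one _
      have h4 : a = - ((1 - τ) • (b - a)) := by
        have key : ∀ (a b : E) (τ : ℝ), b + τ • (a - b) = a + (1 - τ) • (b - a) := by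
          intro a b τ; module
        rw [key] at hx
        exact eq_neg_of_add_eq_zero_left hx
      have h5 : ‖a‖ ≤ ‖b - a‖ := by
        calc ‖a‖ = ‖(1 - τ) • (b - a)‖ := by
              conv_lhs => rw [h4]
              rw [norm_neg]
          _ ≤ 1 * ‖b - a‖ := by
              rw [norm_smul, Real.norm_eq_abs, abs_of_nonneg (by linarith)]
              exact mul_le_mul_of_nonneg_right (by linarith) (norm_nonneg _)
          _ = _ := one_mul _
      have h6 : ‖x - z‖ = 0 := by
        have := norm_nonneg (x - z)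
        nlinarith
      rw [Metric.mem_ball, dist_eq_norm, h6]
      exact half_pos (hr z hz0)
    · push Not at hxZ
      rw [hk2 x hxZ] at hx
      exact absurd (Metric.mem_closedBall_self (hr x hx).le) (hxZ x ((hmemZ x).2 hx))

end Vale.Agent.P251.G.Gen
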