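import Vale.Agent.P251.G.GrOpen
import Vale.Agent.P251.G.ThMap

/-!
# P251, part G: homotopies around the open cell bundle of a Grassmannian

`J = I ⊕ Unit`, `d Q = ⟨Q e, e⟩`.

* `Gr.collapse : Gr n J ⟶ Th n I` (collapse of the complement of the open subset `Th n I`);
* `Gr.zeroHom_homotopic`: the zero section `Gr n J ⟶ Th n J` is homotopic to
  `Gr n J ⟶ Th n I ⟶ Th n J`;
* `Th.delta_addZeroHom_homotopic`: `(P, v) ↦ (graph (P, v), (P, v))` is homotopic to
  `(P, v) ↦ (P ⊕ 0, (P, v))`;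
* `Gr.diag_collapse`: the projection formula on the level of spaces.
-/

open CategoryTheory MonoidalCategory Filter Topology OnePoint Matrix

noncomputable section

namespace Vale.Agent.P251.G

open LC

set_option linter.unusedSectionVars false

variable {I J : Type} [Fintype I] [Fintype J] {n : ℕ}

section homOpen

variable {K : LC} [CompactSpace K] (c : K → ℝ) (hc : Continuous c)

include hc in
theorem isOpen_ne_zero : IsOpen {k : K | c k ≠ 0} := isOpen_ne_fun hc continuous_const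

/-- the locally compact space `{c ≠ 0}` -/
abbrev openLC : LC :=
  haveI : LocallyCompactSpace {k : K // c k ≠ 0} := (isOpen_ne_zero c hc).locallyCompactSpace
  LC.of {k : K // c k ≠ 0}

theorem tendsto_openLC {g : openLC c hc → ℝ}
    (hg : ∀ r : ℝ, ∃ ε > 0, ∀ u : openLC c hc, |c u.1| < ε → r ≤ g u) :
    Tendsto g (cocompact (openLC c hc)) atTop := by
  rw [tendsto_atTop]
  intro r
  obtain ⟨ε, hε, h⟩ := hg r
  have hC : IsCompact {k : K | ε ≤ |c k|} :=
    (isClosed_le continuous_const (continuous_abs.comp hc)).isCompact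
  have hemb : IsOpenEmbedding (Subtype.val : {k : K // c k ≠ 0} → K) :=
    (isOpen_ne_zero c hc).isOpenEmbedding_subtypeVal
  have hsub : {k : K | ε ≤ |c k|} ⊆ Set.range (Subtype.val : {k : K // c k ≠ 0} → K) := by
    intro k hk
    refine ⟨⟨k, ?_⟩, rfl⟩
    rintro h0
    rw [Set.mem_ofPred_eq, h0, abs_zero] at hk
    linarith
  have hK := (hemb.isInducing.isCompact_preimage_iff hsub).mpr hC
  refine mem_of_superset hK.compl_mem_cocompact ?_
  intro u hu
  simp only [Set.mem_compl_iff, Set.mem_preimage, Set.mem_ofPred_eq, not_le] at hu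
  exact h u hu

/-- A morphism from a compact space to `Th n J` which is defined on the open set `{c ≠ 0}` and
tends to infinity at the zeros of `c`. -/
def Th.homOpen (P : openLC c hc → Matrix J J ℂ) (w : openLC c hc → J → ℂ) (hP : Continuous P)
    (hw : Continuous w) (h : ∀ u, IsProj n (P u)) (hPw : ∀ u, P u *ᵥ w u = w u)
    (hg : ∀ r : ℝ, ∃ ε > 0, ∀ u : openLC c hc, |c u.1| < ε → r ≤ nsq (w u)) :
    K ⟶ LC.of (Th n J) :=
  LC.ofOpen (Y := openLC c hc) Subtype.val (isOpen_ne_zero c hc).isOpenEmbedding_subtypeVal ≫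
    Th.hom P w hP hw h hPw (tendsto_openLC c hc hg)

theorem Th.app_homOpen_coe (P : openLC c hc → Matrix J J ℂ) (w : openLC c hc → J → ℂ)
    (hP : Continuous P) (hw : Continuous w) (h : ∀ u, IsProj n (P u))
    (hPw : ∀ u, P u *ᵥ w u = w u)
    (hg : ∀ r : ℝ, ∃ ε > 0, ∀ u : openLC c hc, |c u.1| < ε → r ≤ nsq (w u)) (u : openLC c hc) :
    app (Th.homOpen c hc P w hP hw h hPw hg) ((u.1 : K) : OnePoint K) =
      (Th.mk (P u) (w u) (h u) (hPw u) : OnePoint (Th n J)) := by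
  unfold Th.homOpen
  rw [app_comp, app_ofOpen_coe (Y := openLC c hc), Th.app_hom_coe]

theorem Th.app_homOpen_zero (P : openLC c hc → Matrix J J ℂ) (w : openLC c hc → J → ℂ)
    (hP : Continuous P) (hw : Continuous w) (h : ∀ u, IsProj n (P u))
    (hPw : ∀ u, P u *ᵥ w u = w u)
    (hg : ∀ r : ℝ, ∃ ε > 0, ∀ u : openLC c hc, |c u.1| < ε → r ≤ nsq (w u)) {k : K}
    (hk : c k = 0) :
    app (Th.homOpen c hc P w hP hw h hPw hg) (k : OnePoint K) = ∞ := by
  unfold Th.homOpen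
  rw [app_comp, app_ofOpen_of_notMem (Y := openLC c hc), app_infty]
  rintro ⟨u, rfl⟩
  exact u.2 hk

end homOpen

/-! ### The maps -/

/-- the collapse onto the open cell bundle -/
def Gr.collapse : LC.of (Gr n (I ⊕ Unit)) ⟶ LC.of (Th n I) :=
  LC.ofOpen (X := LC.of (Gr n (I ⊕ Unit))) (Y := LC.of (Th n I)) Th.graph
    Th.isOpenEmbedding_graph

/-- the zero section as a morphism -/
def Gr.zeroHom : LC.of (Gr n J) ⟶ LC.of (Th n J) :=
  LC.ofCompact (X := LC.of (Gr n J)) (Y := LC.of (Th n J)) Gr.zero Gr.continuous_zero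

/-- the inclusion `P ↦ P ⊕ 0` of Grassmannians -/
def Gr.addZero (x : Gr n I) : Gr n (I ⊕ Unit) :=
  ⟨fromBlocks x.P 0 0 (0 : Matrix Unit Unit ℂ), by
    have h : IsProj 0 (0 : Matrix Unit Unit ℂ) := IsProj.zero
    exact x.isProj.fromBlocks h⟩

theorem Gr.continuous_addZero : Continuous (Gr.addZero : Gr n I → Gr n (I ⊕ Unit)) :=
  (Continuous.matrix_fromBlocks Gr.continuous_P continuous_const continuous_const
    continuous_const).subtype_mk _

theorem graphMat_zero (P : Matrix I I ℂ) : graphMat P 0 = fromBlocks P 0 0 0 := by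
  have h : colm (0 : I → ℂ) = 0 := rfl
  unfold graphMat
  rw [h, nsq_zero]
  simp

section zero

/-- the vector `Q e` -/
def lastCol (Q : Matrix (I ⊕ Unit) (I ⊕ Unit) ℂ) : I ⊕ Unit → ℂ := fun i => Q i (Sum.inr ())

omit [Fintype I] in
@[fun_prop] theorem continuous_lastCol :
    Continuous (lastCol : Matrix (I ⊕ Unit) (I ⊕ Unit) ℂ → I ⊕ Unit → ℂ) := by
  unfold lastCol
  fun_prop

theorem mulVec_lastCol {Q : Matrix (I ⊕ Unit) (I ⊕ Unit) ℂ} (h : IsProj n Q) :
    Q *ᵥ lastCol Q = lastCol Q := by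
  funext i
  have h1 := congrFun (congrFun h.idem i) (Sum.inr ())
  rw [Matrix.mul_apply] at h1
  exact h1

theorem lastCol_eq {Q : Matrix (I ⊕ Unit) (I ⊕ Unit) ℂ} (h : IsProj n Q) :
    lastCol Q = Sum.elim (bb Q) (fun _ => (dd Q : ℂ)) := by
  funext i
  rcases i with i | i
  · rfl
  · exact dd_eq h

theorem nsq_const (c : ℂ) : nsq (fun _ : Unit => c) = Complex.normSq c := by
  simp [nsq]

theorem nsq_lastCol {Q : Matrix (I ⊕ Unit) (I ⊕ Unit) ℂ} (h : IsProj n Q) :
    nsq (lastCol Q) = dd Q := by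
  obtain ⟨e1, e2, e3, e4⟩ := block_eqs h
  rw [lastCol_eq h, nsq_elim, e4, nsq_const, Complex.normSq_ofReal]
  ring

end zero


/-! ### The zero section and the section `Q ↦ Q e / (1 - d)` -/

section sections

theorem isProj_pushed {Q : Matrix (I ⊕ Unit) (I ⊕ Unit) ℂ} (h : IsProj n Q) {s : ℝ}
    (hs : 1 - dd Q + s ^ 2 * dd Q ≠ 0) :
    IsProj n (bmat Q ((1 - s ^ 2) / (1 - dd Q + s ^ 2 * dd Q)) (s / (1 - dd Q + s ^ 2 * dd Q))
      (s ^ 2 * dd Q / (1 - dd Q + s ^ 2 * dd Q))) := by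
  apply isProj_bmat h
  · field_simp
    ring
  · field_simp
    ring
  · field_simp

theorem isProj_pulled {Q : Matrix (I ⊕ Unit) (I ⊕ Unit) ℂ} (h : IsProj n Q) {s : ℝ}
    (hs : s ^ 2 * (1 - dd Q) + dd Q ≠ 0) :
    IsProj n (bmat Q (-(1 - s ^ 2) / (s ^ 2 * (1 - dd Q) + dd Q))
      (s / (s ^ 2 * (1 - dd Q) + dd Q)) (dd Q / (s ^ 2 * (1 - dd Q) + dd Q))) := by
  apply isProj_bmat h
  · field_simp
    ring
  · field_simp
    ring
  · field_simp

theorem colm_mulVec_const (v : I → ℂ) (c : ℂ) : colm v *ᵥ (fun _ => c) = c • v := by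
  funext i
  simp [mulVec, dotProduct, mul_comm]

theorem colm_conjTranspose_mulVec (v : I → ℂ) :
    (colm v)ᴴ *ᵥ v = fun _ => ((nsq v : ℝ) : ℂ) := by
  funext u
  rw [nsq_eq_dotProduct]
  simp [mulVec, dotProduct]

theorem bmat_mulVec {Q : Matrix (I ⊕ Unit) (I ⊕ Unit) ℂ} (h : IsProj n Q) (x y z r : ℝ) :
    bmat Q x y z *ᵥ Sum.elim (bb Q) (fun _ => (r : ℂ)) =
      Sum.elim (((1 - dd Q + x * (dd Q * (1 - dd Q)) + y * r : ℝ) : ℂ) • bb Q)
        (fun _ => ((y * (dd Q * (1 - dd Q)) + z * r : ℝ) : ℂ)) := by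
  obtain ⟨e1, e2, e3, e4⟩ := block_eqs h
  have e2' : Q.toBlocks₁₁ *ᵥ bb Q = ((1 - dd Q : ℝ) : ℂ) • bb Q := by
    apply colm_injective
    rw [← mul_colm, e2, colm_smul]
  unfold bmat
  rw [fromBlocks_mulVec]
  simp only [Sum.elim_comp_inl, Sum.elim_comp_inr]
  congr 1
  · rw [add_mulVec, e2', smul_mulVec, ← mulVec_mulVec, colm_conjTranspose_mulVec, e4,
      colm_mulVec_const, smul_mulVec, colm_mulVec_const, smul_smul, smul_smul, ← add_smul,
      ← add_smul]
    congr 1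
    push_cast
    ring
  · rw [smul_mulVec, colm_conjTranspose_mulVec, e4, smul_mulVec, one_mulVec]
    funext u
    simp

/-- the vector `(b, s d) / (1 - d)` -/
def secVec (Q : Matrix (I ⊕ Unit) (I ⊕ Unit) ℂ) (s : ℝ) : I ⊕ Unit → ℂ :=
  (((1 - dd Q)⁻¹ : ℝ) : ℂ) • Sum.elim (bb Q) (fun _ => ((s * dd Q : ℝ) : ℂ))

theorem pushed_mulVec_secVec {Q : Matrix (I ⊕ Unit) (I ⊕ Unit) ℂ} (h : IsProj n Q) {s : ℝ}
    (hs : 1 - dd Q + s ^ 2 * dd Q ≠ 0) :
    bmat Q ((1 - s ^ 2) / (1 - dd Q + s ^ 2 * dd Q)) (s / (1 - dd Q + s ^ 2 * dd Q))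
      (s ^ 2 * dd Q / (1 - dd Q + s ^ 2 * dd Q)) *ᵥ secVec Q s = secVec Q s := by
  unfold secVec
  rw [mulVec_smul, bmat_mulVec h]
  congr 2
  · have : 1 - dd Q + (1 - s ^ 2) / (1 - dd Q + s ^ 2 * dd Q) * (dd Q * (1 - dd Q)) +
        s / (1 - dd Q + s ^ 2 * dd Q) * (s * dd Q) = 1 := by
      have h2 : (1 - s ^ 2) / (1 - dd Q + s ^ 2 * dd Q) * (dd Q * (1 - dd Q)) +
          s / (1 - dd Q + s ^ 2 * dd Q) * (s * dd Q) =
          dd Q * ((1 - dd Q + s ^ 2 * dd Q) / (1 - dd Q + s ^ 2 * dd Q)) := by ring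
      rw [add_assoc, h2, div_self hs]
      ring
    rw [this, Complex.ofReal_one, one_smul]
  · funext u
    congr 1
    field_simp

theorem nsq_secVec {Q : Matrix (I ⊕ Unit) (I ⊕ Unit) ℂ} (h : IsProj n Q) (s : ℝ) :
    nsq (secVec Q s) = ((1 - dd Q)⁻¹) ^ 2 * (dd Q * (1 - dd Q) + (s * dd Q) ^ 2) := by
  obtain ⟨e1, e2, e3, e4⟩ := block_eqs h
  unfold secVec
  rw [nsq_real_smul', nsq_elim, e4, nsq_const, Complex.normSq_ofReal, sq (s * dd Q)]

theorem secVec_one {Q : Matrix (I ⊕ Unit) (I ⊕ Unit) ℂ} (h : IsProj n Q) :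
    secVec Q 1 = (((1 - dd Q)⁻¹ : ℝ) : ℂ) • lastCol Q := by
  unfold secVec
  rw [lastCol_eq h, one_mul]

theorem secVec_zero (Q : Matrix (I ⊕ Unit) (I ⊕ Unit) ℂ) :
    secVec Q 0 = Sum.elim (unv Q) 0 := by
  funext i
  rcases i with i | i
  · rfl
  · simp [secVec]

theorem pushed_one (Q : Matrix (I ⊕ Unit) (I ⊕ Unit) ℂ) (h : IsProj n Q) :
    bmat Q ((1 - (1 : ℝ) ^ 2) / (1 - dd Q + (1 : ℝ) ^ 2 * dd Q)) (1 / (1 - dd Q + (1 : ℝ) ^ 2 * dd Q))
      ((1 : ℝ) ^ 2 * dd Q / (1 - dd Q + (1 : ℝ) ^ 2 * dd Q)) = Q := by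
  conv_rhs => rw [eq_fromBlocks h]
  unfold bmat
  simp

theorem pushed_zero (Q : Matrix (I ⊕ Unit) (I ⊕ Unit) ℂ) :
    bmat Q ((1 - (0 : ℝ) ^ 2) / (1 - dd Q + (0 : ℝ) ^ 2 * dd Q)) (0 / (1 - dd Q + (0 : ℝ) ^ 2 * dd Q))
      ((0 : ℝ) ^ 2 * dd Q / (1 - dd Q + (0 : ℝ) ^ 2 * dd Q)) = fromBlocks (unP Q) 0 0 0 := by
  unfold bmat unP
  simp

/-! #### First homotopy -/

theorem dd_nonneg' (Q : Gr n (I ⊕ Unit)) : 0 ≤ dd Q.P := dd_nonneg Q.isProj

theorem dd_le_one' (Q : Gr n (I ⊕ Unit)) : dd Q.P ≤ 1 := dd_le_one Q.isProj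

/-- the base of the homotopies -/
abbrev GrI (n : ℕ) (I : Type) [Fintype I] : LC := LC.of (Gr n (I ⊕ Unit) × unitInterval)

/-- the defining function of the first homotopy -/
def c1 (p : GrI n I) : ℝ := 1 - (p.2 : ℝ) * dd p.1.P

theorem continuous_c1 : Continuous (c1 : GrI n I → ℝ) := by
  unfold c1
  have h1 : Continuous fun p : GrI n I => dd p.1.P :=
    continuous_dd.comp (Gr.continuous_P.comp continuous_fst)
  have h2 : Continuous fun p : GrI n I => (p.2 : ℝ) := continuous_subtype_val.comp continuous_snd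
  exact continuous_const.sub (h2.mul h1)

theorem growth_aux {r : ℝ} {c : ℝ} (hc0 : 0 < c) (hc : |c| < 1 / (2 * (1 + |r|))) :
    r ≤ (1 - c) / c ∧ r ≤ (1 - c) ^ 2 / c ^ 2 := by
  rw [abs_of_pos hc0] at hc
  have hr : 0 ≤ |r| := abs_nonneg r
  have h1 : c * (2 * (1 + |r|)) < 1 := by
    rw [lt_div_iff₀ (by positivity)] at hc
    exact hc
  have h3 : r ≤ |r| := le_abs_self r
  have hq : 1 + |r| ≤ (1 - c) / c := by
    rw [le_div_iff₀ hc0]
    nlinarith
  constructor
  · linarith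
  · rw [← div_pow]
    nlinarith

/-- the first homotopy: from the zero section to `Q ↦ Q e / (1 - d)` -/
def htpy1 : GrI n I ⟶ LC.of (Th n (I ⊕ Unit)) :=
  Th.homOpen c1 continuous_c1 (fun p => p.1.1.P)
    (fun p => ((((p.1.2 : ℝ) / c1 p.1 : ℝ)) : ℂ) • lastCol p.1.1.P)
    (by
      have h1 : Continuous fun p : GrI n I => p.1.P := Gr.continuous_P.comp continuous_fst
      exact h1.comp continuous_subtype_val)
    (by
      have h1 : Continuous fun p : GrI n I => lastCol p.1.P :=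
        continuous_lastCol.comp (Gr.continuous_P.comp continuous_fst)
      have h2 : Continuous fun p : GrI n I => (p.2 : ℝ) :=
        continuous_subtype_val.comp continuous_snd
      have h3 : Continuous fun p : openLC (c1 : GrI n I → ℝ) continuous_c1 => c1 p.1 :=
        continuous_c1.comp continuous_subtype_val
      refine Continuous.smul (Complex.continuous_ofReal.comp ?_) (h1.comp continuous_subtype_val)
      exact (h2.comp continuous_subtype_val).div h3 fun p => p.2)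
    (fun p => p.1.1.isProj)
    (fun p => by rw [mulVec_smul, mulVec_lastCol p.1.1.isProj])
    (by
      intro r
      refine ⟨1 / (2 * (1 + |r|)), by positivity, ?_⟩
      rintro ⟨⟨Q, t⟩, hp⟩ hc
      have hd0 := dd_nonneg' Q
      have hd1 := dd_le_one' Q
      have ht0 : 0 ≤ (t : ℝ) := t.2.1
      have ht1 : (t : ℝ) ≤ 1 := t.2.2
      have hcd : c1 ((Q, t) : GrI n I) = 1 - (t : ℝ) * dd Q.P := rfl
      have hpos : 0 < c1 ((Q, t) : GrI n I) := by
        refine lt_of_le_of_ne ?_ (Ne.symm hp)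
        rw [hcd]
        nlinarith
      have h1 := (growth_aux hpos hc).2
      refine h1.trans ?_
      change _ ≤ nsq ((((t : ℝ) / c1 ((Q, t) : GrI n I) : ℝ) : ℂ) • lastCol Q.P)
      rw [nsq_real_smul', nsq_lastCol Q.isProj, div_pow, div_mul_eq_mul_div]
      apply div_le_div_of_nonneg_right _ (sq_nonneg _)
      rw [hcd]
      have h2 : 0 ≤ (t : ℝ) ^ 2 * dd Q.P * (1 - dd Q.P) :=
        mul_nonneg (mul_nonneg (sq_nonneg _) hd0) (by linarith)
      nlinarith)

/-! #### Second homotopy -/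

/-- the defining function of the second homotopy -/
def c2 (p : GrI n I) : ℝ := 1 - dd p.1.P

theorem continuous_c2 : Continuous (c2 : GrI n I → ℝ) := by
  unfold c2
  have h1 : Continuous fun p : GrI n I => dd p.1.P :=
    continuous_dd.comp (Gr.continuous_P.comp continuous_fst)
  exact continuous_const.sub h1

omit [Fintype I] in
theorem continuous_bmat {X : Type*} [TopologicalSpace X]
    {Q : X → Matrix (I ⊕ Unit) (I ⊕ Unit) ℂ} {x y z : X → ℝ} (hQ : Continuous Q)
    (hx : Continuous x) (hy : Continuous y) (hz : Continuous z) :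
    Continuous fun a => bmat (Q a) (x a) (y a) (z a) := by
  unfold bmat
  have hx' := Complex.continuous_ofReal.comp hx
  have hy' := Complex.continuous_ofReal.comp hy
  have hz' := Complex.continuous_ofReal.comp hz
  have hb : Continuous fun a => colm (bb (Q a)) := continuous_colm.comp (continuous_bb.comp hQ)
  refine Continuous.matrix_fromBlocks ?_ ?_ ?_ ?_
  · exact (continuous_toBlocks₁₁'.comp hQ).add (hx'.smul (hb.matrix_mul hb.matrix_conjTranspose))
  · exact hy'.smul hb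
  · exact hy'.smul hb.matrix_conjTranspose
  · exact hz'.smul continuous_const

theorem pushed_ne {Q : Gr n (I ⊕ Unit)} (h : 1 - dd Q.P ≠ 0) (s : ℝ) :
    1 - dd Q.P + s ^ 2 * dd Q.P ≠ 0 := by
  have hd0 := dd_nonneg' Q
  have hd1 := dd_le_one' Q
  have h1 : 0 < 1 - dd Q.P := lt_of_le_of_ne (by linarith) (Ne.symm h)
  have h2 : 0 ≤ s ^ 2 * dd Q.P := mul_nonneg (sq_nonneg _) hd0
  linarith

/-- the second homotopy: from the collapse to `Q ↦ Q e / (1 - d)` -/
def htpy2 : GrI n I ⟶ LC.of (Th n (I ⊕ Unit)) :=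
  Th.homOpen c2 continuous_c2
    (fun p => bmat p.1.1.P
      ((1 - (p.1.2 : ℝ) ^ 2) / (1 - dd p.1.1.P + (p.1.2 : ℝ) ^ 2 * dd p.1.1.P))
      ((p.1.2 : ℝ) / (1 - dd p.1.1.P + (p.1.2 : ℝ) ^ 2 * dd p.1.1.P))
      ((p.1.2 : ℝ) ^ 2 * dd p.1.1.P / (1 - dd p.1.1.P + (p.1.2 : ℝ) ^ 2 * dd p.1.1.P)))
    (fun p => secVec p.1.1.P (p.1.2 : ℝ))
    (by
      have hP : Continuous fun p : openLC (c2 : GrI n I → ℝ) continuous_c2 => p.1.1.P :=
        (Gr.continuous_P.comp continuous_fst).comp continuous_subtype_val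
      have ht : Continuous fun p : openLC (c2 : GrI n I → ℝ) continuous_c2 => (p.1.2 : ℝ) :=
        (continuous_subtype_val.comp continuous_snd).comp continuous_subtype_val
      have hd : Continuous fun p : openLC (c2 : GrI n I → ℝ) continuous_c2 => dd p.1.1.P :=
        continuous_dd.comp hP
      have hD : Continuous fun p : openLC (c2 : GrI n I → ℝ) continuous_c2 =>
          1 - dd p.1.1.P + (p.1.2 : ℝ) ^ 2 * dd p.1.1.P :=
        (continuous_const.sub hd).add ((ht.pow 2).mul hd)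
      refine continuous_bmat hP ?_ ?_ ?_
      · exact (continuous_const.sub (ht.pow 2)).div hD fun p => pushed_ne p.2 _
      · exact ht.div hD fun p => pushed_ne p.2 _
      · exact ((ht.pow 2).mul hd).div hD fun p => pushed_ne p.2 _)
    (by
      have hP : Continuous fun p : openLC (c2 : GrI n I → ℝ) continuous_c2 => p.1.1.P :=
        (Gr.continuous_P.comp continuous_fst).comp continuous_subtype_val
      have ht : Continuous fun p : openLC (c2 : GrI n I → ℝ) continuous_c2 => (p.1.2 : ℝ) :=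
        (continuous_subtype_val.comp continuous_snd).comp continuous_subtype_val
      have hd : Continuous fun p : openLC (c2 : GrI n I → ℝ) continuous_c2 => dd p.1.1.P :=
        continuous_dd.comp hP
      unfold secVec
      refine Continuous.smul (Complex.continuous_ofReal.comp
        ((continuous_const.sub hd).inv₀ fun p => p.2)) ?_
      refine continuous_pi fun i => ?_
      rcases i with i | i
      · exact (continuous_apply i).comp (continuous_bb.comp hP)
      · exact Complex.continuous_ofReal.comp (ht.mul hd))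
    (fun p => isProj_pushed p.1.1.isProj (pushed_ne p.2 _))
    (fun p => pushed_mulVec_secVec p.1.1.isProj (pushed_ne p.2 _))
    (by
      intro r
      refine ⟨1 / (2 * (1 + |r|)), by positivity, ?_⟩
      rintro ⟨⟨Q, t⟩, hp⟩ hc
      have hd0 := dd_nonneg' Q
      have hd1 := dd_le_one' Q
      have hcd : c2 ((Q, t) : GrI n I) = 1 - dd Q.P := rfl
      have hpos : 0 < c2 ((Q, t) : GrI n I) := by
        refine lt_of_le_of_ne ?_ (Ne.symm hp)
        rw [hcd]
        linarith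
      have h1 := (growth_aux hpos hc).1
      refine h1.trans ?_
      change _ ≤ nsq (secVec Q.P t)
      rw [nsq_secVec Q.isProj, hcd]
      rw [hcd] at hpos
      have h2 : (1 - (1 - dd Q.P)) / (1 - dd Q.P) =
          ((1 - dd Q.P)⁻¹) ^ 2 * (dd Q.P * (1 - dd Q.P)) := by
        have := hpos.ne'
        field_simp
        ring
      rw [h2, mul_add]
      have h3 : 0 ≤ ((1 - dd Q.P)⁻¹) ^ 2 * ((t : ℝ) * dd Q.P) ^ 2 := by positivity
      linarith)

/-! #### The comparison -/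

theorem app_htpy1 {Q : Gr n (I ⊕ Unit)} {t : unitInterval} (h : c1 ((Q, t) : GrI n I) ≠ 0)
    {x : Th n (I ⊕ Unit)} (hP : x.P = Q.P)
    (hv : x.v = ((((t : ℝ) / c1 ((Q, t) : GrI n I) : ℝ)) : ℂ) • lastCol Q.P) :
    app htpy1 (((Q, t) : Gr n (I ⊕ Unit) × unitInterval) : OnePoint _) =
      (x : OnePoint (Th n (I ⊕ Unit))) := by
  refine (Th.app_homOpen_coe c1 continuous_c1 _ _ _ _ _ _ _ ⟨(Q, t), h⟩).trans ?_
  congr 1
  exact Th.ext hP.symm hv.symm

theorem app_htpy1_zero {Q : Gr n (I ⊕ Unit)} {t : unitInterval} (h : c1 ((Q, t) : GrI n I) = 0) :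
    app htpy1 (((Q, t) : Gr n (I ⊕ Unit) × unitInterval) : OnePoint _) =
      (∞ : OnePoint (Th n (I ⊕ Unit))) :=
  Th.app_homOpen_zero c1 continuous_c1 _ _ _ _ _ _ _ h

theorem app_htpy2 {Q : Gr n (I ⊕ Unit)} {t : unitInterval} (h : dd Q.P ≠ 1)
    {x : Th n (I ⊕ Unit)}
    (hP : x.P = bmat Q.P
      ((1 - (t : ℝ) ^ 2) / (1 - dd Q.P + (t : ℝ) ^ 2 * dd Q.P))
      ((t : ℝ) / (1 - dd Q.P + (t : ℝ) ^ 2 * dd Q.P))
      ((t : ℝ) ^ 2 * dd Q.P / (1 - dd Q.P + (t : ℝ) ^ 2 * dd Q.P)))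
    (hv : x.v = secVec Q.P (t : ℝ)) :
    app htpy2 (((Q, t) : Gr n (I ⊕ Unit) × unitInterval) : OnePoint _) =
      (x : OnePoint (Th n (I ⊕ Unit))) := by
  refine (Th.app_homOpen_coe c2 continuous_c2 _ _ _ _ _ _ _
    ⟨(Q, t), sub_ne_zero.mpr h.symm⟩).trans ?_
  congr 1
  exact Th.ext hP.symm hv.symm

theorem app_htpy2_zero {Q : Gr n (I ⊕ Unit)} {t : unitInterval} (h : dd Q.P = 1) :
    app htpy2 (((Q, t) : Gr n (I ⊕ Unit) × unitInterval) : OnePoint _) =
      (∞ : OnePoint (Th n (I ⊕ Unit))) :=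
  Th.app_homOpen_zero c2 continuous_c2 _ _ _ _ _ _ _ (sub_eq_zero.mpr h.symm)

theorem incl_zero_htpy1 :
    incl 0 (LC.of (Gr n (I ⊕ Unit))) ≫ htpy1 = Gr.zeroHom := by
  apply LC.hom_ext
  intro Q
  rw [app_comp, app_incl]
  refine (app_htpy1 (Q := Q) (t := 0) (x := Gr.zero Q) ?_ rfl ?_).trans ?_
  · simp [c1]
  · change (0 : I ⊕ Unit → ℂ) = _
    simp
  · rfl

theorem incl_one_htpy :
    incl 1 (LC.of (Gr n (I ⊕ Unit))) ≫ htpy1 = incl 1 (LC.of (Gr n (I ⊕ Unit))) ≫ htpy2 := by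
  apply LC.hom_ext
  intro Q
  rw [app_comp, app_comp, app_incl]
  have hc : c1 ((Q, 1) : GrI n I) = 1 - dd (Gr.P Q) := by simp [c1]
  by_cases h : dd (Gr.P Q) = 1
  · refine (app_htpy1_zero (Q := Q) (t := 1) (by rw [hc, h, sub_self])).trans
      (app_htpy2_zero (Q := Q) (t := 1) h).symm
  · have hv : Gr.P Q *ᵥ secVec (Gr.P Q) 1 = secVec (Gr.P Q) 1 := by
      rw [secVec_one (Gr.isProj Q), mulVec_smul, mulVec_lastCol (Gr.isProj Q)]
    refine (app_htpy1 (Q := Q) (t := 1) (x := Th.mk (Gr.P Q) (secVec (Gr.P Q) 1) (Gr.isProj Q) hv)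
      ?_ rfl ?_).trans (app_htpy2 (Q := Q) (t := 1) h ?_ rfl).symm
    · rw [hc]
      exact sub_ne_zero.mpr (Ne.symm h)
    · rw [Th.mk_v, secVec_one (Gr.isProj Q), hc]
      congr 2
      simp
    · exact (pushed_one (Gr.P Q) (Gr.isProj Q)).symm

theorem app_collapse_graph (x : Th n I) :
    app Gr.collapse (x.graph : OnePoint (Gr n (I ⊕ Unit))) = (x : OnePoint (Th n I)) :=
  app_ofOpen_coe (X := LC.of (Gr n (I ⊕ Unit))) (Y := LC.of (Th n I)) Th.graph
    Th.isOpenEmbedding_graph x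

theorem app_collapse_of_eq {Q : Gr n (I ⊕ Unit)} (h : dd Q.P = 1) :
    app Gr.collapse (Q : OnePoint (Gr n (I ⊕ Unit))) = (∞ : OnePoint (Th n I)) := by
  apply app_ofOpen_of_notMem (X := LC.of (Gr n (I ⊕ Unit))) (Y := LC.of (Th n I)) Th.graph
    Th.isOpenEmbedding_graph
  intro hQ
  change Q ∈ Set.range (Th.graph : Th n I → Gr n (I ⊕ Unit)) at hQ
  rw [Th.range_graph] at hQ
  exact hQ h

theorem exists_graph {Q : Gr n (I ⊕ Unit)} (h : dd Q.P ≠ 1) : ∃ x : Th n I, x.graph = Q := by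
  have hQ : Q ∈ Set.range (Th.graph : Th n I → Gr n (I ⊕ Unit)) := by
    rw [Th.range_graph]
    exact h
  exact hQ

section

variable [DecidableEq I]

theorem incl_zero_htpy2 :
    incl 0 (LC.of (Gr n (I ⊕ Unit))) ≫ htpy2 =
      Gr.collapse ≫ Th.inj (Sum.inl : I → I ⊕ Unit) Sum.inl_injective := by
  apply LC.hom_ext
  intro Q
  rw [app_comp, app_comp, app_incl]
  by_cases h : dd (Gr.P Q) = 1
  · rw [app_collapse_of_eq h, app_infty]
    exact app_htpy2_zero (Q := Q) (t := 0) h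
  · obtain ⟨x, rfl⟩ := exists_graph h
    rw [app_collapse_graph, Th.app_map_coe]
    refine app_htpy2 (Q := x.graph) (t := 0) h ?_ ?_
    · refine Eq.trans ?_ (pushed_zero (Gr.P x.graph)).symm
      rw [Th.mapFun_P, injMat_inl_conj, Th.graph_P, unP_graphMat]
    · rw [Th.mapFun_v, injMat_inl_mulVec]
      refine Eq.trans ?_ (secVec_zero (Gr.P x.graph)).symm
      rw [Th.graph_P, unv_graphMat]

/-- The zero section is homotopic to the collapse onto the open cell bundle. -/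
theorem Gr.zeroHom_homotopic :
    Homotopic (Gr.zeroHom : LC.of (Gr n (I ⊕ Unit)) ⟶ _)
      (Gr.collapse ≫ Th.inj (Sum.inl : I → I ⊕ Unit) Sum.inl_injective) :=
  Homotopic.trans ⟨htpy1, incl_zero_htpy1, rfl⟩
    (Homotopic.symm ⟨htpy2, incl_zero_htpy2, incl_one_htpy.symm⟩)

end

end sections

/-! ### The projection formula -/

section pairs

/-- the diagonal of a compact space -/
def diag (K : LC) [CompactSpace K] : K ⟶ K ⊗ K :=
  LC.ofCompact (Y := LC.of (K × K)) (fun x => (x, x)) (continuous_id.prodMk continuous_id)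

theorem app_diag_coe (K : LC) [CompactSpace K] (x : K) :
    app (diag K) (x : OnePoint K) = (((x, x) : K × K) : OnePoint (K × K)) := rfl

theorem tendsto_pair {K X Y : Type} [TopologicalSpace K] [TopologicalSpace X] [TopologicalSpace Y]
    [CompactSpace K] {f : X → K} {g : X → Y} (hg : Tendsto g (cocompact X) (cocompact Y)) :
    Tendsto (fun x => (f x, g x)) (cocompact X) (cocompact (K × Y)) := by
  rw [← coprod_cocompact, cocompact_eq_bot (X := K), bot_coprod, tendsto_comap_iff]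
  exact hg

/-- pairs of a continuous map to a compact space and a proper map -/
def pairHom {K X : LC} [CompactSpace K] (f : X → K) (hf : Continuous f) : X ⟶ K ⊗ X :=
  LC.ofProper (Y := LC.of (K × X)) (fun x => (f x, x)) (hf.prodMk continuous_id)
    (tendsto_pair tendsto_id)

@[simp] theorem app_pairHom_coe {K X : LC} [CompactSpace K] (f : X → K) (hf : Continuous f)
    (x : X) : app (pairHom f hf) (x : OnePoint X) = (((f x, x) : K × X) : OnePoint (K × X)) := rfl

theorem pairHom_homotopic {K X : LC} [CompactSpace K] {f g : X → K} (hf : Continuous f)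
    (hg : Continuous g) (H : X × unitInterval → K) (hH : Continuous H)
    (h0 : ∀ x, H (x, 0) = f x) (h1 : ∀ x, H (x, 1) = g x) :
    Homotopic (pairHom f hf) (pairHom g hg) := by
  refine Th.homotopic_of (Y := LC.of (K × X)) (fun p => (H p, p.1))
    (hH.prodMk continuous_fst) (tendsto_pair tendsto_fst_cocompact) ?_ ?_
  · intro x
    rw [app_pairHom_coe]
    change _ = (((H (x, 0), x) : K × X) : OnePoint (K × X))
    rw [h0]
  · intro x
    rw [app_pairHom_coe]
    change _ = (((H (x, 1), x) : K × X) : OnePoint (K × X))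
    rw [h1]

/-- the diagonal of the tautological bundle: `x ↦ (gr x, x)` -/
def Th.delta : LC.of (Th n I) ⟶ LC.of (Gr n I) ⊗ LC.of (Th n I) :=
  pairHom (K := LC.of (Gr n I)) (X := LC.of (Th n I)) Th.gr Th.continuous_gr

/-- `x ↦ (graph x, x)` -/
def Th.graphPair : LC.of (Th n I) ⟶ LC.of (Gr n (I ⊕ Unit)) ⊗ LC.of (Th n I) :=
  pairHom (K := LC.of (Gr n (I ⊕ Unit))) (X := LC.of (Th n I)) Th.graph Th.continuous_graph

/-- `Gr.addZero` as a morphism -/
def Gr.addZeroHom : LC.of (Gr n I) ⟶ LC.of (Gr n (I ⊕ Unit)) :=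
  LC.ofCompact (X := LC.of (Gr n I)) (Y := LC.of (Gr n (I ⊕ Unit))) Gr.addZero
    Gr.continuous_addZero

/-- `Gr.addOne` as a morphism -/
def Gr.addOneHom : LC.of (Gr n I) ⟶ LC.of (Gr (n + 1) (I ⊕ Unit)) :=
  LC.ofClosed (X := LC.of (Gr n I)) (Y := LC.of (Gr (n + 1) (I ⊕ Unit))) Gr.addOne
    Gr.isClosedEmbedding_addOne

theorem Th.delta_addZeroHom_homotopic :
    Homotopic (Th.delta ≫ Gr.addZeroHom ▷ LC.of (Th n I)) Th.graphPair := by
  have h : (Th.delta ≫ Gr.addZeroHom ▷ LC.of (Th n I)) =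
      pairHom (K := LC.of (Gr n (I ⊕ Unit))) (X := LC.of (Th n I))
        (fun x => Gr.addZero (Th.gr x)) (Gr.continuous_addZero.comp Th.continuous_gr) := by
    apply LC.hom_ext
    intro x
    rfl
  rw [h]
  refine pairHom_homotopic (K := LC.of (Gr n (I ⊕ Unit))) (X := LC.of (Th n I)) _ _
    (fun p => Th.graph (Th.mk p.1.P (((p.2 : ℝ) : ℂ) • p.1.v) p.1.isProj
      (by rw [mulVec_smul, p.1.P_mulVec]))) ?_ ?_ ?_
  · refine Th.continuous_graph.comp (Continuous.subtype_mk (Continuous.prodMk ?_ ?_) _)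
    · exact Th.continuous_P.comp continuous_fst
    · exact (Complex.continuous_ofReal.comp (continuous_subtype_val.comp continuous_snd)).smul
        (Th.continuous_v.comp continuous_fst)
  · intro x
    apply Gr.ext
    change graphMat x.P ((((0 : unitInterval) : ℝ) : ℂ) • x.v) = fromBlocks x.P 0 0 0
    rw [← graphMat_zero]
    simp
  · intro x
    apply Gr.ext
    change graphMat x.P ((((1 : unitInterval) : ℝ) : ℂ) • x.v) = graphMat x.P x.v
    simp

/-- the projection formula on the level of spaces -/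
theorem Gr.diag_collapse :
    diag (LC.of (Gr n (I ⊕ Unit))) ≫ LC.of (Gr n (I ⊕ Unit)) ◁ Gr.collapse =
      Gr.collapse ≫ Th.graphPair := by
  apply LC.hom_ext
  intro Q
  rw [app_comp, app_comp, app_diag_coe]
  have h1 : app (LC.of (Gr n (I ⊕ Unit)) ◁ Gr.collapse)
      (((Q, Q) : Gr n (I ⊕ Unit) × Gr n (I ⊕ Unit)) : OnePoint _) =
      smash (Q : OnePoint (Gr n (I ⊕ Unit))) (app (Gr.collapse (n := n) (I := I))
        (Q : OnePoint (Gr n (I ⊕ Unit)))) :=
    app_whiskerLeft_smash _ _ (Q : OnePoint (Gr n (I ⊕ Unit))) (Q : OnePoint (Gr n (I ⊕ Unit)))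
  rw [h1]
  by_cases h : dd (Gr.P Q) = 1
  · rw [app_collapse_of_eq h, smash_infty_right, app_infty]
  · obtain ⟨x, rfl⟩ := exists_graph h
    rw [app_collapse_graph]
    rfl

end pairs

end Vale.Agent.P251.G
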