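import Vale.Agent.P251.G.Gr
import Vale.Agent.P251.G.Homotopy
import Vale.Agent.P251.G.ThMap
import Mathlib.Data.Matrix.Block
import Mathlib.Data.Matrix.ColumnRowPartitioned
import Mathlib.Tactic

/-!
# P251, part G: the open cell bundle of a Grassmannian

For `J = I ⊕ Unit` and `e` the last basis vector:

* `Th.graph : Th n I → Gr n J`, `(P, v) ↦` the graph of `⟨v, ·⟩` over the image of `P`; it is an open
  embedding with image `{Q | Q e e ≠ 1}`;
* `Gr.addOne : Gr n I → Gr (n + 1) J`, `P ↦ P ⊕ 1`, a closed embedding with image `{Q | Q e e = 1}`.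
-/

open CategoryTheory MonoidalCategory Filter Topology OnePoint Matrix

namespace Vale.Agent.P251.G

variable {I : Type} [Fintype I] {n : ℕ}

section algebra

/-- the column of a vector -/
def colm (v : I → ℂ) : Matrix I Unit ℂ := Matrix.of fun i _ => v i

omit [Fintype I] in
@[simp] theorem colm_apply (v : I → ℂ) (i : I) (u : Unit) : colm v i u = v i := rfl

theorem trace_blocks {J : Type} [Fintype J] (A : Matrix I I ℂ) (B : Matrix I J ℂ)
    (C : Matrix J I ℂ) (D : Matrix J J ℂ) :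
    (fromBlocks A B C D).trace = A.trace + D.trace := by
  simp [Matrix.trace]

theorem colm_conjTranspose_mul (v : I → ℂ) :
    (colm v)ᴴ * colm v = ((nsq v : ℝ) : ℂ) • (1 : Matrix Unit Unit ℂ) := by
  ext a b
  rw [nsq_eq_dotProduct]
  simp [Matrix.mul_apply, dotProduct]

theorem mul_colm (P : Matrix I I ℂ) (v : I → ℂ) : P * colm v = colm (P *ᵥ v) := by
  ext a b
  simp [Matrix.mul_apply, mulVec, dotProduct]

/-- the graph of the functional `⟨v, ·⟩` on the image of `P` -/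
noncomputable def graphMat (P : Matrix I I ℂ) (v : I → ℂ) : Matrix (I ⊕ Unit) (I ⊕ Unit) ℂ :=
  fromBlocks (P - (((1 + nsq v)⁻¹ : ℝ) : ℂ) • (colm v * (colm v)ᴴ))
    ((((1 + nsq v)⁻¹ : ℝ) : ℂ) • colm v)
    ((((1 + nsq v)⁻¹ : ℝ) : ℂ) • (colm v)ᴴ)
    ((((1 + nsq v)⁻¹ * nsq v : ℝ) : ℂ) • 1)

theorem one_add_nsq_pos (v : I → ℂ) : 0 < 1 + nsq v := by
  have := nsq_nonneg v
  linarith

theorem isProj_graphMat {P : Matrix I I ℂ} (h : IsProj n P) {v : I → ℂ} (hv : P *ᵥ v = v) :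
    IsProj n (graphMat P v) := by
  have hPV : P * colm v = colm v := by rw [mul_colm, hv]
  have hVP : (colm v)ᴴ * P = (colm v)ᴴ := by
    have := congrArg conjTranspose hPV
    rwa [conjTranspose_mul, h.herm] at this
  have hVV := colm_conjTranspose_mul v
  set V := colm v with hV
  set t : ℝ := nsq v with ht
  have hpos : (0 : ℝ) < 1 + t := one_add_nsq_pos v
  have hs : (((1 + t)⁻¹ : ℝ) : ℂ) * (1 + (t : ℂ)) = 1 := by
    have : ((1 : ℂ) + (t : ℂ)) ≠ 0 := by
      have h2 : ((1 + t : ℝ) : ℂ) ≠ 0 := Complex.ofReal_ne_zero.mpr hpos.ne'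
      push_cast at h2
      exact h2
    push_cast
    exact inv_mul_cancel₀ this
  set s : ℂ := (((1 + t)⁻¹ : ℝ) : ℂ) with hsdef
  have hst : (((1 + t)⁻¹ * t : ℝ) : ℂ) = s * t := by push_cast; rw [hsdef]; push_cast; ring
  have hsstar : star s = s := by rw [hsdef]; exact Complex.conj_ofReal _
  have hVVV : V * Vᴴ * (V * Vᴴ) = (t : ℂ) • (V * Vᴴ) := by
    rw [Matrix.mul_assoc, ← Matrix.mul_assoc Vᴴ, hVV, Matrix.smul_mul, Matrix.one_mul,
      Matrix.mul_smul]
  have hVVV' : V * Vᴴ * V = (t : ℂ) • V := by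
    rw [Matrix.mul_assoc, hVV, Matrix.mul_smul, Matrix.mul_one]
  have hVVV'' : Vᴴ * (V * Vᴴ) = (t : ℂ) • Vᴴ := by
    rw [← Matrix.mul_assoc, hVV, Matrix.smul_mul, Matrix.one_mul]
  have hk : s * s * (t : ℂ) = s - s * s := by linear_combination s * hs
  constructor
  · unfold graphMat
    rw [← ht, ← hV, ← hsdef, hst, fromBlocks_multiply]
    congr 1
    · rw [Matrix.sub_mul, Matrix.mul_sub, Matrix.mul_sub, h.idem, Matrix.smul_mul, Matrix.smul_mul,
        Matrix.smul_mul, Matrix.mul_smul, Matrix.mul_smul, Matrix.mul_smul, hVVV, ← Matrix.mul_assoc P V,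
        hPV, Matrix.mul_assoc V Vᴴ P, hVP, smul_smul, smul_smul, smul_smul, hk, sub_smul]
      abel
    · rw [Matrix.sub_mul, Matrix.mul_smul, hPV, Matrix.smul_mul, Matrix.mul_smul, hVVV',
        Matrix.smul_mul, Matrix.mul_smul, Matrix.mul_one]
      simp only [smul_smul]
      rw [sub_add_eq_add_sub, add_sub_assoc, ← sub_smul]
      have : s * (s * (t : ℂ)) - s * (s * (t : ℂ)) = 0 := sub_self _
      rw [this, zero_smul, add_zero]
    · rw [Matrix.smul_mul, Matrix.mul_sub, hVP, Matrix.mul_smul, hVVV'', Matrix.smul_mul,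
        Matrix.one_mul]
      simp only [smul_smul, smul_sub]
      rw [sub_add_eq_add_sub, add_sub_assoc, ← sub_smul]
      have : s * (t : ℂ) * s - s * (s * (t : ℂ)) = 0 := by ring
      rw [this, zero_smul, add_zero]
    · rw [Matrix.smul_mul, Matrix.mul_smul, hVV, Matrix.smul_mul, Matrix.mul_smul, Matrix.mul_one]
      simp only [smul_smul, ← add_smul]
      congr 1
      linear_combination (s * (t : ℂ)) * hs
  · unfold graphMat
    rw [← ht, ← hV, ← hsdef, hst, fromBlocks_conjTranspose]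
    congr 1
    · rw [conjTranspose_sub, h.herm, conjTranspose_smul, hsstar, conjTranspose_mul,
        conjTranspose_conjTranspose]
    · rw [conjTranspose_smul, hsstar, conjTranspose_conjTranspose]
    · rw [conjTranspose_smul, hsstar]
    · rw [conjTranspose_smul, conjTranspose_one, star_mul', hsstar]
      congr 2
      exact Complex.conj_ofReal _
  · have h1 : (V * Vᴴ).trace = (t : ℂ) := by
      rw [trace_mul_comm, hVV]
      simp
    unfold graphMat
    rw [← ht, ← hV, ← hsdef, hst, trace_blocks, trace_sub, trace_smul, trace_smul, h.trace, h1]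
    simp

/-! ### The blocks of a projection of `ℂ^I ⊕ ℂ` -/

/-- the last diagonal entry -/
def dd (Q : Matrix (I ⊕ Unit) (I ⊕ Unit) ℂ) : ℝ := (Q (Sum.inr ()) (Sum.inr ())).re

/-- the last column without the last entry -/
def bb (Q : Matrix (I ⊕ Unit) (I ⊕ Unit) ℂ) : I → ℂ := fun i => Q (Sum.inl i) (Sum.inr ())

omit [Fintype I] in
@[fun_prop] theorem continuous_dd :
    Continuous (dd : Matrix (I ⊕ Unit) (I ⊕ Unit) ℂ → ℝ) := by
  unfold dd
  fun_prop

omit [Fintype I] in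
@[fun_prop] theorem continuous_bb :
    Continuous (bb : Matrix (I ⊕ Unit) (I ⊕ Unit) ℂ → I → ℂ) := by
  unfold bb
  fun_prop

omit [Fintype I] in
@[fun_prop] theorem continuous_colm : Continuous (colm : (I → ℂ) → Matrix I Unit ℂ) := by
  unfold colm
  fun_prop

omit [Fintype I] in
@[fun_prop] theorem continuous_toBlocks₁₁' :
    Continuous (fun Q : Matrix (I ⊕ Unit) (I ⊕ Unit) ℂ => Q.toBlocks₁₁) := by
  unfold toBlocks₁₁
  fun_prop

/-- a matrix with blocks determined by those of `Q` and three real numbers -/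
noncomputable def bmat (Q : Matrix (I ⊕ Unit) (I ⊕ Unit) ℂ) (x y z : ℝ) :
    Matrix (I ⊕ Unit) (I ⊕ Unit) ℂ :=
  fromBlocks (Q.toBlocks₁₁ + (x : ℂ) • (colm (bb Q) * (colm (bb Q))ᴴ)) ((y : ℂ) • colm (bb Q))
    ((y : ℂ) • (colm (bb Q))ᴴ) ((z : ℂ) • 1)

variable {Q : Matrix (I ⊕ Unit) (I ⊕ Unit) ℂ}

theorem dd_eq (h : IsProj n Q) : Q (Sum.inr ()) (Sum.inr ()) = (dd Q : ℂ) := by
  have h1 := h.diag_eq (Sum.inr ())
  unfold dd
  rw [h1, Complex.ofReal_re]

theorem dd_eq_nsq (h : IsProj n Q) : dd Q = nsq (Q (Sum.inr ())) := by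
  have h1 := h.diag_eq (Sum.inr ())
  unfold dd
  rw [h1, Complex.ofReal_re]

theorem dd_nonneg (h : IsProj n Q) : 0 ≤ dd Q := by
  rw [dd_eq_nsq h]; exact nsq_nonneg _

theorem dd_le_one (h : IsProj n Q) : dd Q ≤ 1 := by
  rw [dd_eq_nsq h]; exact h.nsq_row_le _

theorem eq_fromBlocks (h : IsProj n Q) :
    Q = fromBlocks Q.toBlocks₁₁ (colm (bb Q)) (colm (bb Q))ᴴ ((dd Q : ℂ) • 1) := by
  ext i j
  rcases i with i | i <;> rcases j with j | j
  · simp [toBlocks₁₁]
  · simp [bb]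
  · have h1 := congrFun (congrFun h.herm (Sum.inr i)) (Sum.inl j)
    rw [conjTranspose_apply] at h1
    simp only [fromBlocks_apply₂₁, conjTranspose_apply, colm_apply, bb]
    exact h1.symm
  · simp [← dd_eq h]

theorem toBlocks₁₁_herm (h : IsProj n Q) : (Q.toBlocks₁₁)ᴴ = Q.toBlocks₁₁ := by
  have h1 := h.herm
  rw [eq_fromBlocks h, fromBlocks_conjTranspose, fromBlocks_inj] at h1
  exact h1.1

theorem block_eqs (h : IsProj n Q) :
    Q.toBlocks₁₁ * Q.toBlocks₁₁ = Q.toBlocks₁₁ - colm (bb Q) * (colm (bb Q))ᴴ ∧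
    Q.toBlocks₁₁ * colm (bb Q) = ((1 - dd Q : ℝ) : ℂ) • colm (bb Q) ∧
    (colm (bb Q))ᴴ * Q.toBlocks₁₁ = ((1 - dd Q : ℝ) : ℂ) • (colm (bb Q))ᴴ ∧
    nsq (bb Q) = dd Q * (1 - dd Q) := by
  have h1 := h.idem
  rw [eq_fromBlocks h, fromBlocks_multiply, fromBlocks_inj] at h1
  obtain ⟨h11, h12, h21, h22⟩ := h1
  simp only [Matrix.mul_smul, Matrix.mul_one, Matrix.smul_mul, Matrix.one_mul, smul_smul] at h11 h12 h21 h22
  refine ⟨eq_sub_of_add_eq h11, ?_, ?_, ?_⟩
  · rw [eq_sub_of_add_eq h12]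
    push_cast
    rw [sub_smul, one_smul]
  · rw [eq_sub_of_add_eq h21]
    push_cast
    rw [sub_smul, one_smul]
  · rw [colm_conjTranspose_mul, ← add_smul] at h22
    have h3 := congrFun (congrFun h22 ()) ()
    simp only [Matrix.smul_apply, one_apply_eq, smul_eq_mul, mul_one] at h3
    have h4 : nsq (bb Q) + dd Q * dd Q = dd Q := by exact_mod_cast h3
    linarith

theorem trace_block (h : IsProj n Q) : (Q.toBlocks₁₁).trace = ((n : ℝ) - dd Q : ℝ) := by
  have h1 := h.trace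
  rw [eq_fromBlocks h, trace_blocks] at h1
  simp only [toBlocks₁₁, trace_smul, trace_one, Fintype.card_unit] at h1
  push_cast
  simp only [toBlocks₁₁]
  have h2 : (dd Q : ℂ) • ((1 : ℕ) : ℂ) = dd Q := by simp
  rw [h2] at h1
  exact eq_sub_of_add_eq h1

theorem isProj_bmat (h : IsProj n Q) {x y z : ℝ}
    (h1 : y ^ 2 + x ^ 2 * (dd Q * (1 - dd Q)) + 2 * x * (1 - dd Q) - x - 1 = 0)
    (h2 : x * (dd Q * (1 - dd Q)) + z = dd Q)
    (h3 : y ^ 2 * (dd Q * (1 - dd Q)) + z ^ 2 = z) : IsProj n (bmat Q x y z) := by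
  obtain ⟨e1, e2, e3, e4⟩ := block_eqs h
  have e5 := colm_conjTranspose_mul (bb Q)
  rw [e4] at e5
  have e6 := toBlocks₁₁_herm h
  have e7 := trace_block h
  set A := Q.toBlocks₁₁ with hA
  set b := colm (bb Q) with hb
  set d := dd Q with hd
  have f1 : b * bᴴ * (b * bᴴ) = ((d * (1 - d) : ℝ) : ℂ) • (b * bᴴ) := by
    rw [Matrix.mul_assoc, ← Matrix.mul_assoc bᴴ, e5, Matrix.smul_mul, Matrix.one_mul,
      Matrix.mul_smul]
  have f2 : b * bᴴ * b = ((d * (1 - d) : ℝ) : ℂ) • b := by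
    rw [Matrix.mul_assoc, e5, Matrix.mul_smul, Matrix.mul_one]
  have f3 : bᴴ * (b * bᴴ) = ((d * (1 - d) : ℝ) : ℂ) • bᴴ := by
    rw [← Matrix.mul_assoc, e5, Matrix.smul_mul, Matrix.one_mul]
  have f4 : A * (b * bᴴ) = ((1 - d : ℝ) : ℂ) • (b * bᴴ) := by
    rw [← Matrix.mul_assoc, e2, Matrix.smul_mul]
  have f5 : b * bᴴ * A = ((1 - d : ℝ) : ℂ) • (b * bᴴ) := by
    rw [Matrix.mul_assoc, e3, Matrix.mul_smul]
  constructor
  · unfold bmat
    rw [← hA, ← hb, fromBlocks_multiply]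
    congr 1
    · rw [Matrix.add_mul, Matrix.mul_add, Matrix.mul_add, e1, Matrix.smul_mul, Matrix.smul_mul,
        Matrix.smul_mul, Matrix.mul_smul, Matrix.mul_smul, Matrix.mul_smul, f1, f4, f5]
      simp only [smul_smul]
      have key : (x : ℂ) * ((1 - d : ℝ) : ℂ) + (x : ℂ) * ((1 - d : ℝ) : ℂ) +
          (x : ℂ) * ((x : ℂ) * ((d * (1 - d) : ℝ) : ℂ)) + (y : ℂ) * (y : ℂ) = (x : ℂ) + 1 := by
        have : (x : ℝ) * (1 - d) + x * (1 - d) + x * (x * (d * (1 - d))) + y * y = x + 1 := by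
          linarith
        exact_mod_cast this
      have : A - b * bᴴ + ((x : ℂ) * ((1 - d : ℝ) : ℂ)) • (b * bᴴ) +
          (((x : ℂ) * ((1 - d : ℝ) : ℂ)) • (b * bᴴ) +
            ((x : ℂ) * ((x : ℂ) * ((d * (1 - d) : ℝ) : ℂ))) • (b * bᴴ)) +
          ((y : ℂ) * (y : ℂ)) • (b * bᴴ) = A - b * bᴴ +
          ((x : ℂ) * ((1 - d : ℝ) : ℂ) + (x : ℂ) * ((1 - d : ℝ) : ℂ) +
          (x : ℂ) * ((x : ℂ) * ((d * (1 - d) : ℝ) : ℂ)) + (y : ℂ) * (y : ℂ)) • (b * bᴴ) := by
        simp only [add_smul]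
        abel
      rw [this, key, add_smul, one_smul]
      abel
    · rw [Matrix.add_mul, Matrix.mul_smul, e2, Matrix.smul_mul, Matrix.mul_smul, f2,
        Matrix.smul_mul, Matrix.mul_smul, Matrix.mul_one]
      simp only [smul_smul, ← add_smul]
      congr 1
      have : y * (1 - d) + x * (y * (d * (1 - d))) + y * z = y := by linear_combination y * h2
      exact_mod_cast this
    · rw [Matrix.smul_mul, Matrix.mul_add, e3, Matrix.mul_smul, f3, Matrix.smul_mul,
        Matrix.one_mul]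
      simp only [smul_smul, ← add_smul]
      congr 1
      have : y * ((1 - d) + x * (d * (1 - d))) + z * y = y := by linear_combination y * h2
      exact_mod_cast this
    · rw [Matrix.smul_mul, Matrix.mul_smul, e5, Matrix.smul_mul, Matrix.mul_smul, Matrix.mul_one]
      simp only [smul_smul, ← add_smul]
      congr 1
      have : y * (y * (d * (1 - d))) + z * z = z := by linear_combination h3
      exact_mod_cast this
  · unfold bmat
    rw [← hA, ← hb, fromBlocks_conjTranspose]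
    have hr : ∀ r : ℝ, star (r : ℂ) = (r : ℂ) := fun r => Complex.conj_ofReal r
    congr 1
    · rw [conjTranspose_add, e6, conjTranspose_smul, hr, conjTranspose_mul,
        conjTranspose_conjTranspose]
    · rw [conjTranspose_smul, hr, conjTranspose_conjTranspose]
    · rw [conjTranspose_smul, hr]
    · rw [conjTranspose_smul, conjTranspose_one, hr]
  · unfold bmat
    rw [← hA, ← hb, trace_blocks, trace_add, trace_smul, trace_smul, e7, trace_mul_comm, e5]
    simp only [trace_smul, trace_one, Fintype.card_unit, smul_eq_mul]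
    have : (n : ℝ) - d + x * (d * (1 - d) * 1) + z * 1 = n := by linarith
    have h2 := congrArg (fun r : ℝ => (r : ℂ)) this
    push_cast at h2 ⊢
    linear_combination h2

omit [Fintype I] in
theorem colm_smul (c : ℂ) (v : I → ℂ) : colm (c • v) = c • colm v := rfl

omit [Fintype I] in
theorem colm_injective : Function.Injective (colm : (I → ℂ) → Matrix I Unit ℂ) := by
  intro v w h
  funext i
  exact congrFun (congrFun h i) ()

theorem nsq_real_smul' (c : ℝ) (v : I → ℂ) : nsq ((c : ℂ) • v) = c ^ 2 * nsq v := by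
  rw [nsq_smul, Complex.normSq_ofReal, sq]

theorem dd_graphMat (P : Matrix I I ℂ) (v : I → ℂ) :
    dd (graphMat P v) = (1 + nsq v)⁻¹ * nsq v := by
  unfold dd graphMat
  rw [fromBlocks_apply₂₂, Matrix.smul_apply, one_apply_eq, smul_eq_mul, mul_one,
    Complex.ofReal_re]

theorem bb_graphMat (P : Matrix I I ℂ) (v : I → ℂ) :
    bb (graphMat P v) = (((1 + nsq v)⁻¹ : ℝ) : ℂ) • v := by
  funext i
  unfold bb graphMat
  rw [fromBlocks_apply₁₂]
  rfl

theorem toBlocks₁₁_graphMat (P : Matrix I I ℂ) (v : I → ℂ) :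
    (graphMat P v).toBlocks₁₁ = P - (((1 + nsq v)⁻¹ : ℝ) : ℂ) • (colm v * (colm v)ᴴ) := by
  unfold graphMat
  rw [toBlocks_fromBlocks₁₁]

theorem dd_graphMat_lt (P : Matrix I I ℂ) (v : I → ℂ) : dd (graphMat P v) < 1 := by
  rw [dd_graphMat, inv_mul_lt_iff₀ (one_add_nsq_pos v)]
  linarith

theorem one_sub_dd_graphMat (P : Matrix I I ℂ) (v : I → ℂ) :
    1 - dd (graphMat P v) = (1 + nsq v)⁻¹ := by
  rw [dd_graphMat]
  have := (one_add_nsq_pos v).ne'
  field_simp
  ring

/-- the projection associated with a point outside `{d = 1}` -/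
noncomputable def unP (Q : Matrix (I ⊕ Unit) (I ⊕ Unit) ℂ) : Matrix I I ℂ :=
  Q.toBlocks₁₁ + (((1 - dd Q)⁻¹ : ℝ) : ℂ) • (colm (bb Q) * (colm (bb Q))ᴴ)

/-- the vector associated with a point outside `{d = 1}` -/
noncomputable def unv (Q : Matrix (I ⊕ Unit) (I ⊕ Unit) ℂ) : I → ℂ :=
  (((1 - dd Q)⁻¹ : ℝ) : ℂ) • bb Q

theorem isProj_of_fromBlocks_zero {P : Matrix I I ℂ}
    (h : IsProj n (fromBlocks P (0 : Matrix I Unit ℂ) (0 : Matrix Unit I ℂ) 0)) : IsProj n P where
  idem := by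
    have h1 := h.idem
    rw [fromBlocks_multiply, fromBlocks_inj] at h1
    simpa using h1.1
  herm := by
    have h1 := h.herm
    rw [fromBlocks_conjTranspose, fromBlocks_inj] at h1
    exact h1.1
  trace := by
    have h1 := h.trace
    rw [trace_blocks] at h1
    simpa using h1

theorem isProj_unP (h : IsProj n Q) (hd : dd Q ≠ 1) : IsProj n (unP Q) := by
  have hd' : 1 - dd Q ≠ 0 := sub_ne_zero.mpr hd.symm
  apply isProj_of_fromBlocks_zero
  have h1 := isProj_bmat h (x := (1 - dd Q)⁻¹) (y := 0) (z := 0) (by field_simp; ring)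
    (by field_simp; ring) (by ring)
  unfold bmat at h1
  simpa [unP] using h1

theorem unP_mulVec_unv (h : IsProj n Q) (hd : dd Q ≠ 1) : unP Q *ᵥ unv Q = unv Q := by
  have hd' : ((1 - dd Q : ℝ) : ℂ) ≠ 0 :=
    Complex.ofReal_ne_zero.mpr (sub_ne_zero.mpr hd.symm)
  obtain ⟨e1, e2, e3, e4⟩ := block_eqs h
  have e5 := colm_conjTranspose_mul (bb Q)
  rw [e4] at e5
  apply colm_injective
  rw [← mul_colm]
  unfold unP unv
  rw [colm_smul, Matrix.mul_smul, Matrix.add_mul, e2, Matrix.smul_mul, Matrix.mul_assoc, e5,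
    Matrix.mul_smul, Matrix.mul_one]
  simp only [smul_smul, ← add_smul]
  congr 1
  push_cast at hd' ⊢
  field_simp
  ring

theorem nsq_unv (h : IsProj n Q) (hd : dd Q ≠ 1) : nsq (unv Q) = (1 - dd Q)⁻¹ * dd Q := by
  have hd' : 1 - dd Q ≠ 0 := sub_ne_zero.mpr hd.symm
  obtain ⟨e1, e2, e3, e4⟩ := block_eqs h
  unfold unv
  rw [nsq_real_smul', e4]
  field_simp

theorem graphMat_unP_unv (h : IsProj n Q) (hd : dd Q ≠ 1) : graphMat (unP Q) (unv Q) = Q := by
  have hd' : 1 - dd Q ≠ 0 := sub_ne_zero.mpr hd.symm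
  have hs : 1 + nsq (unv Q) = (1 - dd Q)⁻¹ := by
    rw [nsq_unv h hd]
    field_simp
    ring
  have hdc : ((1 - dd Q : ℝ) : ℂ) ≠ 0 := Complex.ofReal_ne_zero.mpr hd'
  conv_rhs => rw [eq_fromBlocks h]
  unfold graphMat
  rw [hs, inv_inv, nsq_unv h hd]
  congr 1
  · unfold unP unv
    rw [colm_smul, conjTranspose_smul, Matrix.smul_mul, Matrix.mul_smul]
    have hr : ∀ r : ℝ, star (r : ℂ) = (r : ℂ) := fun r => Complex.conj_ofReal r
    rw [hr]
    simp only [smul_smul]
    rw [add_sub_assoc, ← sub_smul]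
    have h0 : (((1 - dd Q)⁻¹ : ℝ) : ℂ) - ((1 - dd Q : ℝ) : ℂ) * (((1 - dd Q)⁻¹ : ℝ) : ℂ) *
        (((1 - dd Q)⁻¹ : ℝ) : ℂ) = 0 := by
      push_cast at hdc ⊢
      field_simp
      ring
    rw [← mul_assoc, h0, zero_smul, add_zero]
  · unfold unv
    have h0 : ((1 - dd Q : ℝ) : ℂ) * (((1 - dd Q)⁻¹ : ℝ) : ℂ) = 1 := by
      push_cast at hdc ⊢
      field_simp
    rw [colm_smul, smul_smul, h0, one_smul]
  · unfold unv
    have hr : ∀ r : ℝ, star (r : ℂ) = (r : ℂ) := fun r => Complex.conj_ofReal r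
    have h0 : ((1 - dd Q : ℝ) : ℂ) * (((1 - dd Q)⁻¹ : ℝ) : ℂ) = 1 := by
      push_cast at hdc ⊢
      field_simp
    rw [colm_smul, conjTranspose_smul, smul_smul, hr, h0, one_smul]
  · congr 1
    have : (1 - dd Q) * ((1 - dd Q)⁻¹ * dd Q) = dd Q := by field_simp
    exact_mod_cast this

theorem unP_graphMat (P : Matrix I I ℂ) (v : I → ℂ) : unP (graphMat P v) = P := by
  unfold unP
  rw [one_sub_dd_graphMat, inv_inv, toBlocks₁₁_graphMat, bb_graphMat, colm_smul,
    conjTranspose_smul, Matrix.smul_mul, Matrix.mul_smul]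
  have hr : ∀ r : ℝ, star (r : ℂ) = (r : ℂ) := fun r => Complex.conj_ofReal r
  have hpos := one_add_nsq_pos v
  have hc : ((1 + nsq v : ℝ) : ℂ) ≠ 0 := Complex.ofReal_ne_zero.mpr hpos.ne'
  have h0 : (((1 + nsq v)⁻¹ : ℝ) : ℂ) - ((1 + nsq v : ℝ) : ℂ) * ((((1 + nsq v)⁻¹ : ℝ) : ℂ) *
      (((1 + nsq v)⁻¹ : ℝ) : ℂ)) = 0 := by
    push_cast at hc ⊢
    field_simp
    ring
  rw [hr]
  simp only [smul_smul]
  rw [sub_add, ← sub_smul, h0, zero_smul, sub_zero]

theorem unv_graphMat (P : Matrix I I ℂ) (v : I → ℂ) : unv (graphMat P v) = v := by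
  unfold unv
  have hpos := one_add_nsq_pos v
  have hc : ((1 + nsq v : ℝ) : ℂ) ≠ 0 := Complex.ofReal_ne_zero.mpr hpos.ne'
  have h0 : ((1 + nsq v : ℝ) : ℂ) * (((1 + nsq v)⁻¹ : ℝ) : ℂ) = 1 := by
    push_cast at hc ⊢
    field_simp
  rw [one_sub_dd_graphMat, inv_inv, bb_graphMat, smul_smul, h0, one_smul]

end algebra

section homeo

@[fun_prop] theorem continuous_graphMat :
    Continuous (fun p : Matrix I I ℂ × (I → ℂ) => graphMat p.1 p.2) := by
  have h1 : Continuous (fun p : Matrix I I ℂ × (I → ℂ) => (((1 + nsq p.2)⁻¹ : ℝ) : ℂ)) := by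
    refine Complex.continuous_ofReal.comp (Continuous.inv₀ (by fun_prop) fun p => ?_)
    exact (one_add_nsq_pos p.2).ne'
  have h2 : Continuous (fun p : Matrix I I ℂ × (I → ℂ) => (((1 + nsq p.2)⁻¹ * nsq p.2 : ℝ) : ℂ)) := by
    refine Complex.continuous_ofReal.comp (Continuous.mul (Continuous.inv₀ (by fun_prop)
      fun p => ?_) (by fun_prop))
    exact (one_add_nsq_pos p.2).ne'
  unfold graphMat
  refine Continuous.matrix_fromBlocks ?_ ?_ ?_ ?_
  · exact continuous_fst.sub (h1.smul (by fun_prop))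
  · exact h1.smul (by fun_prop)
  · exact h1.smul (by fun_prop)
  · exact h2.smul continuous_const

/-- the graph embedding -/
noncomputable def Th.graph (x : Th n I) : Gr n (I ⊕ Unit) :=
  ⟨graphMat x.P x.v, isProj_graphMat x.isProj x.P_mulVec⟩

@[simp] theorem Th.graph_P (x : Th n I) : x.graph.P = graphMat x.P x.v := rfl

theorem Th.continuous_graph : Continuous (Th.graph : Th n I → Gr n (I ⊕ Unit)) :=
  (continuous_graphMat.comp (Th.continuous_P.prodMk Th.continuous_v)).subtype_mk _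

omit [Fintype I] in
theorem continuousOn_inv_dd {X : Type*} [TopologicalSpace X] {f : X → Matrix (I ⊕ Unit) (I ⊕ Unit) ℂ}
    (hf : Continuous f) (h : ∀ x, dd (f x) ≠ 1) :
    Continuous (fun x => (((1 - dd (f x))⁻¹ : ℝ) : ℂ)) :=
  Complex.continuous_ofReal.comp (Continuous.inv₀ (by fun_prop) fun x =>
    sub_ne_zero.mpr (h x).symm)

/-- `Th n I` is homeomorphic to the open subset `{d ≠ 1}` of the Grassmannian -/
noncomputable def Th.graphHomeo :
    Th n I ≃ₜ {Q : Gr n (I ⊕ Unit) // dd Q.P ≠ 1} where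
  toFun x := ⟨x.graph, (dd_graphMat_lt x.P x.v).ne⟩
  invFun Q := Th.mk (unP Q.1.P) (unv Q.1.P) (isProj_unP Q.1.isProj Q.2)
    (unP_mulVec_unv Q.1.isProj Q.2)
  left_inv x := by
    ext1
    · exact unP_graphMat x.P x.v
    · exact unv_graphMat x.P x.v
  right_inv Q := by
    apply Subtype.ext
    ext1
    exact graphMat_unP_unv Q.1.isProj Q.2
  continuous_toFun := Th.continuous_graph.subtype_mk _
  continuous_invFun := by
    have h1 : Continuous (fun Q : {Q : Gr n (I ⊕ Unit) // dd Q.P ≠ 1} => Q.1.P) :=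
      Gr.continuous_P.comp continuous_subtype_val
    have h2 := continuousOn_inv_dd h1 (fun Q => Q.2)
    refine Continuous.subtype_mk (Continuous.prodMk ?_ ?_) _
    · unfold unP
      exact Continuous.add (by fun_prop) (h2.smul (by fun_prop))
    · unfold unv
      exact h2.smul (by fun_prop)

theorem Th.isOpenEmbedding_graph : IsOpenEmbedding (Th.graph : Th n I → Gr n (I ⊕ Unit)) := by
  have h : IsOpen {Q : Gr n (I ⊕ Unit) | dd Q.P ≠ 1} :=
    isOpen_ne_fun (continuous_dd.comp Gr.continuous_P) continuous_const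
  exact h.isOpenEmbedding_subtypeVal.comp Th.graphHomeo.isOpenEmbedding

theorem Th.range_graph :
    Set.range (Th.graph : Th n I → Gr n (I ⊕ Unit)) = {Q | dd Q.P ≠ 1} := by
  ext Q
  constructor
  · rintro ⟨x, rfl⟩
    exact (dd_graphMat_lt x.P x.v).ne
  · intro h
    exact ⟨Th.graphHomeo.symm ⟨Q, h⟩, congrArg Subtype.val (Th.graphHomeo.apply_symm_apply ⟨Q, h⟩)⟩

/-- `P ↦ P ⊕ 1` -/
def Gr.addOne (x : Gr n I) : Gr (n + 1) (I ⊕ Unit) :=
  ⟨fromBlocks x.P 0 0 (1 : Matrix Unit Unit ℂ), by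
    have h : IsProj 1 (1 : Matrix Unit Unit ℂ) := IsProj.one
    exact x.isProj.fromBlocks h⟩

@[simp] theorem Gr.addOne_P (x : Gr n I) :
    x.addOne.P = fromBlocks x.P 0 0 (1 : Matrix Unit Unit ℂ) := rfl

theorem Gr.continuous_addOne : Continuous (Gr.addOne : Gr n I → Gr (n + 1) (I ⊕ Unit)) :=
  (Continuous.matrix_fromBlocks Gr.continuous_P continuous_const continuous_const
    continuous_const).subtype_mk _

theorem Gr.addOne_injective : Function.Injective (Gr.addOne : Gr n I → Gr (n + 1) (I ⊕ Unit)) := by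
  intro x y h
  have h1 := congrArg Gr.P h
  rw [Gr.addOne_P, Gr.addOne_P, fromBlocks_inj] at h1
  exact Gr.ext h1.1

theorem Gr.isClosedEmbedding_addOne :
    IsClosedEmbedding (Gr.addOne : Gr n I → Gr (n + 1) (I ⊕ Unit)) :=
  Gr.continuous_addOne.isClosedEmbedding Gr.addOne_injective

theorem Gr.range_addOne :
    Set.range (Gr.addOne : Gr n I → Gr (n + 1) (I ⊕ Unit)) = {Q | dd Q.P = 1} := by
  ext Q
  constructor
  · rintro ⟨x, rfl⟩
    simp [dd]
  · intro h
    have hQ := Q.isProj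
    obtain ⟨e1, e2, e3, e4⟩ := block_eqs hQ
    have hd : dd Q.P = 1 := h
    have hb : bb Q.P = 0 := by
      rw [hd, sub_self, mul_zero] at e4
      exact nsq_eq_zero.mp e4
    have hc : colm (bb Q.P) = 0 := by rw [hb]; rfl
    have hQ' := eq_fromBlocks hQ
    rw [hc, hd] at hQ'
    refine ⟨⟨Q.P.toBlocks₁₁, ?_, toBlocks₁₁_herm hQ, ?_⟩, ?_⟩
    · rw [e1, hc]; simp
    · rw [trace_block hQ, hd]; push_cast; ring
    · apply Gr.ext
      refine Eq.trans ?_ hQ'.symm
      change fromBlocks Q.P.toBlocks₁₁ 0 0 1 = _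
      simp

end homeo

end Vale.Agent.P251.G
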