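import Vale.Agent.P251.G.Polar

/-!
# P251, part G: naturality of the polar square in isometric bundle maps
-/

open Matrix Filter Topology CategoryTheory MonoidalCategory Limits OnePoint

open scoped NNReal

namespace Vale.Agent.P251.G

variable {X Y Z : Type} [TopologicalSpace X] [TopologicalSpace Y] [TopologicalSpace Z]
variable {ι κ μ : Type} [Fintype ι] [Fintype κ] [Fintype μ]

namespace BMap

open Bun LC

variable {V : Bun X ι} {W : Bun Y κ} {U : Bun Z μ}

/-- A bundle map which preserves the norm. -/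
def IsIsom (φ : BMap V W) : Prop := ∀ x v, V.P x *ᵥ v = v → nsq (φ.A x *ᵥ v) = nsq v

theorem isIsom_ofIsometry (V : Bun X ι) (W : Bun Y κ) (f : C(X, Y)) (u : X → Matrix κ ι ℂ)
    (hu : Continuous u) (h : ∀ x, (u x)ᴴ * u x = V.P x)
    (h' : ∀ x, W.P (f x) * u x = u x) : (BMap.ofIsometry V W f u hu h h').IsIsom :=
  fun x _ hv => nsq_mulVec_of_isometry (h x) hv

theorem isIsom_ofPullback [DecidableEq ι] (V : Bun X ι) (g : C(Y, X)) :
    (BMap.ofPullback V g).IsIsom := fun x v _ => by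
  rw [ofPullback_A, one_mulVec]

theorem isIsom_id [DecidableEq ι] (V : Bun X ι) : (BMap.id V).IsIsom := fun x v _ => by
  rw [id_A, one_mulVec]

theorem IsIsom.comp {ψ : BMap W U} {φ : BMap V W} (h : ψ.IsIsom) (h' : φ.IsIsom) :
    (ψ.comp φ).IsIsom := fun x v hv => by
  rw [comp_A, ← mulVec_mulVec, h _ _ (φ.maps _ _ hv), h' _ _ hv]

theorem nsq_toFun {φ : BMap V W} (h : φ.IsIsom) (p : V.E) :
    nsq (Bun.vec (φ.toFun p)) = nsq (Bun.vec p) := h _ _ (Bun.P_vec p)

/-- the induced map of sphere bundles -/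
def sphFun (φ : BMap V W) (h : φ.IsIsom) (s : V.Sph) : W.Sph :=
  ⟨φ.toFun s.1, (nsq_toFun h s.1).trans s.2⟩

/-- the induced map of disc bundles -/
def discFun (φ : BMap V W) (h : φ.IsIsom) (s : V.Disc) : W.Disc :=
  ⟨φ.toFun s.1, (nsq_toFun h s.1).le.trans s.2⟩

theorem continuous_sphFun (φ : BMap V W) (h : φ.IsIsom) : Continuous (φ.sphFun h) :=
  (φ.continuous_toFun.comp continuous_subtype_val).subtype_mk _

theorem continuous_discFun (φ : BMap V W) (h : φ.IsIsom) : Continuous (φ.discFun h) :=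
  (φ.continuous_toFun.comp continuous_subtype_val).subtype_mk _

@[simp] theorem base_sphFun (φ : BMap V W) (h : φ.IsIsom) (s : V.Sph) :
    (φ.sphFun h s).base = φ.f s.base := rfl

@[simp] theorem vec_sphFun (φ : BMap V W) (h : φ.IsIsom) (s : V.Sph) :
    (φ.sphFun h s).vec = φ.A s.base *ᵥ s.vec := rfl

theorem toFun_polar (φ : BMap V W) (h : φ.IsIsom) (q : V.Sph × ℝ≥0) :
    φ.toFun (V.polar q) = W.polar (φ.sphFun h q.1, q.2) := by
  refine E_ext rfl ?_
  rw [vec_toFun, vec_polar, vec_polar, vec_sphFun, mulVec_smul, base_polar]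

theorem toFun_zeroSec (φ : BMap V W) (x : X) : φ.toFun (V.zeroSec x) = W.zeroSec (φ.f x) :=
  E_ext rfl (by rw [vec_toFun, vec_zeroSec, mulVec_zero, vec_zeroSec])

section LC

variable [LocallyCompactSpace X] [T2Space X] [LocallyCompactSpace Y] [T2Space Y]
  [LocallyCompactSpace Z] [T2Space Z]

/-- the map of bases as a morphism -/
def baseHom (φ : BMap V W) (hf : Tendsto φ.f (cocompact X) (cocompact Y)) : V.bs ⟶ W.bs :=
  ofProper (X := V.bs) (Y := W.bs) φ.f φ.f.continuous hf

@[simp] theorem app_baseHom_coe (φ : BMap V W) (hf : Tendsto φ.f (cocompact X) (cocompact Y))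
    (x : X) : app (φ.baseHom hf) (x : OnePoint X) = (φ.f x : OnePoint Y) := rfl

omit [LocallyCompactSpace X] [LocallyCompactSpace Y] [T2Space Y] in
theorem tendsto_sphFun (φ : BMap V W) (h : φ.IsIsom)
    (hf : Tendsto φ.f (cocompact X) (cocompact Y)) :
    Tendsto (φ.sphFun h) (cocompact V.Sph) (cocompact W.Sph) := by
  have h1 : Tendsto (fun s : V.Sph => φ.toFun s.1) (cocompact V.Sph) (cocompact W.E) :=
    (φ.tendsto_toFun hf).comp V.isClosedEmbedding_Sph.tendsto_cocompact
  rw [Filter.hasBasis_cocompact.tendsto_iff Filter.hasBasis_cocompact] at h1 ⊢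
  intro K hK
  obtain ⟨L, hL, h2⟩ := h1 (Subtype.val '' K) (hK.image continuous_subtype_val)
  exact ⟨L, hL, fun s hs hsK => h2 s hs ⟨_, hsK, rfl⟩⟩

/-- the induced morphism of sphere bundles -/
def sphMor (φ : BMap V W) (h : φ.IsIsom) (hf : Tendsto φ.f (cocompact X) (cocompact Y)) :
    V.sph ⟶ W.sph :=
  ofProper (X := V.sph) (Y := W.sph) (φ.sphFun h) (φ.continuous_sphFun h) (φ.tendsto_sphFun h hf)

@[simp] theorem app_sphMor_coe (φ : BMap V W) (h : φ.IsIsom)
    (hf : Tendsto φ.f (cocompact X) (cocompact Y)) (s : V.Sph) :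
    app (φ.sphMor h hf) (s : OnePoint V.Sph) = (φ.sphFun h s : OnePoint W.Sph) := rfl

variable (φ : BMap V W) (h : φ.IsIsom) (hf : Tendsto φ.f (cocompact X) (cocompact Y))

@[reassoc]
theorem sphMor_sphHom : φ.sphMor h hf ≫ W.sphHom = V.sphHom ≫ φ.baseHom hf := by
  apply hom_ext
  intro s
  rw [app_comp, app_comp, app_sphMor_coe, app_sphHom_coe, app_sphHom_coe, app_baseHom_coe,
    base_sphFun]

@[reassoc]
theorem zeroHom_toHom : V.zeroHom ≫ φ.toHom hf = φ.baseHom hf ≫ W.zeroHom := by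
  apply hom_ext
  intro x
  rw [app_comp, app_comp, app_zeroHom_coe, app_toHom_coe, app_baseHom_coe, app_zeroHom_coe,
    toFun_zeroSec]

@[reassoc]
theorem polarHom_toHom : V.polarHom ≫ φ.toHom hf = (φ.sphMor h hf ▷ HH) ≫ W.polarHom := by
  apply tensor_ext
  intro s t
  have e1 : app V.polarHom (smash (s : OnePoint V.Sph) (t : OnePoint ℝ≥0)) =
      (V.polar (s, t) : OnePoint V.E) := rfl
  have e2 : app W.polarHom (smash (φ.sphFun h s : OnePoint W.Sph) (t : OnePoint ℝ≥0)) =
      (W.polar (φ.sphFun h s, t) : OnePoint W.E) := rfl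
  rw [app_comp, app_comp, app_whiskerRight_smash, app_sphMor_coe, e1, e2, app_toHom_coe,
    toFun_polar φ h]

@[reassoc]
theorem toHom_polarConn : φ.toHom hf ≫ W.polarConn = V.polarConn ≫ (φ.sphMor h hf ▷ RR) := by
  refine V.isPushout_polar.hom_ext ?_ ?_
  · rw [polarHom_toHom_assoc φ h, polarHom_conn, polarHom_conn_assoc, whisker_exchange]
  · rw [zeroHom_toHom_assoc, zeroHom_conn, comp_zero, zeroHom_conn_assoc, zero_comp]

end LC

section compact

variable [CompactSpace X] [T2Space X] [LocallyCompactSpace Y] [T2Space Y]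

omit [T2Space X] [LocallyCompactSpace Y] [T2Space Y] in
theorem tendsto_f_of_compact (φ : BMap V W) : Tendsto φ.f (cocompact X) (cocompact Y) := by
  rw [cocompact_eq_bot]; exact tendsto_bot

theorem thom_eq_toHom (φ : BMap V W) : φ.thom = φ.toHom φ.tendsto_f_of_compact := rfl

end compact

end BMap

end Vale.Agent.P251.G
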