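import Vale.Agent.P251.G.ThJ
import Vale.Agent.P251.G.PolarNat
import Vale.Agent.P251.G.CellGr

/-!
# P251, part G/M4a: the unit sphere bundle of the tautological bundle

`GS n I`: pairs `(P, v)` with `P *ᵥ v = v` and `nsq v = 1`.  Maps `alpha : Gr n I → GS (n+1) (1+I)`,
`P ↦ (1 ⊕ P, e)`, and `beta : GS (n+1) I → Gr n I`, `(P, v) ↦ P - v vᴴ`, inverse to each other up to
the stabilisation maps; everything natural for isometries.
-/

set_option linter.unusedSectionVars false

open CategoryTheory MonoidalCategory Filter Topology OnePoint Matrix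

noncomputable section

namespace Vale.Agent.P251.G

open LC

variable {I J K L : Type} [Fintype I] [Fintype J] [Fintype K] [Fintype L] {n m k l : ℕ}

/-! ### Homotopies of maps of compact spaces -/

theorem homotopic_ofCompact {X Y : LC} [CompactSpace X] {f g : X → Y} (hf : Continuous f)
    (hg : Continuous g) (H : X × unitInterval → Y) (hH : Continuous H)
    (h0 : ∀ x, H (x, 0) = f x) (h1 : ∀ x, H (x, 1) = g x) :
    Homotopic (ofCompact f hf) (ofCompact g hg) := by
  refine Th.homotopic_of H hH ?_ ?_ ?_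
  · rw [cocompact_eq_bot]; exact tendsto_bot
  · intro x; rw [app_ofCompact_coe, h0]
  · intro x; rw [app_ofCompact_coe, h1]

theorem ofCompact_comp {X Y Z : LC} [CompactSpace X] [CompactSpace Y] {f : X → Y} {g : Y → Z}
    (hf : Continuous f) (hg : Continuous g) :
    ofCompact f hf ≫ ofCompact g hg = ofCompact (g ∘ f) (hg.comp hf) := by
  apply LC.hom_ext; intro x
  rw [app_comp, app_ofCompact_coe, app_ofCompact_coe, app_ofCompact_coe]
  rfl

/-! ### The sphere bundle -/

/-- The unit sphere bundle of the tautological bundle. -/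
abbrev GS (n : ℕ) (I : Type) [Fintype I] : Type := (taut n I).Sph

namespace GS

/-- constructor -/
def mk (P : Matrix I I ℂ) (v : I → ℂ) (h : IsProj n P) (hv : P *ᵥ v = v) (hn : nsq v = 1) :
    GS n I := (taut n I).mkSph ⟨P, h⟩ v hv hn

/-- the projection -/
def P (s : GS n I) : Matrix I I ℂ := (Bun.Sph.base s).P
/-- the vector -/
def v (s : GS n I) : I → ℂ := Bun.Sph.vec s

@[simp] theorem mk_P (P : Matrix I I ℂ) (v : I → ℂ) (h : IsProj n P) (hv : P *ᵥ v = v)
    (hn : nsq v = 1) : (mk P v h hv hn).P = P := rfl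
@[simp] theorem mk_v (P : Matrix I I ℂ) (v : I → ℂ) (h : IsProj n P) (hv : P *ᵥ v = v)
    (hn : nsq v = 1) : (mk P v h hv hn).v = v := rfl

theorem isProj (s : GS n I) : IsProj n s.P := (Bun.Sph.base s).isProj
theorem P_mulVec (s : GS n I) : s.P *ᵥ s.v = s.v := Bun.Sph.P_vec s
theorem nsq_v (s : GS n I) : nsq s.v = 1 := Bun.Sph.nsq_vec s

theorem ext {s t : GS n I} (h : s.P = t.P) (h' : s.v = t.v) : s = t :=
  Bun.Sph.ext (Gr.ext h) h'

@[fun_prop] theorem continuous_P : Continuous (P : GS n I → _) :=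
  Gr.continuous_P.comp Bun.Sph.continuous_base
@[fun_prop] theorem continuous_v : Continuous (v : GS n I → _) := Bun.Sph.continuous_vec

theorem continuous_mk {X : Type} [TopologicalSpace X] {P : X → Matrix I I ℂ} {v : X → I → ℂ}
    (hP : Continuous P) (hv : Continuous v) (h : ∀ x, IsProj n (P x))
    (h' : ∀ x, P x *ᵥ v x = v x) (hn : ∀ x, nsq (v x) = 1) :
    Continuous fun x => mk (P x) (v x) (h x) (h' x) (hn x) :=
  Bun.continuous_Sph_iff.mpr ⟨hP.subtype_mk _, hv⟩

/-! ### Isometries -/

section map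

variable [DecidableEq I] [DecidableEq J] [DecidableEq K]

/-- the action of an isometry on points -/
def mapFun (u : Matrix J I ℂ) (hu : uᴴ * u = 1) (s : GS n I) : GS n J :=
  mk (u * s.P * uᴴ) (u *ᵥ s.v) (s.isProj.conj (by rw [hu, Matrix.one_mul]))
    (s.isProj.conj_mulVec (by rw [hu, Matrix.one_mul]) s.P_mulVec)
    ((Th.nsq_isom hu _).trans s.nsq_v)

@[simp] theorem mapFun_P (u : Matrix J I ℂ) (hu : uᴴ * u = 1) (s : GS n I) :
    (mapFun u hu s).P = u * s.P * uᴴ := rfl
@[simp] theorem mapFun_v (u : Matrix J I ℂ) (hu : uᴴ * u = 1) (s : GS n I) :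
    (mapFun u hu s).v = u *ᵥ s.v := rfl

theorem continuous_mapFun (u : Matrix J I ℂ) (hu : uᴴ * u = 1) :
    Continuous (mapFun (n := n) u hu) :=
  continuous_mk (by fun_prop) (by fun_prop) _ _ _

/-- functoriality for isometries -/
def map (u : Matrix J I ℂ) (hu : uᴴ * u = 1) : LC.of (GS n I) ⟶ LC.of (GS n J) :=
  ofCompact (X := LC.of (GS n I)) (Y := LC.of (GS n J)) (mapFun u hu) (continuous_mapFun u hu)

theorem map_congr {u u' : Matrix J I ℂ} (h : u = u') (hu : uᴴ * u = 1) (hu' : u'ᴴ * u' = 1) :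
    (map u hu : LC.of (GS n I) ⟶ LC.of (GS n J)) = map u' hu' := by
  subst h; rfl

theorem map_one : map (1 : Matrix I I ℂ) isom_one = 𝟙 (LC.of (GS n I)) := by
  apply LC.hom_ext; intro x
  rw [map, app_ofCompact_coe, app_id]
  congr 1
  exact GS.ext (by simp) (by simp)

theorem map_comp (u : Matrix J I ℂ) (hu : uᴴ * u = 1) (w : Matrix K J ℂ) (hw : wᴴ * w = 1) :
    map (n := n) u hu ≫ map w hw = map (w * u) (isom_mul hw hu) := by
  apply LC.hom_ext; intro x
  rw [app_comp, map, map, map, app_ofCompact_coe, app_ofCompact_coe, app_ofCompact_coe]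
  congr 1
  exact GS.ext (by simp [Matrix.mul_assoc, conjTranspose_mul]) (by simp [mulVec_mulVec])

/-- homotopies from paths of isometries -/
theorem map_homotopic (u : unitInterval → Matrix J I ℂ) (hc : Continuous u)
    (hu : ∀ t, (u t)ᴴ * u t = 1) :
    Homotopic (map (n := n) (u 0) (hu 0)) (map (u 1) (hu 1)) := by
  refine homotopic_ofCompact (X := LC.of (GS n I)) (Y := LC.of (GS n J)) _ _
    (fun p => mapFun (u p.2) (hu p.2) p.1) ?_ (fun _ => rfl) (fun _ => rfl)
  refine continuous_mk ?_ ?_ _ _ _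
  · exact ((hc.comp continuous_snd).matrix_mul (GS.continuous_P.comp continuous_fst)).matrix_mul
      (hc.comp continuous_snd).matrix_conjTranspose
  · exact (hc.comp continuous_snd).matrix_mulVec (GS.continuous_v.comp continuous_fst)

theorem map_homotopic_map (u₀ u₁ : Matrix J I ℂ) (h₀ : u₀ᴴ * u₀ = 1) (h₁ : u₁ᴴ * u₁ = 1) :
    Homotopic (map (n := n) u₀ h₀) (map u₁ h₁) := by
  obtain ⟨u, hc, hu, rfl, rfl⟩ := exists_isom_path u₀ u₁ h₀ h₁
  exact map_homotopic u hc hu

end map

end GS

namespace GS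

section map

variable [DecidableEq I] [DecidableEq J] [DecidableEq K]

/-- the action of an isometry on points of the Grassmannian -/
def gmapFun (u : Matrix J I ℂ) (hu : uᴴ * u = 1) (s : Gr n I) : Gr n J :=
  ⟨u * s.P * uᴴ, s.isProj.conj (by rw [hu, Matrix.one_mul])⟩

@[simp] theorem gmapFun_P (u : Matrix J I ℂ) (hu : uᴴ * u = 1) (s : Gr n I) :
    (gmapFun u hu s).P = u * s.P * uᴴ := rfl

theorem continuous_gmapFun (u : Matrix J I ℂ) (hu : uᴴ * u = 1) :
    Continuous (gmapFun (n := n) u hu) :=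
  Continuous.subtype_mk (by fun_prop) _

/-- functoriality of the Grassmannian for isometries -/
def gmap (u : Matrix J I ℂ) (hu : uᴴ * u = 1) : LC.of (Gr n I) ⟶ LC.of (Gr n J) :=
  ofCompact (X := LC.of (Gr n I)) (Y := LC.of (Gr n J)) (gmapFun u hu) (continuous_gmapFun u hu)

end map

end GS

namespace GS

/-! ### The maps alpha and beta -/

section alphabeta

/-- `P ↦ (1 ⊕ P, e)` -/
def alphaFun (h : n + 1 = k) (x : Gr n I) : GS k (Unit ⊕ I) :=
  mk (Matrix.fromBlocks 1 0 0 x.P) (Sum.elim 1 0)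
    (by
      have := IsProj.fromBlocks (IsProj.one (I := Unit)) x.isProj
      rwa [Fintype.card_unit, add_comm 1 n, h] at this)
    (by rw [fromBlocks_mulVec]; simp)
    (by rw [nsq_elim]; simp [nsq])

@[simp] theorem alphaFun_P (h : n + 1 = k) (x : Gr n I) :
    (alphaFun h x).P = Matrix.fromBlocks 1 0 0 x.P := rfl
@[simp] theorem alphaFun_v (h : n + 1 = k) (x : Gr n I) :
    (alphaFun h x).v = (Sum.elim 1 0 : Unit ⊕ I → ℂ) := rfl

theorem continuous_alphaFun (h : n + 1 = k) : Continuous (alphaFun (I := I) h) :=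
  continuous_mk (continuous_const.matrix_fromBlocks continuous_const continuous_const
    Gr.continuous_P) continuous_const _ _ _

/-- `(P, v) ↦ P - v vᴴ` -/
def betaFun (h : n + 1 = k) (s : GS k I) : Gr n I :=
  ⟨s.P - vecMulVec s.v (star s.v), Cell.isProj_sub_line (h ▸ s.isProj) s.nsq_v s.P_mulVec⟩

@[simp] theorem betaFun_P (h : n + 1 = k) (s : GS k I) :
    (betaFun h s).P = s.P - vecMulVec s.v (star s.v) := rfl

theorem continuous_betaFun (h : n + 1 = k) : Continuous (betaFun (I := I) h) := by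
  refine Continuous.subtype_mk ?_ _
  exact GS.continuous_P.sub (GS.continuous_v.matrix_vecMulVec GS.continuous_v.star)

/-- `alpha` as a morphism -/
def alpha (h : n + 1 = k) (I : Type) [Fintype I] : LC.of (Gr n I) ⟶ LC.of (GS k (Unit ⊕ I)) :=
  ofCompact (X := LC.of (Gr n I)) (Y := LC.of (GS k (Unit ⊕ I))) (alphaFun h)
    (continuous_alphaFun h)

/-- `beta` as a morphism -/
def beta (h : n + 1 = k) (I : Type) [Fintype I] : LC.of (GS k I) ⟶ LC.of (Gr n I) :=
  ofCompact (X := LC.of (GS k I)) (Y := LC.of (Gr n I)) (betaFun h) (continuous_betaFun h)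

section

variable [DecidableEq I] [DecidableEq J]

/-- `beta` is natural -/
theorem map_beta (h : n + 1 = k) (u : Matrix J I ℂ) (hu : uᴴ * u = 1) :
    map u hu ≫ beta h J = beta h I ≫ gmap u hu := by
  apply LC.hom_ext; intro x
  rw [map, beta, beta, gmap, ofCompact_comp, ofCompact_comp, app_ofCompact_coe,
    app_ofCompact_coe]
  congr 1
  apply Gr.ext
  simp only [Function.comp, betaFun_P, mapFun_P, mapFun_v, gmapFun_P, Matrix.mul_sub,
    Matrix.sub_mul]
  congr 1
  rw [star_mulVec, mul_vecMulVec, vecMulVec_mul]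

/-- `alpha` is natural -/
theorem map_alpha (h : n + 1 = k) (u : Matrix J I ℂ) (hu : uᴴ * u = 1) :
    gmap u hu ≫ alpha h J = alpha h I ≫ map (Matrix.fromBlocks 1 0 0 u)
      (isom_fromBlocks isom_one hu) := by
  apply LC.hom_ext; intro x
  rw [map, alpha, alpha, gmap, ofCompact_comp, ofCompact_comp, app_ofCompact_coe,
    app_ofCompact_coe]
  congr 1
  apply GS.ext
  · simp [fromBlocks_multiply, fromBlocks_conjTranspose]
  · simp [fromBlocks_mulVec]

/-- `beta` after `alpha` is the stabilisation -/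
theorem alpha_beta (h : n + 1 = k) :
    alpha h I ≫ beta h (Unit ⊕ I) = gmap (injMat Sum.inr) (injMat_isom Sum.inr_injective) := by
  apply LC.hom_ext; intro x
  rw [alpha, beta, gmap, ofCompact_comp, app_ofCompact_coe, app_ofCompact_coe]
  congr 1
  apply Gr.ext
  simp only [Function.comp, betaFun_P, alphaFun_P, alphaFun_v, gmapFun_P, injMat_inr_conj]
  ext (i | i) (j | j) <;> simp [vecMulVec_apply]

/-- the path of vectors -/
def vt (s : GS k I) (t : unitInterval) : Unit ⊕ I → ℂ :=
  Sum.elim (fun _ => ((Real.sin (t * (Real.pi / 2)) : ℝ) : ℂ))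
    (((Real.cos (t * (Real.pi / 2)) : ℝ) : ℂ) • s.v)

theorem nsq_vt (s : GS k I) (t : unitInterval) : nsq (vt s t) = 1 := by
  rw [vt, nsq_elim, nsq_smul, s.nsq_v, mul_one]
  simp only [nsq, Finset.univ_unique, Finset.sum_singleton, Complex.normSq_ofReal]
  rw [← sq, ← sq, Real.sin_sq_add_cos_sq]

/-- the constant part of the path of projections -/
def Bt (s : GS k I) : Matrix (Unit ⊕ I) (Unit ⊕ I) ℂ :=
  Matrix.fromBlocks 0 0 0 (s.P - vecMulVec s.v (star s.v))

theorem Bt_mulVec (s : GS k I) (t : unitInterval) : Bt s *ᵥ vt s t = 0 := by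
  have hdot : star s.v ⬝ᵥ s.v = 1 := by rw [← nsq_eq_dotProduct, s.nsq_v]; simp
  have h1 : (s.P - vecMulVec s.v (star s.v)) *ᵥ s.v = 0 := by
    rw [sub_mulVec, s.P_mulVec, vecMulVec_mulVec, hdot]
    simp
  simp only [Bt, vt, fromBlocks_mulVec, Sum.elim_comp_inr, mulVec_smul, h1, zero_mulVec,
    smul_zero, add_zero]
  funext i
  rcases i with i | i <;> rfl

/-- the path of projections -/
def Pt (s : GS k I) (t : unitInterval) : Matrix (Unit ⊕ I) (Unit ⊕ I) ℂ :=
  Bt s + vecMulVec (vt s t) (star (vt s t))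

theorem isProj_Pt (h : n + 1 = k) (s : GS k I) (t : unitInterval) : IsProj k (Pt s t) := by
  have h1 : IsProj (0 + n) (Matrix.fromBlocks (0 : Matrix Unit Unit ℂ) 0 0
      (s.P - vecMulVec s.v (star s.v))) :=
    IsProj.fromBlocks IsProj.zero (betaFun h s).isProj
  rw [zero_add] at h1
  have h2 := Cell.isProj_add_line h1 (nsq_vt s t) (Bt_mulVec s t)
  rwa [h] at h2

theorem Pt_mulVec (s : GS k I) (t : unitInterval) : Pt s t *ᵥ vt s t = vt s t := by
  have hdot : star (vt s t) ⬝ᵥ vt s t = 1 := by rw [← nsq_eq_dotProduct, nsq_vt]; simp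
  rw [Pt, add_mulVec, Bt_mulVec, vecMulVec_mulVec, hdot, zero_add]
  simp

theorem vt_zero (s : GS k I) : vt s 0 = Sum.elim (0 : Unit → ℂ) s.v := by
  rw [vt]
  congr 1
  · funext i; simp
  · simp

theorem vt_one (s : GS k I) : vt s 1 = Sum.elim (1 : Unit → ℂ) 0 := by
  rw [vt]
  congr 1
  · funext i; simp
  · simp

theorem continuous_vt : Continuous fun p : GS k I × unitInterval => vt p.1 p.2 := by
  refine continuous_pi fun i => ?_
  rcases i with i | i
  · simp only [vt, Sum.elim_inl]
    fun_prop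
  · simp only [vt, Sum.elim_inr, Pi.smul_apply, smul_eq_mul]
    have h1 : Continuous fun p : GS k I × unitInterval => p.1.v i :=
      (continuous_apply i).comp (GS.continuous_v.comp continuous_fst)
    fun_prop

theorem continuous_Pt : Continuous fun p : GS k I × unitInterval => Pt p.1 p.2 := by
  have h1 : Continuous fun p : GS k I × unitInterval => p.1.v :=
    GS.continuous_v.comp continuous_fst
  have h2 : Continuous fun p : GS k I × unitInterval => p.1.P :=
    GS.continuous_P.comp continuous_fst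
  refine Continuous.add ?_ (continuous_vt.matrix_vecMulVec continuous_vt.star)
  exact continuous_const.matrix_fromBlocks continuous_const continuous_const
    (h2.sub (h1.matrix_vecMulVec h1.star))

/-- `alpha` after `beta` is homotopic to the stabilisation -/
theorem beta_alpha (h : n + 1 = k) :
    Homotopic (map (injMat Sum.inr) (injMat_isom Sum.inr_injective) :
      LC.of (GS k I) ⟶ LC.of (GS k (Unit ⊕ I))) (beta h I ≫ alpha h I) := by
  rw [beta, alpha, ofCompact_comp, map]
  refine homotopic_ofCompact (X := LC.of (GS k I)) (Y := LC.of (GS k (Unit ⊕ I))) _ _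
    (fun p => mk (Pt p.1 p.2) (vt p.1 p.2) (isProj_Pt h _ _) (Pt_mulVec _ _) (nsq_vt _ _))
    (continuous_mk continuous_Pt continuous_vt _ _ _) ?_ ?_
  · intro x
    apply GS.ext
    · simp only [mk_P, mapFun_P, injMat_inr_conj, Pt, Bt, vt_zero]
      ext (i | i) (j | j) <;> simp [vecMulVec_apply]
    · simp only [mk_v, mapFun_v, injMat_inr_mulVec, vt_zero]
  · intro x
    apply GS.ext
    · simp only [mk_P, Function.comp, alphaFun_P, betaFun_P, Pt, Bt, vt_one]
      ext (i | i) (j | j) <;> simp [vecMulVec_apply]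
    · simp only [mk_v, Function.comp, alphaFun_v, vt_one]

end

end alphabeta

end GS

end Vale.Agent.P251.G
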