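import Vale.Agent.P251.G.GrSph

/-!
# P251, part G/M4a: the sphere bundle of the tautological bundle: projection and connecting map

* `GS.p : GS n I ⟶ Gr n I`, `GS.z : Gr n I ⟶ Th n I` (zero section),
  `GS.c : Th n I ⟶ GS n I ⊗ ℝ` (from the polar square), natural for isometries.
-/

set_option linter.unusedSectionVars false

open CategoryTheory MonoidalCategory Filter Topology OnePoint Matrix

noncomputable section

namespace Vale.Agent.P251.G

open LC

variable {I J K L : Type} [Fintype I] [Fintype J] [Fintype K] [Fintype L] {n m k l : ℕ}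

namespace GS

/-- `Th n I` is the total space of the tautological bundle, in `LC` -/
def toTh (n : ℕ) (I : Type) [Fintype I] : (taut n I).tot ≅ LC.of (Th n I) :=
  LC.ofHomeo (X := (taut n I).tot) (Y := LC.of (Th n I)) (tautHomeo n I)

/-- the projection of the sphere bundle -/
def p (n : ℕ) (I : Type) [Fintype I] : LC.of (GS n I) ⟶ LC.of (Gr n I) := (taut n I).sphHom

/-- the zero section -/
def z (n : ℕ) (I : Type) [Fintype I] : LC.of (Gr n I) ⟶ LC.of (Th n I) :=
  (taut n I).zeroHom ≫ (toTh n I).hom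

/-- the connecting map of the polar square -/
def c (n : ℕ) (I : Type) [Fintype I] : LC.of (Th n I) ⟶ LC.of (GS n I) ⊗ RR :=
  (toTh n I).inv ≫ (taut n I).polarConn

/-- the base point -/
def base (s : GS n I) : Gr n I := Bun.Sph.base s

@[simp] theorem base_P (s : GS n I) : (base s).P = s.P := rfl

@[simp] theorem app_p_coe (s : GS n I) :
    app (p n I) (s : OnePoint (GS n I)) = (base s : OnePoint (Gr n I)) := rfl

@[simp] theorem app_z_coe (x : Gr n I) :
    app (z n I) (x : OnePoint (Gr n I)) = (x.zero : OnePoint (Th n I)) := rfl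

section

variable [DecidableEq I] [DecidableEq J]

/-- the bundle map given by an isometry -/
def bmap (n : ℕ) (u : Matrix J I ℂ) (hu : uᴴ * u = 1) : BMap (taut n I) (taut n J) :=
  BMap.ofIsometry (taut n I) (taut n J) ⟨gmapFun u hu, continuous_gmapFun u hu⟩
    (fun x => u * x.P) (continuous_const.matrix_mul Gr.continuous_P)
    (fun x => by
      rw [conjTranspose_mul, x.isProj.herm, Matrix.mul_assoc, ← Matrix.mul_assoc uᴴ, hu,
        Matrix.one_mul, x.isProj.idem]
      rfl)
    (fun x => by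
      show u * x.P * uᴴ * (u * x.P) = u * x.P
      rw [Matrix.mul_assoc, ← Matrix.mul_assoc uᴴ, hu, Matrix.one_mul, Matrix.mul_assoc,
        x.isProj.idem])

theorem bmap_isIsom (u : Matrix J I ℂ) (hu : uᴴ * u = 1) : (bmap n u hu).IsIsom :=
  BMap.isIsom_ofIsometry _ _ _ _ _ _ _

theorem bmap_sphMor (u : Matrix J I ℂ) (hu : uᴴ * u = 1) :
    (bmap n u hu).sphMor (bmap_isIsom u hu) (bmap n u hu).tendsto_f_of_compact = map u hu := by
  apply LC.hom_ext; intro (s : GS n I)
  rw [BMap.app_sphMor_coe, map, app_ofCompact_coe]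
  congr 1
  refine GS.ext rfl ?_
  show (u * s.P) *ᵥ s.v = u *ᵥ s.v
  rw [← mulVec_mulVec]
  congr 1
  exact s.P_mulVec

theorem bmap_baseHom (u : Matrix J I ℂ) (hu : uᴴ * u = 1) :
    (bmap n u hu).baseHom (bmap n u hu).tendsto_f_of_compact = gmap u hu := by
  apply LC.hom_ext; intro s
  rfl

theorem bmap_toHom (u : Matrix J I ℂ) (hu : uᴴ * u = 1) :
    (bmap n u hu).toHom (bmap n u hu).tendsto_f_of_compact ≫ (toTh n J).hom =
      (toTh n I).hom ≫ Th.map u hu := by
  apply LC.hom_ext; intro s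
  rw [app_comp, app_comp, BMap.app_toHom_coe]
  show (((tautHomeo n J) ((bmap n u hu).toFun s) : Th n J) : OnePoint (Th n J)) =
    (Th.mapFun u hu (tautHomeo n I s) : OnePoint (Th n J))
  congr 1
  apply Th.ext
  · rfl
  · show (u * (Bun.base s).P) *ᵥ (Bun.vec s) = u *ᵥ (Bun.vec s)
    rw [← mulVec_mulVec]
    congr 1
    exact Bun.P_vec s

/-- naturality of the projection -/
@[reassoc]
theorem map_p (u : Matrix J I ℂ) (hu : uᴴ * u = 1) : map u hu ≫ p n J = p n I ≫ gmap u hu := by
  rw [← bmap_sphMor, ← bmap_baseHom]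
  exact BMap.sphMor_sphHom _ _ _

/-- naturality of the zero section -/
@[reassoc]
theorem z_map (u : Matrix J I ℂ) (hu : uᴴ * u = 1) :
    z n I ≫ Th.map u hu = gmap u hu ≫ z n J := by
  rw [z, z, Category.assoc, ← bmap_toHom, ← Category.assoc, ← Category.assoc, ← bmap_baseHom]
  congr 1
  exact BMap.zeroHom_toHom _ _

/-- naturality of the connecting map -/
@[reassoc]
theorem map_c (u : Matrix J I ℂ) (hu : uᴴ * u = 1) :
    Th.map u hu ≫ c n J = c n I ≫ (map u hu ▷ RR) := by
  rw [c, c, Category.assoc, ← bmap_sphMor, ← BMap.toHom_polarConn, ← Category.assoc,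
    ← Category.assoc]
  congr 1
  rw [← cancel_epi (toTh n I).hom, ← Category.assoc, ← bmap_toHom]
  simp

end

/-! ### Direct sums -/

/-- direct sum of points -/
def gsumFun (h : n + m = k) (x : Gr n I) (y : Gr m J) : Gr k (I ⊕ J) :=
  ⟨Matrix.fromBlocks x.P 0 0 y.P, h ▸ IsProj.fromBlocks x.isProj y.isProj⟩

@[simp] theorem gsumFun_P (h : n + m = k) (x : Gr n I) (y : Gr m J) :
    (gsumFun h x y).P = Matrix.fromBlocks x.P 0 0 y.P := rfl

theorem continuous_gsumFun (h : n + m = k) :
    Continuous fun p : Gr n I × Gr m J => gsumFun h p.1 p.2 := by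
  refine Continuous.subtype_mk ?_ _
  exact (Gr.continuous_P.comp continuous_fst).matrix_fromBlocks continuous_const
      continuous_const (Gr.continuous_P.comp continuous_snd)

/-- the direct sum map of Grassmannians -/
def gsum (h : n + m = k) : LC.of (Gr n I) ⊗ LC.of (Gr m J) ⟶ LC.of (Gr k (I ⊕ J)) :=
  LC.ofCompact (X := LC.of (Gr n I × Gr m J)) (Y := LC.of (Gr k (I ⊕ J)))
    (fun p => gsumFun h p.1 p.2) (continuous_gsumFun h)

@[simp] theorem app_gsum_smash (h : n + m = k) (x : Gr n I) (y : Gr m J) :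
    app (gsum h) (smash (x : OnePoint (Gr n I)) (y : OnePoint (Gr m J))) =
      (gsumFun h x y : OnePoint (Gr k (I ⊕ J))) := rfl

/-- the zero section is multiplicative -/
theorem z_sum (h : n + m = k) :
    (z n I ⊗ₘ z m J) ≫ Th.sum h = gsum h ≫ z k (I ⊕ J) := by
  apply tensor_ext
  intro x y
  rw [app_comp, app_tensorHom_smash, app_z_coe, app_z_coe, Th.app_sum_smash, app_comp,
    app_gsum_smash, app_z_coe]
  congr 1
  apply Th.ext
  · rfl
  · show Sum.elim (0 : I → ℂ) (0 : J → ℂ) = 0
    funext i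
    rcases i with i | i <;> rfl

/-- the point `ℂ` of `Gr 1 Unit` -/
def pt1 : 𝟙_ LC ⟶ LC.of (Gr 1 Unit) :=
  LC.point (X := LC.of (Gr 1 Unit)) ⟨1, by simpa using IsProj.one (I := Unit)⟩

/-- `p` after `alpha` is the sum with a line -/
theorem alpha_p (h : n + 1 = k) (h' : 1 + n = k) :
    alpha h I ≫ p k (Unit ⊕ I) = (λ_ (LC.of (Gr n I))).inv ≫ (pt1 ▷ LC.of (Gr n I)) ≫
      gsum h' := by
  rw [Iso.eq_inv_comp]
  apply tensor_ext
  rintro ⟨⟩ x
  rw [app_comp, app_leftUnitor_smash, app_comp, app_comp, app_whiskerRight_smash]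
  rfl

end GS

end Vale.Agent.P251.G
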