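import Vale.Agent.P251.G.GrSphH

/-!
# P251, part G/M4a: Grassmannians, Thom spaces and sphere bundles in the homotopy category

Cast free, in the style of `G/ThJ.lean`:
* `Grh n I`, `Grh.j`, `Grh.mu`, `Grh.unit`, `Grh.aug`, `Grh.pt`, zero section `Grh.z`;
* `GSh n I`, `GSh.j`, `GSh.p`, `GSh.c`, `GSh.alpha`, `GSh.beta`.
-/

set_option linter.unusedSectionVars false

open CategoryTheory MonoidalCategory Filter Topology OnePoint Matrix

noncomputable section

namespace Vale.Agent.P251.G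

open LC

variable {I J K L : Type} [Fintype I] [Fintype J] [Fintype K] [Fintype L] {n m k l : ℕ}
variable [DecidableEq I] [DecidableEq J] [DecidableEq K] [DecidableEq L]

/-! ### The Grassmannians in `LC` -/

namespace GS

theorem gmap_congr {u u' : Matrix J I ℂ} (h : u = u') (hu : uᴴ * u = 1) (hu' : u'ᴴ * u' = 1) :
    (gmap u hu : LC.of (Gr n I) ⟶ LC.of (Gr n J)) = gmap u' hu' := by
  subst h; rfl

theorem app_gmap_coe (u : Matrix J I ℂ) (hu : uᴴ * u = 1) (x : Gr n I) :
    app (gmap u hu) (x : OnePoint (Gr n I)) = (gmapFun u hu x : OnePoint (Gr n J)) := rfl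

theorem gmap_one : gmap (1 : Matrix I I ℂ) isom_one = 𝟙 (LC.of (Gr n I)) := by
  apply LC.hom_ext; intro x
  rw [app_gmap_coe, app_id]
  congr 1
  exact Gr.ext (by simp)

theorem gmap_comp (u : Matrix J I ℂ) (hu : uᴴ * u = 1) (w : Matrix K J ℂ) (hw : wᴴ * w = 1) :
    gmap (n := n) u hu ≫ gmap w hw = gmap (w * u) (isom_mul hw hu) := by
  apply LC.hom_ext; intro x
  rw [app_comp, app_gmap_coe, app_gmap_coe, app_gmap_coe]
  congr 1
  exact Gr.ext (by simp [Matrix.mul_assoc, conjTranspose_mul])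

theorem gmap_homotopic (u : unitInterval → Matrix J I ℂ) (hc : Continuous u)
    (hu : ∀ t, (u t)ᴴ * u t = 1) :
    Homotopic (gmap (n := n) (u 0) (hu 0)) (gmap (u 1) (hu 1)) := by
  refine homotopic_ofCompact (X := LC.of (Gr n I)) (Y := LC.of (Gr n J)) _ _
    (fun p => gmapFun (u p.2) (hu p.2) p.1) ?_ (fun _ => rfl) (fun _ => rfl)
  refine Continuous.subtype_mk ?_ _
  exact ((hc.comp continuous_snd).matrix_mul (Gr.continuous_P.comp continuous_fst)).matrix_mul
      (hc.comp continuous_snd).matrix_conjTranspose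

theorem gmap_homotopic_gmap (u₀ u₁ : Matrix J I ℂ) (h₀ : u₀ᴴ * u₀ = 1) (h₁ : u₁ᴴ * u₁ = 1) :
    Homotopic (gmap (n := n) u₀ h₀) (gmap u₁ h₁) := by
  obtain ⟨u, hc, hu, rfl, rfl⟩ := exists_isom_path u₀ u₁ h₀ h₁
  exact gmap_homotopic u hc hu

/-- the direct sum is natural for isometries -/
theorem gsum_naturality (h : n + m = k) (u : Matrix K I ℂ) (hu : uᴴ * u = 1)
    (w : Matrix L J ℂ) (hw : wᴴ * w = 1) :
    (gmap u hu ⊗ₘ gmap w hw) ≫ gsum h = gsum h ≫ gmap (Matrix.fromBlocks u 0 0 w)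
      (isom_fromBlocks hu hw) := by
  apply tensor_ext
  intro x y
  rw [app_comp, app_tensorHom_smash, app_gmap_coe, app_gmap_coe, app_gsum_smash, app_comp,
    app_gsum_smash, app_gmap_coe]
  congr 1
  apply Gr.ext
  simp [fromBlocks_multiply, fromBlocks_conjTranspose]

/-- associativity of the direct sum -/
theorem gsum_assoc {a b c ab bc abc : ℕ} (h1 : a + b = ab) (h2 : ab + c = abc) (h3 : b + c = bc)
    (h4 : a + bc = abc) :
    (gsum h1 ▷ LC.of (Gr c K)) ≫ gsum h2 ≫ gmap (injMat (Equiv.sumAssoc I J K))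
      (injMat_isom (Equiv.sumAssoc I J K).injective) =
      (α_ (LC.of (Gr a I)) (LC.of (Gr b J)) (LC.of (Gr c K))).hom ≫
        (LC.of (Gr a I) ◁ gsum h3) ≫ gsum h4 := by
  apply tensor_ext₃
  intro x y z
  rw [app_comp, app_whiskerRight_smash, app_gsum_smash, app_comp, app_gsum_smash, app_comp,
    app_associator_smash, app_comp, app_whiskerLeft_smash, app_gsum_smash, app_gsum_smash,
    app_gmap_coe]
  congr 1
  apply Gr.ext
  rw [gmapFun_P, injMat_equiv_conj]
  ext (i | i | i) (j | j | j) <;> rfl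

/-- commutativity of the direct sum -/
theorem gsum_comm (h : n + m = k) (h' : m + n = k) :
    gsum h ≫ gmap (injMat (Equiv.sumComm I J)) (injMat_isom (Equiv.sumComm I J).injective) =
      (β_ (LC.of (Gr n I)) (LC.of (Gr m J))).hom ≫ gsum h' := by
  apply tensor_ext
  intro x y
  rw [app_comp, app_gsum_smash, app_comp, app_braiding_smash, app_gsum_smash, app_gmap_coe]
  congr 1
  apply Gr.ext
  rw [gmapFun_P, injMat_equiv_conj]
  ext (i | i) (j | j) <;> rfl

/-- the point of `Gr 0 I` -/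
def gzeroPt (I : Type) [Fintype I] : Gr 0 I := ⟨0, IsProj.zero⟩

/-- `𝟙 ⟶ Gr 0 I` -/
def gunit (I : Type) [Fintype I] : 𝟙_ LC ⟶ LC.of (Gr 0 I) :=
  point (X := LC.of (Gr 0 I)) (gzeroPt I)

theorem app_gunit (I : Type) [Fintype I] :
    app (gunit I) ((() : Unit) : OnePoint Unit) = (gzeroPt I : OnePoint (Gr 0 I)) := rfl

theorem gunit_gmap (u : Matrix J I ℂ) (hu : uᴴ * u = 1) : gunit I ≫ gmap u hu = gunit J := by
  apply LC.hom_ext; rintro ⟨⟩
  rw [app_comp, app_gunit, app_gmap_coe, app_gunit]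
  congr 1
  apply Gr.ext
  show u * (0 : Matrix I I ℂ) * uᴴ = 0
  simp

theorem gunit_z (I : Type) [Fintype I] : gunit I ≫ z 0 I = Th.unit I := by
  apply LC.hom_ext; rintro ⟨⟩
  rfl

/-- left unit of the direct sum -/
theorem gunit_gsum (h : 0 + n = n) :
    (gunit I ▷ LC.of (Gr n J)) ≫ gsum h =
      (λ_ (LC.of (Gr n J))).hom ≫ gmap (injMat (Sum.inr : J → I ⊕ J))
        (injMat_isom Sum.inr_injective) := by
  apply tensor_ext
  rintro ⟨⟩ y
  rw [app_comp, app_whiskerRight_smash, app_gunit, app_gsum_smash, app_comp,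
    app_leftUnitor_smash]
  rw [app_gmap_coe]
  congr 1
  apply Gr.ext
  exact (injMat_inr_conj _).symm

/-- right unit of the direct sum -/
theorem gsum_gunit (h : n + 0 = n) :
    (LC.of (Gr n I) ◁ gunit J) ≫ gsum h =
      (ρ_ (LC.of (Gr n I))).hom ≫ gmap (injMat (Sum.inl : I → I ⊕ J))
        (injMat_isom Sum.inl_injective) := by
  apply tensor_ext
  rintro x ⟨⟩
  rw [app_comp, app_whiskerLeft_smash, app_gunit, app_gsum_smash, app_comp,
    app_rightUnitor_smash]
  rw [app_gmap_coe]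
  congr 1
  apply Gr.ext
  exact (injMat_inl_conj _).symm

/-- the augmentation `Gr n I ⟶ 𝟙` -/
def gaug (n : ℕ) (I : Type) [Fintype I] : LC.of (Gr n I) ⟶ 𝟙_ LC :=
  ofCompact (X := LC.of (Gr n I)) (Y := LC.of Unit) (fun _ => ()) continuous_const

theorem gmap_gaug (u : Matrix J I ℂ) (hu : uᴴ * u = 1) : gmap u hu ≫ gaug n J = gaug n I := by
  apply LC.hom_ext; intro x
  rfl

theorem gsum_gaug (h : n + m = k) :
    gsum h ≫ gaug k (I ⊕ J) = (gaug n I ⊗ₘ gaug m J) ≫ (λ_ (𝟙_ LC)).hom := by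
  apply tensor_ext
  intro x y
  rfl

theorem gunit_gaug (I : Type) [Fintype I] : gunit I ≫ gaug 0 I = 𝟙 _ := by
  apply LC.hom_ext; rintro ⟨⟩
  rfl

omit [DecidableEq I] in
/-- a projection of rank `0` is zero -/
theorem eq_zero_of_isProj {P : Matrix I I ℂ} (h : IsProj 0 P) : P = 0 := by
  have h1 : ∑ i : I, nsq (fun j => P i j) = 0 := by
    have h2 : ∑ i : I, P i i = ((0 : ℕ) : ℂ) := h.trace
    rw [Finset.sum_congr rfl fun i _ => h.diag_eq i] at h2
    exact_mod_cast h2
  have h3 := (Finset.sum_eq_zero_iff_of_nonneg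
    fun (i : I) _ => nsq_nonneg (fun j => P i j)).mp h1
  ext i j
  exact congrFun (nsq_eq_zero.mp (h3 i (Finset.mem_univ i))) j

/-- `Gr 0 I` is a point -/
theorem gaug_gunit (I : Type) [Fintype I] : gaug 0 I ≫ gunit I = 𝟙 _ := by
  apply LC.hom_ext; intro x
  rw [app_comp, app_id]
  show ((gzeroPt I : Gr 0 I) : OnePoint (Gr 0 I)) = x
  congr 1
  apply Gr.ext
  exact (eq_zero_of_isProj x.isProj).symm

end GS

/-! ### The Grassmannians in the homotopy category -/

/-- the object `Gr n I` of the homotopy category -/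
abbrev Grh (n : ℕ) (I : Type) [Fintype I] : HLC := HLC.proj.obj (LC.of (Gr n I))

/-- the object `GS n I` of the homotopy category -/
abbrev GSh (n : ℕ) (I : Type) [Fintype I] : HLC := HLC.proj.obj (LC.of (GS n I))

namespace Grh

/-- the canonical map `Gr n I ⟶ Gr n J` in the homotopy category -/
def j (n : ℕ) (h : Fintype.card I ≤ Fintype.card J) : Grh n I ⟶ Grh n J :=
  HLC.proj.map (GS.gmap (chosenIsom h) (chosenIsom_spec h))

/-- every isometry induces the canonical map -/
theorem proj_map_eq (u : Matrix J I ℂ) (hu : uᴴ * u = 1)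
    (h : Fintype.card I ≤ Fintype.card J) :
    HLC.proj.map (GS.gmap (n := n) u hu) = j n h :=
  HLC.sound (GS.gmap_homotopic_gmap _ _ _ _)

@[simp] theorem j_refl (h : Fintype.card I ≤ Fintype.card I) : j n h = 𝟙 (Grh n I) := by
  rw [← proj_map_eq 1 isom_one, GS.gmap_one]
  rfl

@[reassoc]
theorem j_comp (h : Fintype.card I ≤ Fintype.card J) (h' : Fintype.card J ≤ Fintype.card K) :
    j n h ≫ j n h' = j n (h.trans h') := by
  rw [← proj_map_eq (chosenIsom h) (chosenIsom_spec h),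
    ← proj_map_eq (chosenIsom h') (chosenIsom_spec h'), ← Functor.map_comp, GS.gmap_comp,
    proj_map_eq]

/-- the direct sum map in the homotopy category -/
def sum (h : n + m = k) (I J : Type) [Fintype I] [Fintype J] :
    Grh n I ⊗ Grh m J ⟶ Grh k (I ⊕ J) :=
  HLC.proj.map (GS.gsum h)

/-- the product `Gr n I ⊗ Gr m J ⟶ Gr k K` in the homotopy category -/
def mu (h : n + m = k) (hc : Fintype.card I + Fintype.card J ≤ Fintype.card K) :
    Grh n I ⊗ Grh m J ⟶ Grh k K :=
  sum h I J ≫ j k (Thh.card_sum_le hc)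

/-- `mu` is the direct sum followed by any isometry -/
theorem mu_eq (h : n + m = k) (hc : Fintype.card I + Fintype.card J ≤ Fintype.card K)
    (u : Matrix K (I ⊕ J) ℂ) (hu : uᴴ * u = 1) :
    HLC.proj.map (GS.gsum h ≫ GS.gmap u hu) = mu h hc := by
  rw [Functor.map_comp, proj_map_eq u hu (Thh.card_sum_le hc)]
  rfl

theorem sum_naturality (h : n + m = k) (hI : Fintype.card I ≤ Fintype.card K)
    (hJ : Fintype.card J ≤ Fintype.card L) :
    (j n hI ⊗ₘ j m hJ) ≫ sum h K L = sum h I J ≫ j k (Thh.card_sum_le_sum hI hJ) := by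
  have h1 := congrArg HLC.proj.map (GS.gsum_naturality h (chosenIsom hI) (chosenIsom_spec hI)
    (chosenIsom hJ) (chosenIsom_spec hJ))
  rw [Functor.map_comp, Functor.map_comp, HLC.proj_tensorHom,
    proj_map_eq _ _ (Thh.card_sum_le_sum hI hJ)] at h1
  exact h1

/-- naturality of `mu` -/
@[reassoc]
theorem mu_naturality {I' J' K' : Type} [Fintype I'] [Fintype J'] [Fintype K']
    [DecidableEq I'] [DecidableEq J'] [DecidableEq K'] (h : n + m = k)
    (hI : Fintype.card I ≤ Fintype.card I') (hJ : Fintype.card J ≤ Fintype.card J')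
    (hK : Fintype.card K ≤ Fintype.card K')
    (hc : Fintype.card I + Fintype.card J ≤ Fintype.card K)
    (hc' : Fintype.card I' + Fintype.card J' ≤ Fintype.card K') :
    (j n hI ⊗ₘ j m hJ) ≫ mu h hc' = mu h hc ≫ j k hK := by
  rw [mu, mu, ← Category.assoc, sum_naturality, Category.assoc, Category.assoc, j_comp, j_comp]

@[reassoc]
theorem mu_j (h : n + m = k) (hK : Fintype.card K ≤ Fintype.card L)
    (hc : Fintype.card I + Fintype.card J ≤ Fintype.card K) :
    mu h hc ≫ j k hK = mu h (hc.trans hK) := by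
  rw [mu, mu, Category.assoc, j_comp]

/-- commutativity -/
@[reassoc]
theorem mu_comm (h : n + m = k) (h' : m + n = k)
    (hc : Fintype.card I + Fintype.card J ≤ Fintype.card K)
    (hc' : Fintype.card J + Fintype.card I ≤ Fintype.card K) :
    (β_ (Grh n I) (Grh m J)).hom ≫ mu h' hc' = mu h hc := by
  have h1 := congrArg HLC.proj.map (GS.gsum_comm (I := I) (J := J) h h')
  rw [Functor.map_comp, Functor.map_comp] at h1
  have h2 : HLC.proj.map (GS.gmap (n := k) (injMat (Equiv.sumComm I J))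
      (injMat_isom (Equiv.sumComm I J).injective)) =
      j k (by simp only [Fintype.card_sum]; omega) := proj_map_eq _ _ _
  rw [h2] at h1
  have h3 : (β_ (Grh n I) (Grh m J)).hom ≫ sum h' J I =
      sum h I J ≫ j k (by simp only [Fintype.card_sum]; omega) := h1.symm
  rw [mu, mu, ← Category.assoc, h3, Category.assoc, j_comp]

/-- associativity -/
theorem mu_assoc {a b c ab bc abc : ℕ} {A B : Type} [Fintype A] [Fintype B]
    [DecidableEq A] [DecidableEq B]
    (h1 : a + b = ab) (h2 : ab + c = abc) (h3 : b + c = bc)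
    (h4 : a + bc = abc) (c1 : Fintype.card I + Fintype.card J ≤ Fintype.card A)
    (c2 : Fintype.card A + Fintype.card K ≤ Fintype.card L)
    (c3 : Fintype.card J + Fintype.card K ≤ Fintype.card B)
    (c4 : Fintype.card I + Fintype.card B ≤ Fintype.card L) :
    (mu h1 c1 ▷ Grh c K) ≫ mu h2 c2 =
      (α_ (Grh a I) (Grh b J) (Grh c K)).hom ≫ (Grh a I ◁ mu h3 c3) ≫ mu h4 c4 := by
  have e1 := congrArg HLC.proj.map (GS.gsum_assoc (I := I) (J := J) (K := K) h1 h2 h3 h4)
  simp only [Functor.map_comp] at e1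
  have e2 : HLC.proj.map (GS.gmap (n := abc) (injMat (Equiv.sumAssoc I J K))
      (injMat_isom (Equiv.sumAssoc I J K).injective)) =
      j abc (by simp only [Fintype.card_sum]; omega) := proj_map_eq _ _ _
  rw [e2] at e1
  have e3 : (sum h1 I J ▷ Grh c K) ≫ sum h2 (I ⊕ J) K ≫
      j abc (by simp only [Fintype.card_sum]; omega) =
      (α_ (Grh a I) (Grh b J) (Grh c K)).hom ≫ (Grh a I ◁ sum h3 J K) ≫ sum h4 I (J ⊕ K) := e1
  have e4 : (mu h1 c1 ▷ Grh c K) ≫ mu h2 c2 = (sum h1 I J ▷ Grh c K) ≫ sum h2 (I ⊕ J) K ≫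
      j abc (by simp only [Fintype.card_sum]; omega) := by
    have := sum_naturality (n := ab) (m := c) h2 (Thh.card_sum_le c1)
      (le_refl (Fintype.card K))
    rw [j_refl, tensorHom_id] at this
    rw [mu, mu, comp_whiskerRight, Category.assoc, ← Category.assoc (_ ▷ _) (sum h2 A K), this,
      Category.assoc, j_comp]
  have e5 : (Grh a I ◁ mu h3 c3) ≫ mu h4 c4 = (Grh a I ◁ sum h3 J K) ≫ sum h4 I (J ⊕ K) ≫
      j abc (by simp only [Fintype.card_sum]; omega) := by
    have := sum_naturality (n := a) (m := bc) h4 (le_refl (Fintype.card I))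
      (Thh.card_sum_le c3)
    rw [j_refl, id_tensorHom] at this
    rw [mu, mu, whiskerLeft_comp, Category.assoc, ← Category.assoc (_ ◁ _) (sum h4 I B), this,
      Category.assoc, j_comp]
  rw [e4, e5]
  have e6 := congrArg (fun f => f ≫ j abc (J := L) (by simp only [Fintype.card_sum]; omega)) e3
  simp only [Category.assoc, j_comp] at e6
  exact e6

/-- the unit `𝟙 ⟶ Gr 0 I` -/
def unit (I : Type) [Fintype I] : 𝟙_ HLC ⟶ Grh 0 I := HLC.proj.map (GS.gunit I)

@[reassoc (attr := simp)]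
theorem unit_j (h : Fintype.card I ≤ Fintype.card J) : unit I ≫ j 0 h = unit J := by
  rw [← proj_map_eq (chosenIsom h) (chosenIsom_spec h)]
  exact congrArg HLC.proj.map (GS.gunit_gmap (chosenIsom h) (chosenIsom_spec h))

/-- left unit -/
@[reassoc]
theorem unit_mu (h : 0 + n = n) (hc : Fintype.card I + Fintype.card J ≤ Fintype.card K) :
    (unit I ▷ Grh n J) ≫ mu h hc = (λ_ (Grh n J)).hom ≫ j n (by omega) := by
  have e1 := congrArg HLC.proj.map (GS.gunit_gsum (I := I) (J := J) h)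
  rw [Functor.map_comp, Functor.map_comp] at e1
  have e2 : HLC.proj.map (GS.gmap (n := n) (injMat (Sum.inr : J → I ⊕ J))
      (injMat_isom Sum.inr_injective)) =
    j n (by simp only [Fintype.card_sum]; omega) := proj_map_eq _ _ _
  rw [e2] at e1
  have e3 : (unit I ▷ Grh n J) ≫ sum h I J = (λ_ (Grh n J)).hom ≫
    j n (by simp only [Fintype.card_sum]; omega) := e1
  rw [mu, ← Category.assoc, e3, Category.assoc, j_comp]

/-- right unit -/
@[reassoc]
theorem mu_unit (h : n + 0 = n) (hc : Fintype.card I + Fintype.card J ≤ Fintype.card K) :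
    (Grh n I ◁ unit J) ≫ mu h hc = (ρ_ (Grh n I)).hom ≫ j n (by omega) := by
  have e1 := congrArg HLC.proj.map (GS.gsum_gunit (I := I) (J := J) h)
  rw [Functor.map_comp, Functor.map_comp] at e1
  have e2 : HLC.proj.map (GS.gmap (n := n) (injMat (Sum.inl : I → I ⊕ J))
      (injMat_isom Sum.inl_injective)) =
    j n (by simp only [Fintype.card_sum]; omega) := proj_map_eq _ _ _
  rw [e2] at e1
  have e3 : (Grh n I ◁ unit J) ≫ sum h I J = (ρ_ (Grh n I)).hom ≫
    j n (by simp only [Fintype.card_sum]; omega) := e1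
  rw [mu, ← Category.assoc, e3, Category.assoc, j_comp]

/-- the augmentation -/
def aug (n : ℕ) (I : Type) [Fintype I] : Grh n I ⟶ 𝟙_ HLC := HLC.proj.map (GS.gaug n I)

@[reassoc (attr := simp)]
theorem j_aug (h : Fintype.card I ≤ Fintype.card J) : j n h ≫ aug n J = aug n I := by
  rw [← proj_map_eq (chosenIsom h) (chosenIsom_spec h)]
  exact congrArg HLC.proj.map (GS.gmap_gaug (chosenIsom h) (chosenIsom_spec h))

@[reassoc]
theorem mu_aug (h : n + m = k) (hc : Fintype.card I + Fintype.card J ≤ Fintype.card K) :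
    mu h hc ≫ aug k K = (aug n I ⊗ₘ aug m J) ≫ (λ_ (𝟙_ HLC)).hom := by
  rw [mu, Category.assoc, j_aug]
  exact congrArg HLC.proj.map (GS.gsum_gaug (I := I) (J := J) h)

@[reassoc (attr := simp)]
theorem unit_aug (I : Type) [Fintype I] : unit I ≫ aug 0 I = 𝟙 _ :=
  congrArg HLC.proj.map (GS.gunit_gaug I)

@[reassoc (attr := simp)]
theorem aug_unit (I : Type) [Fintype I] : aug 0 I ≫ unit I = 𝟙 _ :=
  congrArg HLC.proj.map (GS.gaug_gunit I)

/-- `Gr 0 I` is the unit -/
def zeroIso (I : Type) [Fintype I] : Grh 0 I ≅ 𝟙_ HLC := ⟨aug 0 I, unit I, aug_unit I, unit_aug I⟩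

/-- the point `ℂ` of `Gr 1 Unit` -/
def pt : 𝟙_ HLC ⟶ Grh 1 Unit := HLC.proj.map GS.pt1

/-- the zero section -/
def z (n : ℕ) (I : Type) [Fintype I] : Grh n I ⟶ Thh n I := HLC.proj.map (GS.z n I)

@[reassoc]
theorem z_j (h : Fintype.card I ≤ Fintype.card J) : z n I ≫ Thh.j n h = j n h ≫ z n J :=
  congrArg HLC.proj.map (GS.z_map (chosenIsom h) (chosenIsom_spec h))

@[reassoc]
theorem z_mu (h : n + m = k) (hc : Fintype.card I + Fintype.card J ≤ Fintype.card K) :
    (z n I ⊗ₘ z m J) ≫ Thh.mu h hc = mu h hc ≫ z k K := by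
  have e1 : (z n I ⊗ₘ z m J) ≫ Thh.sum h I J = sum h I J ≫ z k (I ⊕ J) :=
    congrArg HLC.proj.map (GS.z_sum (I := I) (J := J) h)
  rw [mu, Thh.mu, ← Category.assoc, e1, Category.assoc, Category.assoc, z_j]

@[reassoc (attr := simp)]
theorem unit_z (I : Type) [Fintype I] : unit I ≫ z 0 I = Thh.unit I :=
  congrArg HLC.proj.map (GS.gunit_z I)

end Grh

/-! ### The sphere bundles in the homotopy category -/

namespace GSh

/-- the canonical map `GS n I ⟶ GS n J` in the homotopy category -/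
def j (n : ℕ) (h : Fintype.card I ≤ Fintype.card J) : GSh n I ⟶ GSh n J :=
  HLC.proj.map (GS.map (chosenIsom h) (chosenIsom_spec h))

/-- every isometry induces the canonical map -/
theorem proj_map_eq (u : Matrix J I ℂ) (hu : uᴴ * u = 1)
    (h : Fintype.card I ≤ Fintype.card J) :
    HLC.proj.map (GS.map (n := n) u hu) = j n h :=
  HLC.sound (GS.map_homotopic_map _ _ _ _)

@[simp] theorem j_refl (h : Fintype.card I ≤ Fintype.card I) : j n h = 𝟙 (GSh n I) := by
  rw [← proj_map_eq 1 isom_one, GS.map_one]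
  rfl

@[reassoc]
theorem j_comp (h : Fintype.card I ≤ Fintype.card J) (h' : Fintype.card J ≤ Fintype.card K) :
    j n h ≫ j n h' = j n (h.trans h') := by
  rw [← proj_map_eq (chosenIsom h) (chosenIsom_spec h),
    ← proj_map_eq (chosenIsom h') (chosenIsom_spec h'), ← Functor.map_comp, GS.map_comp,
    proj_map_eq]

/-- the projection -/
def p (n : ℕ) (I : Type) [Fintype I] : GSh n I ⟶ Grh n I := HLC.proj.map (GS.p n I)

@[reassoc]
theorem j_p (h : Fintype.card I ≤ Fintype.card J) : j n h ≫ p n J = p n I ≫ Grh.j n h :=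
  congrArg HLC.proj.map (GS.map_p (chosenIsom h) (chosenIsom_spec h))

/-- the connecting map -/
def c (n : ℕ) (I : Type) [Fintype I] : Thh n I ⟶ GSh n I ⊗ HLC.proj.obj RR :=
  HLC.proj.map (GS.c n I)

@[reassoc]
theorem j_c (h : Fintype.card I ≤ Fintype.card J) :
    Thh.j n h ≫ c n J = c n I ≫ (j n h ▷ HLC.proj.obj RR) :=
  congrArg HLC.proj.map (GS.map_c (chosenIsom h) (chosenIsom_spec h))

/-- `P ↦ (1 ⊕ P, e)` -/
def alpha (h : n + 1 = k) (hc : Fintype.card I + 1 ≤ Fintype.card K) : Grh n I ⟶ GSh k K :=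
  HLC.proj.map (GS.alpha h I) ≫ j k (by simpa [add_comm] using hc)

/-- `(P, v) ↦ P - v vᴴ` -/
def beta (h : n + 1 = k) (I : Type) [Fintype I] : GSh k I ⟶ Grh n I :=
  HLC.proj.map (GS.beta h I)

@[reassoc]
theorem alpha_j (h : n + 1 = k) (hc : Fintype.card I + 1 ≤ Fintype.card K)
    (hK : Fintype.card K ≤ Fintype.card L) :
    alpha h hc ≫ j k hK = alpha h (hc.trans hK) := by
  rw [alpha, alpha, Category.assoc, j_comp]

@[reassoc]
theorem j_alpha (h : n + 1 = k) (hI : Fintype.card I ≤ Fintype.card J)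
    (hc : Fintype.card J + 1 ≤ Fintype.card K) :
    Grh.j n hI ≫ alpha h hc = alpha h (by omega) := by
  have h1 := congrArg HLC.proj.map
    (GS.map_alpha (n := n) (k := k) h (chosenIsom hI) (chosenIsom_spec hI))
  rw [Functor.map_comp, Functor.map_comp, proj_map_eq _ _ (by simpa using hI)] at h1
  have h2 : Grh.j n hI ≫ HLC.proj.map (GS.alpha h J) =
      HLC.proj.map (GS.alpha h I) ≫ j k (by simpa using hI) := h1
  rw [alpha, alpha, ← Category.assoc, h2, Category.assoc, j_comp]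

@[reassoc]
theorem j_beta (h : n + 1 = k) (hI : Fintype.card I ≤ Fintype.card J) :
    j k hI ≫ beta h J = beta h I ≫ Grh.j n hI :=
  congrArg HLC.proj.map (GS.map_beta h (chosenIsom hI) (chosenIsom_spec hI))

@[reassoc]
theorem alpha_beta (h : n + 1 = k) (hc : Fintype.card I + 1 ≤ Fintype.card K) :
    alpha h hc ≫ beta h K = Grh.j n (by omega) := by
  have h1 := congrArg HLC.proj.map (GS.alpha_beta (I := I) h)
  rw [Functor.map_comp, Grh.proj_map_eq _ _ (by simp)] at h1
  have h2 : HLC.proj.map (GS.alpha h I) ≫ beta h (Unit ⊕ I) = Grh.j n (by simp) := h1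
  rw [alpha, Category.assoc, j_beta, ← Category.assoc, h2, Grh.j_comp]

@[reassoc]
theorem beta_alpha (h : n + 1 = k) (hc : Fintype.card I + 1 ≤ Fintype.card K) :
    beta h I ≫ alpha h hc = j k (by omega) := by
  have h1 := HLC.sound (GS.beta_alpha (I := I) h)
  rw [Functor.map_comp, proj_map_eq _ _ (by simp)] at h1
  have h2 : beta h I ≫ HLC.proj.map (GS.alpha h I) = j k (by simp) := h1.symm
  rw [alpha, ← Category.assoc, h2, j_comp]

@[reassoc]
theorem alpha_p (h : n + 1 = k) (h' : 1 + n = k) (hc : Fintype.card I + 1 ≤ Fintype.card K) :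
    alpha h hc ≫ p k K = (λ_ (Grh n I)).inv ≫ (Grh.pt ▷ Grh n I) ≫
      Grh.mu h' (by simpa [add_comm] using hc) := by
  have h2 : HLC.proj.map (GS.alpha h I) ≫ p k (Unit ⊕ I) =
      (λ_ (Grh n I)).inv ≫ (Grh.pt ▷ Grh n I) ≫ Grh.sum h' Unit I :=
    congrArg HLC.proj.map (GS.alpha_p (I := I) h h')
  rw [alpha, Category.assoc, j_p, ← Category.assoc, h2, Grh.mu]
  simp only [Category.assoc]

end GSh

end Vale.Agent.P251.G
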