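import Vale.Agent.P251.G.LensMaps
import Vale.Agent.P251.G.Lens
import Vale.Agent.P251.G.ThMap

/-!
# P251, part G: the lens geometry in `LC`

For a line bundle `V` over a compact space:
* `lensQHom : (V.eta p).tot ⟶ ℂ`, `lensColl : (V.eta p).tot ⟶ V.Sph × ℂ^×` (collapse onto the
  complement of the zero section), `cxColl : ℂ ⟶ ℂ^×`, `lensQHom_cxColl`;
* `thetaHom : V.tot ⟶ (V.tpow p).tot`, `etaToHom`, `lensTrivHom`, `etaToHom_thetaHom`;
* `IsoMap V' V`: isometric bundle maps with constant matrix; naturality of all this;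
* for tautological bundles `taut 1 I`, `taut 1 (I ⊕ Unit)`: the homotopy `lens_homotopic`.
-/

open Matrix Filter Topology CategoryTheory MonoidalCategory OnePoint

namespace Vale.Agent.P251.G

variable {ι κ μ : Type} [Fintype ι] [Fintype κ] [Fintype μ]

namespace Bun

/-- the object `ℂ^×` of `LC` -/
noncomputable abbrev CxLC : LC := LC.of Cx

/-- the collapse `ℂ ⟶ ℂ^×` -/
noncomputable def cxColl : LC.of ℂ ⟶ CxLC :=
  LC.ofOpen (X := LC.of ℂ) (Y := CxLC) (Subtype.val : Cx → ℂ) isOpenEmbedding_Cx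

theorem app_cxColl_of_ne {c : ℂ} (hc : c ≠ 0) :
    LC.app cxColl (c : OnePoint ℂ) = ((⟨c, hc⟩ : Cx) : OnePoint Cx) :=
  LC.app_ofOpen_coe (X := LC.of ℂ) (Y := CxLC) (Subtype.val : Cx → ℂ) isOpenEmbedding_Cx ⟨c, hc⟩

theorem app_cxColl_zero : LC.app cxColl ((0 : ℂ) : OnePoint ℂ) = ∞ :=
  LC.app_ofOpen_of_notMem (X := LC.of ℂ) (Y := CxLC) (Subtype.val : Cx → ℂ) isOpenEmbedding_Cx
    (by rintro ⟨c, hc⟩; exact c.2 hc)

/-- the projection `S × Y ⟶ Y` for compact `S` -/
def sndHom (S : Type) [TopologicalSpace S] [CompactSpace S] [T2Space S] (Y : LC) :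
    LC.of S ⊗ Y ⟶ Y :=
  LC.ofProper (X := LC.of (S × Y)) (Y := Y) Prod.snd continuous_snd tendsto_snd_cocompact

@[simp] theorem app_sndHom_coe (S : Type) [TopologicalSpace S] [CompactSpace S] [T2Space S]
    (Y : LC) (s : S) (y : Y) :
    LC.app (sndHom S Y) (((s, y) : S × Y) : OnePoint (S × Y)) = (y : OnePoint Y) := rfl

/-- the inclusion `Y ⟶ S × Y` at a point of `S` -/
def ptHom {S : Type} [TopologicalSpace S] [LocallyCompactSpace S] [T2Space S] (s : S) (Y : LC) :
    Y ⟶ LC.of S ⊗ Y :=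
  LC.ofClosed (X := Y) (Y := LC.of (S × Y)) (fun y => (s, y))
    (by
      refine Topology.IsClosedEmbedding.of_continuous_injective_isClosedMap
        (continuous_const.prodMk continuous_id) (fun a b h => congrArg Prod.snd h) ?_
      intro C hC
      have : (fun y : Y => (s, y)) '' C = {s} ×ˢ C := by
        ext ⟨a, b⟩; constructor
        · rintro ⟨y, hy, h⟩; cases h; exact ⟨rfl, hy⟩
        · rintro ⟨rfl, hb⟩; exact ⟨b, hb, rfl⟩
      rw [this]
      exact isClosed_singleton.prod hC)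

@[simp] theorem app_ptHom_coe {S : Type} [TopologicalSpace S] [LocallyCompactSpace S] [T2Space S]
    (s : S) (Y : LC) (y : Y) :
    LC.app (ptHom s Y) (y : OnePoint Y) = (((s, y) : S × Y) : OnePoint (S × Y)) := rfl

section compactBase

variable {X : Type} [TopologicalSpace X] [T2Space X] [CompactSpace X] {V : Bun X ι} {p : ℕ}

/-- `q : eta ⟶ ℂ` -/
noncomputable def lensQHom (hV : V.IsRank 1) (hp : p ≠ 0) : (V.eta p).tot ⟶ LC.of ℂ :=
  LC.ofProper (X := (V.eta p).tot) (Y := LC.of ℂ) lensQ (continuous_lensQ hV hp)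
    ((V.eta p).tendsto_cocompact_of_nsq (g := fun c : ℂ => ‖c‖ ^ 2) (continuous_norm.pow 2)
      (by intro e; rw [norm_lensQ hV hp, nrm_sq]))

@[simp] theorem app_lensQHom_coe (hV : V.IsRank 1) (hp : p ≠ 0) (e : (V.eta p).E) :
    LC.app (lensQHom hV hp) (e : OnePoint (V.eta p).E) = (lensQ e : OnePoint ℂ) := rfl

/-- the collapse of `eta` onto the complement of the zero section -/
noncomputable def lensColl (hV : V.IsRank 1) (hp : p ≠ 0) : (V.eta p).tot ⟶ LC.of V.Sph ⊗ CxLC :=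
  LC.ofOpen (X := (V.eta p).tot) (Y := LC.of (V.Sph × Cx)) (lensJ p) (isOpenEmbedding_lensJ hV hp)

theorem app_lensColl_lensJ (hV : V.IsRank 1) (hp : p ≠ 0) (z : V.Sph × Cx) :
    LC.app (lensColl hV hp) (lensJ p z : OnePoint (V.eta p).E) = (z : OnePoint (V.Sph × Cx)) :=
  LC.app_ofOpen_coe (X := (V.eta p).tot) (Y := LC.of (V.Sph × Cx)) (lensJ p)
    (isOpenEmbedding_lensJ hV hp) z

theorem app_lensColl_zero (hV : V.IsRank 1) (hp : p ≠ 0) {e : (V.eta p).E} (h : vec e = 0) :
    LC.app (lensColl hV hp) (e : OnePoint (V.eta p).E) = ∞ :=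
  LC.app_ofOpen_of_notMem (X := (V.eta p).tot) (Y := LC.of (V.Sph × Cx)) (lensJ p)
    (isOpenEmbedding_lensJ hV hp) (by
      rintro ⟨z, hz⟩
      apply vec_lensJ_ne p z
      rw [hz, h])

omit [T2Space X] [CompactSpace X] in
/-- case distinction: zero vector or in the image of `lensJ` -/
theorem eq_zero_or_lensJ (hV : V.IsRank 1) (hp : p ≠ 0) (e : (V.eta p).E) :
    vec e = 0 ∨ ∃ z : V.Sph × Cx, lensJ p z = e := by
  by_cases h : vec e = 0
  · exact Or.inl h
  · exact Or.inr ⟨_, lensJ_lensJinv hV hp e h⟩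

theorem lensQHom_cxColl (hV : V.IsRank 1) (hp : p ≠ 0) :
    lensQHom hV hp ≫ cxColl = lensColl hV hp ≫ sndHom V.Sph CxLC := by
  apply LC.hom_ext
  intro e
  rw [LC.app_comp, LC.app_comp, app_lensQHom_coe]
  rcases eq_zero_or_lensJ hV hp e with h | ⟨z, rfl⟩
  · rw [(lensQ_eq_zero hV hp).mpr h, app_cxColl_zero, app_lensColl_zero hV hp h, LC.app_infty]
  · rw [lensQ_lensJ hp, app_cxColl_of_ne z.2.2, app_lensColl_lensJ]
    rfl

/-- `theta` as a morphism -/
noncomputable def thetaHom (V : Bun X ι) (hp : p ≠ 0) : V.tot ⟶ (V.tpow p).tot :=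
  LC.ofProper (X := V.tot) (Y := (V.tpow p).tot) (theta p) (continuous_theta hp)
    (V.tendsto_cocompact_of_nsq (g := fun e => nsq (vec e)) (continuous_nsq.comp continuous_vec)
      (by intro e; rw [← nrm_sq, ← nrm_sq, nrm_vec_theta hp]))

@[simp] theorem app_thetaHom_coe (V : Bun X ι) (hp : p ≠ 0) (e : V.E) :
    LC.app (thetaHom V hp) (e : OnePoint V.E) = (theta p e : OnePoint (V.tpow p).E) := rfl

/-- the bundle map `eta ⟶ V` -/
noncomputable def etaToHom (V : Bun X ι) (p : ℕ) : (V.eta p).tot ⟶ V.tot :=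
  LC.ofProper (X := (V.eta p).tot) (Y := V.tot) etaTo continuous_etaTo
    ((V.eta p).tendsto_cocompact_of_nsq (g := fun e => nsq (vec e))
      (continuous_nsq.comp continuous_vec) (by intro e; rfl))

@[simp] theorem app_etaToHom_coe (V : Bun X ι) (p : ℕ) (e : (V.eta p).E) :
    LC.app (etaToHom V p) (e : OnePoint (V.eta p).E) = (etaTo e : OnePoint V.E) := rfl

/-- the zero sections are compatible with `theta` -/
theorem zeroHom_thetaHom (V : Bun X ι) (hp : p ≠ 0) :
    V.zeroHom ≫ thetaHom V hp = (V.tpow p).zeroHom := by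
  apply LC.hom_ext
  intro x
  rw [LC.app_comp, app_zeroHom_coe, app_thetaHom_coe, app_zeroHom_coe]
  congr 1
  refine E_ext rfl ?_
  rw [vec_theta, vec_zeroSec, tp_zero hp, smul_zero, vec_zeroSec]

/-- the trivialisation of the tensor power over the lens space -/
noncomputable def lensTrivHom (V : Bun X ι) (p : ℕ) :
    LC.of (V.Lens p) ⊗ LC.of ℂ ⟶ (V.tpow p).tot :=
  LC.ofProper (X := LC.of (V.Lens p × ℂ)) (Y := (V.tpow p).tot) lensTriv continuous_lensTriv
    (by
      have h1 : Tendsto (fun z : V.Lens p × ℂ => nsq (vec (lensTriv z)))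
          (cocompact (V.Lens p × ℂ)) (cocompact ℝ) := by
        have h2 : ∀ z : V.Lens p × ℂ, nsq (vec (lensTriv z)) = ‖z.2‖ ^ 2 := by
          intro z
          rw [vec_lensTriv, nsq_smul, Sph.nsq_vec, mul_one, Complex.normSq_eq_norm_sq]
        simp only [h2]
        have h3 : Tendsto (fun c : ℂ => ‖c‖ ^ 2) (cocompact ℂ) atTop :=
          (tendsto_pow_atTop two_ne_zero).comp tendsto_norm_cocompact_atTop
        exact (h3.comp tendsto_snd_cocompact).mono_right atTop_le_cocompact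
      have hc : Continuous (fun e : (V.tpow p).E => nsq (vec e)) :=
        continuous_nsq.comp continuous_vec
      have h4 : Tendsto (lensTriv : V.Lens p × ℂ → (V.tpow p).E) (cocompact (V.Lens p × ℂ))
          (comap (fun e : (V.tpow p).E => nsq (vec e)) (cocompact ℝ)) := tendsto_comap_iff.mpr h1
      exact h4.mono_right (Filter.comap_cocompact_le hc))

@[simp] theorem app_lensTrivHom_coe (V : Bun X ι) (p : ℕ) (z : V.Lens p × ℂ) :
    LC.app (lensTrivHom V p) (z : OnePoint (V.Lens p × ℂ)) =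
      (lensTriv z : OnePoint (V.tpow p).E) := rfl

/-- `e ↦ (base e, q e)` -/
noncomputable def lensPairHom (hV : V.IsRank 1) (hp : p ≠ 0) :
    (V.eta p).tot ⟶ LC.of (V.Lens p) ⊗ LC.of ℂ :=
  LC.ofProper (X := (V.eta p).tot) (Y := LC.of (V.Lens p × ℂ)) (fun e => (base e, lensQ e))
    (continuous_base.prodMk (continuous_lensQ hV hp))
    ((V.eta p).tendsto_cocompact_of_nsq (g := fun z : V.Lens p × ℂ => ‖z.2‖ ^ 2)
      ((continuous_norm.comp continuous_snd).pow 2)
      (by intro e; rw [norm_lensQ hV hp, nrm_sq]))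

@[simp] theorem app_lensPairHom_coe (hV : V.IsRank 1) (hp : p ≠ 0) (e : (V.eta p).E) :
    LC.app (lensPairHom hV hp) (e : OnePoint (V.eta p).E) =
      (((base e, lensQ e) : V.Lens p × ℂ) : OnePoint (V.Lens p × ℂ)) := rfl

theorem lensPairHom_sndHom (hV : V.IsRank 1) (hp : p ≠ 0) :
    lensPairHom hV hp ≫ sndHom (V.Lens p) (LC.of ℂ) = lensQHom hV hp := by
  apply LC.hom_ext
  intro e
  rfl

theorem etaToHom_thetaHom (hV : V.IsRank 1) (hp : p ≠ 0) :
    etaToHom V p ≫ thetaHom V hp = lensPairHom hV hp ≫ lensTrivHom V p := by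
  apply LC.hom_ext
  intro e
  rw [LC.app_comp, LC.app_comp, app_etaToHom_coe, app_thetaHom_coe, app_lensPairHom_coe,
    app_lensTrivHom_coe, theta_etaTo hV]

end compactBase

end Bun

/-! ### Isometric bundle maps with constant matrix -/

/-- An isometric map of bundles: a map of bases and a constant isometric matrix mapping each
fibre onto a fibre. -/
structure IsoMap {X X' : Type} [TopologicalSpace X] [TopologicalSpace X'] [DecidableEq κ]
    (V' : Bun X' κ) (V : Bun X ι) where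
  /-- the map of bases -/
  f : C(X', X)
  /-- the matrix -/
  A : Matrix ι κ ℂ
  isom : Aᴴ * A = 1
  conj : ∀ x, V.P (f x) = A * V'.P x * Aᴴ

namespace IsoMap

open Bun

variable {X X' X'' : Type} [TopologicalSpace X] [TopologicalSpace X'] [TopologicalSpace X'']
  [DecidableEq κ] [DecidableEq μ] {V' : Bun X' κ} {V : Bun X ι}

theorem A_mulVec (φ : IsoMap V' V) (x : X') {v : κ → ℂ} (hv : V'.P x *ᵥ v = v) :
    V.P (φ.f x) *ᵥ (φ.A *ᵥ v) = φ.A *ᵥ v := by
  rw [φ.conj, mulVec_mulVec, Matrix.mul_assoc, φ.isom, Matrix.mul_one, ← mulVec_mulVec, hv]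

theorem nsq_A (φ : IsoMap V' V) (v : κ → ℂ) : nsq (φ.A *ᵥ v) = nsq v :=
  nsq_mulVec (by rw [φ.isom, one_mulVec])

theorem nrm_A (φ : IsoMap V' V) (v : κ → ℂ) : nrm (φ.A *ᵥ v) = nrm v := by
  unfold nrm
  rw [φ.nsq_A]

theorem conjTranspose_A_mulVec (φ : IsoMap V' V) (v : κ → ℂ) : φ.Aᴴ *ᵥ (φ.A *ᵥ v) = v := by
  rw [mulVec_mulVec, φ.isom, one_mulVec]

theorem A_injective (φ : IsoMap V' V) {v w : κ → ℂ} (h : φ.A *ᵥ v = φ.A *ᵥ w) : v = w := by
  rw [← φ.conjTranspose_A_mulVec v, h, φ.conjTranspose_A_mulVec]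

theorem star_dotProduct (φ : IsoMap V' V) (v w : κ → ℂ) :
    star (φ.A *ᵥ v) ⬝ᵥ (φ.A *ᵥ w) = star v ⬝ᵥ w := by
  rw [star_mulVec, ← dotProduct_mulVec, φ.conjTranspose_A_mulVec]

/-- the map on total spaces -/
def toFun (φ : IsoMap V' V) (e : V'.E) : V.E :=
  V.mkE (φ.f (base e)) (φ.A *ᵥ vec e) (φ.A_mulVec _ (P_vec e))

@[simp] theorem base_toFun (φ : IsoMap V' V) (e : V'.E) : base (φ.toFun e) = φ.f (base e) := rfl
@[simp] theorem vec_toFun (φ : IsoMap V' V) (e : V'.E) : vec (φ.toFun e) = φ.A *ᵥ vec e := rfl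

theorem continuous_toFun (φ : IsoMap V' V) : Continuous φ.toFun :=
  continuous_mkE (φ.f.continuous.comp continuous_base)
    (continuous_const.matrix_mulVec continuous_vec) _

/-- the map on sphere bundles -/
def sphFun (φ : IsoMap V' V) (e : V'.Sph) : V.Sph :=
  V.mkSph (φ.f e.base) (φ.A *ᵥ e.vec) (φ.A_mulVec _ e.P_vec) (by rw [φ.nsq_A, e.nsq_vec])

@[simp] theorem base_sphFun (φ : IsoMap V' V) (e : V'.Sph) :
    (φ.sphFun e).base = φ.f e.base := rfl
@[simp] theorem vec_sphFun (φ : IsoMap V' V) (e : V'.Sph) :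
    (φ.sphFun e).vec = φ.A *ᵥ e.vec := rfl

theorem continuous_sphFun (φ : IsoMap V' V) : Continuous φ.sphFun :=
  continuous_mkSph (φ.f.continuous.comp Sph.continuous_base)
    (continuous_const.matrix_mulVec Sph.continuous_vec) _ _

/-- tensor powers -/
@[simps f A] def tpow (φ : IsoMap V' V) (p : ℕ) : IsoMap (V'.tpow p) (V.tpow p) where
  f := φ.f
  A := G.tpow p φ.A
  isom := by rw [tpow_conjTranspose, ← tpow_mul, φ.isom, G.tpow_one]
  conj x := by
    rw [tpow_P, tpow_P, φ.conj, tpow_mul, tpow_mul, tpow_conjTranspose]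

/-- the map of lens spaces -/
def lens (φ : IsoMap V' V) (p : ℕ) : C(V'.Lens p, V.Lens p) :=
  ⟨(φ.tpow p).sphFun, (φ.tpow p).continuous_sphFun⟩

@[simp] theorem base_lens (φ : IsoMap V' V) (p : ℕ) (b : V'.Lens p) :
    Sph.base (φ.lens p b) = φ.f (Sph.base b) := rfl
@[simp] theorem vec_lens (φ : IsoMap V' V) (p : ℕ) (b : V'.Lens p) :
    Sph.vec (φ.lens p b) = G.tpow p φ.A *ᵥ Sph.vec b := rfl

/-- the map of the pull backs to the lens spaces -/
@[simps f A] def eta (φ : IsoMap V' V) (p : ℕ) : IsoMap (V'.eta p) (V.eta p) where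
  f := φ.lens p
  A := φ.A
  isom := φ.isom
  conj b := φ.conj (Sph.base b)

theorem lensQ_toFun (φ : IsoMap V' V) {p : ℕ} (e : (V'.eta p).E) :
    lensQ ((φ.eta p).toFun e) = lensQ e := by
  unfold lensQ
  rw [base_toFun, vec_toFun, eta_f, eta_A, vec_lens, nrm_A, ← tpow_mulVec_tp]
  congr 1
  exact (φ.tpow p).star_dotProduct (Sph.vec (base e)) (tp p (vec e))

theorem toFun_lensJ (φ : IsoMap V' V) {p : ℕ} (z : V'.Sph × Cx) :
    (φ.eta p).toFun (lensJ p z) = lensJ p (φ.sphFun z.1, z.2) := by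
  apply E_ext
  · apply Sph.ext
    · rfl
    · rw [base_toFun, eta_f, vec_lens, lensJ_base_vec, lensJ_base_vec, mulVec_smul,
        tpow_mulVec_tp]
      rfl
  · rw [vec_toFun, vec_lensJ, vec_lensJ, mulVec_smul]
    rfl

section LCmaps

variable [T2Space X] [CompactSpace X] [T2Space X'] [CompactSpace X']

/-- the map on total spaces as a morphism -/
def hom (φ : IsoMap V' V) : V'.tot ⟶ V.tot :=
  LC.ofProper (X := V'.tot) (Y := V.tot) φ.toFun φ.continuous_toFun
    (V'.tendsto_cocompact_of_nsq (g := fun e => nsq (vec e)) (continuous_nsq.comp continuous_vec)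
      (by intro e; rw [vec_toFun, nsq_A]))

@[simp] theorem app_hom_coe (φ : IsoMap V' V) (e : V'.E) :
    LC.app φ.hom (e : OnePoint V'.E) = (φ.toFun e : OnePoint V.E) := rfl

/-- the map on sphere bundles as a morphism -/
def sphHom (φ : IsoMap V' V) : LC.of V'.Sph ⟶ LC.of V.Sph :=
  LC.ofCompact (X := LC.of V'.Sph) (Y := LC.of V.Sph) φ.sphFun φ.continuous_sphFun

@[simp] theorem app_sphHom_coe (φ : IsoMap V' V) (e : V'.Sph) :
    LC.app φ.sphHom (e : OnePoint V'.Sph) = (φ.sphFun e : OnePoint V.Sph) := rfl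

/-- naturality of the collapse -/
theorem hom_lensColl (φ : IsoMap V' V) (hV' : V'.IsRank 1) (hV : V.IsRank 1) {p : ℕ}
    (hp : p ≠ 0) :
    (φ.eta p).hom ≫ lensColl hV hp = lensColl hV' hp ≫ φ.sphHom ▷ CxLC := by
  apply LC.hom_ext
  intro e
  rw [LC.app_comp, LC.app_comp, app_hom_coe]
  rcases eq_zero_or_lensJ hV' hp e with h | ⟨z, rfl⟩
  · rw [app_lensColl_zero hV' hp h, LC.app_infty, app_lensColl_zero hV hp]
    rw [vec_toFun, h, mulVec_zero]
  · rw [toFun_lensJ, app_lensColl_lensJ, app_lensColl_lensJ]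
    rfl

/-- naturality of `q` -/
theorem hom_lensQHom (φ : IsoMap V' V) (hV' : V'.IsRank 1) (hV : V.IsRank 1) {p : ℕ}
    (hp : p ≠ 0) : (φ.eta p).hom ≫ lensQHom hV hp = lensQHom hV' hp := by
  apply LC.hom_ext
  intro e
  rw [LC.app_comp, app_hom_coe, app_lensQHom_coe, app_lensQHom_coe, lensQ_toFun]

/-- **The lens homotopy**, abstract form: if the map of sphere bundles is homotopic to a constant
`s`, then the composition of `eta' ⟶ eta` with the collapse onto `Sph V × ℂ^×` is homotopic to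
`eta' ⟶ ℂ ⟶ ℂ^× = {s} × ℂ^×`. -/
theorem lens_homotopic (φ : IsoMap V' V) (hV' : V'.IsRank 1) (hV : V.IsRank 1) {p : ℕ}
    (hp : p ≠ 0) {s : V.Sph}
    (H : LC.Homotopic φ.sphHom (LC.ofCompact (X := LC.of V'.Sph) (Y := LC.of V.Sph)
      (fun _ => s) continuous_const)) :
    LC.Homotopic ((φ.eta p).hom ≫ lensColl hV hp)
      (lensQHom hV' hp ≫ cxColl ≫ ptHom s CxLC) := by
  have h1 : lensQHom hV' hp ≫ cxColl ≫ ptHom s CxLC =
      lensColl hV' hp ≫ (LC.ofCompact (X := LC.of V'.Sph) (Y := LC.of V.Sph)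
      (fun _ => s) continuous_const) ▷ CxLC := by
    rw [← Category.assoc, lensQHom_cxColl, Category.assoc]
    congr 1
    apply LC.hom_ext
    rintro ⟨a, b⟩
    rfl
  rw [h1, φ.hom_lensColl hV' hV hp]
  exact LC.Homotopic.comp_left _ (H.whiskerRight CxLC)

end LCmaps

end IsoMap

/-! ### Tautological bundles -/

section tautological

variable {I J : Type} [Fintype I] [Fintype J] [DecidableEq I] [DecidableEq J]

/-- the map of Grassmannians induced by an isometry -/
def Gr.map {n : ℕ} (u : Matrix J I ℂ) (hu : uᴴ * u = 1) (x : Gr n I) : Gr n J :=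
  ⟨u * x.P * uᴴ, x.isProj.conj (by rw [hu, Matrix.one_mul])⟩

omit [DecidableEq J] in
@[simp] theorem Gr.map_P {n : ℕ} (u : Matrix J I ℂ) (hu : uᴴ * u = 1) (x : Gr n I) :
    (Gr.map u hu x).P = u * x.P * uᴴ := rfl

omit [DecidableEq J] in
theorem Gr.continuous_map {n : ℕ} (u : Matrix J I ℂ) (hu : uᴴ * u = 1) :
    Continuous (Gr.map (n := n) u hu) :=
  Continuous.subtype_mk (by fun_prop) _

/-- an isometry as a map of tautological bundles -/
@[simps f A] def IsoMap.ofIsom {n : ℕ} (u : Matrix J I ℂ) (hu : uᴴ * u = 1) :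
    IsoMap (taut n I) (taut n J) where
  f := ⟨Gr.map u hu, Gr.continuous_map u hu⟩
  A := u
  isom := hu
  conj _ := rfl

/-- a unit vector as a point of the sphere bundle of the tautological line bundle -/
def tautSph (v : I → ℂ) (hv : nsq v = 1) : (taut 1 I).Sph :=
  Bun.mkSph _ (⟨lineP v, isProj_lineP hv⟩ : Gr 1 I) v (lineP_mulVec_self hv) hv

omit [DecidableEq I] in
@[simp] theorem vec_tautSph (v : I → ℂ) (hv : nsq v = 1) : (tautSph v hv).vec = v := rfl

omit [DecidableEq I] in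
theorem Sph_taut_ext {s t : (taut 1 I).Sph} (h : s.vec = t.vec) : s = t := by
  refine Bun.Sph.ext (Gr.ext ?_) h
  rw [s.base.isProj.eq_lineP s.nsq_vec s.P_vec, t.base.isProj.eq_lineP t.nsq_vec t.P_vec, h]

omit [DecidableEq I] in
theorem continuous_tautSph {Z : Type*} [TopologicalSpace Z] {v : Z → I → ℂ} (hv : Continuous v)
    (h : ∀ z, nsq (v z) = 1) : Continuous fun z => tautSph (v z) (h z) :=
  Bun.continuous_mkSph ((continuous_lineP.comp hv).subtype_mk _) hv _ _

/-- the sphere of `ℂ^I` contracts in the sphere of `ℂ^(I ⊕ Unit)` -/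
theorem sph_homotopic :
    LC.Homotopic (IsoMap.ofIsom (n := 1) (injMat (Sum.inl : I → I ⊕ Unit))
        (injMat_isom Sum.inl_injective)).sphHom
      (LC.ofCompact (X := LC.of (taut 1 I).Sph) (Y := LC.of (taut 1 (I ⊕ Unit)).Sph)
        (fun _ => tautSph (Sum.elim (0 : I → ℂ) (1 : Unit → ℂ)) (by
          rw [nsq_elim, nsq_zero]; simp [nsq])) continuous_const) := by
  have hn : ∀ z : (taut 1 I).Sph × unitInterval,
      nsq (Sum.elim (((Real.cos (Real.pi / 2 * z.2) : ℝ) : ℂ) • z.1.vec)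
        (((Real.sin (Real.pi / 2 * z.2) : ℝ) : ℂ) • (1 : Unit → ℂ))) = 1 := by
    intro z
    rw [nsq_elim, nsq_smul, nsq_smul, z.1.nsq_vec, Complex.normSq_ofReal, Complex.normSq_ofReal]
    have : nsq (1 : Unit → ℂ) = 1 := by simp [nsq]
    rw [this, mul_one, mul_one, ← sq, ← sq, add_comm, Real.sin_sq_add_cos_sq]
  refine Th.homotopic_of (X := LC.of (taut 1 I).Sph) (Y := LC.of (taut 1 (I ⊕ Unit)).Sph)
    (fun z => tautSph _ (hn z)) ?_ ?_ ?_ ?_
  · apply continuous_tautSph
    refine Bun.continuous_sumElim ?_ ?_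
    · exact (Complex.continuous_ofReal.comp (Real.continuous_cos.comp (continuous_const.mul
        (continuous_subtype_val.comp continuous_snd)))).smul
        (Bun.Sph.continuous_vec.comp continuous_fst)
    · exact (Complex.continuous_ofReal.comp (Real.continuous_sin.comp (continuous_const.mul
        (continuous_subtype_val.comp continuous_snd)))).smul continuous_const
  · rw [cocompact_eq_bot]; exact tendsto_bot
  · intro s
    rw [IsoMap.app_sphHom_coe]
    congr 1
    apply Sph_taut_ext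
    rw [IsoMap.vec_sphFun, vec_tautSph, IsoMap.ofIsom_A, injMat_inl_mulVec]
    simp
  · intro s
    rw [LC.app_ofCompact_coe]
    congr 1
    apply Sph_taut_ext
    rw [vec_tautSph, vec_tautSph]
    simp

end tautological

end Vale.Agent.P251.G
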