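import Vale.Agent.P251.G.TPow
import Vale.Agent.P251.G.SphereBundle

/-!
# P251, part G: geometry of lens spaces, for an arbitrary line bundle

Let `V : Bun X ι` be a line bundle (rank one).
* `V.Sph` the unit sphere bundle, compact for compact `X`.
* `V.Lens p` the unit sphere bundle of `V.tpow p`; `V.eta p` the pull back of `V` to `V.Lens p`.
* `lensQ : (V.eta p).E → ℂ`, `((x, u), w) ↦ ⟨u, w^{⊗p}⟩ / |w|^{p-1}`, satisfies `|lensQ e| = |vec e|`.
* `lensJ : V.Sph × ℂ^× → (V.eta p).E` open embedding onto the complement of the zero section,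
  `lensQ (lensJ (e, c)) = c`.
* `theta : V.E → (V.tpow p).E`, `w ↦ w^{⊗p} / |w|^{p-1}`; `lensTriv : V.Lens p × ℂ → (V.tpow p).E`;
  `theta (etaTo e) = lensTriv (base e, lensQ e)`.
-/

open Matrix Filter Topology CategoryTheory

namespace Vale.Agent.P251.G

variable {ι κ μ : Type} [Fintype ι] [Fintype κ] [Fintype μ]

/-- the hermitian norm of a vector -/
noncomputable def nrm (v : ι → ℂ) : ℝ := Real.sqrt (nsq v)

theorem nrm_nonneg (v : ι → ℂ) : 0 ≤ nrm v := Real.sqrt_nonneg _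

theorem nrm_sq (v : ι → ℂ) : nrm v ^ 2 = nsq v := Real.sq_sqrt (nsq_nonneg v)

theorem nrm_eq_zero {v : ι → ℂ} : nrm v = 0 ↔ v = 0 := by
  unfold nrm
  rw [Real.sqrt_eq_zero (nsq_nonneg v), nsq_eq_zero]

theorem nrm_pos {v : ι → ℂ} (h : v ≠ 0) : 0 < nrm v :=
  lt_of_le_of_ne (nrm_nonneg v) fun h' => h (nrm_eq_zero.mp h'.symm)

@[simp] theorem nrm_zero : nrm (0 : ι → ℂ) = 0 := nrm_eq_zero.mpr rfl

@[continuity, fun_prop]
theorem continuous_nrm : Continuous (nrm : (ι → ℂ) → ℝ) :=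
  Real.continuous_sqrt.comp continuous_nsq

theorem nrm_eq_iff {v : ι → ℂ} {r : ℝ} (hr : 0 ≤ r) : nrm v = r ↔ nsq v = r ^ 2 := by
  rw [← nrm_sq, sq_eq_sq₀ (nrm_nonneg v) hr]

theorem nrm_smul (c : ℂ) (v : ι → ℂ) : nrm (c • v) = ‖c‖ * nrm v := by
  rw [nrm_eq_iff (mul_nonneg (norm_nonneg _) (nrm_nonneg _)), nsq_smul, mul_pow, nrm_sq,
    Complex.normSq_eq_norm_sq]

theorem nrm_tp (p : ℕ) (v : ι → ℂ) : nrm (tp p v) = nrm v ^ p := by
  rw [nrm_eq_iff (pow_nonneg (nrm_nonneg _) _), nsq_tp, ← nrm_sq, ← pow_mul, ← pow_mul, mul_comm]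

theorem nsq_unit {v : ι → ℂ} (h : v ≠ 0) : nsq (((nrm v)⁻¹ : ℂ) • v) = 1 := by
  rw [nsq_smul, Complex.normSq_eq_norm_sq, norm_inv, Complex.norm_real, Real.norm_eq_abs,
    abs_of_nonneg (nrm_nonneg v), inv_pow, nrm_sq, inv_mul_cancel₀ (nsq_pos h).ne']

omit [Fintype ι] in
theorem tp_zero {p : ℕ} (hp : p ≠ 0) : tp p (0 : ι → ℂ) = 0 := by
  funext t
  obtain ⟨q, rfl⟩ := Nat.exists_eq_succ_of_ne_zero hp
  simp [tp_apply]

/-- In a line, for a unit vector `u`, the coefficient of `v` has norm `|v|`. -/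
theorem IsProj.norm_dotProduct {Q : Matrix ι ι ℂ} (h : IsProj 1 Q) {u : ι → ℂ} (hu : Q *ᵥ u = u)
    (hn : nsq u = 1) {v : ι → ℂ} (hv : Q *ᵥ v = v) : ‖star u ⬝ᵥ v‖ = nrm v := by
  refine ((nrm_eq_iff (norm_nonneg _)).mpr ?_).symm
  rw [← normSq_dotProduct_of_fixed h hn hu hv, Complex.normSq_eq_norm_sq]

namespace Bun

variable {X : Type} [TopologicalSpace X] {Y : Type} [TopologicalSpace Y]

theorem IsRank.isProj' {V : Bun X ι} {n : ℕ} (h : V.IsRank n) (x : X) : IsProj n (V.P x) :=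
  ⟨V.idem x, V.herm x, h x⟩

theorem IsRank.tpow_one {V : Bun X ι} (h : V.IsRank 1) (p : ℕ) : (V.tpow p).IsRank 1 := by
  have := h.tpow p
  rwa [one_pow] at this

/-! ### Properness -/

/-- For a compact base the norm of vectors tends to infinity at infinity of the total space. -/
theorem tendsto_nsq_vec [CompactSpace X] (V : Bun X ι) :
    Tendsto (fun e : V.E => nsq (vec e)) (cocompact V.E) (cocompact ℝ) := by
  have h1 : Tendsto (Subtype.val : V.E → X × (ι → ℂ)) (cocompact V.E) (cocompact (X × (ι → ℂ))) :=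
    V.isClosedEmbedding_val.tendsto_cocompact
  have h2 : Tendsto (Prod.snd : X × (ι → ℂ) → (ι → ℂ)) (cocompact (X × (ι → ℂ)))
      (cocompact (ι → ℂ)) := by
    rw [Filter.hasBasis_cocompact.tendsto_iff Filter.hasBasis_cocompact]
    intro K hK
    refine ⟨Set.univ ×ˢ K, isCompact_univ.prod hK, ?_⟩
    rintro ⟨x, v⟩ hx hv
    exact hx ⟨Set.mem_univ _, hv⟩
  have h3 : Tendsto (fun v : ι → ℂ => nsq v) (cocompact (ι → ℂ)) (cocompact ℝ) := by
    have h4 : Tendsto (fun v : ι → ℂ => ‖v‖ ^ 2) (cocompact (ι → ℂ)) atTop :=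
      (tendsto_pow_atTop two_ne_zero).comp (tendsto_norm_cocompact_atTop)
    exact (tendsto_atTop_mono norm_sq_le_nsq h4).mono_right atTop_le_cocompact
  exact h3.comp (h2.comp h1)

/-- A map out of the total space over a compact base is proper as soon as a continuous function
recovers the norm. -/
theorem tendsto_cocompact_of_nsq [CompactSpace X] (V : Bun X ι) {f : V.E → Y} {g : Y → ℝ}
    (hg : Continuous g) (h : ∀ e, g (f e) = nsq (vec e)) :
    Tendsto f (cocompact V.E) (cocompact Y) := by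
  have h1 : Tendsto (fun e => g (f e)) (cocompact V.E) (cocompact ℝ) := by
    simpa only [h] using V.tendsto_nsq_vec
  have h2 : Tendsto f (cocompact V.E) (comap g (cocompact ℝ)) := tendsto_comap_iff.mpr h1
  exact h2.mono_right (Filter.comap_cocompact_le hg)

theorem nrm_vec_Sph {V : Bun X ι} (e : V.Sph) : nrm e.vec = 1 := by
  rw [nrm_eq_iff zero_le_one, e.nsq_vec, one_pow]

theorem vec_Sph_ne_zero {V : Bun X ι} (e : V.Sph) : e.vec ≠ 0 := by
  intro h
  have := e.nsq_vec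
  rw [h, nsq_zero] at this
  exact zero_ne_one this

theorem continuous_mkSph {Z : Type*} [TopologicalSpace Z] {V : Bun X ι} {f : Z → X} {g : Z → ι → ℂ}
    (hf : Continuous f) (hg : Continuous g) (h : ∀ z, V.P (f z) *ᵥ g z = g z)
    (hn : ∀ z, nsq (g z) = 1) :
    Continuous fun z => V.mkSph (f z) (g z) (h z) (hn z) :=
  ((hf.prodMk hg).subtype_mk _).subtype_mk _

/-! ### The lens space of a line bundle -/

/-- the lens space: the unit sphere bundle of the tensor power -/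
abbrev Lens (V : Bun X ι) (p : ℕ) : Type := (V.tpow p).Sph

/-- the projection of the lens space to the base -/
def lensBase (V : Bun X ι) (p : ℕ) : C(V.Lens p, X) := ⟨Sph.base, Sph.continuous_base⟩

/-- the pull back of the line bundle to the lens space -/
def eta (V : Bun X ι) (p : ℕ) : Bun (V.Lens p) ι := V.pullback (V.lensBase p)

@[simp] theorem eta_P (V : Bun X ι) (p : ℕ) (b : V.Lens p) : (V.eta p).P b = V.P (Sph.base b) := rfl

theorem IsRank.eta {V : Bun X ι} {n : ℕ} (h : V.IsRank n) (p : ℕ) : (V.eta p).IsRank n :=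
  fun b => h (Sph.base b)

/-- the bundle map `eta ⟶ V` -/
def etaTo {V : Bun X ι} {p : ℕ} (e : (V.eta p).E) : V.E :=
  V.mkE (Sph.base (base e)) (vec e) (P_vec e)

@[simp] theorem base_etaTo {V : Bun X ι} {p : ℕ} (e : (V.eta p).E) :
    base (etaTo e) = Sph.base (base e) := rfl
@[simp] theorem vec_etaTo {V : Bun X ι} {p : ℕ} (e : (V.eta p).E) : vec (etaTo e) = vec e := rfl

theorem continuous_etaTo {V : Bun X ι} {p : ℕ} :
    Continuous (etaTo : (V.eta p).E → V.E) :=
  continuous_mkE (Sph.continuous_base.comp continuous_base) continuous_vec _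

/-- the coordinate `⟨u, w^{⊗p}⟩ / |w|^{p-1}` -/
noncomputable def lensQ {V : Bun X ι} {p : ℕ} (e : (V.eta p).E) : ℂ :=
  (star (Sph.vec (base e)) ⬝ᵥ tp p (vec e)) / (nrm (vec e) : ℂ) ^ (p - 1)

theorem tpow_P_tp {V : Bun X ι} {p : ℕ} {x : X} {v : ι → ℂ} (h : V.P x *ᵥ v = v) :
    (V.tpow p).P x *ᵥ tp p v = tp p v := by
  rw [tpow_P, tpow_mulVec_tp, h]

theorem norm_dot_tp {V : Bun X ι} (hV : V.IsRank 1) {p : ℕ} (e : (V.eta p).E) :
    ‖star (Sph.vec (base e)) ⬝ᵥ tp p (vec e)‖ = nrm (vec e) ^ p := by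
  rw [← nrm_tp]
  exact ((hV.tpow_one p).isProj' _).norm_dotProduct (Sph.P_vec (base e)) (Sph.nsq_vec (base e))
    (tpow_P_tp (P_vec e))

theorem norm_lensQ {V : Bun X ι} (hV : V.IsRank 1) {p : ℕ} (hp : p ≠ 0) (e : (V.eta p).E) :
    ‖lensQ e‖ = nrm (vec e) := by
  unfold lensQ
  rw [norm_div, norm_dot_tp hV, norm_pow, Complex.norm_real, Real.norm_eq_abs,
    abs_of_nonneg (nrm_nonneg _)]
  obtain ⟨q, rfl⟩ := Nat.exists_eq_succ_of_ne_zero hp
  by_cases h : nrm (vec e) = 0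
  · rw [h]; simp
  · rw [Nat.succ_sub_one, pow_succ, mul_div_assoc, mul_comm, div_mul_cancel₀ _ (pow_ne_zero _ h)]

theorem lensQ_eq_zero {V : Bun X ι} (hV : V.IsRank 1) {p : ℕ} (hp : p ≠ 0) {e : (V.eta p).E} :
    lensQ e = 0 ↔ vec e = 0 := by
  rw [← norm_eq_zero, norm_lensQ hV hp, nrm_eq_zero]

theorem continuous_lensQ {V : Bun X ι} (hV : V.IsRank 1) {p : ℕ} (hp : p ≠ 0) :
    Continuous (lensQ : (V.eta p).E → ℂ) := by
  rw [continuous_iff_continuousAt]
  intro e
  by_cases h : vec e = 0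
  · have h0 : lensQ e = 0 := (lensQ_eq_zero hV hp).mpr h
    unfold ContinuousAt
    rw [h0, tendsto_zero_iff_norm_tendsto_zero]
    simp only [norm_lensQ hV hp]
    have h1 : Continuous fun e : (V.eta p).E => nrm (vec e) := continuous_nrm.comp continuous_vec
    have h2 := h1.tendsto e
    rwa [h, nrm_zero] at h2
  · unfold lensQ
    refine ContinuousAt.div ?_ ?_ ?_
    · apply Continuous.continuousAt
      exact (continuous_star.comp (Sph.continuous_vec.comp continuous_base)).dotProduct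
        ((continuous_tp p).comp continuous_vec)
    · apply Continuous.continuousAt
      exact (Complex.continuous_ofReal.comp (continuous_nrm.comp continuous_vec)).pow _
    · exact pow_ne_zero _ (Complex.ofReal_ne_zero.mpr (nrm_pos h).ne')

/-- nonzero complex numbers, as a subspace of `ℂ` -/
abbrev Cx : Type := {c : ℂ // c ≠ 0}

theorem isOpenEmbedding_Cx : IsOpenEmbedding (Subtype.val : Cx → ℂ) :=
  (isOpen_ne (x := (0 : ℂ))).isOpenEmbedding_subtypeVal

instance : LocallyCompactSpace Cx := isOpenEmbedding_Cx.locallyCompactSpace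

/-- the unit complex number `c / |c|` -/
noncomputable def sgn (c : ℂ) : ℂ := c / (‖c‖ : ℂ)

theorem norm_sgn {c : ℂ} (hc : c ≠ 0) : ‖sgn c‖ = 1 := by
  unfold sgn
  rw [norm_div, Complex.norm_real, norm_norm, div_self (norm_ne_zero_iff.mpr hc)]

theorem continuous_sgn_Cx : Continuous fun c : Cx => sgn c.1 := by
  unfold sgn
  exact continuous_subtype_val.div (Complex.continuous_ofReal.comp
    (continuous_norm.comp continuous_subtype_val))
    fun c => Complex.ofReal_ne_zero.mpr (norm_ne_zero_iff.mpr c.2)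

theorem sgn_mul_star {c : ℂ} (hc : c ≠ 0) : sgn c * star (sgn c) = 1 := by
  have h : sgn c * star (sgn c) = ((‖sgn c‖ ^ 2 : ℝ) : ℂ) := by
    rw [← Complex.normSq_eq_norm_sq]
    exact Complex.mul_conj (sgn c)
  rw [h, norm_sgn hc]
  norm_num

theorem normSq_star_sgn {c : ℂ} (hc : c ≠ 0) : Complex.normSq (star (sgn c)) = 1 := by
  rw [Complex.normSq_eq_norm_sq, norm_star, norm_sgn hc, one_pow]

/-- the open embedding `SS × ℂ^× → eta` onto the complement of the zero section -/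
noncomputable def lensJ {V : Bun X ι} (p : ℕ) (z : V.Sph × Cx) : (V.eta p).E :=
  (V.eta p).mkE
    ((V.tpow p).mkSph (Sph.base z.1) (star (sgn z.2.1) • tp p (Sph.vec z.1))
      (by rw [mulVec_smul, tpow_P_tp (Sph.P_vec z.1)])
      (by rw [nsq_smul, nsq_tp, Sph.nsq_vec, one_pow, mul_one, normSq_star_sgn z.2.2]))
    ((‖z.2.1‖ : ℂ) • Sph.vec z.1)
    (by rw [eta_P, base_mkSph, mulVec_smul, Sph.P_vec])

@[simp] theorem lensJ_base_base {V : Bun X ι} (p : ℕ) (z : V.Sph × Cx) :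
    Sph.base (base (lensJ p z)) = Sph.base z.1 := rfl

@[simp] theorem lensJ_base_vec {V : Bun X ι} (p : ℕ) (z : V.Sph × Cx) :
    Sph.vec (base (lensJ p z)) = star (sgn z.2.1) • tp p (Sph.vec z.1) := rfl

@[simp] theorem vec_lensJ {V : Bun X ι} (p : ℕ) (z : V.Sph × Cx) :
    vec (lensJ p z) = (‖z.2.1‖ : ℂ) • Sph.vec z.1 := rfl

theorem continuous_lensJ {V : Bun X ι} (p : ℕ) :
    Continuous (lensJ p : V.Sph × Cx → (V.eta p).E) := by
  refine continuous_mkE (continuous_mkSph (Sph.continuous_base.comp continuous_fst) ?_ _ _) ?_ _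
  · exact (continuous_star.comp (continuous_sgn_Cx.comp continuous_snd)).smul
      ((continuous_tp p).comp (Sph.continuous_vec.comp continuous_fst))
  · exact (Complex.continuous_ofReal.comp (continuous_norm.comp
      (continuous_subtype_val.comp continuous_snd))).smul (Sph.continuous_vec.comp continuous_fst)

theorem nrm_vec_lensJ {V : Bun X ι} (p : ℕ) (z : V.Sph × Cx) :
    nrm (vec (lensJ p z)) = ‖z.2.1‖ := by
  rw [vec_lensJ, nrm_smul, nrm_vec_Sph, mul_one, Complex.norm_real, norm_norm]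

theorem lensQ_lensJ {V : Bun X ι} {p : ℕ} (hp : p ≠ 0) (z : V.Sph × Cx) :
    lensQ (lensJ p z) = z.2.1 := by
  have hc : (‖z.2.1‖ : ℂ) ≠ 0 := Complex.ofReal_ne_zero.mpr (norm_ne_zero_iff.mpr z.2.2)
  unfold lensQ
  rw [nrm_vec_lensJ, lensJ_base_vec, vec_lensJ, tp_smul, star_smul, star_star, smul_dotProduct,
    dotProduct_smul, star_tp, tp_dotProduct_tp, ← nsq_eq_dotProduct, Sph.nsq_vec, Complex.ofReal_one,
    one_pow, smul_eq_mul, smul_eq_mul, mul_one]
  obtain ⟨q, rfl⟩ := Nat.exists_eq_succ_of_ne_zero hp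
  rw [Nat.succ_sub_one, pow_succ]
  unfold sgn
  field_simp

/-- the open subset of nonzero vectors -/
theorem vec_lensJ_ne {V : Bun X ι} (p : ℕ) (z : V.Sph × Cx) : vec (lensJ p z) ≠ 0 := by
  rw [vec_lensJ]
  exact smul_ne_zero (Complex.ofReal_ne_zero.mpr (norm_ne_zero_iff.mpr z.2.2)) (vec_Sph_ne_zero z.1)

theorem inv_pow_mul_aux {n a : ℂ} {q : ℕ} (hn : n ≠ 0) :
    n⁻¹ ^ q * n⁻¹ * (a * n ^ q) = a / n := by
  have : n⁻¹ ^ q * n ^ q = 1 := by rw [← mul_pow, inv_mul_cancel₀ hn, one_pow]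
  calc n⁻¹ ^ q * n⁻¹ * (a * n ^ q) = (n⁻¹ ^ q * n ^ q) * (a * n⁻¹) := by ring
    _ = a / n := by rw [this, one_mul, div_eq_mul_inv]

/-- the inverse of `lensJ` -/
noncomputable def lensJinv {V : Bun X ι} (hV : V.IsRank 1) {p : ℕ} (hp : p ≠ 0) (e : (V.eta p).E)
    (h : vec e ≠ 0) : V.Sph × Cx :=
  (V.mkSph (Sph.base (base e)) (((nrm (vec e))⁻¹ : ℂ) • vec e) (by
    have := P_vec e
    rw [eta_P] at this
    rw [mulVec_smul, this]) (nsq_unit h),
    ⟨lensQ e, fun h0 => h ((lensQ_eq_zero hV hp).mp h0)⟩)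

theorem lensJ_lensJinv {V : Bun X ι} (hV : V.IsRank 1) {p : ℕ} (hp : p ≠ 0) (e : (V.eta p).E)
    (h : vec e ≠ 0) : lensJ p (lensJinv hV hp e h) = e := by
  have hn : (nrm (vec e) : ℂ) ≠ 0 := Complex.ofReal_ne_zero.mpr (nrm_pos h).ne'
  have hq : lensQ e ≠ 0 := fun h0 => h ((lensQ_eq_zero hV hp).mp h0)
  have hnq : (‖lensQ e‖ : ℂ) = (nrm (vec e) : ℂ) := by rw [norm_lensQ hV hp]
  apply E_ext
  · apply Sph.ext
    · rfl
    · rw [lensJ_base_vec]
      change star (sgn (lensQ e)) • tp p (((nrm (vec e))⁻¹ : ℂ) • vec e) = Sph.vec (base e)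
      set u := Sph.vec (base e) with hu
      have h1 : tp p (vec e) = (star u ⬝ᵥ tp p (vec e)) • u :=
        ((hV.tpow_one p).isProj' _).eq_smul (Sph.nsq_vec (base e)) (Sph.P_vec (base e))
          (tpow_P_tp (P_vec e))
      have h2 : star u ⬝ᵥ tp p (vec e) = lensQ e * (nrm (vec e) : ℂ) ^ (p - 1) := by
        unfold lensQ
        rw [div_mul_cancel₀ _ (pow_ne_zero _ hn)]
      have h3 : tp p (((nrm (vec e))⁻¹ : ℂ) • vec e) = sgn (lensQ e) • u := by
        rw [tp_smul, h1, h2, smul_smul]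
        congr 1
        unfold sgn
        rw [hnq]
        obtain ⟨q, rfl⟩ := Nat.exists_eq_succ_of_ne_zero hp
        rw [Nat.succ_sub_one, pow_succ, inv_pow_mul_aux hn]
      rw [h3, smul_smul, mul_comm, sgn_mul_star hq, one_smul]
  · rw [vec_lensJ]
    change (‖lensQ e‖ : ℂ) • (((nrm (vec e))⁻¹ : ℂ) • vec e) = vec e
    rw [hnq, smul_smul, mul_inv_cancel₀ hn, one_smul]

theorem lensJinv_lensJ {V : Bun X ι} (hV : V.IsRank 1) {p : ℕ} (hp : p ≠ 0) (z : V.Sph × Cx) :
    lensJinv hV hp (lensJ p z) (vec_lensJ_ne p z) = z := by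
  have hc : (‖z.2.1‖ : ℂ) ≠ 0 := Complex.ofReal_ne_zero.mpr (norm_ne_zero_iff.mpr z.2.2)
  apply Prod.ext
  · apply Sph.ext
    · rfl
    · change ((nrm (vec (lensJ p z)))⁻¹ : ℂ) • vec (lensJ p z) = Sph.vec z.1
      rw [nrm_vec_lensJ, vec_lensJ, smul_smul, inv_mul_cancel₀ hc, one_smul]
  · exact Subtype.ext (lensQ_lensJ hp z)

/-- the complement of the zero section of `eta` is homeomorphic to `SS × ℂ^×` -/
noncomputable def lensHomeo {V : Bun X ι} (hV : V.IsRank 1) {p : ℕ} (hp : p ≠ 0) :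
    (V.Sph × Cx) ≃ₜ {e : (V.eta p).E // vec e ≠ 0} where
  toFun z := ⟨lensJ p z, vec_lensJ_ne p z⟩
  invFun e := lensJinv hV hp e.1 e.2
  left_inv z := lensJinv_lensJ hV hp z
  right_inv e := Subtype.ext (lensJ_lensJinv hV hp e.1 e.2)
  continuous_toFun := (continuous_lensJ p).subtype_mk _
  continuous_invFun := by
    refine Continuous.prodMk (continuous_mkSph ?_ ?_ _ _) ?_
    · exact Sph.continuous_base.comp (continuous_base.comp continuous_subtype_val)
    · have hB : Continuous fun e : {e : (V.eta p).E // vec e ≠ 0} => vec e.1 :=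
        continuous_vec.comp continuous_subtype_val
      have hA : Continuous fun e : {e : (V.eta p).E // vec e ≠ 0} => ((nrm (vec e.1))⁻¹ : ℂ) :=
        (Complex.continuous_ofReal.comp (continuous_nrm.comp hB)).inv₀
          fun e => Complex.ofReal_ne_zero.mpr (nrm_pos e.2).ne'
      exact hA.smul hB
    · exact ((continuous_lensQ hV hp).comp continuous_subtype_val).subtype_mk _

theorem isOpenEmbedding_lensJ {V : Bun X ι} (hV : V.IsRank 1) {p : ℕ} (hp : p ≠ 0) :
    IsOpenEmbedding (lensJ p : V.Sph × Cx → (V.eta p).E) := by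
  have h1 : IsOpen {e : (V.eta p).E | vec e ≠ 0} :=
    (isOpen_compl_singleton (x := (0 : ι → ℂ))).preimage (continuous_vec (V := V.eta p))
  exact h1.isOpenEmbedding_subtypeVal.comp (lensHomeo hV hp).isOpenEmbedding

theorem range_lensJ {V : Bun X ι} (hV : V.IsRank 1) {p : ℕ} (hp : p ≠ 0) :
    Set.range (lensJ p : V.Sph × Cx → (V.eta p).E) = {e | vec e ≠ 0} := by
  ext e
  constructor
  · rintro ⟨z, rfl⟩; exact vec_lensJ_ne p z
  · intro h; exact ⟨_, lensJ_lensJinv hV hp e h⟩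

theorem compl_range_lensJ {V : Bun X ι} (hV : V.IsRank 1) {p : ℕ} (hp : p ≠ 0) :
    (Set.range (lensJ p : V.Sph × Cx → (V.eta p).E))ᶜ = Set.range (V.eta p).zeroSec := by
  rw [range_lensJ hV hp]
  ext e
  simp only [Set.mem_compl_iff, Set.mem_ofPred_eq, not_not, Set.mem_range]
  constructor
  · intro h; exact ⟨base e, E_ext rfl h.symm⟩
  · rintro ⟨b, rfl⟩; rfl

/-! ### The maps to the base -/

/-- `w ↦ w^{⊗p} / |w|^{p-1}` -/
noncomputable def theta {V : Bun X ι} (p : ℕ) (e : V.E) : (V.tpow p).E :=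
  (V.tpow p).mkE (base e) (((nrm (vec e) : ℂ) ^ (p - 1))⁻¹ • tp p (vec e))
    (by rw [mulVec_smul, tpow_P_tp (P_vec e)])

@[simp] theorem base_theta {V : Bun X ι} (p : ℕ) (e : V.E) : base (theta p e) = base e := rfl
@[simp] theorem vec_theta {V : Bun X ι} (p : ℕ) (e : V.E) :
    vec (theta p e) = ((nrm (vec e) : ℂ) ^ (p - 1))⁻¹ • tp p (vec e) := rfl

theorem nrm_vec_theta {V : Bun X ι} {p : ℕ} (hp : p ≠ 0) (e : V.E) :
    nrm (vec (theta p e)) = nrm (vec e) := by
  rw [vec_theta, nrm_smul, nrm_tp, norm_inv, norm_pow, Complex.norm_real, Real.norm_eq_abs,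
    abs_of_nonneg (nrm_nonneg _)]
  obtain ⟨q, rfl⟩ := Nat.exists_eq_succ_of_ne_zero hp
  by_cases h : nrm (vec e) = 0
  · rw [h]; simp
  · rw [Nat.succ_sub_one, pow_succ, ← mul_assoc, inv_mul_cancel₀ (pow_ne_zero _ h), one_mul]

theorem continuous_theta {V : Bun X ι} {p : ℕ} (hp : p ≠ 0) :
    Continuous (theta p : V.E → (V.tpow p).E) := by
  refine continuous_mkE continuous_base ?_ _
  rw [continuous_iff_continuousAt]
  intro e
  by_cases h : vec e = 0
  · have key : ∀ e : V.E, nsq (((nrm (vec e) : ℂ) ^ (p - 1))⁻¹ • tp p (vec e)) = nsq (vec e) := by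
      intro e
      rw [← nrm_sq, ← nrm_sq]
      congr 1
      exact nrm_vec_theta hp e
    unfold ContinuousAt
    have h0 : ((nrm (vec e) : ℂ) ^ (p - 1))⁻¹ • tp p (vec e) = 0 := by
      rw [h, tp_zero hp, smul_zero]
    change Tendsto _ _ (𝓝 (((nrm (vec e) : ℂ) ^ (p - 1))⁻¹ • tp p (vec e)))
    rw [h0, tendsto_zero_iff_norm_tendsto_zero]
    have h1 : Continuous fun e : V.E => nrm (vec e) := continuous_nrm.comp continuous_vec
    have h2 := h1.tendsto e
    rw [h, nrm_zero] at h2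
    refine squeeze_zero (fun _ => norm_nonneg _) (fun e => ?_) h2
    have h3 := norm_sq_le_nsq (((nrm (vec e) : ℂ) ^ (p - 1))⁻¹ • tp p (vec e))
    rw [key e, ← nrm_sq] at h3
    exact (sq_le_sq₀ (norm_nonneg _) (nrm_nonneg _)).mp h3
  · refine ContinuousAt.fun_smul ?_ ?_
    · refine ContinuousAt.inv₀ ?_ ?_
      · apply Continuous.continuousAt
        exact (Complex.continuous_ofReal.comp (continuous_nrm.comp continuous_vec)).pow _
      · exact pow_ne_zero _ (Complex.ofReal_ne_zero.mpr (nrm_pos h).ne')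
    · apply Continuous.continuousAt
      exact (continuous_tp p).comp continuous_vec

/-- the trivialisation of the tensor power over the lens space -/
def lensTriv {V : Bun X ι} {p : ℕ} (z : V.Lens p × ℂ) : (V.tpow p).E :=
  (V.tpow p).mkE (Sph.base z.1) (z.2 • Sph.vec z.1) (by rw [mulVec_smul, Sph.P_vec])

@[simp] theorem base_lensTriv {V : Bun X ι} {p : ℕ} (z : V.Lens p × ℂ) :
    base (lensTriv z) = Sph.base z.1 := rfl
@[simp] theorem vec_lensTriv {V : Bun X ι} {p : ℕ} (z : V.Lens p × ℂ) :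
    vec (lensTriv z) = z.2 • Sph.vec z.1 := rfl

theorem continuous_lensTriv {V : Bun X ι} {p : ℕ} :
    Continuous (lensTriv : V.Lens p × ℂ → (V.tpow p).E) :=
  continuous_mkE (Sph.continuous_base.comp continuous_fst)
    (continuous_snd.smul (Sph.continuous_vec.comp continuous_fst)) _

theorem theta_etaTo {V : Bun X ι} (hV : V.IsRank 1) {p : ℕ} (e : (V.eta p).E) :
    theta p (etaTo e) = lensTriv (base e, lensQ e) := by
  apply E_ext
  · rfl
  · rw [vec_theta, vec_etaTo, vec_lensTriv]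
    have h1 : tp p (vec e) = (star (Sph.vec (base e)) ⬝ᵥ tp p (vec e)) • Sph.vec (base e) :=
      ((hV.tpow_one p).isProj' _).eq_smul (Sph.nsq_vec (base e)) (Sph.P_vec (base e))
        (tpow_P_tp (P_vec e))
    conv_lhs => rw [h1]
    rw [smul_smul]
    unfold lensQ
    rw [div_eq_mul_inv, mul_comm]

end Bun

end Vale.Agent.P251.G
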