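import Vale.Agent.P251.G.SphereBundle
import Vale.Agent.P251.G.Pushout
import Vale.Agent.P251.G.NDR

/-!
# P251, part G: the polar square, the zero section, sphere and disc bundles

For a bundle `V` over a locally compact Hausdorff space `X`:
* `isPushout_polar`: `V.tot` is the mapping cone of the projection `V.sph ⟶ V.bs`;
* `cofib_zeroHom`: the zero section is a cofibration;
-/

open Matrix Filter Topology CategoryTheory MonoidalCategory Limits OnePoint

open scoped NNReal

namespace Vale.Agent.P251.G

variable {X Y Z : Type} [TopologicalSpace X] [TopologicalSpace Y] [TopologicalSpace Z]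
variable {ι κ μ : Type} [Fintype ι] [Fintype κ] [Fintype μ]

namespace Bun

open LC

variable [LocallyCompactSpace X] [T2Space X] (V : Bun X ι)

theorem injective_zeroHom : Function.Injective (app V.zeroHom) :=
  injective_app_ofClosed (Z := V.bs) (Y := V.tot) V.zeroSec V.isClosedEmbedding_zeroSec

theorem mem_range_zeroHom (p : V.E) :
    (p : OnePoint V.E) ∈ Set.range (app V.zeroHom) ↔ Bun.vec p = 0 := by
  refine (coe_mem_range_app_ofClosed (Z := V.bs) (Y := V.tot) V.zeroSec
    V.isClosedEmbedding_zeroSec p).trans ?_
  constructor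
  · rintro ⟨x, rfl⟩; rfl
  · intro h; exact ⟨Bun.base p, E_ext rfl h.symm⟩

theorem mem_range_coneBase_coe {A : LC} (a : A) (t : ℝ≥0) :
    (((a, t) : A × ℝ≥0) : OnePoint (A × ℝ≥0)) ∈ Set.range (app (coneBase A)) ↔ t = 0 := by
  constructor
  · rintro ⟨x, hx⟩
    rw [app_coneBase] at hx
    induction x using OnePoint.rec with
    | infty => exact absurd hx.symm (OnePoint.coe_ne_infty _)
    | coe x =>
      have := OnePoint.coe_injective hx
      exact (Prod.ext_iff.mp this).2.symm
  · rintro rfl
    exact ⟨(a : OnePoint A), app_coneBase A a⟩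

@[reassoc]
theorem coneBase_polarHom : coneBase V.sph ≫ V.polarHom = V.sphHom ≫ V.zeroHom := by
  apply hom_ext
  intro s
  rw [app_comp, app_coneBase, app_comp, app_sphHom_coe, app_zeroHom_coe]
  change ((V.polar (s, 0) : V.E) : OnePoint V.E) = _
  congr 1
  refine E_ext rfl ?_
  rw [vec_polar, NNReal.coe_zero, zero_smul, vec_zeroSec]

/-- The total space is the mapping cone of the projection of the sphere bundle. -/
theorem isPushout_polar : IsPushout (coneBase V.sph) V.sphHom V.polarHom V.zeroHom := by
  refine isPushout_of V.coneBase_polarHom V.injective_zeroHom ⟨?_, ?_, ?_⟩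
  · intro q hq hq'
    induction q using OnePoint.rec with
    | infty => exact hq (infty_mem_range _)
    | coe q =>
      obtain ⟨s, t⟩ := q
      have ht : t ≠ 0 := fun h => hq ((mem_range_coneBase_coe (A := V.sph) s t).mpr h)
      exact vec_polar_ne_zero (q := (s, t)) ht ((V.mem_range_zeroHom _).mp hq')
  · intro q hq q' hq' h
    induction q using OnePoint.rec with
    | infty => exact absurd (infty_mem_range _) hq
    | coe q =>
      induction q' using OnePoint.rec with
      | infty => exact absurd (infty_mem_range _) hq'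
      | coe q' =>
        obtain ⟨s, t⟩ := q
        have ht : t ≠ 0 := fun h => hq ((mem_range_coneBase_coe (A := V.sph) s t).mpr h)
        have h1 : V.polar (s, t) = V.polar q' := OnePoint.coe_injective h
        exact congrArg OnePoint.some (polar_injOn (q := (s, t)) ht h1)
  · intro p hp
    induction p using OnePoint.rec with
    | infty => exact absurd (infty_mem_range _) hp
    | coe p =>
      have h0 : Bun.vec p ≠ 0 := fun h => hp ((V.mem_range_zeroHom p).mpr h)
      refine ⟨((dir p h0, len p) : V.Sph × ℝ≥0), ?_, ?_⟩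
      · intro h
        have h1 := (mem_range_coneBase_coe (A := V.sph) (dir p h0) (len p)).mp h
        exact (len_pos h0).ne' h1
      · exact congrArg OnePoint.some (polar_dir p h0)

/-- the connecting morphism: collapse of the zero section and polar coordinates -/
noncomputable def polarConn : V.tot ⟶ V.sph ⊗ RR :=
  V.isPushout_polar.desc (V.sph ◁ collHH) 0 (by rw [coneBase_collHH, comp_zero])

@[reassoc (attr := simp)]
theorem polarHom_conn : V.polarHom ≫ V.polarConn = V.sph ◁ collHH := IsPushout.inl_desc _ _ _ _

@[reassoc (attr := simp)]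
theorem zeroHom_conn : V.zeroHom ≫ V.polarConn = 0 := IsPushout.inr_desc _ _ _ _

/-! ### The zero section is a cofibration -/

/-- cut-off function -/
noncomputable def cut (r : ℝ≥0) : ℝ := max 0 (min 1 (2 - r))

theorem cut_nonneg (r : ℝ≥0) : 0 ≤ cut r := le_max_left _ _

theorem cut_le_one (r : ℝ≥0) : cut r ≤ 1 := max_le zero_le_one (min_le_left _ _)

theorem cut_of_le {r : ℝ≥0} (h : r ≤ 1) : cut r = 1 := by
  unfold cut
  have : (r : ℝ) ≤ 1 := by exact_mod_cast h
  rw [min_eq_left (by linarith), max_eq_right zero_le_one]

theorem cut_of_ge {r : ℝ≥0} (h : 2 ≤ r) : cut r = 0 := by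
  unfold cut
  have : (2 : ℝ) ≤ r := by exact_mod_cast h
  exact max_eq_left ((min_le_right _ _).trans (by linarith))

theorem continuous_cut : Continuous cut := by unfold cut; fun_prop

variable {V} in
/-- the deformation -/
noncomputable def shrink (q : V.E × unitInterval) : V.E :=
  Bun.rsmul (1 - (q.2 : ℝ) * cut (len q.1)) q.1

omit [LocallyCompactSpace X] [T2Space X] in
theorem continuous_shrink : Continuous (shrink : V.E × unitInterval → V.E) := by
  refine continuous_rsmul.comp (Continuous.prodMk ?_ continuous_fst)
  have h1 : Continuous fun q : V.E × unitInterval => cut (len q.1) :=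
    continuous_cut.comp (continuous_len.comp continuous_fst)
  fun_prop

omit [LocallyCompactSpace X] [T2Space X] in
theorem shrink_of_ge {p : V.E} (h : 2 ≤ len p) (t : unitInterval) : shrink (p, t) = p := by
  refine E_ext rfl ?_
  rw [shrink, vec_rsmul]
  change (1 - (t : ℝ) * cut (len p)) • Bun.vec p = _
  rw [cut_of_ge h, mul_zero, sub_zero, one_smul]

omit [LocallyCompactSpace X] [T2Space X] in
theorem tendsto_shrink :
    Tendsto (shrink : V.E × unitInterval → V.E) (cocompact _) (cocompact V.E) := by
  refine tendsto_cocompact_of fun K hK r => ?_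
  refine ⟨{p : V.E | Bun.base p ∈ K ∧ nsq (Bun.vec p) ≤ max r 4} ×ˢ Set.univ,
    (V.isCompact_le hK _).prod isCompact_univ, ?_⟩
  rintro ⟨p, t⟩ h1 h2
  refine ⟨⟨h1, ?_⟩, Set.mem_univ _⟩
  by_cases h : 2 ≤ len p
  · rw [shrink_of_ge V h] at h2
    exact h2.trans (le_max_left _ _)
  · push Not at h
    refine le_trans ?_ (le_max_right _ _)
    change nsq (Bun.vec p) ≤ 4
    rw [← coe_len_sq]
    have h3 : (len p : ℝ) < 2 := by exact_mod_cast h
    have h4 := NNReal.coe_nonneg (len p)
    nlinarith

/-- The zero section is a cofibration. -/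
theorem cofib_zeroHom : Cofib V.zeroHom := by
  refine cofib_of_ndr V.injective_zeroHom (fun p : V.E => (len p : ℝ))
    (NNReal.continuous_coe.comp continuous_len) (fun _ => NNReal.coe_nonneg _) ?_
    (ofProper (X := LC.of (V.E × unitInterval)) (Y := V.tot) shrink V.continuous_shrink
      V.tendsto_shrink) ?_ ?_ ?_
  · intro p
    rw [mem_range_zeroHom, NNReal.coe_eq_zero]
    exact len_eq_zero
  · apply hom_ext
    intro p
    rw [app_comp, app_incl]
    change ((shrink (p, 0) : V.E) : OnePoint V.E) = p
    congr 1
    refine E_ext rfl ?_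
    rw [shrink, vec_rsmul]
    simp
  · intro p t h
    change ((shrink (p, t) : V.E) : OnePoint V.E) = p
    congr 1
    refine E_ext rfl ?_
    have h' : Bun.vec p = 0 := len_eq_zero.mp (NNReal.coe_eq_zero.mp h)
    rw [shrink, vec_rsmul, h', smul_zero]
  · intro p h
    change ((shrink (p, 1) : V.E) : OnePoint V.E) ∈ _
    rw [mem_range_zeroHom, shrink, vec_rsmul]
    have h' : len p ≤ 1 := by
      have : (len p : ℝ) < 1 := h
      exact_mod_cast this.le
    change (1 - ((1 : unitInterval) : ℝ) * cut (len p)) • Bun.vec p = 0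
    rw [cut_of_le h']
    simp

end Bun

end Vale.Agent.P251.G
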