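import Mathlib.Data.Matrix.Block
import Mathlib.LinearAlgebra.Matrix.Trace
import Mathlib.LinearAlgebra.Matrix.Kronecker
import Mathlib.Analysis.Complex.Basic
import Mathlib.Topology.Instances.Matrix

/-!
# P251, part G: linear algebra of the power operation (G6)

`J`, `κ`, `ι`, `W` are finite index types; `Φ : Matrix κ J ℂ` with `Φᴴ * Φ = 1` is an orthonormal
frame `(f_j)` of `ℂ^κ`; `powMat Φ P = ∑ⱼ P_j ⊗ f_j f_jᴴ`, `powVec Φ v = ∑ⱼ v_j ⊗ f_j`.
-/

open Matrix

set_option linter.unusedSectionVars false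

namespace Vale.Agent.P251.G

variable {ι κ κ' J W : Type} [Fintype ι] [Fintype κ] [Fintype κ'] [Fintype J] [Fintype W]

/-- `∑ⱼ P_j ⊗ f_j f_jᴴ` -/
def powMat (Φ : Matrix κ J ℂ) (P : J → Matrix ι ι ℂ) : Matrix (ι × κ) (ι × κ) ℂ :=
  fun a b => ∑ j, P j a.1 b.1 * (Φ a.2 j * star (Φ b.2 j))

/-- `∑ⱼ v_j ⊗ f_j` -/
def powVec (Φ : Matrix κ J ℂ) (v : J → ι → ℂ) : ι × κ → ℂ := fun a => ∑ j, v j a.1 * Φ a.2 j

/-- `w_j = (1 ⊗ f_jᴴ) y` -/
def coordVec (Φ : Matrix κ J ℂ) (y : W × κ → ℂ) : J → W → ℂ :=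
  fun j a => ∑ c, star (Φ c j) * y (a, c)

/-- `1 ⊗ Φ` -/
def amp (ι : Type) [DecidableEq ι] (Φ : Matrix κ J ℂ) : Matrix (ι × κ) (ι × J) ℂ :=
  kroneckerMap (· * ·) (1 : Matrix ι ι ℂ) Φ

/-- the vector `⊕ v_j` -/
def pairVec (v : J → ι → ℂ) : ι × J → ℂ := fun a => v a.2 a.1

theorem amp_apply [DecidableEq ι] (Φ : Matrix κ J ℂ) (a : ι × κ) (b : ι × J) :
    amp ι Φ a b = if a.1 = b.1 then Φ a.2 b.2 else 0 := by
  rw [amp, kroneckerMap_apply, Matrix.one_apply]
  split_ifs <;> simp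

theorem amp_conjTranspose_mul_amp [DecidableEq ι] [DecidableEq J] {Φ : Matrix κ J ℂ}
    (h : Φᴴ * Φ = 1) : (amp ι Φ)ᴴ * amp ι Φ = 1 := by
  unfold amp
  rw [Matrix.conjTranspose_kronecker, ← Matrix.mul_kronecker_mul, h, conjTranspose_one,
    Matrix.one_mul]
  exact Matrix.one_kronecker_one

theorem amp_mulVec [DecidableEq ι] (Φ : Matrix κ J ℂ) (v : J → ι → ℂ) :
    amp ι Φ *ᵥ pairVec v = powVec Φ v := by
  funext a
  simp only [mulVec, dotProduct, Fintype.sum_prod_type, amp_apply, pairVec, powVec]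
  rw [Finset.sum_eq_single a.1]
  · refine Finset.sum_congr rfl fun j _ => ?_
    simp [mul_comm]
  · intro b _ hb
    refine Finset.sum_eq_zero fun j _ => ?_
    simp [hb.symm]
  · simp

theorem powMat_eq [DecidableEq ι] [DecidableEq J] (Φ : Matrix κ J ℂ) (P : J → Matrix ι ι ℂ) :
    powMat Φ P = amp ι Φ * blockDiagonal P * (amp ι Φ)ᴴ := by
  have h1 : ∀ (a : ι × κ) (b : ι × J), (amp ι Φ * blockDiagonal P) a b =
      P b.2 a.1 b.1 * Φ a.2 b.2 := by
    intro a b
    rw [Matrix.mul_apply, Fintype.sum_prod_type, Finset.sum_eq_single a.1,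
      Finset.sum_eq_single b.2]
    · rw [amp_apply, blockDiagonal_apply]; simp [mul_comm]
    · intro j _ hj; rw [blockDiagonal_apply]; simp [hj]
    · simp
    · intro c _ hc
      refine Finset.sum_eq_zero fun j _ => ?_
      rw [amp_apply]; simp [hc.symm]
    · simp
  funext a b
  rw [Matrix.mul_apply, Fintype.sum_prod_type, Finset.sum_eq_single b.1]
  · simp only [h1, powMat, conjTranspose_apply, amp_apply]
    refine Finset.sum_congr rfl fun j _ => ?_
    simp [mul_assoc]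
  · intro c _ hc
    refine Finset.sum_eq_zero fun j _ => ?_
    rw [conjTranspose_apply, amp_apply]; simp [hc.symm]
  · simp

theorem blockDiagonal_mulVec_pairVec [DecidableEq J] (P : J → Matrix ι ι ℂ) (v : J → ι → ℂ) :
    blockDiagonal P *ᵥ pairVec v = pairVec fun j => P j *ᵥ v j := by
  funext a
  simp only [mulVec, dotProduct, Fintype.sum_prod_type, blockDiagonal_apply, pairVec]
  refine Finset.sum_congr rfl fun b _ => ?_
  rw [Finset.sum_eq_single a.2]
  · simp
  · intro j _ hj; simp [hj.symm]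
  · simp

section isometry

variable [DecidableEq κ] {V : Matrix κ' κ ℂ}

theorem isom_conj_mul {P Q : Matrix κ κ ℂ} (hV : Vᴴ * V = 1) :
    (V * P * Vᴴ) * (V * Q * Vᴴ) = V * (P * Q) * Vᴴ := by
  calc (V * P * Vᴴ) * (V * Q * Vᴴ) = V * P * (Vᴴ * V) * Q * Vᴴ := by simp only [Matrix.mul_assoc]
    _ = V * (P * Q) * Vᴴ := by rw [hV, Matrix.mul_one]; simp only [Matrix.mul_assoc]

omit [DecidableEq κ] [Fintype κ'] in
theorem isom_conj_conjTranspose {P : Matrix κ κ ℂ} (hP : Pᴴ = P) :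
    (V * P * Vᴴ)ᴴ = V * P * Vᴴ := by
  rw [conjTranspose_mul, conjTranspose_mul, conjTranspose_conjTranspose, hP, Matrix.mul_assoc]

theorem isom_trace {P : Matrix κ κ ℂ} (hV : Vᴴ * V = 1) : (V * P * Vᴴ).trace = P.trace := by
  rw [Matrix.trace_mul_comm, ← Matrix.mul_assoc, hV, Matrix.one_mul]

theorem isom_conj_mulVec {P : Matrix κ κ ℂ} (hV : Vᴴ * V = 1) (v : κ → ℂ) :
    (V * P * Vᴴ) *ᵥ (V *ᵥ v) = V *ᵥ (P *ᵥ v) := by
  rw [Matrix.mulVec_mulVec, Matrix.mulVec_mulVec, Matrix.mul_assoc, hV, Matrix.mul_one]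

end isometry

theorem powMat_mul_self [DecidableEq ι] [DecidableEq J] {Φ : Matrix κ J ℂ} (h : Φᴴ * Φ = 1)
    {P : J → Matrix ι ι ℂ} (hP : ∀ j, P j * P j = P j) :
    powMat Φ P * powMat Φ P = powMat Φ P := by
  rw [powMat_eq, isom_conj_mul (amp_conjTranspose_mul_amp h), ← blockDiagonal_mul]
  simp only [hP]

theorem powMat_conjTranspose (Φ : Matrix κ J ℂ)
    {P : J → Matrix ι ι ℂ} (hP : ∀ j, (P j)ᴴ = P j) :
    (powMat Φ P)ᴴ = powMat Φ P := by
  classical
  rw [powMat_eq, isom_conj_conjTranspose]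
  rw [blockDiagonal_conjTranspose]
  simp only [hP]

theorem powMat_trace [DecidableEq J] {Φ : Matrix κ J ℂ} (h : Φᴴ * Φ = 1)
    (P : J → Matrix ι ι ℂ) : (powMat Φ P).trace = ∑ j, (P j).trace := by
  classical
  rw [powMat_eq, isom_trace (amp_conjTranspose_mul_amp h), trace_blockDiagonal]

theorem powMat_mulVec_powVec [DecidableEq J] {Φ : Matrix κ J ℂ} (h : Φᴴ * Φ = 1)
    (P : J → Matrix ι ι ℂ) (v : J → ι → ℂ) :
    powMat Φ P *ᵥ powVec Φ v = powVec Φ fun j => P j *ᵥ v j := by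
  classical
  rw [powMat_eq, ← amp_mulVec, ← amp_mulVec, isom_conj_mulVec (amp_conjTranspose_mul_amp h),
    blockDiagonal_mulVec_pairVec]

/-- invariance under permutation of the frame -/
theorem powMat_perm (Φ : Matrix κ J ℂ) (P : J → Matrix ι ι ℂ) (σ : Equiv.Perm J) :
    powMat (Φ.submatrix id σ) (fun j => P (σ j)) = powMat Φ P := by
  funext a b
  simp only [powMat, submatrix_apply, id]
  exact Equiv.sum_comp σ fun j => P j a.1 b.1 * (Φ a.2 j * star (Φ b.2 j))

theorem powVec_perm (Φ : Matrix κ J ℂ) (v : J → ι → ℂ) (σ : Equiv.Perm J) :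
    powVec (Φ.submatrix id σ) (fun j => v (σ j)) = powVec Φ v := by
  funext a
  simp only [powVec, submatrix_apply, id]
  exact Equiv.sum_comp σ fun j => v j a.1 * Φ a.2 j

theorem coordVec_perm (Φ : Matrix κ J ℂ) (y : W × κ → ℂ) (σ : Equiv.Perm J) (j : J) :
    coordVec (Φ.submatrix id σ) y j = coordVec Φ y (σ j) := rfl

theorem coordVec_powVec [DecidableEq J] {Φ : Matrix κ J ℂ} (h : Φᴴ * Φ = 1) (w : J → W → ℂ) :
    coordVec Φ (powVec Φ w) = w := by
  funext j a
  simp only [coordVec, powVec, Finset.mul_sum]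
  rw [Finset.sum_comm]
  have h1 : ∀ i : J, ∑ c, star (Φ c j) * (w i a * Φ c i) = (if j = i then w i a else 0) := by
    intro i
    have h2 := congrFun (congrFun h j) i
    rw [Matrix.mul_apply, Matrix.one_apply] at h2
    simp only [conjTranspose_apply] at h2
    have : ∀ c, star (Φ c j) * (w i a * Φ c i) = w i a * (star (Φ c j) * Φ c i) := fun c => by ring
    simp only [this]
    rw [← Finset.mul_sum, h2]
    split_ifs <;> simp
  simp only [h1]
  simp

/-- the projection `1 ⊗ Φ Φᴴ` -/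
theorem powVec_coordVec [DecidableEq W] (Φ : Matrix κ J ℂ) (y : W × κ → ℂ) :
    powVec Φ (coordVec Φ y) = (kroneckerMap (· * ·) (1 : Matrix W W ℂ) (Φ * Φᴴ)) *ᵥ y := by
  funext a
  simp only [powVec, coordVec, mulVec, dotProduct, Fintype.sum_prod_type, kroneckerMap_apply,
    Matrix.one_apply]
  rw [Finset.sum_eq_single a.1]
  · simp only [if_true, one_mul, Matrix.mul_apply, Finset.sum_mul, conjTranspose_apply]
    rw [Finset.sum_comm]
    refine Finset.sum_congr rfl fun j _ => Finset.sum_congr rfl fun c _ => ?_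
    ring
  · intro b _ hb
    refine Finset.sum_eq_zero fun c _ => ?_
    simp [hb.symm]
  · simp

theorem powMat_const [DecidableEq ι] [DecidableEq J] (Φ : Matrix κ J ℂ) (P : Matrix ι ι ℂ) :
    powMat Φ (fun _ => P) = kroneckerMap (· * ·) P (Φ * Φᴴ) := by
  funext a b
  simp only [powMat, kroneckerMap_apply, Matrix.mul_apply, conjTranspose_apply, Finset.mul_sum]

theorem powVec_const (Φ : Matrix κ J ℂ) (v : ι → ℂ) :
    powVec Φ (fun _ => v) = fun a => v a.1 * ∑ j, Φ a.2 j := by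
  funext a
  simp only [powVec, Finset.mul_sum]

section continuity

variable {T : Type*} [TopologicalSpace T]

@[fun_prop]
theorem continuous_powMat {Φ : T → Matrix κ J ℂ} {P : T → J → Matrix ι ι ℂ} (hΦ : Continuous Φ)
    (hP : Continuous P) : Continuous fun t => powMat (Φ t) (P t) := by
  refine continuous_pi fun a => continuous_pi fun b => ?_
  simp only [powMat]
  refine continuous_finsetSum _ fun j _ => ?_
  have h1 : Continuous fun t => P t j a.1 b.1 :=
    (continuous_apply b.1).comp ((continuous_apply a.1).comp ((continuous_apply j).comp hP))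
  have h2 : ∀ c, Continuous fun t => Φ t c j := fun c =>
    (continuous_apply j).comp ((continuous_apply c).comp hΦ)
  exact h1.mul ((h2 _).mul (h2 _).star)

@[fun_prop]
theorem continuous_powVec {Φ : T → Matrix κ J ℂ} {v : T → J → ι → ℂ} (hΦ : Continuous Φ)
    (hv : Continuous v) : Continuous fun t => powVec (Φ t) (v t) := by
  refine continuous_pi fun a => ?_
  simp only [powVec]
  refine continuous_finsetSum _ fun j _ => ?_
  exact ((continuous_apply a.1).comp ((continuous_apply j).comp hv)).mul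
    ((continuous_apply j).comp ((continuous_apply a.2).comp hΦ))

@[fun_prop]
theorem continuous_coordVec {Φ : T → Matrix κ J ℂ} {y : T → W × κ → ℂ} (hΦ : Continuous Φ)
    (hy : Continuous y) : Continuous fun t => coordVec (Φ t) (y t) := by
  refine continuous_pi fun j => continuous_pi fun a => ?_
  simp only [coordVec]
  refine continuous_finsetSum _ fun c _ => ?_
  exact ((continuous_apply j).comp ((continuous_apply c).comp hΦ)).star.mul
    ((continuous_apply (a, c)).comp hy)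

end continuity

/-- `P_j` from `∑ⱼ P_j ⊗ f_j f_jᴴ` -/
def coordMat [DecidableEq ι] (Φ : Matrix κ J ℂ) (Q : Matrix (ι × κ) (ι × κ) ℂ) :
    J → Matrix ι ι ℂ :=
  fun j a b => ((amp ι Φ)ᴴ * Q * amp ι Φ) (a, j) (b, j)

theorem coordMat_powMat [DecidableEq ι] [DecidableEq J] {Φ : Matrix κ J ℂ} (h : Φᴴ * Φ = 1)
    (P : J → Matrix ι ι ℂ) : coordMat Φ (powMat Φ P) = P := by
  have h1 : (amp ι Φ)ᴴ * powMat Φ P * amp ι Φ = blockDiagonal P := by
    rw [powMat_eq]
    calc (amp ι Φ)ᴴ * (amp ι Φ * blockDiagonal P * (amp ι Φ)ᴴ) * amp ι Φ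
        = ((amp ι Φ)ᴴ * amp ι Φ) * blockDiagonal P * ((amp ι Φ)ᴴ * amp ι Φ) := by
          simp only [Matrix.mul_assoc]
      _ = blockDiagonal P := by
          rw [amp_conjTranspose_mul_amp h, Matrix.mul_one, Matrix.one_mul]
  funext j a b
  rw [coordMat, h1, blockDiagonal_apply_eq]

@[fun_prop]
theorem continuous_amp [DecidableEq ι] {T : Type*} [TopologicalSpace T] {Φ : T → Matrix κ J ℂ}
    (hΦ : Continuous Φ) : Continuous fun t => amp ι (Φ t) := by
  refine continuous_pi fun a => continuous_pi fun b => ?_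
  simp only [amp, kroneckerMap_apply]
  exact continuous_const.mul ((continuous_apply b.2).comp ((continuous_apply a.2).comp hΦ))

theorem continuous_coordMat [DecidableEq ι] {T : Type*} [TopologicalSpace T]
    {Φ : T → Matrix κ J ℂ} {Q : T → Matrix (ι × κ) (ι × κ) ℂ} (hΦ : Continuous Φ)
    (hQ : Continuous Q) : Continuous fun t => coordMat (Φ t) (Q t) := by
  have h := ((continuous_amp (ι := ι) hΦ).matrix_conjTranspose.matrix_mul hQ).matrix_mul
    (continuous_amp (ι := ι) hΦ)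
  exact continuous_pi fun j => continuous_pi fun a => continuous_pi fun b =>
    (continuous_apply (b, j)).comp ((continuous_apply (a, j)).comp h)

end Vale.Agent.P251.G
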