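import Vale.Agent.P251.G.PowLC
import Vale.Agent.P251.G.Frames
import Vale.Agent.P251.G.Gr

/-!
# P251, part G: the power operation (G6)

For a family of orthonormal frames `F : Frames B κ J` and a morphism
`f : X ⊗ ℂ^W ⟶ Th n ι` of `LC` we construct
`F.pow f : X ⊗ E(W ⊗ ρ) ⟶ Th (|J| n) (ι × κ)` and prove

* `pow_diag`  : its restriction along the diagonal `ℂ^W ⊗ B ⟶ E(W ⊗ ρ)` is
  `(f ⊗ B)` followed by `((P, v), b) ↦ (P ⊗ ρ b, v ⊗ s b)`;
* `pow_comp_iso` : naturality for maps of frame families;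
* `pow_pt` : its restriction to a point of `B` is the external power of `f`.
-/

open CategoryTheory MonoidalCategory Matrix Filter Topology OnePoint

set_option linter.unusedSectionVars false

namespace Vale.Agent.P251.G

variable {κ κ' J ι W : Type} [Fintype κ] [Fintype κ'] [Fintype J] [Fintype ι] [Fintype W]
  [DecidableEq J] [DecidableEq W]

theorem IsProj.powMat {n N : ℕ} (hN : Fintype.card J * n = N) {Φ : Matrix κ J ℂ}
    (hΦ : Φᴴ * Φ = 1) {P : J → Matrix ι ι ℂ} (hP : ∀ j, IsProj n (P j)) :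
    IsProj N (G.powMat Φ P) where
  idem := by classical exact powMat_mul_self hΦ fun j => (hP j).idem
  herm := powMat_conjTranspose Φ fun j => (hP j).herm
  trace := by
    rw [powMat_trace hΦ, ← hN]
    simp [(hP _).trace]

/-- `(P_j, v_j)_j ↦ (∑ P_j ⊗ f_j f_jᴴ, ∑ v_j ⊗ f_j)` -/
def Th.pow {n N : ℕ} (hN : Fintype.card J * n = N) (Φ : Matrix κ J ℂ) (hΦ : Φᴴ * Φ = 1)
    (t : J → Th n ι) : Th N (ι × κ) :=
  Th.mk (powMat Φ fun j => (t j).P) (powVec Φ fun j => (t j).v)
    (IsProj.powMat hN hΦ fun j => (t j).isProj)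
    (by rw [powMat_mulVec_powVec hΦ]; simp only [Th.P_mulVec])

theorem Th.pow_perm {n N : ℕ} (hN : Fintype.card J * n = N) (Φ Φ' : Matrix κ J ℂ)
    (hΦ : Φᴴ * Φ = 1) (hΦ' : Φ'ᴴ * Φ' = 1) (σ : Equiv.Perm J) (h : Φ' = Φ.submatrix id σ)
    (t : J → Th n ι) : Th.pow hN Φ' hΦ' (fun j => t (σ j)) = Th.pow hN Φ hΦ t := by
  subst h
  refine Th.ext ?_ ?_
  · exact powMat_perm Φ (fun j => (t j).P) σ
  · exact powVec_perm Φ (fun j => (t j).v) σ

theorem Th.continuous_pow {S : Type*} [TopologicalSpace S] {n N : ℕ}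
    (hN : Fintype.card J * n = N) {Φ : S → Matrix κ J ℂ} (hΦ : Continuous Φ)
    (h : ∀ e, (Φ e)ᴴ * Φ e = 1) :
    Continuous fun a : S × (J → Th n ι) => Th.pow hN (Φ a.1) (h a.1) a.2 := by
  refine ((continuous_powMat (hΦ.comp continuous_fst) ?_).prodMk
    (continuous_powVec (hΦ.comp continuous_fst) ?_)).subtype_mk _
  · exact continuous_pi fun j => Th.continuous_P.comp ((continuous_apply j).comp continuous_snd)
  · exact continuous_pi fun j => Th.continuous_v.comp ((continuous_apply j).comp continuous_snd)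

theorem Th.isClosedEmbedding_coord (n : ℕ) (ι : Type) [Fintype ι] (J : Type) :
    IsClosedEmbedding fun (t : J → Th n ι) =>
      ((fun j => (t j).P, fun j => (t j).v) : (J → Matrix ι ι ℂ) × (J → ι → ℂ)) := by
  have h1 : IsClosedEmbedding fun (t : J → Th n ι) (j : J) => (t j).1 :=
    IsClosedEmbedding.piMap fun _ => (isClosed_th n ι).isClosedEmbedding_subtypeVal
  let e : (J → Matrix ι ι ℂ × (ι → ℂ)) ≃ₜ (J → Matrix ι ι ℂ) × (J → ι → ℂ) :=
    { toFun := fun a => (fun j => (a j).1, fun j => (a j).2)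
      invFun := fun b j => (b.1 j, b.2 j)
      left_inv := fun a => rfl
      right_inv := fun b => rfl
      continuous_toFun := by fun_prop
      continuous_invFun := by fun_prop }
  exact e.isClosedEmbedding.comp h1

/-- properness of the direct sum map -/
theorem Th.isProperMap_pow {S : Type*} [TopologicalSpace S] [CompactSpace S] [T2Space S] {n N : ℕ}
    (hN : Fintype.card J * n = N) {Φ : S → Matrix κ J ℂ} (hΦ : Continuous Φ)
    (h : ∀ e, (Φ e)ᴴ * Φ e = 1) :
    IsProperMap fun a : S × (J → Th n ι) => Th.pow (ι := ι) hN (Φ a.1) (h a.1) a.2 := by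
  classical
  let c : S × ((J → Matrix ι ι ℂ) × (J → ι → ℂ)) → S × (Matrix (ι × κ) (ι × κ) ℂ × (ι × κ → ℂ)) :=
    fun a => (a.1, (powMat (Φ a.1) a.2.1, powVec (Φ a.1) a.2.2))
  let d : S × (Matrix (ι × κ) (ι × κ) ℂ × (ι × κ → ℂ)) → S × ((J → Matrix ι ι ℂ) × (J → ι → ℂ)) :=
    fun a => (a.1, (coordMat (Φ a.1) a.2.1, coordVec (Φ a.1) a.2.2))
  have hc : Continuous c :=
    continuous_fst.prodMk ((continuous_powMat (hΦ.comp continuous_fst)
      (continuous_fst.comp continuous_snd)).prodMk (continuous_powVec (hΦ.comp continuous_fst)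
      (continuous_snd.comp continuous_snd)))
  have hd : Continuous d :=
    continuous_fst.prodMk ((continuous_coordMat (hΦ.comp continuous_fst)
      (continuous_fst.comp continuous_snd)).prodMk (continuous_coordVec (hΦ.comp continuous_fst)
      (continuous_snd.comp continuous_snd)))
  have hdc : Function.LeftInverse d c := fun a => by
    simp only [c, d, coordVec_powVec (h a.1), coordMat_powMat (h a.1)]
  have h1 : IsProperMap c := (hdc.isClosedEmbedding hd hc).isProperMap
  have h2 : IsProperMap (Prod.map (id : S → S) fun (t : J → Th n ι) =>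
      ((fun j => (t j).P, fun j => (t j).v) : (J → Matrix ι ι ℂ) × (J → ι → ℂ))) :=
    isProperMap_id.prodMap (Th.isClosedEmbedding_coord n ι J).isProperMap
  have h3 : IsProperMap (Prod.snd : S × (Matrix (ι × κ) (ι × κ) ℂ × (ι × κ → ℂ)) → _) :=
    isProperMap_snd_of_compactSpace
  have h4 : IsProperMap ((Subtype.val : Th N (ι × κ) → _) ∘
      fun a : S × (J → Th n ι) => Th.pow (ι := ι) hN (Φ a.1) (h a.1) a.2) :=
    h3.comp (h1.comp h2)
  exact isProperMap_of_comp_of_inj (Th.continuous_pow hN hΦ h) continuous_subtype_val h4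
    Subtype.val_injective

/-- the embedding `X × (S × (J → ℂ^W)) → S × (J → X × ℂ^W)` -/
def rearr (X S J V : Type) (a : X × (S × (J → V))) : S × (J → X × V) :=
  (a.2.1, fun j => (a.1, a.2.2 j))

theorem isClosedEmbedding_rearr (X S J V : Type) [TopologicalSpace X] [TopologicalSpace S]
    [TopologicalSpace V] [T2Space X] [T2Space S] [T2Space V] [Nonempty J] :
    IsClosedEmbedding (rearr X S J V) := by
  have hc : Continuous (rearr X S J V) := by
    unfold rearr; fun_prop
  let l : S × (J → X × V) → X × (S × (J → V)) :=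
    fun b => ((b.2 (Classical.arbitrary J)).1, (b.1, fun j => (b.2 j).2))
  have hl : Continuous l := by
    refine Continuous.prodMk (continuous_fst.comp ((continuous_apply _).comp continuous_snd)) ?_
    fun_prop
  have hlr : Function.LeftInverse l (rearr X S J V) := fun a => rfl
  exact hlr.isClosedEmbedding hl hc

namespace Frames

variable {B : Type} [TopologicalSpace B] [CompactSpace B] [T2Space B] [Nonempty J]

section defs

variable (F : Frames B κ J) {X : LC} {n N : ℕ} (hN : Fintype.card J * n = N)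
  (f : X ⊗ LC.of (W → ℂ) ⟶ LC.of (Th n ι))

/-- the morphism `X × (S × (J → ℂ^W)) → Th` which descends to the power operation -/
noncomputable def preG : LC.of (X × (F.S × (J → W → ℂ))) ⟶ LC.of (Th N (ι × κ)) :=
  LC.ofIsProper (X := LC.of (X × (F.S × (J → W → ℂ)))) (Y := LC.of (F.S × (J → X × (W → ℂ))))
    (rearr X F.S J (W → ℂ)) (isClosedEmbedding_rearr _ _ _ _).isProperMap ≫
  (LC.of F.S ◁ LC.powHom J f) ≫
  LC.ofIsProper (X := LC.of (F.S × (J → Th n ι))) (Y := LC.of (Th N (ι × κ)))
    (fun a => Th.pow hN (F.Φ a.1) (F.isom a.1) a.2) (Th.isProperMap_pow hN F.cont_Φ F.isom)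

theorem app_preG (a : X × (F.S × (J → W → ℂ))) :
    LC.app (F.preG hN f) (a : OnePoint (X × (F.S × (J → W → ℂ)))) =
      OnePoint.map (Th.pow hN (F.Φ a.2.1) (F.isom a.2.1))
        (OP.smash fun j => LC.app f ((a.1, a.2.2 j) : X × (W → ℂ))) := by
  obtain ⟨x, e, w⟩ := a
  rw [preG, LC.app_comp, LC.app_comp, LC.app_ofIsProper_coe]
  have h1 : (rearr X F.S J (W → ℂ) (x, e, w) : OnePoint (F.S × (J → X × (W → ℂ)))) =
      LC.smash (e : OnePoint F.S) ((fun j => (x, w j) : J → X × (W → ℂ)) : OnePoint _) := rfl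
  rw [h1]
  have h2 := LC.app_whiskerLeft_smash (LC.of F.S) (LC.powHom J f) (e : OnePoint F.S)
    ((fun j => (x, w j) : J → X × (W → ℂ)) : OnePoint (J → X × (W → ℂ)))
  rw [h2, LC.app_powHom_coe]
  generalize (OP.smash fun j => LC.app f ((x, w j) : X × (W → ℂ))) = z
  induction z using OnePoint.rec with
  | infty => rfl
  | coe z => rfl

/-- the underlying function of the power operation -/
noncomputable def powFun (a : X × (F.ρW W).E) : OnePoint (Th N (ι × κ)) :=
  OnePoint.map (Th.pow hN (F.Φ (F.lift (Bun.base a.2))) (F.isom (F.lift (Bun.base a.2))))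
    (OP.smash fun j => LC.app f
      ((a.1, coordVec (F.Φ (F.lift (Bun.base a.2))) (Bun.vec a.2) j) : X × (W → ℂ)))

theorem smash_perm {Y : Type} (σ : Equiv.Perm J) (y : J → OnePoint Y) :
    OP.smash (fun j => y (σ j)) = OnePoint.map (fun t : J → Y => fun j => t (σ j)) (OP.smash y) := by
  by_cases h : ∀ j, ∃ z : Y, (z : OnePoint Y) = y j
  · choose z hz using h
    have : y = fun j => (z j : OnePoint Y) := funext fun j => (hz j).symm
    subst this
    rw [OP.smash_coe, OP.smash_coe]; rfl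
  · push Not at h
    obtain ⟨j, hj⟩ := h
    have hj' : y j = ∞ := by
      by_contra hcon
      obtain ⟨z, hz⟩ := OnePoint.ne_infty_iff_exists.1 hcon
      exact hj z hz
    rw [OP.smash_infty y hj', OP.smash_infty (fun j => y (σ j)) (j := σ.symm j) (by simp [hj'])]
    rfl

theorem powFun_q (x : X) (e : F.S) (w : J → W → ℂ) :
    F.powFun hN f (x, F.q (e, w)) =
      OnePoint.map (Th.pow hN (F.Φ e) (F.isom e))
        (OP.smash fun j => LC.app f ((x, w j) : X × (W → ℂ))) := by
  unfold powFun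
  simp only [base_q, vec_q]
  obtain ⟨σ, hσ⟩ := F.perm e (F.lift (F.π e)) (F.π_lift _).symm
  have h1 : ∀ j, coordVec (F.Φ (F.lift (F.π e))) (powVec (F.Φ e) w) j = w (σ j) := by
    intro j
    rw [hσ, coordVec_perm, coordVec_powVec (F.isom e)]
  simp only [h1]
  rw [smash_perm σ fun j => LC.app f ((x, w j) : X × (W → ℂ))]
  generalize (OP.smash fun j => LC.app f ((x, w j) : X × (W → ℂ))) = z
  induction z using OnePoint.rec with
  | infty => rfl
  | coe z => exact congrArg _ (Th.pow_perm hN (F.Φ e) _ (F.isom e) _ σ hσ z)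

theorem isProperMap_idq (X : Type) [TopologicalSpace X] :
    IsProperMap (Prod.map id F.q : X × (F.S × (J → W → ℂ)) → X × (F.ρW W).E) :=
  isProperMap_id.prodMap F.isProperMap_q

theorem surjective_idq (X : Type) :
    Function.Surjective (Prod.map id F.q : X × (F.S × (J → W → ℂ)) → X × (F.ρW W).E) :=
  Function.surjective_id.prodMap F.surjective_q

/-- **The power operation.** -/
noncomputable def pow : X ⊗ (F.ρW W).tot ⟶ LC.of (Th N (ι × κ)) :=
  LC.descend (A' := LC.of (X × (F.S × (J → W → ℂ)))) (A := LC.of (X × (F.ρW W).E))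
    (Prod.map id F.q) (F.isProperMap_idq X) (F.surjective_idq X) (F.preG hN f) (F.powFun hN f)
    (fun a => by
      rw [F.app_preG hN f a]
      exact F.powFun_q hN f a.1 a.2.1 a.2.2)

theorem app_pow (x : X) (p : (F.ρW W).E) :
    LC.app (F.pow hN f) ((x, p) : X × (F.ρW W).E) = F.powFun hN f (x, p) := rfl

theorem app_pow_q (x : X) (e : F.S) (w : J → W → ℂ) :
    LC.app (F.pow hN f) ((x, F.q (e, w)) : X × (F.ρW W).E) =
      OnePoint.map (Th.pow hN (F.Φ e) (F.isom e))
        (OP.smash fun j => LC.app f ((x, w j) : X × (W → ℂ))) :=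
  F.powFun_q hN f x e w

end defs

end Frames

end Vale.Agent.P251.G
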