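import Vale.Agent.P251.G.Power
import Vale.Agent.P251.G.ThMap
import Vale.Agent.P251.G.Gauge

/-!
# P251, part G: properties of the power operation (G6)

* `Frames.pow_diag` (P1): restriction along the diagonal;
* `Frames.pow_nat` (P2): naturality in the frame family;
* `Frames.pow_pt` (P3): restriction to a point of the base; `LC.shuffle_null`: the restriction is
  null-homotopic for `X = X' ⊗ ℝ`, `|J| ≥ 2`.
-/

open CategoryTheory MonoidalCategory Matrix Filter Topology OnePoint

set_option linter.unusedSectionVars false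

namespace Vale.Agent.P251.G

variable {κ κ' J ι W : Type} [Fintype κ] [Fintype κ'] [Fintype J] [Fintype ι] [Fintype W]
  [DecidableEq J] [DecidableEq W]

namespace Frames

variable {B : Type} [TopologicalSpace B] [CompactSpace B] [T2Space B] [Nonempty J]
variable (F : Frames B κ J) {X : LC} {n N : ℕ} (hN : Fintype.card J * n = N)
  (f : X ⊗ LC.of (W → ℂ) ⟶ LC.of (Th n ι))

/-- the diagonal `ℂ^W ⊗ B ⟶ E(W ⊗ ρ)`, `(w, b) ↦ w ⊗ s(b)` -/
noncomputable def diag : LC.of (W → ℂ) ⊗ LC.of B ⟶ (F.ρW W).tot :=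
  LC.ofIsProper (X := LC.of ((W → ℂ) × B)) (Y := LC.of (F.ρW W).E) F.diagFun F.isProperMap_diagFun

/-- `((P, v), b) ↦ (P ⊗ ρ b, v ⊗ s b)` -/
noncomputable def clFun (a : Th n ι × B) : Th N (ι × κ) :=
  Th.pow hN (F.Φ (F.lift a.2)) (F.isom (F.lift a.2)) (fun _ => a.1)

theorem clFun_P (a : Th n ι × B) :
    (F.clFun hN a).P = kroneckerMap (· * ·) a.1.P (F.ρ.P a.2) := by
  classical
  change powMat _ (fun _ => a.1.P) = _
  rw [powMat_const]
  rfl

theorem clFun_v (a : Th n ι × B) :
    (F.clFun hN a).v = fun x => a.1.v x.1 * F.s a.2 x.2 := by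
  change powVec _ (fun _ => a.1.v) = _
  rw [F.powVec_const_π (F.π_lift a.2)]

theorem clFun_π (t : Th n ι) (e : F.S) :
    F.clFun hN (t, F.π e) = Th.pow hN (F.Φ e) (F.isom e) (fun _ => t) := by
  classical
  refine Th.ext ?_ ?_
  · rw [clFun_P, ρ_P_π]
    change _ = powMat _ (fun _ => t.P)
    rw [powMat_const]
  · rw [clFun_v]
    change _ = powVec _ (fun _ => t.v)
    rw [F.powVec_const_π rfl]

theorem continuous_clFun : Continuous (F.clFun hN : Th n ι × B → Th N (ι × κ)) := by
  have h1 : Continuous fun a : Th n ι × B => (F.clFun hN a).P := by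
    simp only [clFun_P]
    refine continuous_pi fun x => continuous_pi fun y => ?_
    simp only [kroneckerMap_apply]
    have h2 : Continuous fun a : Th n ι × B => a.1.P x.1 y.1 :=
      (continuous_apply y.1).comp ((continuous_apply x.1).comp (Th.continuous_P.comp continuous_fst))
    have h3 : Continuous fun a : Th n ι × B => F.ρ.P a.2 x.2 y.2 :=
      (continuous_apply y.2).comp ((continuous_apply x.2).comp (F.ρ.cont.comp continuous_snd))
    exact h2.mul h3
  have h2 : Continuous fun a : Th n ι × B => (F.clFun hN a).v := by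
    simp only [clFun_v]
    refine continuous_pi fun x => ?_
    exact ((continuous_apply x.1).comp (Th.continuous_v.comp continuous_fst)).mul
      ((continuous_apply x.2).comp (F.continuous_s.comp continuous_snd))
  exact (h1.prodMk h2).subtype_mk _

theorem isProperMap_clFun : IsProperMap (F.clFun hN : Th n ι × B → Th N (ι × κ)) := by
  have h1 : IsProperMap fun a : F.S × (J → Th n ι) =>
      Th.pow (ι := ι) hN (F.Φ a.1) (F.isom a.1) a.2 := Th.isProperMap_pow hN F.cont_Φ F.isom
  let c : Th n ι × F.S → F.S × (J → Th n ι) := fun a => (a.2, fun _ => a.1)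
  let d : F.S × (J → Th n ι) → Th n ι × F.S := fun a => (a.2 (Classical.arbitrary J), a.1)
  have hc : Continuous c := by fun_prop
  have hd : Continuous d := by fun_prop
  have hdc : Function.LeftInverse d c := fun a => rfl
  have h2 : IsProperMap c := (hdc.isClosedEmbedding hd hc).isProperMap
  have h3 : IsProperMap (F.clFun hN ∘ (Prod.map (id : Th n ι → Th n ι) F.π)) := by
    have : F.clFun hN ∘ (Prod.map (id : Th n ι → Th n ι) F.π) =
        (fun a : F.S × (J → Th n ι) => Th.pow (ι := ι) hN (F.Φ a.1) (F.isom a.1) a.2) ∘ c := by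
      funext a
      exact F.clFun_π hN a.1 a.2
    rw [this]
    exact h1.comp h2
  exact isProperMap_of_comp_of_surj (continuous_id.prodMap F.cont_π) (F.continuous_clFun hN) h3
    (Function.surjective_id.prodMap F.surj)

/-- `Th n ι ⊗ B ⟶ Th N (ι × κ)`, `((P, v), b) ↦ (P ⊗ ρ b, v ⊗ s b)` -/
noncomputable def cl : LC.of (Th n ι) ⊗ LC.of B ⟶ LC.of (Th N (ι × κ)) :=
  LC.ofIsProper (X := LC.of (Th n ι × B)) (Y := LC.of (Th N (ι × κ))) (F.clFun hN)
    (F.isProperMap_clFun hN)

theorem diagFun_π (w : W → ℂ) (e : F.S) : F.diagFun (w, F.π e) = F.q (e, fun _ => w) := by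
  refine Bun.E_ext rfl ?_
  rw [vec_diagFun, vec_q, F.powVec_const_π rfl]

/-- **(P1)** the restriction of the power operation along the diagonal -/
theorem pow_diag : (α_ X (LC.of (W → ℂ)) (LC.of B)).hom ≫ (X ◁ F.diag) ≫ F.pow hN f =
    (f ▷ LC.of B) ≫ F.cl hN := by
  apply LC.hom_ext
  rintro ⟨⟨x, w⟩, b⟩
  obtain ⟨e, rfl⟩ := F.surj b
  have h1 : LC.app ((α_ X (LC.of (W → ℂ)) (LC.of B)).hom ≫ (X ◁ F.diag) ≫ F.pow hN f)
      ((((x, w), F.π e) : (X × (W → ℂ)) × B) : OnePoint ((X × (W → ℂ)) × B)) =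
      LC.app (F.pow hN f) (((x, F.diagFun (w, F.π e)) : X × (F.ρW W).E) : OnePoint _) := rfl
  have h2 : LC.app ((f ▷ LC.of B) ≫ F.cl hN)
      ((((x, w), F.π e) : (X × (W → ℂ)) × B) : OnePoint ((X × (W → ℂ)) × B)) =
      LC.app (F.cl hN) (LC.smash (LC.app f ((x, w) : X × (W → ℂ))) (F.π e : OnePoint B)) := by
    rw [LC.app_comp]
    exact congrArg _ (LC.app_whiskerRight_smash f (LC.of B)
      ((x, w) : X × (W → ℂ)) (F.π e : OnePoint B))
  refine h1.trans (Eq.trans ?_ h2.symm)
  rw [diagFun_π, app_pow_q]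
  generalize LC.app f ((x, w) : X × (W → ℂ)) = z
  induction z using OnePoint.rec with
  | infty =>
    rw [OP.smash_infty _ (j := Classical.arbitrary J) rfl]
    exact (LC.app_infty (F.cl hN)).symm
  | coe z =>
    rw [OP.smash_coe]
    exact congrArg (OnePoint.some) (F.clFun_π hN z e).symm

/-! ### Restriction to a point of the base -/

/-- the fibre over `π e`, parametrized by the frame -/
noncomputable def fibre (e : F.S) : LC.of (J → W → ℂ) ⟶ (F.ρW W).tot :=
  LC.ofIsProper (X := LC.of (J → W → ℂ)) (Y := LC.of (F.ρW W).E) (fun w => F.q (e, w)) (by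
    have h1 : IsClosedEmbedding (fun w : J → W → ℂ => (e, w)) := by
      have hr : Function.LeftInverse (Prod.snd : F.S × (J → W → ℂ) → _)
        (fun w : J → W → ℂ => (e, w)) := fun a => rfl
      exact hr.isClosedEmbedding continuous_snd (by fun_prop)
    exact F.isProperMap_q.comp h1.isProperMap)

end Frames

namespace LC

/-- `X ⊗ (J → V) ⟶ (J → X × V)` -/
noncomputable def shuffle (X V : LC) (J : Type) [Finite J] [Nonempty J] :
    X ⊗ LC.of (J → V) ⟶ LC.of (J → X × V) :=
  LC.ofIsProper (X := LC.of (X × (J → V))) (Y := LC.of (J → X × V)) (fun a j => (a.1, a.2 j)) (by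
    have hc : Continuous fun (a : X × (J → V)) (j : J) => (a.1, a.2 j) := by fun_prop
    let l : (J → X × V) → X × (J → V) := fun b => ((b (Classical.arbitrary J)).1, fun j => (b j).2)
    have hl : Continuous l :=
      (continuous_fst.comp (continuous_apply _)).prodMk (by fun_prop)
    have hlr : Function.LeftInverse l (fun (a : X × (J → V)) (j : J) => (a.1, a.2 j)) :=
      fun a => rfl
    exact (hlr.isClosedEmbedding hl hc).isProperMap)

theorem app_shuffle_coe (X V : LC) (J : Type) [Finite J] [Nonempty J] (x : X) (w : J → V) :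
    app (shuffle X V J) (((x, w) : X × (J → V)) : OnePoint (X × (J → V))) =
      ((fun j => (x, w j) : J → X × V) : OnePoint (J → X × V)) := rfl

end LC

namespace Frames

variable {B : Type} [TopologicalSpace B] [CompactSpace B] [T2Space B] [Nonempty J]
variable (F : Frames B κ J) {X : LC} {n N : ℕ} (hN : Fintype.card J * n = N)
  (f : X ⊗ LC.of (W → ℂ) ⟶ LC.of (Th n ι))

/-- the direct sum map for one frame -/
noncomputable def thPow (e : F.S) : LC.of (J → Th n ι) ⟶ LC.of (Th N (ι × κ)) :=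
  LC.ofIsProper (X := LC.of (J → Th n ι)) (Y := LC.of (Th N (ι × κ)))
    (fun t => Th.pow hN (F.Φ e) (F.isom e) t) (by
    have h1 : IsClosedEmbedding (fun w : J → Th n ι => (e, w)) := by
      have hr : Function.LeftInverse (Prod.snd : F.S × (J → Th n ι) → _)
        (fun w : J → Th n ι => (e, w)) := fun a => rfl
      exact hr.isClosedEmbedding continuous_snd (by fun_prop)
    exact (Th.isProperMap_pow (ι := ι) hN F.cont_Φ F.isom).comp h1.isProperMap)

/-- **(P3)** the restriction to a point of the base -/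
theorem pow_pt (e : F.S) : (X ◁ F.fibre e) ≫ F.pow hN f =
    LC.shuffle X (LC.of (W → ℂ)) J ≫ LC.powHom J f ≫ F.thPow hN e := by
  apply LC.hom_ext
  rintro ⟨x, w⟩
  have h1 : LC.app ((X ◁ F.fibre e) ≫ F.pow hN f)
      (((x, w) : X × (J → W → ℂ)) : OnePoint (X × (J → W → ℂ))) =
      LC.app (F.pow hN f) (((x, F.q (e, w)) : X × (F.ρW W).E) : OnePoint _) := rfl
  have h2 : LC.app (LC.shuffle X (LC.of (W → ℂ)) J ≫ LC.powHom J f ≫ F.thPow hN e)
      (((x, w) : X × (J → W → ℂ)) : OnePoint (X × (J → W → ℂ))) =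
      LC.app (F.thPow hN e) (OP.smash fun j => LC.app f ((x, w j) : X × (W → ℂ))) := rfl
  refine h1.trans (Eq.trans ?_ h2.symm)
  rw [app_pow_q]
  generalize (OP.smash fun j => LC.app f ((x, w j) : X × (W → ℂ))) = z
  induction z using OnePoint.rec with
  | infty => exact (LC.app_infty (F.thPow hN e)).symm
  | coe z => rfl

end Frames

namespace LC

/-- the shuffle map is null-homotopic on a suspension -/
theorem shuffle_null (X V : LC) (J : Type) [Finite J] [Nontrivial J] :
    Homotopic (shuffle (X ⊗ RR) V J) 0 := by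
  classical
  obtain ⟨j0, j1, hj⟩ := exists_pair_ne J
  -- the map with an additional parameter `u ∈ [0,∞)`
  let m : ((X × ℝ) × (J → V)) × NNReal → (J → (X × ℝ) × V) := fun a j =>
    ((a.1.1.1, if j = j0 then a.1.1.2 else a.1.1.2 + a.2), a.1.2 j)
  have hm : Continuous m := by
    refine continuous_pi fun j => ?_
    have h1 : Continuous fun a : ((X × ℝ) × (J → V)) × NNReal =>
        (if j = j0 then a.1.1.2 else a.1.1.2 + (a.2 : ℝ)) := by
      by_cases h : j = j0
      · simp only [h, if_true]; fun_prop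
      · simp only [h, if_false]; fun_prop
    exact ((continuous_fst.comp (continuous_fst.comp continuous_fst)).prodMk h1).prodMk
      ((continuous_apply j).comp (continuous_snd.comp continuous_fst))
  let l : (J → (X × ℝ) × V) → ((X × ℝ) × (J → V)) × NNReal := fun b =>
    (((b j0).1, fun j => (b j).2), Real.toNNReal ((b j1).1.2 - (b j0).1.2))
  have hl : Continuous l := by
    refine Continuous.prodMk (Continuous.prodMk ?_ ?_) (continuous_real_toNNReal.comp ?_)
    · exact continuous_fst.comp (continuous_apply j0)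
    · fun_prop
    · exact (continuous_snd.comp (continuous_fst.comp (continuous_apply j1))).sub
        (continuous_snd.comp (continuous_fst.comp (continuous_apply j0)))
  have hlr : Function.LeftInverse l m := by
    rintro ⟨⟨⟨x, t⟩, w⟩, u⟩
    simp only [l, m, if_true, if_neg hj.symm]
    simp
  let M : (((X ⊗ RR) ⊗ LC.of (J → V)) ⊗ HH) ⟶ LC.of (J → (X × ℝ) × V) :=
    ofIsProper (X := LC.of (((X × ℝ) × (J → V)) × NNReal)) (Y := LC.of (J → (X × ℝ) × V)) m
      (hlr.isClosedEmbedding hl hm).isProperMap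
  have h1 : shuffle (X ⊗ RR) V J = (ρ_ ((X ⊗ RR) ⊗ LC.of (J → V))).inv ≫
      (((X ⊗ RR) ⊗ LC.of (J → V)) ◁ (point (X := HH) (0 : NNReal) ≫ 𝟙 HH)) ≫ M := by
    apply LC.hom_ext
    rintro ⟨⟨x, t⟩, w⟩
    have h2 : app ((ρ_ ((X ⊗ RR) ⊗ LC.of (J → V))).inv ≫
      (((X ⊗ RR) ⊗ LC.of (J → V)) ◁ (point (X := HH) (0 : NNReal) ≫ 𝟙 HH)) ≫ M)
        ((((x, t), w) : (X × ℝ) × (J → V)) : OnePoint ((X × ℝ) × (J → V))) =
        (m (((x, t), w), 0) : OnePoint _) := rfl
    refine Eq.trans ?_ h2.symm
    rw [app_shuffle_coe]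
    congr 1
    funext j
    simp only [m]
    by_cases h : j = j0
    · simp [h]
    · simp [h]
  rw [h1]
  have h3 : Homotopic (point (X := HH) (0 : NNReal) ≫ 𝟙 HH) 0 := by
    have h := Homotopic.comp_left (point (X := HH) (0 : NNReal)) contr_HH
    rwa [Limits.comp_zero] at h
  have h4 := (h3.whiskerLeft ((X ⊗ RR) ⊗ LC.of (J → V))).comp_right M
  have h5 := Homotopic.comp_left (ρ_ ((X ⊗ RR) ⊗ LC.of (J → V))).inv h4
  refine h5.trans (Homotopic.of_eq ?_)
  apply LC.hom_ext
  rintro ⟨⟨x, t⟩, w⟩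
  rfl

end LC

end Vale.Agent.P251.G
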