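import Vale.Agent.P251.G.Gr
import Mathlib.Analysis.InnerProductSpace.PiL2
import Mathlib.Analysis.Matrix.Order

/-!
# P251, part G: linear algebra of projections

* `conjG Q P = Q P + (1-Q)(1-P)`: canonical intertwiner of two projections;
* `exists_frame`: a hermitian projection is `B Bᴴ` with `Bᴴ B = 1`;
* `imProj`: projection onto the image of an injective matrix.
-/

open Matrix Filter Topology

namespace Vale.Agent.P251.G

variable {ι κ μ : Type} [Fintype ι] [Fintype κ] [Fintype μ]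

section conj

variable [DecidableEq ι]

/-- canonical intertwiner of two projections -/
def conjG (Q P : Matrix ι ι ℂ) : Matrix ι ι ℂ := Q * P + (1 - Q) * (1 - P)

theorem conjG_self {P : Matrix ι ι ℂ} (h : P * P = P) : conjG P P = 1 := by
  unfold conjG
  rw [sub_mul, mul_sub, mul_sub, h, one_mul, mul_one, one_mul]
  abel

theorem conjG_mul {Q P : Matrix ι ι ℂ} (hP : P * P = P) (hQ : Q * Q = Q) :
    conjG Q P * P = Q * conjG Q P := by
  unfold conjG
  have h1 : (1 - P) * P = 0 := by rw [sub_mul, hP, one_mul, sub_self]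
  have h2 : Q * (1 - Q) = 0 := by rw [mul_sub, hQ, mul_one, sub_self]
  rw [add_mul, mul_add, Matrix.mul_assoc, hP, Matrix.mul_assoc, h1, mul_zero, add_zero,
    ← Matrix.mul_assoc, hQ, ← Matrix.mul_assoc, h2, zero_mul, add_zero]

theorem continuous_conjG : Continuous fun p : Matrix ι ι ℂ × Matrix ι ι ℂ => conjG p.1 p.2 := by
  unfold conjG
  fun_prop

end conj

/-- A hermitian projection is `B Bᴴ` for an orthonormal frame `B`. -/
theorem exists_frame {P : Matrix ι ι ℂ} (hP : P * P = P) (hH : Pᴴ = P) :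
    ∃ (r : ℕ) (B : Matrix ι (Fin r) ℂ), B * Bᴴ = P ∧ Bᴴ * B = 1 := by
  classical
  let T : EuclideanSpace ℂ ι →ₗ[ℂ] EuclideanSpace ℂ ι := Matrix.toEuclideanLin P
  let W := LinearMap.range T
  let b := stdOrthonormalBasis ℂ W
  refine ⟨Module.finrank ℂ W, Matrix.of fun i j => (b j : EuclideanSpace ℂ ι).ofLp i, ?_, ?_⟩
  · -- `B Bᴴ = P`
    have hT : ∀ v, T v = WithLp.toLp 2 (P *ᵥ v.ofLp) := fun v => rfl
    have hTW : ∀ w ∈ W, T w = w := by
      rintro w ⟨v, rfl⟩
      rw [hT, hT]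
      change WithLp.toLp 2 (P *ᵥ (P *ᵥ v.ofLp)) = _
      rw [mulVec_mulVec, hP]
    have hsym : ∀ v w, inner ℂ (T v) w = inner ℂ v (T w) := by
      intro v w
      rw [hT, hT, EuclideanSpace.inner_eq_star_dotProduct, EuclideanSpace.inner_eq_star_dotProduct]
      change w.ofLp ⬝ᵥ star (P *ᵥ v.ofLp) = (P *ᵥ w.ofLp) ⬝ᵥ star v.ofLp
      rw [star_mulVec, hH, dotProduct_comm, dotProduct_comm (P *ᵥ w.ofLp), dotProduct_mulVec]
    ext i k
    rw [Matrix.mul_apply]
    -- apply to the basis vector `e_k`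
    have h1 : ∀ v : EuclideanSpace ℂ ι,
        T v = ∑ j, inner ℂ (b j : EuclideanSpace ℂ ι) v • (b j : EuclideanSpace ℂ ι) := by
      intro v
      have h2 : T v ∈ W := ⟨v, rfl⟩
      have h3 := b.sum_repr' ⟨T v, h2⟩
      have h4 := congrArg (Subtype.val) h3
      rw [Submodule.coe_sum] at h4
      refine h4.symm.trans ?_
      refine Finset.sum_congr rfl fun j _ => ?_
      rw [Submodule.coe_smul]
      congr 1
      change inner ℂ (b j : EuclideanSpace ℂ ι) (T v) = _
      rw [← hsym, hTW _ (b j).2]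
    have h5 := congrArg (fun w : EuclideanSpace ℂ ι => w.ofLp i) (h1 (EuclideanSpace.single k 1))
    simp only [hT, WithLp.ofLp_sum, WithLp.ofLp_smul, Finset.sum_apply, Pi.smul_apply,
      smul_eq_mul, EuclideanSpace.inner_single_right, one_mul] at h5
    have h6 : (P *ᵥ (EuclideanSpace.single k (1 : ℂ)).ofLp) i = P i k := by
      simp
    rw [h6] at h5
    rw [h5]
    refine Finset.sum_congr rfl fun j _ => ?_
    rw [conjTranspose_apply, mul_comm]
    rfl
  · ext j k
    rw [Matrix.mul_apply]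
    have h := b.orthonormal
    rw [orthonormal_iff_ite] at h
    have h1 := h j k
    rw [Matrix.one_apply, ← h1]
    change _ = inner ℂ (b j : EuclideanSpace ℂ ι) (b k : EuclideanSpace ℂ ι)
    rw [EuclideanSpace.inner_eq_star_dotProduct, dotProduct]
    refine Finset.sum_congr rfl fun i _ => ?_
    rw [conjTranspose_apply, mul_comm]
    rfl

/-! ### The projection onto the image of an injective matrix -/

section image

variable [DecidableEq ι]

/-- `Aᴴ A + (1 - P)` -/
def gramM (A : Matrix κ ι ℂ) (P : Matrix ι ι ℂ) : Matrix ι ι ℂ := Aᴴ * A + (1 - P)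

omit [Fintype ι] in
theorem gramM_herm {A : Matrix κ ι ℂ} {P : Matrix ι ι ℂ} (hH : Pᴴ = P) :
    (gramM A P)ᴴ = gramM A P := by
  unfold gramM
  rw [conjTranspose_add, conjTranspose_mul, conjTranspose_conjTranspose, conjTranspose_sub,
    conjTranspose_one, hH]

theorem gramM_mul {A : Matrix κ ι ℂ} {P : Matrix ι ι ℂ} (hP : P * P = P) (hA : A * P = A) :
    gramM A P * P = Aᴴ * A := by
  unfold gramM
  rw [add_mul, Matrix.mul_assoc, hA, sub_mul, one_mul, hP, sub_self, add_zero]

theorem mul_gramM {A : Matrix κ ι ℂ} {P : Matrix ι ι ℂ} (hP : P * P = P) (hH : Pᴴ = P)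
    (hA : A * P = A) : P * gramM A P = Aᴴ * A := by
  have h := congrArg conjTranspose (gramM_mul hP hA)
  rwa [conjTranspose_mul, hH, gramM_herm hH, conjTranspose_mul, conjTranspose_conjTranspose] at h

theorem isUnit_gramM {A : Matrix κ ι ℂ} {P : Matrix ι ι ℂ} (hP : P * P = P) (hH : Pᴴ = P)
    (inj : ∀ v, P *ᵥ v = v → A *ᵥ v = 0 → v = 0) : IsUnit (gramM A P) := by
  rw [← Matrix.mulVec_injective_iff_isUnit]
  rw [← Matrix.coe_mulVecLin, ← LinearMap.ker_eq_bot, LinearMap.ker_eq_bot']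
  intro v hv
  rw [Matrix.mulVecLin_apply] at hv
  have h1 : (nsq (A *ᵥ v) : ℂ) + (nsq ((1 - P) *ᵥ v) : ℂ) = 0 := by
    have h2 : star v ⬝ᵥ (gramM A P *ᵥ v) = 0 := by rw [hv, dotProduct_zero]
    rw [← h2, gramM, add_mulVec, dotProduct_add, nsq_eq_dotProduct, nsq_eq_dotProduct]
    congr 1
    · rw [star_mulVec, ← dotProduct_mulVec, mulVec_mulVec]
    · rw [star_mulVec, ← dotProduct_mulVec, mulVec_mulVec, conjTranspose_sub, conjTranspose_one, hH]
      congr 2
      rw [sub_mul, mul_sub, mul_sub, hP, one_mul, mul_one, one_mul, sub_self, sub_zero]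
  have h3 : nsq (A *ᵥ v) + nsq ((1 - P) *ᵥ v) = 0 := by exact_mod_cast h1
  have h4 := nsq_nonneg (A *ᵥ v)
  have h5 := nsq_nonneg ((1 - P) *ᵥ v)
  have h6 : nsq (A *ᵥ v) = 0 := by linarith
  have h7 : nsq ((1 - P) *ᵥ v) = 0 := by linarith
  rw [nsq_eq_zero] at h6 h7
  refine inj v ?_ h6
  rw [sub_mulVec, one_mulVec, sub_eq_zero] at h7
  exact h7.symm

/-- the projection onto the image of `A` -/
noncomputable def imProj (A : Matrix κ ι ℂ) (P : Matrix ι ι ℂ) : Matrix κ κ ℂ :=
  A * (gramM A P)⁻¹ * Aᴴ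

/-- the inverse of `A` on its image -/
noncomputable def imInv (A : Matrix κ ι ℂ) (P : Matrix ι ι ℂ) : Matrix ι κ ℂ :=
  (gramM A P)⁻¹ * Aᴴ

variable {A : Matrix κ ι ℂ} {P : Matrix ι ι ℂ}

theorem gramM_inv_comm (hP : P * P = P) (hH : Pᴴ = P) (hA : A * P = A)
    (hu : IsUnit (gramM A P)) : (gramM A P)⁻¹ * P = P * (gramM A P)⁻¹ := by
  have hd : IsUnit (gramM A P).det := (Matrix.isUnit_iff_isUnit_det _).mp hu
  have h : gramM A P * P = P * gramM A P := by rw [gramM_mul hP hA, mul_gramM hP hH hA]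
  calc (gramM A P)⁻¹ * P = (gramM A P)⁻¹ * P * (gramM A P * (gramM A P)⁻¹) := by
        rw [Matrix.mul_nonsing_inv _ hd, mul_one]
    _ = (gramM A P)⁻¹ * (P * gramM A P) * (gramM A P)⁻¹ := by simp only [Matrix.mul_assoc]
    _ = (gramM A P)⁻¹ * (gramM A P * P) * (gramM A P)⁻¹ := by rw [h]
    _ = ((gramM A P)⁻¹ * gramM A P) * (P * (gramM A P)⁻¹) := by simp only [Matrix.mul_assoc]
    _ = P * (gramM A P)⁻¹ := by rw [Matrix.nonsing_inv_mul _ hd, one_mul]

theorem gramM_inv_mul_compl (hP : P * P = P) (hA : A * P = A)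
    (hu : IsUnit (gramM A P)) : (gramM A P)⁻¹ * (1 - P) = 1 - P := by
  have hd : IsUnit (gramM A P).det := (Matrix.isUnit_iff_isUnit_det _).mp hu
  have h : gramM A P * (1 - P) = 1 - P := by
    rw [mul_sub, gramM_mul hP hA, mul_one, gramM, add_sub_cancel_left]
  calc (gramM A P)⁻¹ * (1 - P) = (gramM A P)⁻¹ * (gramM A P * (1 - P)) := by rw [h]
    _ = 1 - P := by rw [← Matrix.mul_assoc, Matrix.nonsing_inv_mul _ hd, one_mul]

theorem gramM_inv_mul_gram (hP : P * P = P) (hA : A * P = A)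
    (hu : IsUnit (gramM A P)) : (gramM A P)⁻¹ * (Aᴴ * A) = P := by
  have hd : IsUnit (gramM A P).det := (Matrix.isUnit_iff_isUnit_det _).mp hu
  rw [← gramM_mul hP hA, ← Matrix.mul_assoc, Matrix.nonsing_inv_mul _ hd, one_mul]

theorem imInv_mul (hP : P * P = P) (hA : A * P = A)
    (hu : IsUnit (gramM A P)) : imInv A P * A = P := by
  rw [imInv, Matrix.mul_assoc, gramM_inv_mul_gram hP hA hu]

theorem mul_imInv : A * imInv A P = imProj A P := by
  rw [imInv, imProj, Matrix.mul_assoc]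

theorem imProj_mul (hP : P * P = P) (hA : A * P = A)
    (hu : IsUnit (gramM A P)) : imProj A P * A = A := by
  rw [← mul_imInv, Matrix.mul_assoc, imInv_mul hP hA hu, hA]

theorem imProj_idem (hP : P * P = P) (hA : A * P = A)
    (hu : IsUnit (gramM A P)) : imProj A P * imProj A P = imProj A P := by
  nth_rewrite 2 [← mul_imInv]
  rw [← Matrix.mul_assoc, imProj_mul hP hA hu, mul_imInv]

theorem imProj_herm (hH : Pᴴ = P) : (imProj A P)ᴴ = imProj A P := by
  rw [imProj, conjTranspose_mul, conjTranspose_mul, conjTranspose_conjTranspose,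
    conjTranspose_nonsing_inv, gramM_herm hH, Matrix.mul_assoc]

theorem mul_imInv_self (hP : P * P = P) (hH : Pᴴ = P) (hA : A * P = A)
    (hu : IsUnit (gramM A P)) : P * imInv A P = imInv A P := by
  have h : P * Aᴴ = Aᴴ := by
    have := congrArg conjTranspose hA
    rwa [conjTranspose_mul, hH] at this
  rw [imInv, ← Matrix.mul_assoc, ← gramM_inv_comm hP hH hA hu, Matrix.mul_assoc, h]

theorem imProj_trace (hP : P * P = P) (hA : A * P = A)
    (hu : IsUnit (gramM A P)) : (imProj A P).trace = P.trace := by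
  rw [← mul_imInv, trace_mul_comm, imInv_mul hP hA hu]

theorem imProj_isometry (h : Aᴴ * A = P) :
    imProj A P = A * Aᴴ := by
  have h1 : gramM A P = 1 := by rw [gramM, h, add_sub_cancel]
  rw [imProj, h1, inv_one, Matrix.mul_one]

end image

end Vale.Agent.P251.G
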